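import Crest.Agent.R217.SpecA_343

/-!
Row 217 (S0336), part A, task A10a: bootstrapping for `Df(x) = Φ(x, f x)`.
-/

set_option autoImplicit false

open Filter Topology
open scoped Topology ContDiff
open Crest.Agent.R217.SpecA343

namespace Crest.Agent.R217.A10a_970

theorem contDiffOn_of_fderiv_eq {V : Type*} [NormedAddCommGroup V] [NormedSpace ℝ V]
    {W : Type*} [NormedAddCommGroup W] [NormedSpace ℝ W] {s : Set V} {t : Set (V × W)}
    {f : V → W} {Φ : V × W → V →L[ℝ] W} (hs : IsOpen s) (hΦ : ContDiffOn ℝ ∞ Φ t)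
    (hst : ∀ x ∈ s, (x, f x) ∈ t) (hf : ∀ x ∈ s, HasFDerivAt f (Φ (x, f x)) x) :
    ContDiffOn ℝ ∞ f s := by
  rw [contDiffOn_infty]
  intro n
  induction n with
  | zero =>
    rw [Nat.cast_zero, contDiffOn_zero]
    exact fun x hx => (hf x hx).continuousAt.continuousWithinAt
  | succ n ih =>
    push_cast
    rw [contDiffOn_succ_iff_fderiv_of_isOpen hs]
    refine ⟨fun x hx => (hf x hx).differentiableAt.differentiableWithinAt, ?_, ?_⟩
    · intro h
      exact absurd h (by simp)
    · have h1 : ContDiffOn ℝ n (fun x => Φ (x, f x)) s := by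
        have h2 : ContDiffOn ℝ n Φ t := hΦ.of_le (by exact_mod_cast le_top)
        exact h2.comp (contDiffOn_id.prodMk ih) (fun x hx => hst x hx)
      exact h1.congr (fun x hx => (hf x hx).fderiv)

end Crest.Agent.R217.A10a_970

namespace Crest.Agent.R217.A10a_970

theorem taskA10a.{v, w} : TaskA10a.{v, w} := by
  intro V _ _ W _ _ s t f Φ hs _ hΦ hst hf
  exact contDiffOn_of_fderiv_eq hs hΦ hst hf

end Crest.Agent.R217.A10a_970
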