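import Crest.Agent.R217.SpecA_343

/-!
Row 217 (S0336), task A10b: the exponential chart is a local smooth structure.
-/

set_option autoImplicit false

open Filter Topology Set Metric
open scoped Topology Manifold ContDiff

namespace Crest.Agent.R217.A10b531

open Crest.Agent.R217.SpecA343

universe u v

section
variable {G : Type u} [Group G] [TopologicalSpace G]
  {V : Type v} [NormedAddCommGroup V] [NormedSpace ℝ V]

lemma exp_zero' (E : ExpData G V) : E.exp 0 = 1 := by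
  have h := E.exp_add_smul 0 0 0
  simp only [add_zero, smul_zero] at h
  exact (mul_eq_left.mp h.symm)

lemma exp_neg' (E : ExpData G V) (u : V) : E.exp (-u) = (E.exp u)⁻¹ := by
  have h := E.exp_add_smul u 1 (-1)
  simp only [add_neg_cancel, zero_smul, one_smul, neg_smul, exp_zero'] at h
  exact (inv_eq_of_mul_eq_one_right h.symm).symm

lemma exp_inj (E : ExpData G V) {u w : V} (hu : ‖u‖ ≤ E.ρ) (hw : ‖w‖ ≤ E.ρ)
    (h : E.exp u = E.exp w) : u = w := by
  have h1 := E.le_dist u w hu hw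
  rw [h, inv_mul_cancel, E.N.one, mul_zero] at h1
  have h2 : ‖w - u‖ = 0 := le_antisymm h1 (norm_nonneg _)
  exact (sub_eq_zero.mp (norm_eq_zero.mp h2)).symm

/-- the open image -/
def img (E : ExpData G V) : Set G := interior (E.exp '' ball (0 : V) E.ρ)

lemma one_mem_img (E : ExpData G V) : (1 : G) ∈ img E :=
  mem_interior_iff_mem_nhds.mpr (E.exp_nhds E.ρ E.ρ_pos)

/-- logarithm -/
noncomputable def lg (E : ExpData G V) (g : G) : V :=
  Function.invFunOn E.exp (ball (0 : V) E.ρ) g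

lemma exists_of_mem (E : ExpData G V) {g : G} (hg : g ∈ img E) :
    ∃ u ∈ ball (0 : V) E.ρ, E.exp u = g := by
  have h : g ∈ E.exp '' ball (0 : V) E.ρ := interior_subset hg
  exact h

lemma lg_mem (E : ExpData G V) {g : G} (hg : g ∈ img E) : lg E g ∈ ball (0 : V) E.ρ :=
  Function.invFunOn_mem (exists_of_mem E hg)

lemma exp_lg (E : ExpData G V) {g : G} (hg : g ∈ img E) : E.exp (lg E g) = g :=
  Function.invFunOn_eq (exists_of_mem E hg)

lemma lg_norm (E : ExpData G V) {g : G} (hg : g ∈ img E) : ‖lg E g‖ < E.ρ := by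
  simpa using lg_mem E hg

lemma lg_exp (E : ExpData G V) {u : V} (hu : ‖u‖ < E.ρ) (h : E.exp u ∈ img E) :
    lg E (E.exp u) = u :=
  exp_inj E (lg_norm E h).le hu.le (exp_lg E h)

lemma continuousOn_lg [IsTopologicalGroup G] (E : ExpData G V) : ContinuousOn (lg E) (img E) := by
  intro g hg
  apply ContinuousAt.continuousWithinAt
  rw [Metric.continuousAt_iff']
  intro ε hε
  have h1 : ∀ᶠ h in 𝓝 g, E.N.n (g⁻¹ * h) < ε / 4 := by
    have h2 : Tendsto (fun h => g⁻¹ * h) (𝓝 g) (𝓝 1) := by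
      have : ContinuousAt (fun h => g⁻¹ * h) g := by fun_prop
      simpa [ContinuousAt] using this
    exact h2.eventually (E.N.small (ε / 4) (by positivity))
  filter_upwards [h1, isOpen_interior.mem_nhds hg] with h h1 h2
  have h3 := E.le_dist (lg E g) (lg E h) (lg_norm E hg).le (lg_norm E h2).le
  rw [exp_lg E hg, exp_lg E h2] at h3
  rw [dist_eq_norm]
  linarith

/-- the logarithmic chart -/
noncomputable def chart [IsTopologicalGroup G] (E : ExpData G V) : OpenPartialHomeomorph G V where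
  toFun := lg E
  invFun := E.exp
  source := img E
  target := ball 0 E.ρ ∩ E.exp ⁻¹' (img E)
  map_source' := fun g hg => ⟨lg_mem E hg, by rw [mem_preimage, exp_lg E hg]; exact hg⟩
  map_target' := fun u hu => hu.2
  left_inv' := fun g hg => exp_lg E hg
  right_inv' := fun u hu => lg_exp E (by simpa using hu.1) hu.2
  open_source := isOpen_interior
  open_target := isOpen_ball.inter (isOpen_interior.preimage E.cont)
  continuousOn_toFun := continuousOn_lg E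
  continuousOn_invFun := E.cont.continuousOn

lemma chart_coe [IsTopologicalGroup G] (E : ExpData G V) : ⇑(chart E) = lg E := rfl
lemma chart_symm_coe [IsTopologicalGroup G] (E : ExpData G V) : ⇑(chart E).symm = E.exp := rfl
lemma chart_source [IsTopologicalGroup G] (E : ExpData G V) : (chart E).source = img E := rfl

lemma lg_one (E : ExpData G V) : lg E 1 = 0 := by
  have h := lg_exp E (u := 0) (by simpa using E.ρ_pos) (by rw [exp_zero']; exact one_mem_img E)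
  rwa [exp_zero'] at h

/-- conjugation by a small element at most doubles the norm of a small element -/
lemma n_conj_le (N : GNorm G) {a b : G} (ha : N.n a ≤ N.r) (hb : N.n b ≤ N.r) :
    N.n (b⁻¹ * a * b) ≤ 2 * N.n a := by
  have h1 : b⁻¹ * a * b = a * (a⁻¹ * b⁻¹ * a * b) := by group
  rw [h1]
  have h2 := N.mul a (a⁻¹ * b⁻¹ * a * b)
  have h3 := N.comm a b ha hb
  have h4 : N.C * N.n a * N.n b ≤ N.n a := by
    have h5 : N.C * N.n b ≤ N.C * N.r := by
      apply mul_le_mul_of_nonneg_left hb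
      linarith [N.one_le_C]
    have h6 := N.Cr
    have h7 : N.C * N.n b ≤ 1 := by
      have : 0 ≤ N.C * N.r := mul_nonneg (by linarith [N.one_le_C]) N.r_pos.le
      linarith
    calc N.C * N.n a * N.n b = N.n a * (N.C * N.n b) := by ring
      _ ≤ N.n a * 1 := mul_le_mul_of_nonneg_left h7 (N.nonneg a)
      _ = N.n a := mul_one _
  linarith

lemma n_inv_mul_le (N : GNorm G) (a b c d : G) :
    N.n ((a * b)⁻¹ * (c * d)) ≤ N.n a + N.n b + N.n c + N.n d := by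
  have h1 := N.mul (a * b)⁻¹ (c * d)
  have h2 := N.mul a b
  have h3 := N.mul c d
  rw [N.inv] at h1
  linarith

lemma key (E : ExpData G V) (A : AdData E) {c δ : ℝ}
    (hE : ∀ z v : V, ‖z‖ ≤ δ → ‖v‖ ≤ δ →
      E.N.n ((E.exp z * E.exp (Psi (A.ad z) v))⁻¹ * E.exp (z + v)) ≤ c * ‖v‖ ^ 2)
    (x y z z' u v w a b : V)
    (hz : E.exp z = E.exp x * E.exp y) (hz' : E.exp z' = E.exp (x + u) * E.exp (y + v))
    (ha : a = A.Ad (E.exp y)⁻¹ (Psi (A.ad x) u)) (hb : b = Psi (A.ad y) v)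
    (hw : Psi (A.ad z) w = a + b)
    (hx : ‖x‖ ≤ δ) (hu : ‖u‖ ≤ δ) (hy : ‖y‖ ≤ δ) (hv : ‖v‖ ≤ δ) (hzδ : ‖z‖ ≤ δ) (hwδ : ‖w‖ ≤ δ)
    (haρ : ‖a‖ ≤ E.ρ) (hbρ : ‖b‖ ≤ E.ρ) (hzw : ‖z + w‖ ≤ E.ρ) (hz'ρ : ‖z'‖ ≤ E.ρ)
    (h1 : c * ‖u‖ ^ 2 ≤ E.N.r) (h2 : E.N.n (E.exp y * E.exp b) ≤ E.N.r) :
    ‖z + w - z'‖ ≤ 4 * (2 * (c * ‖u‖ ^ 2) + c * ‖v‖ ^ 2 + E.K * ‖a‖ * ‖b‖ + c * ‖w‖ ^ 2) := by
  have k0 := E.le_dist z' (z + w) hz'ρ hzw
  set P := E.exp (Psi (A.ad x) u) with hP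
  set e1 := (E.exp x * P)⁻¹ * E.exp (x + u) with he1
  set e2 := (E.exp y * E.exp b)⁻¹ * E.exp (y + v) with he2
  set e3 := (E.exp a * E.exp b)⁻¹ * E.exp (a + b) with he3
  set e4 := (E.exp z * E.exp (a + b))⁻¹ * E.exp (z + w) with he4
  have n1 : E.N.n e1 ≤ c * ‖u‖ ^ 2 := hE x u hx hu
  have n2 : E.N.n e2 ≤ c * ‖v‖ ^ 2 := by
    have := hE y v hy hv
    rwa [← hb] at this
  have n3 : E.N.n e3 ≤ E.K * ‖a‖ * ‖b‖ := E.exp_add a b haρ hbρ
  have n4 : E.N.n e4 ≤ c * ‖w‖ ^ 2 := by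
    have := hE z w hzδ hwδ
    rwa [hw] at this
  have n1' : E.N.n ((E.exp y * E.exp b)⁻¹ * e1 * (E.exp y * E.exp b)) ≤ 2 * E.N.n e1 :=
    n_conj_le E.N (n1.trans h1) h2
  have hexpa : E.exp a = (E.exp y)⁻¹ * P * E.exp y := by
    have := A.exp_Ad (E.exp y)⁻¹ (Psi (A.ad x) u)
    rw [inv_inv, ← ha] at this
    exact this.symm
  have hid : (E.exp z')⁻¹ * E.exp (z + w) =
      (((E.exp y * E.exp b)⁻¹ * e1 * (E.exp y * E.exp b)) * e2)⁻¹ * (e3 * e4) := by
    rw [he1, he2, he3, he4, hz', hz, hexpa]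
    group
  rw [hid] at k0
  have k1 := n_inv_mul_le E.N ((E.exp y * E.exp b)⁻¹ * e1 * (E.exp y * E.exp b)) e2 e3 e4
  linarith

/-- multiplication in logarithmic coordinates -/
noncomputable def mu (E : ExpData G V) (p : V × V) : V := lg E (E.exp p.1 * E.exp p.2)

/-- the derivative of `mu` at `p` as a function of `(p, mu p)` -/
noncomputable def Phi {E : ExpData G V} (A : AdData E) (q : (V × V) × V) : (V × V) →L[ℝ] V :=
  (Ring.inverse (Psi (A.ad q.2))).comp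
    (((NormedSpace.exp (A.ad (-q.1.2))).comp (Psi (A.ad q.1.1))).comp
        (ContinuousLinearMap.fst ℝ V V) +
      (Psi (A.ad q.1.2)).comp (ContinuousLinearMap.snd ℝ V V))

lemma contDiffAt_Phi [FiniteDimensional ℝ V] {E : ExpData G V} (A : AdData E)
    (hPsi : ContDiff ℝ ∞ (Psi (V := V))) (q : (V × V) × V) (hq : IsUnit (Psi (A.ad q.2))) :
    ContDiffAt ℝ ∞ (Phi A) q := by
  have : CompleteSpace V := FiniteDimensional.complete ℝ V
  have h1 : ContDiffAt ℝ ∞ (fun q : (V × V) × V => Ring.inverse (Psi (A.ad q.2))) q := by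
    obtain ⟨U, hU⟩ := hq
    have h2 : ContDiffAt ℝ ∞ (Ring.inverse : (V →L[ℝ] V) → (V →L[ℝ] V)) (Psi (A.ad q.2)) := by
      rw [← hU]; exact contDiffAt_ringInverse ℝ U
    have h3 : ContDiffAt ℝ ∞ (fun q : (V × V) × V => Psi (A.ad q.2)) q :=
      (hPsi.comp (A.ad.contDiff.comp contDiff_snd)).contDiffAt
    exact h2.comp q h3
  have hexp : ContDiff ℝ ∞ (NormedSpace.exp : (V →L[ℝ] V) → (V →L[ℝ] V)) := by
    apply AnalyticOnNhd.contDiff
    intro x _
    exact NormedSpace.exp_analytic x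
  have h4 : ContDiffAt ℝ ∞ (fun q : (V × V) × V => NormedSpace.exp (A.ad (-q.1.2))) q :=
    (hexp.comp (A.ad.contDiff.comp (contDiff_snd.comp contDiff_fst).neg)).contDiffAt
  have h5 : ContDiffAt ℝ ∞ (fun q : (V × V) × V => Psi (A.ad q.1.1)) q :=
    (hPsi.comp (A.ad.contDiff.comp (contDiff_fst.comp contDiff_fst))).contDiffAt
  have h6 : ContDiffAt ℝ ∞ (fun q : (V × V) × V => Psi (A.ad q.1.2)) q :=
    (hPsi.comp (A.ad.contDiff.comp (contDiff_snd.comp contDiff_fst))).contDiffAt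
  exact h1.clm_comp (((h4.clm_comp h5).clm_comp contDiffAt_const).add
    (h6.clm_comp contDiffAt_const))

lemma hasFDerivAt_mu [FiniteDimensional ℝ V] (E : ExpData G V) (A : AdData E) {c δ : ℝ}
    (hc : 0 < c) (hδ : 0 < δ)
    (hE : ∀ z v : V, ‖z‖ ≤ δ → ‖v‖ ≤ δ →
      E.N.n ((E.exp z * E.exp (Psi (A.ad z) v))⁻¹ * E.exp (z + v)) ≤ c * ‖v‖ ^ 2)
    {s : Set (V × V)} (hs : IsOpen s)
    (hs1 : ∀ p ∈ s, E.exp p.1 * E.exp p.2 ∈ img E)
    (hs2 : ∀ p ∈ s, ‖p.1‖ ≤ δ ∧ ‖p.2‖ ≤ δ ∧ ‖p.2‖ ≤ E.ρ / 2 ∧ ‖mu E p‖ ≤ δ ∧ ‖mu E p‖ ≤ E.ρ / 2)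
    (hs3 : ∀ p ∈ s, IsUnit (Psi (A.ad (mu E p)))) :
    ∀ p ∈ s, HasFDerivAt (mu E) (Phi A (p, mu E p)) p := by
  intro p hp
  rw [hasFDerivAt_iff_isLittleO_nhds_zero]
  refine Asymptotics.IsBigO.trans_isLittleO ?_ (Asymptotics.isLittleO_norm_pow_id one_lt_two)
  obtain ⟨x, y⟩ := p
  set z := mu E (x, y) with hz
  have hρ := E.ρ_pos
  -- the linear maps
  set La : (V × V) →L[ℝ] V := ((NormedSpace.exp (A.ad (-y))).comp (Psi (A.ad x))).comp
        (ContinuousLinearMap.fst ℝ V V) with hLa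
  set Lb : (V × V) →L[ℝ] V := (Psi (A.ad y)).comp (ContinuousLinearMap.snd ℝ V V) with hLb
  have hPhi : Phi A ((x, y), z) = (Ring.inverse (Psi (A.ad z))).comp (La + Lb) := rfl
  have hew : ∀ h : V × V, Psi (A.ad z) (Phi A ((x, y), z) h) = La h + Lb h := by
    intro h
    rw [hPhi]
    have h1 := Ring.mul_inverse_cancel _ (hs3 (x, y) hp)
    have h2 : (Psi (A.ad z) * Ring.inverse (Psi (A.ad z))) (La h + Lb h) = La h + Lb h := by
      rw [h1]; rfl
    exact h2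
  -- the bound
  set D := Phi A ((x, y), z) with hD
  set M : ℝ := 4 * (2 * c + c + E.K * ‖La‖ * ‖Lb‖ + c * ‖D‖ ^ 2) with hM
  apply Asymptotics.IsBigO.of_bound M
  -- eventual smallness
  have ev1 : ∀ᶠ h : V × V in 𝓝 0, (x, y) + h ∈ s := by
    have h1 : ContinuousAt (fun h : V × V => (x, y) + h) 0 := by fun_prop
    apply h1.eventually
    simpa using hs.mem_nhds hp
  have evn : ∀ (L : (V × V) →L[ℝ] V) (ε : ℝ), 0 < ε → ∀ᶠ h : V × V in 𝓝 0, ‖L h‖ < ε := by
    intro L ε hε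
    have h1 : ContinuousAt (fun h : V × V => ‖L h‖) 0 := by fun_prop
    exact Tendsto.eventually_lt_const (by simpa using hε) h1
  have ev2 : ∀ᶠ h : V × V in 𝓝 0, ‖h‖ < min δ 1 ∧ c * ‖h‖ ^ 2 < E.N.r := by
    have h1 : ContinuousAt (fun h : V × V => ‖h‖) 0 := by fun_prop
    have h2 : ContinuousAt (fun h : V × V => c * ‖h‖ ^ 2) 0 := by fun_prop
    exact (Tendsto.eventually_lt_const (by simpa using lt_min hδ one_pos) h1).and
      (Tendsto.eventually_lt_const (by simpa using E.N.r_pos) h2)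
  filter_upwards [ev1, ev2, evn La E.ρ hρ, evn Lb (E.ρ / 2) (by positivity),
    evn D (min δ (E.ρ / 2)) (lt_min hδ (by positivity))] with h k1 k2 k3 k4 k5
  obtain ⟨k2, k2'⟩ := k2
  obtain ⟨u, v⟩ := h
  have hu : ‖u‖ ≤ ‖((u, v) : V × V)‖ := norm_fst_le (u, v)
  have hv : ‖v‖ ≤ ‖((u, v) : V × V)‖ := norm_snd_le (u, v)
  set nh := ‖((u, v) : V × V)‖ with hnh
  have hnh0 : 0 ≤ nh := norm_nonneg _
  obtain ⟨b1, b2, b3, b4, b5⟩ := hs2 _ hp
  obtain ⟨c1, c2, c3, c4, c5⟩ := hs2 _ k1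
  have hδ' := lt_min_iff.mp k2
  have hDh := lt_min_iff.mp k5
  have main := key E A hE x y z (mu E ((x, y) + (u, v))) u v (D (u, v)) (La (u, v)) (Lb (u, v))
    (by rw [hz]; exact exp_lg E (hs1 _ hp))
    (by exact exp_lg E (hs1 _ k1))
    (by rw [← exp_neg', A.Ad_exp]; rfl) rfl (hew _)
    b1 (hu.trans hδ'.1.le) b2 (hv.trans hδ'.1.le) b4 hDh.1.le k3.le
    (k4.le.trans (by linarith))
    ((norm_add_le _ _).trans (by linarith [hDh.2]))
    (c5.trans (by linarith))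
    (by
      have : c * ‖u‖ ^ 2 ≤ c * nh ^ 2 := by gcongr
      linarith)
    (by
      have h1 := E.N.mul (E.exp y) (E.exp (Lb (u, v)))
      have h2 := E.n_exp_le y
      have h3 := E.n_exp_le (Lb (u, v))
      have h4 := E.ρ_le
      simp only at b3
      linarith)
  have hflip : mu E ((x, y) + (u, v)) - mu E (x, y) - D (u, v) =
      -(z + D (u, v) - mu E ((x, y) + (u, v))) := by
    rw [hz]; abel
  rw [hflip, norm_neg]
  refine main.trans ?_
  have g1 : ‖La (u, v)‖ ≤ ‖La‖ * nh := La.le_opNorm _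
  have g2 : ‖Lb (u, v)‖ ≤ ‖Lb‖ * nh := Lb.le_opNorm _
  have g3 : ‖D (u, v)‖ ≤ ‖D‖ * nh := D.le_opNorm _
  have hK : 0 ≤ E.K := by linarith [E.one_le_K]
  have g4 : E.K * ‖La (u, v)‖ * ‖Lb (u, v)‖ ≤ E.K * (‖La‖ * nh) * (‖Lb‖ * nh) := by
    gcongr
  have g5 : ‖D (u, v)‖ ^ 2 ≤ (‖D‖ * nh) ^ 2 := by gcongr
  have g6 : ‖u‖ ^ 2 ≤ nh ^ 2 := by gcongr
  have g7 : ‖v‖ ^ 2 ≤ nh ^ 2 := by gcongr
  rw [Real.norm_of_nonneg (by positivity), hM]
  have e1 : c * ‖u‖ ^ 2 ≤ c * nh ^ 2 := by gcongr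
  have e2 : c * ‖v‖ ^ 2 ≤ c * nh ^ 2 := by gcongr
  have e3 : c * ‖D (u, v)‖ ^ 2 ≤ c * (‖D‖ * nh) ^ 2 := by gcongr
  have e4 : 4 * (2 * c + c + E.K * ‖La‖ * ‖Lb‖ + c * ‖D‖ ^ 2) * nh ^ 2 =
      4 * (2 * (c * nh ^ 2) + c * nh ^ 2 + E.K * (‖La‖ * nh) * (‖Lb‖ * nh) +
        c * (‖D‖ * nh) ^ 2) := by ring
  rw [e4]
  linarith

end

/-- TASK A10b from A9a and A10a -/
theorem taskA10b_of (h9a : TaskA9a.{v}) (h10a : TaskA10a.{v, v}) : TaskA10b.{u, v} := by
  intro G _ _ _ _ V _ _ _ E A hE2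
  have : CompleteSpace V := FiniteDimensional.complete ℝ V
  obtain ⟨c, hc, δ, hδ, hE⟩ := hE2
  obtain ⟨hPsi, hPsi0⟩ := h9a V
  have hρ := E.ρ_pos
  set s0 : Set (V × V) := (fun p : V × V => E.exp p.1 * E.exp p.2) ⁻¹' img E with hs0
  have hcm : Continuous (fun p : V × V => E.exp p.1 * E.exp p.2) :=
    (E.cont.comp continuous_fst).mul (E.cont.comp continuous_snd)
  have hs0o : IsOpen s0 := isOpen_interior.preimage hcm
  have hmuc : ContinuousOn (mu E) s0 := (continuousOn_lg E).comp hcm.continuousOn (fun p hp => hp)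
  set η : ℝ := min δ (E.ρ / 2) with hη
  have hη0 : 0 < η := lt_min hδ (by positivity)
  set T : Set V := ball 0 η ∩ {z | IsUnit (Psi (A.ad z))} with hT
  have hcPsi : Continuous (fun z : V => Psi (A.ad z)) := hPsi.continuous.comp A.ad.continuous
  have hTo : IsOpen T := isOpen_ball.inter (Units.isOpen.preimage hcPsi)
  set s : Set (V × V) := (s0 ∩ mu E ⁻¹' T) ∩ (ball 0 η ×ˢ ball 0 η) with hs
  have hso : IsOpen s := (hmuc.isOpen_inter_preimage hs0o hTo).inter (isOpen_ball.prod isOpen_ball)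
  have hmu0 : mu E (0, 0) = 0 := by simp [mu, exp_zero', lg_one]
  have h0s : ((0 : V), (0 : V)) ∈ s := by
    refine ⟨⟨?_, ?_⟩, ?_⟩
    · simp only [hs0, mem_preimage, exp_zero', mul_one]
      exact one_mem_img E
    · rw [mem_preimage, hmu0]
      refine ⟨mem_ball_self hη0, ?_⟩
      simp only [Set.mem_ofPred_eq, map_zero, hPsi0]
      exact isUnit_one
    · exact ⟨mem_ball_self hη0, mem_ball_self hη0⟩
  have hder : ∀ p ∈ s, HasFDerivAt (mu E) (Phi A (p, mu E p)) p := by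
    apply hasFDerivAt_mu E A hc hδ hE hso
    · exact fun p hp => hp.1.1
    · intro p hp
      have h1 : ‖p.1‖ < η := by simpa using hp.2.1
      have h2 : ‖p.2‖ < η := by simpa using hp.2.2
      have h3 : ‖mu E p‖ < η := by simpa using hp.1.2.1
      have h4 : η ≤ δ := min_le_left _ _
      have h5 : η ≤ E.ρ / 2 := min_le_right _ _
      exact ⟨by linarith, by linarith, by linarith, by linarith, by linarith⟩
    · exact fun p hp => hp.1.2.2
  have hcd : ContDiffOn ℝ ∞ (mu E) s := by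
    apply h10a (V × V) V s {q : (V × V) × V | IsUnit (Psi (A.ad q.2))} (mu E) (Phi A) hso
    · exact Units.isOpen.preimage (hcPsi.comp continuous_snd)
    · intro q hq
      exact (contDiffAt_Phi A hPsi q hq).contDiffWithinAt
    · exact fun p hp => hp.1.2.2
    · exact hder
  have evimg : ∀ f : V → V, ContinuousAt f 0 → f 0 = 0 →
      ∀ᶠ x in 𝓝 (0 : V), lg E (E.exp (f x)) = f x := by
    intro f hf h0
    have h1 : ∀ᶠ y in 𝓝 (f 0), lg E (E.exp y) = y := by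
      rw [h0]
      have h2 : ∀ᶠ y in 𝓝 (0 : V), E.exp y ∈ img E := by
        apply E.cont.continuousAt.eventually
        rw [exp_zero']
        exact isOpen_interior.mem_nhds (one_mem_img E)
      have h3 : ∀ᶠ y in 𝓝 (0 : V), ‖y‖ < E.ρ := by
        have : ContinuousAt (fun y : V => ‖y‖) 0 := by fun_prop
        exact Tendsto.eventually_lt_const (by simpa using hρ) this
      filter_upwards [h2, h3] with y h2 h3
      exact lg_exp E h3 h2
    exact hf.eventually h1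
  refine ⟨{ κ := chart E, one_mem := one_mem_img E, κ_one := lg_one E,
            mul_on := ⟨s, hso.mem_nhds h0s, hcd⟩, inv_at := ?_, conj_at := ?_ }⟩
  · have h1 : ContDiffAt ℝ ∞ (fun x : V => -x) 0 := contDiffAt_id.neg
    refine h1.congr_of_eventuallyEq ?_
    filter_upwards [evimg (fun x => -x) (by fun_prop) (by simp)] with x hx
    rw [chart_coe, chart_symm_coe, ← exp_neg']
    exact hx
  · intro g
    have h1 : ContDiffAt ℝ ∞ (fun x : V => A.Ad g x) 0 := (A.Ad g).contDiff.contDiffAt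
    refine h1.congr_of_eventuallyEq ?_
    filter_upwards [evimg (fun x => A.Ad g x) (by fun_prop) (by simp)] with x hx
    rw [chart_coe, chart_symm_coe, A.exp_Ad]
    exact hx

end Crest.Agent.R217.A10b531
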