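import Crest.Agent.R217.SpecA_343

/-!
Row 217 (S0336), task A11: a local smooth structure at the identity (with smooth local
multiplication, inversion and conjugations) gives a Lie group structure for the given topology.
-/

set_option autoImplicit false

open Filter Topology Set Metric
open scoped Topology Manifold ContDiff

namespace Crest.Agent.R217.A11531

open Crest.Agent.R217.SpecA343

universe u v w

section
variable {G : Type u} [Group G] [TopologicalSpace G] [IsTopologicalGroup G]
  {V : Type v} [NormedAddCommGroup V] [NormedSpace ℝ V]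
  {E : Type w} [NormedAddCommGroup E] [NormedSpace ℝ E]

omit [IsTopologicalGroup G] in
lemma zero_mem_target (S : LocSm G V) : (0 : V) ∈ S.κ.target := by
  have := S.κ.map_source S.one_mem
  rwa [S.κ_one] at this

omit [IsTopologicalGroup G] in
lemma symm_zero (S : LocSm G V) : S.κ.symm 0 = 1 := by
  have := S.κ.left_inv S.one_mem
  rwa [S.κ_one] at this

omit [IsTopologicalGroup G] in
lemma continuousAt_symm (S : LocSm G V) : ContinuousAt S.κ.symm 0 :=
  S.κ.continuousAt_symm (zero_mem_target S)

/-- transport of a local smooth structure by a linear homeomorphism -/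
noncomputable def transport (S : LocSm G V) (L : V ≃L[ℝ] E) : LocSm G E where
  κ := S.κ ≫ₕ L.toHomeomorph.toOpenPartialHomeomorph
  one_mem := by
    simpa using S.one_mem
  κ_one := by
    simp [S.κ_one]
  mul_on := by
    obtain ⟨s, hs, h⟩ := S.mul_on
    refine ⟨(fun p : E × E => (L.symm p.1, L.symm p.2)) ⁻¹' s, ?_, ?_⟩
    · apply ContinuousAt.preimage_mem_nhds
      · fun_prop
      · simpa using hs
    · have h2 : ContDiffOn ℝ ∞ (fun p : E × E => (L.symm p.1, L.symm p.2))
          ((fun p : E × E => (L.symm p.1, L.symm p.2)) ⁻¹' s) := by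
        apply ContDiff.contDiffOn
        exact (L.symm.contDiff.comp contDiff_fst).prodMk (L.symm.contDiff.comp contDiff_snd)
      have h3 := L.contDiff.comp_contDiffOn (h.comp h2 (fun x hx => hx))
      exact h3
  inv_at := by
    have h := S.inv_at
    have h2 : ContDiffAt ℝ ∞ (fun x : E => L.symm x) 0 := L.symm.contDiff.contDiffAt
    have h4 : ContDiffAt ℝ ∞ (fun x : V => S.κ (S.κ.symm x)⁻¹) (L.symm (0 : E)) := by
      simpa using h
    have h3 := L.contDiff.contDiffAt.comp (0 : E) (h4.comp (0 : E) h2)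
    exact h3
  conj_at := by
    intro g
    have h := S.conj_at g
    have h2 : ContDiffAt ℝ ∞ (fun x : E => L.symm x) 0 := L.symm.contDiff.contDiffAt
    have h4 : ContDiffAt ℝ ∞ (fun x : V => S.κ (g * S.κ.symm x * g⁻¹)) (L.symm (0 : E)) := by
      simpa using h
    have h3 := L.contDiff.contDiffAt.comp (0 : E) (h4.comp (0 : E) h2)
    exact h3

/-- the chart at `g` -/
noncomputable def chart (κ : OpenPartialHomeomorph G E) (U : Set G) (hU : IsOpen U) (g : G) :
    OpenPartialHomeomorph G E :=
  (Homeomorph.mulLeft g⁻¹).toOpenPartialHomeomorph ≫ₕ κ.restrOpen U hU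

omit [NormedSpace ℝ E] in
lemma chart_apply (κ : OpenPartialHomeomorph G E) (U : Set G) (hU : IsOpen U) (g x : G) :
    chart κ U hU g x = κ (g⁻¹ * x) := by
  simp [chart]

omit [NormedSpace ℝ E] in
lemma chart_symm_apply (κ : OpenPartialHomeomorph G E) (U : Set G) (hU : IsOpen U) (g : G)
    (y : E) : (chart κ U hU g).symm y = g * κ.symm y := by
  simp [chart, Homeomorph.mulLeft_symm]

omit [NormedSpace ℝ E] in
lemma mem_chart_source (κ : OpenPartialHomeomorph G E) (U : Set G) (hU : IsOpen U) (g x : G) :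
    x ∈ (chart κ U hU g).source ↔ g⁻¹ * x ∈ κ.source ∧ g⁻¹ * x ∈ U := by
  simp [chart]

/-- The charted space structure. -/
@[reducible] noncomputable def chartedSpace (κ : OpenPartialHomeomorph G E) (U : Set G)
    (hU : IsOpen U) (h1 : (1 : G) ∈ κ.source) (h1U : (1 : G) ∈ U) : ChartedSpace E G where
  atlas := Set.range (chart κ U hU)
  chartAt := chart κ U hU
  mem_chart_source := by
    intro x
    rw [mem_chart_source]
    simp [h1, h1U]
  chart_mem_atlas := fun x => ⟨x, rfl⟩

lemma exists_lieGroup (S : LocSm G E) :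
    ∃ c : ChartedSpace E G, @LieGroup ℝ _ E _ E _ _ 𝓘(ℝ, E) ∞ G _ _ c := by
  obtain ⟨s, hs, hcd⟩ := S.mul_on
  obtain ⟨δ, hδ, hδs⟩ : ∃ δ > 0, ball (0 : E) δ ×ˢ ball (0 : E) δ ⊆ s := by
    rw [nhds_prod_eq, (nhds_basis_ball (x := (0 : E))).prod_self.mem_iff] at hs
    exact hs
  set κ := S.κ with hκ
  set A : Set G := κ.source ∩ κ ⁻¹' ball 0 δ with hA
  have hA1 : A ∈ 𝓝 (1 : G) := by
    apply (κ.isOpen_inter_preimage isOpen_ball).mem_nhds
    refine ⟨S.one_mem, ?_⟩
    simp only [mem_preimage, S.κ_one, hκ]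
    exact mem_ball_self hδ
  obtain ⟨U', hU', hdiv⟩ := exists_nhds_split_inv hA1
  set U := interior U' with hUdef
  have hU : IsOpen U := isOpen_interior
  have h1U : (1 : G) ∈ U := mem_interior_iff_mem_nhds.mpr hU'
  have hdivU : ∀ a ∈ U, ∀ b ∈ U, a / b ∈ A := fun a ha b hb =>
    hdiv a (interior_subset ha) b (interior_subset hb)
  have hUA : ∀ a ∈ U, a ∈ A := fun a ha => by simpa using hdivU a ha 1 h1U
  let c : ChartedSpace E G := chartedSpace κ U hU S.one_mem h1U
  refine ⟨c, ?_⟩
  have hman : IsManifold 𝓘(ℝ, E) ∞ G := by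
    apply isManifold_of_contDiffOn
    rintro _ _ ⟨g, rfl⟩ ⟨h, rfl⟩
    simp only [modelWithCornersSelf_coe, modelWithCornersSelf_coe_symm, Function.id_comp,
      Function.comp_id, preimage_id, range_id, inter_univ]
    -- the transition map
    have key : ∀ y ∈ ((chart κ U hU g).symm ≫ₕ chart κ U hU h).source,
        y ∈ κ.target ∧ κ.symm y ∈ U ∧ h⁻¹ * (g * κ.symm y) ∈ U := by
      intro y hy
      rw [OpenPartialHomeomorph.trans_source, mem_inter_iff, mem_preimage,
        OpenPartialHomeomorph.symm_source, mem_chart_source, chart_symm_apply] at hy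
      obtain ⟨hy1, -, hy3⟩ := hy
      simp only [chart, mfld_simps] at hy1
      refine ⟨hy1.1, ?_, hy3⟩
      simpa using hy1.2
    by_cases hne : ((chart κ U hU g).symm ≫ₕ chart κ U hU h).source = ∅
    · rw [hne]; exact contDiffOn_empty
    obtain ⟨y₀, hy₀⟩ := nonempty_iff_ne_empty.mpr hne
    obtain ⟨-, h2, h3⟩ := key y₀ hy₀
    have ha : h⁻¹ * g ∈ A := by
      have := hdivU _ h3 _ h2
      simpa [div_eq_mul_inv, mul_assoc] using this
    have h4 : ContDiffOn ℝ ∞ ((fun p : E × E => κ (κ.symm p.1 * κ.symm p.2)) ∘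
        (fun y : E => (κ (h⁻¹ * g), y))) ((chart κ U hU g).symm ≫ₕ chart κ U hU h).source := by
      apply hcd.comp (contDiff_const.prodMk contDiff_id).contDiffOn
      intro y hy
      apply hδs
      obtain ⟨k1, k2, -⟩ := key y hy
      refine ⟨ha.2, ?_⟩
      have := (hUA _ k2).2
      simpa [κ.right_inv k1] using this
    refine h4.congr ?_
    intro y hy
    simp only [Function.comp_apply, OpenPartialHomeomorph.coe_trans]
    rw [chart_symm_apply, chart_apply, κ.left_inv ha.1, mul_assoc]
  have hchart : ∀ g : G, (chartAt E g : OpenPartialHomeomorph G E) = chart κ U hU g := fun g => rfl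
  have hsymm0 : κ.symm 0 = 1 := symm_zero S
  have hF : ContDiffAt ℝ ∞ (fun p : E × E => κ (κ.symm p.1 * κ.symm p.2)) (0, 0) :=
    hcd.contDiffAt hs
  have hcs : ContinuousAt κ.symm 0 := continuousAt_symm S
  refine { toIsManifold := hman, contMDiff_mul := ?_, contMDiff_inv := ?_ }
  · rintro ⟨g, h⟩
    rw [contMDiffAt_iff]
    refine ⟨continuous_mul.continuousAt, ?_⟩
    have hpt : (extChartAt (𝓘(ℝ, E).prod 𝓘(ℝ, E)) (g, h)) (g, h) = ((0 : E), (0 : E)) := by
      simp only [extChartAt, mfld_simps, hchart, chart_apply, PartialEquiv.prod_coe]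
      simp [hκ, S.κ_one]
    have hfun : (extChartAt 𝓘(ℝ, E) (g * h) ∘ (fun p : G × G => p.1 * p.2) ∘
        (extChartAt (𝓘(ℝ, E).prod 𝓘(ℝ, E)) (g, h)).symm) =
        fun p : E × E => κ (h⁻¹ * κ.symm p.1 * h * κ.symm p.2) := by
      funext p
      have e1 : (extChartAt (𝓘(ℝ, E).prod 𝓘(ℝ, E)) (g, h)).symm p =
          ((chart κ U hU g).symm p.1, (chart κ U hU h).symm p.2) := rfl
      have e2 : ∀ x : G, (extChartAt 𝓘(ℝ, E) (g * h)) x = chart κ U hU (g * h) x := fun x => rfl
      simp only [Function.comp_apply, e1, e2, chart_apply, chart_symm_apply]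
      congr 1
      group
    rw [hpt, ModelWithCorners.range_eq_univ, contDiffWithinAt_univ, hfun]
    have hcj := S.conj_at h⁻¹
    simp only [inv_inv] at hcj
    have e3 : κ (h⁻¹ * κ.symm 0 * h) = 0 := by
      rw [hsymm0, mul_one, inv_mul_cancel]; exact S.κ_one
    have h5 : ContDiffAt ℝ ∞ ((fun p : E × E => κ (κ.symm p.1 * κ.symm p.2)) ∘
        (fun p : E × E => (κ (h⁻¹ * κ.symm p.1 * h), p.2))) (0, 0) := by
      apply ContDiffAt.comp
      · simp only [e3]; exact hF
      · apply ContDiffAt.prodMk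
        · exact ContDiffAt.comp (x := ((0 : E), (0 : E))) (f := Prod.fst)
            (g := fun x : E => κ (h⁻¹ * κ.symm x * h)) hcj contDiffAt_fst
        · exact contDiffAt_snd
    have h6 : ∀ᶠ p : E × E in 𝓝 (0, 0), h⁻¹ * κ.symm p.1 * h ∈ κ.source := by
      have h7 : ContinuousAt (fun p : E × E => h⁻¹ * κ.symm p.1 * h) (0, 0) := by
        have : ContinuousAt (fun p : E × E => κ.symm p.1) (0, 0) :=
          ContinuousAt.comp (x := ((0 : E), (0 : E))) (f := Prod.fst) (g := κ.symm) hcs
            continuousAt_fst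
        exact (continuousAt_const.mul this).mul continuousAt_const
      apply h7.eventually
      simp only [hsymm0, mul_one, inv_mul_cancel]
      exact κ.open_source.mem_nhds S.one_mem
    have h8 := h5.congr_of_eventuallyEq
      (f₁ := fun p : E × E => κ (h⁻¹ * κ.symm p.1 * h * κ.symm p.2)) (by
        filter_upwards [h6] with p hp
        simp only [Function.comp_apply]
        rw [κ.left_inv hp])
    exact h8
  · intro g
    rw [contMDiffAt_iff]
    refine ⟨continuous_inv.continuousAt, ?_⟩
    have hpt : (extChartAt 𝓘(ℝ, E) g) g = (0 : E) := by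
      simp only [extChartAt, mfld_simps, hchart, chart_apply]
      simp [hκ, S.κ_one]
    have hfun : (extChartAt 𝓘(ℝ, E) g⁻¹ ∘ (fun a : G => a⁻¹) ∘ (extChartAt 𝓘(ℝ, E) g).symm) =
        fun x : E => κ (g * (κ.symm x)⁻¹ * g⁻¹) := by
      funext x
      simp only [extChartAt, mfld_simps, hchart, chart_apply, chart_symm_apply]
      congr 1
      group
    rw [hpt, ModelWithCorners.range_eq_univ, contDiffWithinAt_univ, hfun]
    have hcj := S.conj_at g
    have hinv := S.inv_at
    have h5 : ContDiffAt ℝ ∞ ((fun x : E => κ (g * κ.symm x * g⁻¹)) ∘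
        (fun x : E => κ (κ.symm x)⁻¹)) 0 := by
      have e3 : κ (κ.symm 0)⁻¹ = 0 := by rw [hsymm0, inv_one]; exact S.κ_one
      apply ContDiffAt.comp
      · rw [e3]; exact hcj
      · exact hinv
    have h6 : ∀ᶠ x : E in 𝓝 0, (κ.symm x)⁻¹ ∈ κ.source := by
      have h7 : ContinuousAt (fun x : E => (κ.symm x)⁻¹) 0 := hcs.inv
      apply h7.eventually
      simp only [hsymm0, inv_one]
      exact κ.open_source.mem_nhds S.one_mem
    have h8 := h5.congr_of_eventuallyEq
      (f₁ := fun x : E => κ (g * (κ.symm x)⁻¹ * g⁻¹)) (by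
        filter_upwards [h6] with x hx
        simp only [Function.comp_apply]
        rw [κ.left_inv hx])
    exact h8

end

/-- TASK A11 -/
theorem taskA11 : TaskA11.{u, v} := by
  intro G _ _ _ _ V _ _ _ hS
  obtain ⟨S⟩ := hS
  let L : V ≃L[ℝ] EuclideanSpace ℝ (Fin (Module.finrank ℝ V)) :=
    ContinuousLinearEquiv.ofFinrankEq (by simp)
  exact ⟨Module.finrank ℝ V, exists_lieGroup (transport S L)⟩

end Crest.Agent.R217.A11531
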