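import Crest.Agent.R217.SpecA_343

/-!
Row 217, part A, TASK A1: the escape norm of a locally compact group without small subgroups.
-/

set_option autoImplicit false
set_option linter.unusedSectionVars false

open Filter Topology Set
open scoped Topology

namespace Crest.Agent.R217.A1_740

open Crest.Agent.R217.SpecA343

section

variable {G : Type*} [Group G] [TopologicalSpace G]

/-- products of at most `n` elements of a small open set -/
lemma exists_small [IsTopologicalGroup G] (n : ℕ) : ∀ W ∈ 𝓝 (1 : G), ∃ U : Set G, IsOpen U ∧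
    (1 : G) ∈ U ∧ ∀ l : List G, l.length ≤ n → (∀ g ∈ l, g ∈ U) → l.prod ∈ W := by
  induction n with
  | zero =>
    intro W hW
    refine ⟨univ, isOpen_univ, mem_univ _, ?_⟩
    intro l hl _
    have : l = [] := List.length_eq_zero_iff.mp (Nat.le_zero.mp hl)
    subst this
    simpa using mem_of_mem_nhds hW
  | succ n ih =>
    intro W hW
    obtain ⟨V, hVo, hV1, hV⟩ := exists_open_nhds_one_split hW
    obtain ⟨U, hUo, hU1, hU⟩ := ih V (hVo.mem_nhds hV1)
    refine ⟨U ∩ V, hUo.inter hVo, ⟨hU1, hV1⟩, ?_⟩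
    intro l hl hlU
    cases l with
    | nil => simpa using mem_of_mem_nhds hW
    | cons a l =>
      rw [List.prod_cons]
      refine hV a (hlU a (by simp)).2 _ (hU l (by simpa using hl) ?_)
      intro g hg
      exact (hlU g (by simp [hg])).1

/-- all powers in `W` forces `g = 1` -/
lemma eq_one_of_pow_mem {W : Set G} (hinv : ∀ g ∈ W, g⁻¹ ∈ W)
    (hW : ∀ H : Subgroup G, (H : Set G) ⊆ W → H = ⊥) (g : G) (hg : ∀ i : ℕ, g ^ i ∈ W) :
    g = 1 := by
  have h : Subgroup.zpowers g = ⊥ := by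
    apply hW
    rintro x hx
    obtain ⟨k, rfl⟩ := Subgroup.mem_zpowers_iff.mp hx
    rcases Int.eq_nat_or_neg k with ⟨n, rfl | rfl⟩
    · simpa using hg n
    · rw [zpow_neg]
      exact hinv _ (by simpa using hg n)
  simpa using h

/-- (P1) the basic compactness lemma -/
lemma exists_escape [IsTopologicalGroup G] [T2Space G] {W : Set G} (hc : IsCompact W)
    (hinv : ∀ g ∈ W, g⁻¹ ∈ W)
    (hW : ∀ H : Subgroup G, (H : Set G) ⊆ W → H = ⊥) {V : Set G} (hV : V ∈ 𝓝 (1 : G)) :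
    ∃ K : ℕ, ∀ g, (∀ i ≤ K, g ^ i ∈ W) → g ∈ V := by
  obtain ⟨V', hV'V, hV'o, hV'1⟩ := mem_nhds_iff.mp hV
  have hcl : IsClosed W := hc.isClosed
  obtain ⟨K, hK⟩ := hc.elim_directed_family_closed
    (fun k : ℕ => {g : G | (∀ i ≤ k, g ^ i ∈ W) ∧ g ∉ V'})
    (by
      intro k
      have h1 : {g : G | (∀ i ≤ k, g ^ i ∈ W) ∧ g ∉ V'} =
          (⋂ i ∈ {i : ℕ | i ≤ k}, (fun g : G => g ^ i) ⁻¹' W) ∩ V'ᶜ := by
        ext g; simp
      rw [h1]
      refine IsClosed.inter ?_ hV'o.isClosed_compl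
      exact isClosed_biInter fun i _ => hcl.preimage (continuous_pow i))
    (by
      rw [Set.eq_empty_iff_forall_notMem]
      rintro g ⟨_, hg⟩
      rw [mem_iInter] at hg
      have h1 : g = 1 := eq_one_of_pow_mem hinv hW g fun i => (hg i).1 i le_rfl
      exact (hg 0).2 (h1 ▸ hV'1))
    (by
      intro a b
      refine ⟨max a b, ?_, ?_⟩
      · exact fun g hg => ⟨fun i hi => hg.1 i (hi.trans (le_max_left _ _)), hg.2⟩
      · exact fun g hg => ⟨fun i hi => hg.1 i (hi.trans (le_max_right _ _)), hg.2⟩)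
  refine ⟨max K 1, fun g hg => ?_⟩
  by_contra hgV
  have : g ∈ W ∩ {g : G | (∀ i ≤ K, g ^ i ∈ W) ∧ g ∉ V'} := by
    refine ⟨by simpa using hg 1 (le_max_right _ _), fun i hi => hg i (hi.trans (le_max_left _ _)),
      fun h => hgV (hV'V h)⟩
  rw [hK] at this
  exact this

/-- the escape norm -/
noncomputable def esc (U : Set G) (g : G) : ℝ :=
  sInf {x : ℝ | ∃ k : ℕ, (∀ i ≤ k, g ^ i ∈ U) ∧ x = 1 / ((k : ℝ) + 1)}

lemma esc_bdd (U : Set G) (g : G) :
    BddBelow {x : ℝ | ∃ k : ℕ, (∀ i ≤ k, g ^ i ∈ U) ∧ x = 1 / ((k : ℝ) + 1)} := by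
  refine ⟨0, ?_⟩
  rintro x ⟨k, _, rfl⟩
  positivity

lemma esc_le {U : Set G} {g : G} {k : ℕ} (h : ∀ i ≤ k, g ^ i ∈ U) :
    esc U g ≤ 1 / ((k : ℝ) + 1) := csInf_le (esc_bdd U g) ⟨k, h, rfl⟩

lemma esc_ne {U : Set G} (h1 : (1 : G) ∈ U) (g : G) :
    {x : ℝ | ∃ k : ℕ, (∀ i ≤ k, g ^ i ∈ U) ∧ x = 1 / ((k : ℝ) + 1)}.Nonempty :=
  ⟨1 / ((0 : ℕ) + 1), 0, by simpa using h1, rfl⟩

lemma esc_nonneg (U : Set G) (g : G) : 0 ≤ esc U g := by
  apply Real.sInf_nonneg
  rintro x ⟨k, _, rfl⟩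
  positivity

lemma esc_le_one {U : Set G} (h1 : (1 : G) ∈ U) (g : G) : esc U g ≤ 1 := by
  have := esc_le (U := U) (g := g) (k := 0) (by simpa using h1)
  simpa using this

lemma mem_of_esc {U : Set G} (h1 : (1 : G) ∈ U) {g : G} {m : ℕ} (h : (m : ℝ) * esc U g < 1) :
    g ^ m ∈ U := by
  by_contra hm
  have hm0 : 1 ≤ m := by
    rcases Nat.eq_zero_or_pos m with h0 | h0
    · subst h0; simp [h1] at hm
    · exact h0
  have hmpos : (0 : ℝ) < m := by exact_mod_cast hm0
  have : 1 / (m : ℝ) ≤ esc U g := by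
    apply le_csInf (esc_ne h1 g)
    rintro x ⟨k, hk, rfl⟩
    have hkm : k < m := by
      by_contra hcon
      exact hm (hk m (not_lt.mp hcon))
    have : (k : ℝ) + 1 ≤ m := by exact_mod_cast hkm
    exact one_div_le_one_div_of_le (by positivity) this
  have h2 : (m : ℝ) * (1 / m) ≤ m * esc U g := mul_le_mul_of_nonneg_left this hmpos.le
  rw [mul_one_div_cancel hmpos.ne'] at h2
  linarith

lemma exists_of_esc_lt {U : Set G} (h1 : (1 : G) ∈ U) {g : G} {x : ℝ} (h : esc U g < x) :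
    ∃ k : ℕ, (∀ i ≤ k, g ^ i ∈ U) ∧ 1 / ((k : ℝ) + 1) < x := by
  obtain ⟨y, ⟨k, hk, rfl⟩, hy⟩ := exists_lt_of_csInf_lt (esc_ne h1 g) h
  exact ⟨k, hk, hy⟩

lemma esc_inv {U : Set G} (hinv : ∀ g ∈ U, g⁻¹ ∈ U) (g : G) : esc U g⁻¹ = esc U g := by
  have h : ∀ x : G, x⁻¹ ∈ U ↔ x ∈ U := fun x =>
    ⟨fun hx => by simpa using hinv _ hx, fun hx => hinv _ hx⟩
  unfold esc
  simp only [inv_pow, h]

end

theorem taskA1.{u} : TaskA1.{u} := by
  intro G _ _ _ _ _ hG
  obtain ⟨U₀, hU₀, hH⟩ := hG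
  obtain ⟨K₀, hK₀, hK₀U, hK₀c⟩ := local_compact_nhds hU₀
  -- the compact symmetric set `W`
  set W : Set G := K₀ ∩ K₀⁻¹ with hWdef
  have hWc : IsCompact W := hK₀c.inter_right hK₀c.inv.isClosed
  have hWn : W ∈ 𝓝 (1 : G) := inter_mem hK₀ (by simpa using inv_mem_nhds_one G hK₀)
  have hWinv : ∀ g ∈ W, g⁻¹ ∈ W := by
    rintro g ⟨h1, h2⟩
    exact ⟨h2, by simpa using h1⟩
  have hWH : ∀ H : Subgroup G, (H : Set G) ⊆ W → H = ⊥ := fun H h =>
    hH H (h.trans (inter_subset_left.trans hK₀U))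
  -- the open symmetric set `U`
  obtain ⟨U₁, hU₁o, hU₁1, hU₁⟩ := exists_small 6 W hWn
  set U : Set G := U₁ ∩ U₁⁻¹ with hUdef
  have hUo : IsOpen U := hU₁o.inter hU₁o.inv
  have hU1 : (1 : G) ∈ U := ⟨hU₁1, by simpa using hU₁1⟩
  have hUinv : ∀ g ∈ U, g⁻¹ ∈ U := by
    rintro g ⟨h1, h2⟩
    exact ⟨h2, by simpa using h1⟩
  have hsix : ∀ l : List G, l.length ≤ 6 → (∀ g ∈ l, g ∈ U) → l.prod ∈ W :=
    fun l hl h => hU₁ l hl fun g hg => (h g hg).1
  have hUW : U ⊆ W := fun g hg => by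
    simpa using hsix [g] (by simp) (by simpa using hg)
  have hUn : U ∈ 𝓝 (1 : G) := hUo.mem_nhds hU1
  -- the constant `K₁`
  obtain ⟨K₁, hK₁⟩ := exists_escape hWc hWinv hWH hUn
  -- P1 for `N`
  have hnh : ∀ V ∈ 𝓝 (1 : G), ∃ ε > 0, ∀ g, esc U g < ε → g ∈ V := by
    intro V hV
    obtain ⟨K, hK⟩ := exists_escape hWc hWinv hWH hV
    refine ⟨1 / ((K : ℝ) + 1), by positivity, fun g hg => hK g fun i hi => hUW ?_⟩
    obtain ⟨k, hk, hk2⟩ := exists_of_esc_lt hU1 hg
    have hKk : K < k := by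
      have := (one_div_lt_one_div (by positivity) (by positivity)).mp hk2
      have h3 : (K : ℝ) < k := by linarith
      exact_mod_cast h3
    exact hk i (hi.trans hKk.le)
  -- stay
  have hstay : ∀ V ∈ 𝓝 (1 : G), ∃ c > 0, ∀ g, ∀ k : ℕ, (k : ℝ) * esc U g ≤ c → g ^ k ∈ V := by
    intro V hV
    obtain ⟨K, hK⟩ := exists_escape hWc hWinv hWH hV
    refine ⟨1 / ((K : ℝ) + 1), by positivity, fun g k hk => hK _ fun i hi => hUW ?_⟩
    rw [← pow_mul]
    apply mem_of_esc hU1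
    have h1 : ((k * i : ℕ) : ℝ) * esc U g = i * (k * esc U g) := by push_cast; ring
    rw [h1]
    have h2 : (i : ℝ) * (k * esc U g) ≤ K * (1 / ((K : ℝ) + 1)) := by
      apply mul_le_mul (by exact_mod_cast hi) hk (mul_nonneg (by positivity) (esc_nonneg _ _))
        (by positivity)
    have h3 : (K : ℝ) * (1 / ((K : ℝ) + 1)) < 1 := by
      rw [mul_one_div, div_lt_one (by positivity)]; linarith
    linarith
  -- escape from `W`
  have hescW : ∀ g, ∀ k : ℕ, (∀ i ≤ k, g ^ i ∈ W) → (k : ℝ) * esc U g ≤ K₁ + 1 := by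
    intro g k hk
    have h1 : ∀ j ≤ k / (K₁ + 1), g ^ j ∈ U := by
      intro j hj
      apply hK₁
      intro i hi
      rw [← pow_mul]
      apply hk
      calc j * i ≤ (k / (K₁ + 1)) * (K₁ + 1) := Nat.mul_le_mul hj (hi.trans (Nat.le_succ _))
        _ ≤ k := Nat.div_mul_le_self _ _
    have h2 := esc_le h1
    have h3 : (k : ℝ) ≤ (K₁ + 1) * ((k / (K₁ + 1) : ℕ) + 1) := by
      have := Nat.lt_mul_div_succ k (Nat.succ_pos K₁)
      have h4 : k ≤ (K₁ + 1) * (k / (K₁ + 1) + 1) := this.le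
      exact_mod_cast h4
    have hp : (0 : ℝ) < ((k / (K₁ + 1) : ℕ) : ℝ) + 1 := by positivity
    calc (k : ℝ) * esc U g ≤ ((K₁ + 1) * ((k / (K₁ + 1) : ℕ) + 1)) *
          (1 / (((k / (K₁ + 1) : ℕ) : ℝ) + 1)) :=
          mul_le_mul h3 h2 (esc_nonneg _ _) (by positivity)
      _ = K₁ + 1 := by field_simp
  -- conjugation
  obtain ⟨c₀, hc₀, hconj₀⟩ : ∃ c > 0, ∀ g, ∀ k : ℕ, (k : ℝ) * esc U g ≤ c → ∀ h ∈ W,
      h * g ^ k * h⁻¹ ∈ U := by
    have hopen : IsOpen {p : G × G | p.1 * p.2 * p.1⁻¹ ∈ U} :=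
      hUo.preimage (by fun_prop)
    obtain ⟨u, v, hu, hv, hsu, htv, huv⟩ := generalized_tube_lemma hWc
      (isCompact_singleton (x := (1 : G))) hopen (by
        rintro ⟨a, b⟩ ⟨_, hb⟩
        simp only [mem_singleton_iff] at hb
        subst hb
        simpa using hU1)
    obtain ⟨c, hc, hc2⟩ := hstay v (hv.mem_nhds (htv rfl))
    refine ⟨c, hc, fun g k hk h hh => ?_⟩
    have := huv (Set.mk_mem_prod (hsu hh) (hc2 g k hk))
    simpa using this
  have hpos : ∀ g, g ≠ 1 → 0 < esc U g := by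
    intro g hg
    by_contra hcon
    have h0 : esc U g = 0 := le_antisymm (not_lt.mp hcon) (esc_nonneg _ _)
    exact hg (eq_one_of_pow_mem hWinv hWH g fun i => hUW (mem_of_esc hU1 (by rw [h0]; simp)))
  refine ⟨{
    U := U
    W := W
    N := esc U
    C := max (K₁ + 2) (1 / c₀)
    one_le_C := le_max_of_le_left (by have : (0 : ℝ) ≤ K₁ := by positivity
                                      linarith)
    isOpen_U := hUo
    one_mem := hU1
    inv_mem := hUinv
    inv_mem_W := hWinv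
    compact_W := hWc
    six := hsix
    N_nonneg := esc_nonneg U
    N_le_one := esc_le_one hU1
    N_one := ?_
    N_pos := hpos
    N_inv := esc_inv hUinv
    N_small := ?_
    N_nhds := hnh
    mem_U := fun g hg => by simpa using mem_of_esc (m := 1) hU1 (by simpa using hg)
    stay := hstay
    leave := ?_
    leave_U := ?_
    esc_W := ?_
    conj := ?_ }⟩
  · -- N_one
    by_contra h
    have hp : 0 < esc U (1 : G) := lt_of_le_of_ne (esc_nonneg _ _) (Ne.symm h)
    obtain ⟨k, hk⟩ := exists_nat_one_div_lt hp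
    have := esc_le (U := U) (g := (1 : G)) (k := k) (by simp [hU1])
    linarith
  · -- N_small
    intro ε hε
    obtain ⟨k, hk⟩ := exists_nat_one_div_lt hε
    have h1 : ∀ᶠ g in 𝓝 (1 : G), ∀ i ∈ Finset.range (k + 1), g ^ i ∈ U := by
      rw [Filter.eventually_all_finset]
      intro i _
      have : Tendsto (fun g : G => g ^ i) (𝓝 1) (𝓝 (1 ^ i)) := (continuous_pow i).tendsto 1
      rw [one_pow] at this
      exact this.eventually hUn
    filter_upwards [h1] with g hg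
    refine lt_of_le_of_lt (esc_le fun i hi => hg i ?_) hk
    simpa using Nat.lt_succ_of_le hi
  · -- leave
    intro g hg
    have hex : ∃ k : ℕ, g ^ k ∉ W := by
      by_contra hcon
      push Not at hcon
      exact hg (eq_one_of_pow_mem hWinv hWH g hcon)
    classical
    refine ⟨Nat.find hex, ?_, Nat.find_spec hex⟩
    have hk0 : Nat.find hex ≠ 0 := by
      intro h0
      have := Nat.find_spec hex
      rw [h0, pow_zero] at this
      exact this (hUW hU1)
    obtain ⟨m, hm⟩ := Nat.exists_eq_succ_of_ne_zero hk0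
    have h1 := hescW g m fun i hi => by
      by_contra hcon
      have := Nat.find_min' hex hcon
      omega
    rw [hm]
    have h2 := esc_le_one hU1 g
    refine le_trans ?_ (le_max_left _ _)
    push_cast
    nlinarith
  · -- leave_U
    intro g hg
    by_contra hcon
    push Not at hcon
    apply hg
    apply hK₁
    intro i hi
    apply hcon i
    refine le_trans ?_ (le_max_left _ _)
    have : (i : ℝ) ≤ K₁ := by exact_mod_cast hi
    linarith
  · -- esc_W
    intro g k hk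
    refine (hescW g k hk).trans (le_trans ?_ (le_max_left _ _))
    linarith
  · -- conj
    intro h hh g
    by_cases hg : g = 1
    · subst hg
      have : (max ((K₁ : ℝ) + 2) (1 / c₀)) * esc U (1 : G) ≥ 0 :=
        mul_nonneg (le_max_of_le_right (by positivity)) (esc_nonneg _ _)
      have h0 : esc U (1 : G) = 0 := by
        by_contra h
        have hp : 0 < esc U (1 : G) := lt_of_le_of_ne (esc_nonneg _ _) (Ne.symm h)
        obtain ⟨k, hk⟩ := exists_nat_one_div_lt hp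
        have := esc_le (U := U) (g := (1 : G)) (k := k) (by simpa using fun _ _ => hU1)
        linarith
      simpa [h0] using this
    · have hp := hpos g hg
      have h1 : ∀ i ≤ ⌊c₀ / esc U g⌋₊, (h * g * h⁻¹) ^ i ∈ U := by
        intro i hi
        rw [conj_pow]
        apply hconj₀ g i _ h (hUW hh)
        have h2 : (i : ℝ) ≤ c₀ / esc U g :=
          le_trans (by exact_mod_cast hi) (Nat.floor_le (by positivity))
        rwa [le_div_iff₀ hp] at h2
      have h2 := esc_le h1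
      have h3 : c₀ / esc U g < (⌊c₀ / esc U g⌋₊ : ℝ) + 1 := Nat.lt_floor_add_one _
      have h4 : 1 / ((⌊c₀ / esc U g⌋₊ : ℝ) + 1) ≤ 1 / (c₀ / esc U g) :=
        one_div_le_one_div_of_le (by positivity) h3.le
      calc esc U (h * g * h⁻¹) ≤ 1 / (c₀ / esc U g) := h2.trans h4
        _ = (1 / c₀) * esc U g := by field_simp
        _ ≤ max ((K₁ : ℝ) + 2) (1 / c₀) * esc U g :=
          mul_le_mul_of_nonneg_right (le_max_right _ _) hp.le

end Crest.Agent.R217.A1_740
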