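import Crest.Agent.R217.Conv_490

/-!
Row 217, part A, TASK A2: the main Gleason lemma (`Escape → Star`).
-/

set_option autoImplicit false
set_option linter.unusedSectionVars false
set_option linter.unusedVariables false

open Filter Topology BoundedContinuousFunction Metric MeasureTheory
open scoped Topology BoundedContinuousFunction Pointwise

namespace Crest.Agent.R217.A2490

open Crest.Agent.R217.SpecA343 Crest.Agent.R217.Conv490

variable {G : Type*} [Group G] [TopologicalSpace G]

/-- regularised cost of a word -/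
def cost (E : Escape G) (ε : ℝ) (l : List G) : ℝ := (l.map (fun g => E.N g + ε)).sum

@[simp] lemma cost_nil (E : Escape G) (ε : ℝ) : cost E ε [] = 0 := rfl
@[simp] lemma cost_cons (E : Escape G) (ε : ℝ) (g : G) (l : List G) :
    cost E ε (g :: l) = E.N g + ε + cost E ε l := by simp [cost]

lemma cost_nonneg (E : Escape G) {ε : ℝ} (hε : 0 ≤ ε) (l : List G) : 0 ≤ cost E ε l := by
  induction l with
  | nil => simp
  | cons a l ih => rw [cost_cons]; have := E.N_nonneg a; linarith

lemma cost_eq (E : Escape G) (ε : ℝ) (l : List G) :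
    cost E ε l = (l.map E.N).sum + l.length * ε := by
  induction l with
  | nil => simp
  | cons a l ih => rw [cost_cons, ih]; simp; ring

/-- words of small cost have product in `U` -/
def P (E : Escape G) (ε M : ℝ) : Prop := ∀ l : List G, cost E ε l ≤ 1 / M → l.prod ∈ E.U

section psi

variable (E : Escape G) (ε M : ℝ)

noncomputable def F (l : List G) (x : G) : ℝ :=
  Set.indicator {y : G | l.prod⁻¹ * y ∈ E.U} (fun _ => max 0 (1 - M * cost E ε l)) x

noncomputable def psi (x : G) : ℝ := ⨆ l : List G, F E ε M l x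

variable {E ε M}

lemma F_nonneg (l : List G) (x : G) : 0 ≤ F E ε M l x := by
  unfold F
  apply Set.indicator_nonneg
  intro _ _
  exact le_max_left _ _

lemma F_le_one (hε : 0 ≤ ε) (hM : 0 ≤ M) (l : List G) (x : G) : F E ε M l x ≤ 1 := by
  unfold F
  apply Set.indicator_le' (g := fun _ => (1 : ℝ))
  · intro _ _
    apply max_le zero_le_one
    have := mul_nonneg hM (cost_nonneg E hε l)
    linarith
  · intro _ _
    exact zero_le_one

lemma bdd (hε : 0 ≤ ε) (hM : 0 ≤ M) (x : G) : BddAbove (Set.range fun l => F E ε M l x) := by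
  refine ⟨1, ?_⟩
  rintro _ ⟨l, rfl⟩
  exact F_le_one hε hM l x

lemma psi_nonneg (hε : 0 ≤ ε) (hM : 0 ≤ M) (x : G) : 0 ≤ psi E ε M x :=
  (F_nonneg [] x).trans (le_ciSup (bdd hε hM x) [])

lemma psi_le_one (hε : 0 ≤ ε) (hM : 0 ≤ M) (x : G) : psi E ε M x ≤ 1 :=
  ciSup_le fun l => F_le_one hε hM l x

lemma psi_eq_one (hε : 0 ≤ ε) (hM : 0 ≤ M) {x : G} (hx : x ∈ E.U) : psi E ε M x = 1 := by
  apply le_antisymm (psi_le_one hε hM x)
  refine le_trans ?_ (le_ciSup (bdd hε hM x) [])
  have : F E ε M [] x = 1 := by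
    unfold F
    rw [Set.indicator_of_mem]
    · simp
    · simpa using hx
  exact this.ge

lemma psi_zero (hε : 0 ≤ ε) (hM : 0 < M) (hP : P E ε M) {x : G}
    (hx : ∀ a ∈ E.U, ∀ b ∈ E.U, a * b ≠ x) : psi E ε M x = 0 := by
  apply le_antisymm _ (psi_nonneg hε hM.le x)
  apply ciSup_le
  intro l
  unfold F
  by_cases h1 : x ∈ {y : G | l.prod⁻¹ * y ∈ E.U}
  · rw [Set.indicator_of_mem h1]
    by_cases h2 : cost E ε l ≤ 1 / M
    · exfalso
      exact hx l.prod (hP l h2) (l.prod⁻¹ * x) h1 (by group)
    · push Not at h2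
      rw [div_lt_iff₀ hM] at h2
      apply max_le le_rfl
      linarith
  · rw [Set.indicator_of_notMem h1]

lemma psi_shift (hε : 0 ≤ ε) (hM : 0 ≤ M) (g x : G) :
    psi E ε M (g⁻¹ * x) ≤ psi E ε M x + M * (E.N g + ε) := by
  apply ciSup_le
  intro l
  refine le_trans ?_ (add_le_add_left (le_ciSup (bdd hε hM x) (g :: l)) _)
  unfold F
  by_cases h1 : g⁻¹ * x ∈ {y : G | l.prod⁻¹ * y ∈ E.U}
  · have h2 : x ∈ {y : G | (g :: l).prod⁻¹ * y ∈ E.U} := by
      simpa [mul_assoc] using h1
    rw [Set.indicator_of_mem h1, Set.indicator_of_mem h2, cost_cons]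
    have h3 : 0 ≤ M * (E.N g + ε) := mul_nonneg hM (add_nonneg (E.N_nonneg g) hε)
    apply max_le
    · exact add_nonneg (le_max_left _ _) h3
    · have := le_max_right 0 (1 - M * (E.N g + ε + cost E ε l))
      nlinarith
  · rw [Set.indicator_of_notMem h1]
    have h3 : 0 ≤ M * (E.N g + ε) := mul_nonneg hM (add_nonneg (E.N_nonneg g) hε)
    exact add_nonneg (F_nonneg (E := E) (ε := ε) (M := M) (g :: l) x) h3

lemma psi_lip (hε : 0 ≤ ε) (hM : 0 ≤ M) (g x : G) :
    |psi E ε M (g⁻¹ * x) - psi E ε M x| ≤ M * (E.N g + ε) := by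
  rw [abs_le]
  constructor
  · have := psi_shift (E := E) hε hM g⁻¹ (g⁻¹ * x)
    rw [inv_inv, mul_inv_cancel_left, E.N_inv] at this
    linarith
  · have := psi_shift (E := E) hε hM g x
    linarith

variable [IsTopologicalGroup G]

lemma psi_lsc (hε : 0 ≤ ε) (hM : 0 ≤ M) : LowerSemicontinuous (psi E ε M) := by
  apply lowerSemicontinuous_ciSup (fun x => bdd hε hM x)
  intro l
  apply IsOpen.lowerSemicontinuous_indicator
  · exact E.isOpen_U.preimage (continuous_const.mul continuous_id)
  · exact le_max_left _ _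

end psi

lemma mul3_mem (E : Escape G) {a b c : G} (ha : a ∈ E.U) (hb : b ∈ E.U) (hc : c ∈ E.U) :
    a * (b * c) ∈ E.W := by
  have := E.six [a, b, c] (by simp) (by simp [ha, hb, hc])
  simpa using this

lemma mul2_mem (E : Escape G) {a b : G} (ha : a ∈ E.U) (hb : b ∈ E.U) :
    a * b ∈ E.W := by
  have := E.six [a, b] (by simp) (by simp [ha, hb])
  simpa using this

lemma U_subset_W (E : Escape G) {a : G} (ha : a ∈ E.U) : a ∈ E.W := by
  have := E.six [a] (by simp) (by simp [ha])
  simpa using this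

variable [IsTopologicalGroup G] [T2Space G] [LocallyCompactSpace G] [SecondCountableTopology G]

/-- a bump function -/
lemma exists_bump (E : Escape G) : ∃ η : G →ᵇ ℝ, HasCompactSupport (η : G → ℝ) ∧
    η 1 = 1 ∧ (∀ x, 0 ≤ η x) ∧ ‖η‖ ≤ 1 ∧ ∀ x, x ∉ E.U → η x = 0 := by
  obtain ⟨f, hf1, hf0, hfc, hf⟩ := exists_continuous_one_zero_of_isCompact
    (isCompact_singleton (x := (1 : G))) (E.isOpen_U.isClosed_compl)
    (by rw [Set.disjoint_singleton_left]; simpa using E.one_mem)
  have hb : ∀ x, ‖f x‖ ≤ 1 := fun x => by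
    rw [Real.norm_eq_abs, abs_of_nonneg (hf x).1]; exact (hf x).2
  refine ⟨BoundedContinuousFunction.ofNormedAddCommGroup f f.continuous 1 hb, ?_, ?_, ?_, ?_, ?_⟩
  · exact hfc
  · exact hf1 (Set.mem_singleton _)
  · intro x; exact (hf x).1
  · exact BoundedContinuousFunction.norm_ofNormedAddCommGroup_le f.continuous zero_le_one hb
  · intro x hx
    exact hf0 hx

theorem step (E : Escape G) : ∃ M₀ : ℝ, 0 < M₀ ∧ ∀ ε > 0, ∀ M ≥ M₀, P E ε M → P E ε (M / 2) := by
  let _ : MeasurableSpace G := borel G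
  have _ : BorelSpace G := ⟨rfl⟩
  obtain ⟨η, hηc, hη1, hη0, hηn, hηU⟩ := exists_bump E
  set μ : Measure G := Measure.haar with hμ
  have hWm : MeasurableSet E.W := E.compact_W.isClosed.measurableSet
  have hμW : μ E.W ≠ ⊤ := E.compact_W.measure_lt_top.ne
  set m : ℝ := μ.real E.W with hm
  have hm0 : 0 < m := by
    have h1 : 0 < μ E.U := E.isOpen_U.measure_pos μ ⟨1, E.one_mem⟩
    have h2 : 0 < μ E.W := h1.trans_le (measure_mono fun a ha => U_subset_W E ha)
    exact ENNReal.toReal_pos h2.ne' hμW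
  -- the constant c₁
  set c₁ : ℝ := ∫ y, η y⁻¹ ∂μ with hc₁
  have hcont : Continuous fun y : G => η y⁻¹ := η.continuous.comp continuous_inv
  have hcs : HasCompactSupport fun y : G => η y⁻¹ := hηc.comp_homeomorph (Homeomorph.inv G)
  have hc₁pos : 0 < c₁ := by
    apply hcont.integral_pos_of_hasCompactSupport_nonneg_nonzero hcs (x := 1)
    · intro y; exact hη0 _
    · simp [hη1]
  have hC := E.one_le_C
  set δ : ℝ := c₁ / (8 * E.C * m) with hδ
  have hδpos : 0 < δ := by positivity
  obtain ⟨V, hV, hVδ⟩ := exists_nhds_conj η (S := E.W) E.compact_W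
    (fun x hx => hηU x fun h => hx (U_subset_W E h)) (K := E.W) E.compact_W hδpos
  obtain ⟨c₀, hc₀, hstay₀⟩ := E.stay V hV
  set c : ℝ := min c₀ (1 / 2) with hc
  have hcpos : 0 < c := lt_min hc₀ (by norm_num)
  have hc2 : c ≤ 1 / 2 := min_le_right _ _
  have hstay : ∀ g, ∀ k : ℕ, (k : ℝ) * E.N g ≤ c → g ^ k ∈ V := fun g k h =>
    hstay₀ g k (h.trans (min_le_left _ _))
  refine ⟨32 * m * E.C / (c * c₁) + 1, by positivity, ?_⟩
  intro ε hε M hM hP
  have hMpos : 0 < M := by
    have : (0 : ℝ) < 32 * m * E.C / (c * c₁) + 1 := by positivity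
    linarith
  have hadm : Adm E.W (psi E ε M) :=
    { meas := (psi_lsc hε.le hMpos.le).measurable
      nonneg := psi_nonneg hε.le hMpos.le
      le_one := psi_le_one hε.le hMpos.le
      zero := fun x hx => psi_zero hε.le hMpos hP fun a ha b hb h => hx (h ▸ mul2_mem E ha hb) }
  set φ := conv μ hWm hμW hadm η with hφ
  have hφn : ‖φ‖ ≤ m := (norm_conv_le μ hWm hμW hadm η).trans (by
    calc ‖η‖ * m ≤ 1 * m := by gcongr
      _ = m := one_mul m)
  -- value at 1
  have hφ1 : c₁ ≤ φ 1 := by
    rw [hφ, conv_apply, hc₁]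
    apply integral_mono
    · exact hcont.integrable_of_hasCompactSupport hcs
    · exact hadm.integrable_mul μ hWm hμW η 1
    · intro y
      simp only [mul_one]
      by_cases hy : y ∈ E.U
      · rw [psi_eq_one hε.le hMpos.le hy, one_mul]
      · have : η y⁻¹ = 0 := hηU _ fun h => hy (by simpa using E.inv_mem _ h)
        rw [this, mul_zero]
  -- support
  have hφ0 : ∀ x, x ∉ E.W → φ x = 0 := by
    intro x hx
    rw [hφ, conv_apply]
    apply integral_eq_zero_of_ae
    refine Eventually.of_forall fun y => ?_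
    by_contra h
    have h1 : psi E ε M y ≠ 0 := fun h' => h (by simp [h'])
    have h2 : η (y⁻¹ * x) ≠ 0 := fun h' => h (by simp [h'])
    have h3 : ∃ a ∈ E.U, ∃ b ∈ E.U, a * b = y := by
      by_contra h4
      push Not at h4
      exact h1 (psi_zero hε.le hMpos hP h4)
    obtain ⟨a, ha, b, hb, rfl⟩ := h3
    have h4 : (a * b)⁻¹ * x ∈ E.U := by
      by_contra h5
      exact h2 (hηU _ h5)
    apply hx
    have := mul3_mem E ha hb h4
    convert this using 1
    group
  -- the first difference bound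
  have hfirst : ∀ g, ‖dd g φ‖ ≤ (4 * m / c + m * δ * M) * (E.N g + ε) := by
    intro g
    have hNg := E.N_nonneg g
    have hNgε : 0 ≤ E.N g + ε := add_nonneg hNg hε.le
    by_cases hgc : c < E.N g
    · calc ‖dd g φ‖ ≤ 2 * ‖φ‖ := norm_dd_le _ _
        _ ≤ 2 * m := by linarith
        _ ≤ (4 * m / c) * c := by field_simp; linarith
        _ ≤ (4 * m / c) * (E.N g + ε) := by
            apply mul_le_mul_of_nonneg_left _ (by positivity); linarith
        _ ≤ (4 * m / c + m * δ * M) * (E.N g + ε) := by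
            apply mul_le_mul_of_nonneg_right _ hNgε
            have : 0 < m * δ * M := by positivity
            linarith
    · push Not at hgc
      by_cases hg1 : g = 1
      · subst hg1
        rw [dd_one, norm_zero]
        positivity
      · have hNpos : 0 < E.N g := E.N_pos g hg1
        have hgU : g ∈ E.U := E.mem_U g (by linarith)
        set n : ℕ := ⌊c / E.N g⌋₊ with hn
        have hn1 : 1 ≤ n := by
          rw [hn, Nat.one_le_floor_iff]
          rw [le_div_iff₀ hNpos]; linarith
        have hn2 : (n : ℝ) * E.N g ≤ c := by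
          have : (n : ℝ) ≤ c / E.N g := Nat.floor_le (by positivity)
          rwa [le_div_iff₀ hNpos] at this
        have hn3 : c < ((n : ℝ) + 1) * E.N g := by
          have : c / E.N g < (n : ℝ) + 1 := Nat.lt_floor_add_one _
          rwa [div_lt_iff₀ hNpos] at this
        have hnpos : (0 : ℝ) < n := by exact_mod_cast hn1
        have hB : ∀ i < n, ‖dd (g ^ i) (dd g φ)‖ ≤ (M * (E.N g + ε)) * δ * m := by
          intro i hi
          have hiV : g ^ i ∈ V := hstay g i (by
            have : (i : ℝ) ≤ n := by exact_mod_cast hi.le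
            exact (mul_le_mul_of_nonneg_right this hNg).trans hn2)
          apply norm_dd_dd_conv_le μ hWm hμW hadm η hμW g (g ^ i) hδpos.le
          · intro y; exact psi_lip hε.le hMpos.le g y
          · intro y hy
            refine ⟨?_, hadm.zero y hy⟩
            apply psi_zero hε.le hMpos hP
            intro a ha b hb hab
            apply hy
            have : y = g * (a * b) := by rw [hab]; group
            rw [this]
            exact mul3_mem E hgU ha hb
          · intro y hy
            exact hVδ _ hiV y hy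
        have h1 := mul_norm_dd_le g φ n hB
        have h2 : (n : ℝ) * ‖dd g φ‖ ≤ n * ((4 * m / c) * E.N g + (M * (E.N g + ε)) * δ * m) := by
          refine h1.trans ?_
          have h3 : 2 * m ≤ n * ((4 * m / c) * E.N g) := by
            have h4 : c ≤ 2 * (n * E.N g) := by
              have : (1 : ℝ) ≤ n := by exact_mod_cast hn1
              nlinarith
            calc 2 * m = (2 * m / c) * c := by field_simp
              _ ≤ (2 * m / c) * (2 * (n * E.N g)) :=
                  mul_le_mul_of_nonneg_left h4 (by positivity)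
              _ = n * ((4 * m / c) * E.N g) := by ring
          nlinarith
        have h3 := le_of_mul_le_mul_left h2 hnpos
        refine h3.trans ?_
        have h4 : (4 * m / c) * E.N g ≤ (4 * m / c) * (E.N g + ε) :=
          mul_le_mul_of_nonneg_left (by linarith) (by positivity)
        nlinarith
  -- conclusion
  intro l hl
  by_contra hlU
  obtain ⟨k, hkC, hkW⟩ := E.leave_U _ hlU
  set p := l.prod with hp
  have h1 : ‖dd p φ‖ ≤ (4 * m / c + m * δ * M) * cost E ε l := by
    refine (norm_dd_list_le φ l).trans ?_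
    clear hl hkW hp
    clear_value p
    clear hlU
    induction l with
    | nil => simp
    | cons a l ih =>
      rw [List.map_cons, List.sum_cons, cost_cons]
      have := hfirst a
      linarith
  have h2 : ‖dd (p ^ k) φ‖ ≤ k * ‖dd p φ‖ := norm_dd_pow_le p φ k
  have h3 : c₁ ≤ ‖dd (p ^ k) φ‖ := by
    have h4 := (dd (p ^ k) φ).norm_coe_le_norm 1
    rw [dd_apply, mul_one] at h4
    have h5 : φ (p ^ k)⁻¹ = 0 := by
      apply hφ0
      intro h6
      apply hkW
      simpa using E.inv_mem_W _ h6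
    rw [h5, zero_sub, norm_neg, Real.norm_eq_abs] at h4
    exact hφ1.trans ((le_abs_self _).trans h4)
  have h4 : c₁ ≤ E.C * ((4 * m / c + m * δ * M) * (2 / M)) := by
    calc c₁ ≤ k * ‖dd p φ‖ := h3.trans h2
      _ ≤ E.C * ((4 * m / c + m * δ * M) * cost E ε l) := by
          apply mul_le_mul hkC h1 (norm_nonneg _) (by linarith)
      _ ≤ E.C * ((4 * m / c + m * δ * M) * (2 / M)) := by
          apply mul_le_mul_of_nonneg_left _ (by linarith)
          apply mul_le_mul_of_nonneg_left _ (by positivity)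
          refine hl.trans (le_of_eq ?_)
          field_simp
  have h5 : E.C * ((4 * m / c + m * δ * M) * (2 / M)) = 8 * m * E.C / (c * M) + c₁ / 4 := by
    rw [hδ]
    field_simp
    ring
  have h6 : 8 * m * E.C / (c * M) ≤ c₁ / 4 := by
    rw [div_le_iff₀ (by positivity)]
    have h7 : 32 * m * E.C / (c * c₁) ≤ M := by linarith
    rw [div_le_iff₀ (by positivity)] at h7
    linarith
  linarith

theorem P_all (E : Escape G) : ∃ M₀ : ℝ, 0 < M₀ ∧ ∀ ε > 0, P E ε M₀ := by
  obtain ⟨M₀, hM₀, hstep⟩ := step E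
  refine ⟨M₀, hM₀, fun ε hε => ?_⟩
  have h1 : ∀ k : ℕ, P E ε (2 ^ k * M₀) → P E ε M₀ := by
    intro k
    induction k with
    | zero => intro h; simpa using h
    | succ k ih =>
      intro h
      apply ih
      have h2 := hstep ε hε (2 ^ (k + 1) * M₀) (by
        have : (1 : ℝ) ≤ 2 ^ (k + 1) := one_le_pow₀ (by norm_num)
        nlinarith) h
      have h3 : 2 ^ (k + 1) * M₀ / 2 = 2 ^ k * M₀ := by ring
      rwa [h3] at h2
  obtain ⟨k, hk⟩ : ∃ k : ℕ, 1 / ε / M₀ < 2 ^ k := pow_unbounded_of_one_lt _ (by norm_num)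
  apply h1 k
  intro l hl
  have h2 : l = [] := by
    by_contra hne
    obtain ⟨a, t, rfl⟩ := List.exists_cons_of_ne_nil hne
    rw [cost_cons] at hl
    have h3 := cost_nonneg E hε.le t
    have h4 := E.N_nonneg a
    have h5 : ε ≤ 1 / (2 ^ k * M₀) := by linarith
    rw [le_div_iff₀ (by positivity)] at h5
    rw [div_div, div_lt_iff₀ (by positivity)] at hk
    nlinarith
  rw [h2]
  exact E.one_mem

theorem star (E : Escape G) : Star E := by
  obtain ⟨M₀, hM₀, h⟩ := P_all E
  refine ⟨2 * M₀, by positivity, fun l hl => ?_⟩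
  set n : ℝ := (l.length : ℝ) + 1 with hn
  have hn0 : 0 < n := by positivity
  apply h (1 / (2 * M₀ * n)) (by positivity) l
  rw [cost_eq]
  have h1 : (l.length : ℝ) * (1 / (2 * M₀ * n)) ≤ 1 / (2 * M₀) := by
    calc (l.length : ℝ) * (1 / (2 * M₀ * n)) ≤ n * (1 / (2 * M₀ * n)) := by
          apply mul_le_mul_of_nonneg_right _ (by positivity); linarith
      _ = 1 / (2 * M₀) := by field_simp
  have h2 : 1 / (2 * M₀) + 1 / (2 * M₀) = 1 / M₀ := by field_simp; norm_num
  linarith

theorem taskA2.{u} : TaskA2.{u} := fun _ _ _ _ _ _ _ E => star E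

end Crest.Agent.R217.A2490
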