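import Crest.Agent.R217.A2_490

/-!
Row 217, part A, TASK A3: existence of a Gleason function.
-/

set_option autoImplicit false
set_option linter.unusedSectionVars false
set_option linter.unusedVariables false

open Filter Topology BoundedContinuousFunction Metric MeasureTheory
open scoped Topology BoundedContinuousFunction Pointwise

namespace Crest.Agent.R217.A3490

open Crest.Agent.R217.SpecA343 Crest.Agent.R217.Conv490 Crest.Agent.R217.A2490

variable {G : Type*} [Group G] [TopologicalSpace G]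

section psi

variable (E : Escape G) (M : ℝ)

/-- `1 - M * (cost of a word with product x)`, cut off at `0` -/
noncomputable def F (x : G) (l : {l : List G // l.prod = x}) : ℝ :=
  max 0 (1 - M * cost E 0 l.1)

noncomputable def psi (x : G) : ℝ := ⨆ l : {l : List G // l.prod = x}, F E M x l

instance (x : G) : Nonempty {l : List G // l.prod = x} := ⟨⟨[x], by simp⟩⟩

variable {E M}

lemma F_nonneg (x : G) (l : {l : List G // l.prod = x}) : 0 ≤ F E M x l := le_max_left _ _

lemma F_le_one (hM : 0 ≤ M) (x : G) (l : {l : List G // l.prod = x}) : F E M x l ≤ 1 := by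
  apply max_le zero_le_one
  have := mul_nonneg hM (cost_nonneg E le_rfl l.1)
  linarith

lemma bdd (hM : 0 ≤ M) (x : G) : BddAbove (Set.range fun l => F E M x l) := by
  refine ⟨1, ?_⟩
  rintro _ ⟨l, rfl⟩
  exact F_le_one hM x l

lemma psi_nonneg (hM : 0 ≤ M) (x : G) : 0 ≤ psi E M x :=
  (F_nonneg x (Classical.arbitrary _)).trans (le_ciSup (bdd hM x) _)

lemma psi_le_one (hM : 0 ≤ M) (x : G) : psi E M x ≤ 1 :=
  ciSup_le fun l => F_le_one hM x l

lemma psi_one (hM : 0 ≤ M) : psi E M 1 = 1 := by
  apply le_antisymm (psi_le_one hM 1)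
  refine le_trans ?_ (le_ciSup (bdd hM 1) ⟨[], rfl⟩)
  simp [F]

/-- support -/
lemma psi_zero (hM : 0 < M) (hP : ∀ l : List G, (l.map E.N).sum ≤ 1 / M → l.prod ∈ E.U) {x : G}
    (hx : x ∉ E.U) : psi E M x = 0 := by
  apply le_antisymm _ (psi_nonneg hM.le x)
  apply ciSup_le
  rintro ⟨l, hl⟩
  by_cases h2 : (l.map E.N).sum ≤ 1 / M
  · exfalso
    exact hx (hl ▸ hP l h2)
  · push Not at h2
    rw [div_lt_iff₀ hM] at h2
    apply max_le le_rfl
    have : cost E 0 l = (l.map E.N).sum := by rw [cost_eq]; ring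
    simp only
    rw [this]
    linarith

lemma psi_shift (hM : 0 ≤ M) (g x : G) :
    psi E M (g⁻¹ * x) ≤ psi E M x + M * E.N g := by
  apply ciSup_le
  rintro ⟨l, hl⟩
  have hgl : (g :: l).prod = x := by rw [List.prod_cons, hl]; group
  refine le_trans ?_ (add_le_add_left (le_ciSup (bdd hM x) ⟨g :: l, hgl⟩) _)
  unfold F
  simp only
  rw [cost_cons]
  have h3 : 0 ≤ M * E.N g := mul_nonneg hM (E.N_nonneg g)
  apply max_le
  · exact add_nonneg (le_max_left _ _) h3
  · have := le_max_right 0 (1 - M * (E.N g + 0 + cost E 0 l))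
    nlinarith

lemma psi_lip (hM : 0 ≤ M) (g x : G) :
    |psi E M (g⁻¹ * x) - psi E M x| ≤ M * E.N g := by
  rw [abs_le]
  constructor
  · have := psi_shift (E := E) hM g⁻¹ (g⁻¹ * x)
    rw [inv_inv, mul_inv_cancel_left, E.N_inv] at this
    linarith
  · have := psi_shift (E := E) hM g x
    linarith

lemma psi_cont [IsTopologicalGroup G] (hM : 0 ≤ M) : Continuous (psi E M) := by
  rw [continuous_iff_continuousAt]
  intro x
  rw [ContinuousAt, Metric.tendsto_nhds]
  intro ε hε
  have h1 : ∀ᶠ g in 𝓝 (1 : G), E.N g < ε / (M + 1) := E.N_small _ (by positivity)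
  have h2 : Tendsto (fun y : G => x * y⁻¹) (𝓝 x) (𝓝 1) := by
    have : Continuous fun y : G => x * y⁻¹ := by fun_prop
    simpa using this.tendsto x
  filter_upwards [h2.eventually h1] with y hy
  rw [Real.dist_eq]
  have h3 := psi_lip (E := E) hM (x * y⁻¹) x
  have h4 : (x * y⁻¹)⁻¹ * x = y := by group
  rw [h4] at h3
  refine lt_of_le_of_lt h3 ?_
  rw [lt_div_iff₀ (by positivity)] at hy
  have := E.N_nonneg (x * y⁻¹)
  nlinarith

end psi

variable [IsTopologicalGroup G] [T2Space G] [LocallyCompactSpace G] [SecondCountableTopology G]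

lemma conj_inv (E : Escape G) {h g : G} (hh : h ∈ E.U) : E.N (h⁻¹ * g * h) ≤ E.C * E.N g := by
  have := E.conj h⁻¹ (E.inv_mem h hh) g
  simpa using this

theorem gleasonFn (E : Escape G) (hS : Star E) : Nonempty (GleasonFn G) := by
  obtain ⟨M, hM, hP⟩ := hS
  let _ : MeasurableSpace G := borel G
  have _ : BorelSpace G := ⟨rfl⟩
  set μ : Measure G := Measure.haar with hμ
  have hWm : MeasurableSet E.W := E.compact_W.isClosed.measurableSet
  have hμW : μ E.W ≠ ⊤ := E.compact_W.measure_lt_top.ne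
  set m : ℝ := μ.real E.W with hm
  have hm0 : 0 < m := by
    have h1 : 0 < μ E.U := E.isOpen_U.measure_pos μ ⟨1, E.one_mem⟩
    have h2 : 0 < μ E.W := h1.trans_le (measure_mono fun a ha => U_subset_W E ha)
    exact ENNReal.toReal_pos h2.ne' hμW
  have hψU : ∀ x, x ∉ E.U → psi E M x = 0 := fun x hx => psi_zero hM hP hx
  have hadm : Adm E.W (psi E M) :=
    { meas := (psi_cont hM.le).measurable
      nonneg := psi_nonneg hM.le
      le_one := psi_le_one hM.le
      zero := fun x hx => hψU x fun h => hx (U_subset_W E h) }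
  have hb : ∀ x, ‖psi E M x‖ ≤ 1 := fun x => by
    rw [Real.norm_eq_abs, abs_of_nonneg (psi_nonneg hM.le x)]; exact psi_le_one hM.le x
  set η : G →ᵇ ℝ := BoundedContinuousFunction.ofNormedAddCommGroup (psi E M) (psi_cont hM.le) 1 hb
    with hη
  have hηa : ∀ x, η x = psi E M x := fun x => rfl
  have hηn : ‖η‖ ≤ 1 := BoundedContinuousFunction.norm_ofNormedAddCommGroup_le _ zero_le_one hb
  have hηd : ∀ g, ‖dd g η‖ ≤ M * E.N g := by
    intro g
    rw [BoundedContinuousFunction.norm_le (mul_nonneg hM.le (E.N_nonneg g))]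
    intro x
    exact psi_lip hM.le g x
  set φ := conv μ hWm hμW hadm η with hφ
  have hC := E.one_le_C
  -- value at 1
  set c₁ : ℝ := φ 1 with hc₁
  have hsupp : HasCompactSupport (psi E M) := by
    apply HasCompactSupport.intro E.compact_W
    intro x hx
    exact hψU x fun h => hx (U_subset_W E h)
  have hcont : Continuous (psi E M) := psi_cont hM.le
  have hc₁pos : 0 < c₁ := by
    rw [hc₁, hφ, conv_apply]
    have hc2 : Continuous fun y : G => psi E M y * η (y⁻¹ * 1) := by
      apply hcont.mul; fun_prop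
    apply hc2.integral_pos_of_hasCompactSupport_nonneg_nonzero (x := 1)
    · exact hsupp.mul_right
    · intro y
      exact mul_nonneg (psi_nonneg hM.le _) (by rw [hηa]; exact psi_nonneg hM.le _)
    · rw [hηa]
      simp [psi_one hM.le]
  -- support
  have hφ0 : ∀ x, x ∉ E.W → φ x = 0 := by
    intro x hx
    rw [hφ, conv_apply]
    apply integral_eq_zero_of_ae
    refine Eventually.of_forall fun y => ?_
    by_contra h
    have h1 : psi E M y ≠ 0 := fun h' => h (by simp [h'])
    have h2 : η (y⁻¹ * x) ≠ 0 := fun h' => h (by simp [h'])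
    have h3 : y ∈ E.U := by
      by_contra h4
      exact h1 (hψU _ h4)
    have h4 : y⁻¹ * x ∈ E.U := by
      by_contra h5
      exact h2 (hψU _ h5)
    apply hx
    have := mul2_mem E h3 h4
    convert this using 1
    group
  -- first difference: upper bound
  have hfirst : ∀ g, g ∈ E.U → ‖dd g φ‖ ≤ (M * m) * E.N g := by
    intro g hg
    have := norm_dd_conv_le μ hWm hμW hadm η hμW g (psi_lip hM.le g) (by
      intro y hy
      refine ⟨?_, hadm.zero y hy⟩
      apply hψU
      intro h
      apply hy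
      have h2 := mul2_mem E hg h
      simpa using h2)
    refine this.trans ?_
    calc M * E.N g * ‖η‖ * m ≤ M * E.N g * 1 * m := by
          apply mul_le_mul_of_nonneg_right _ hm0.le
          apply mul_le_mul_of_nonneg_left hηn
          exact mul_nonneg hM.le (E.N_nonneg g)
      _ = (M * m) * E.N g := by ring
  -- second difference
  have hsecond : ∀ g h, g ∈ E.U →
      ‖dd h (dd g φ)‖ ≤ (M * M * m * E.C ^ 2) * E.N g * E.N h := by
    intro g h hg
    have hUU : MeasurableSet E.U := E.isOpen_U.measurableSet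
    have hUW : E.U * E.U ⊆ E.W := by
      rintro _ ⟨a, ha, b, hb, rfl⟩
      exact mul2_mem E ha hb
    have hμUU : μ (E.U * E.U) ≠ ⊤ := ne_top_of_le_ne_top hμW (measure_mono hUW)
    have h1 := norm_dd_dd_conv_le μ hWm hμW hadm η (L := E.U * E.U) hμUU g h
      (A := M * E.N g) (B := M * (E.C ^ 2 * E.N h)) (by
        have := E.N_nonneg h
        positivity) (psi_lip hM.le g) (by
        intro y hy
        constructor
        · apply hψU
          intro h
          apply hy
          exact ⟨g, hg, g⁻¹ * y, h, by group⟩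
        · apply hψU
          intro h
          apply hy
          exact ⟨y, h, 1, E.one_mem, by simp⟩) (by
        rintro y ⟨a, ha, b, hb, rfl⟩
        refine (hηd _).trans ?_
        apply mul_le_mul_of_nonneg_left _ hM.le
        have h2 : (a * b)⁻¹ * h * (a * b) = b⁻¹ * (a⁻¹ * h * a) * b := by group
        rw [h2]
        calc E.N (b⁻¹ * (a⁻¹ * h * a) * b) ≤ E.C * E.N (a⁻¹ * h * a) := conj_inv E hb
          _ ≤ E.C * (E.C * E.N h) := by
              apply mul_le_mul_of_nonneg_left (conj_inv E ha) (by linarith)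
          _ = E.C ^ 2 * E.N h := by ring)
    refine h1.trans ?_
    have h2 : μ.real (E.U * E.U) ≤ m := measureReal_mono hUW hμW
    have h3 := E.N_nonneg g
    have h4 := E.N_nonneg h
    calc M * E.N g * (M * (E.C ^ 2 * E.N h)) * μ.real (E.U * E.U)
        ≤ M * E.N g * (M * (E.C ^ 2 * E.N h)) * m :=
          mul_le_mul_of_nonneg_left h2 (by positivity)
      _ = (M * M * m * E.C ^ 2) * E.N g * E.N h := by ring
  -- powers stay in W
  have hpow : ∀ g, ‖dd g φ‖ < c₁ → g ∈ E.W := by
    intro g hg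
    by_contra hgW
    have h4 := (dd g φ).norm_coe_le_norm 1
    rw [dd_apply, mul_one] at h4
    have h5 : φ g⁻¹ = 0 := by
      apply hφ0
      intro h6
      apply hgW
      simpa using E.inv_mem_W _ h6
    rw [h5, zero_sub, norm_neg, Real.norm_eq_abs, abs_of_pos hc₁pos] at h4
    linarith
  -- lower bound
  have hlow : ∀ g, E.N g ≤ (4 * E.C / c₁) * ‖dd g φ‖ := by
    intro g
    have hNg := E.N_nonneg g
    have key : ∀ k : ℕ, (k : ℝ) * ‖dd g φ‖ ≤ c₁ / 2 → (k : ℝ) * E.N g ≤ E.C := by
      intro k hk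
      apply E.esc_W
      intro i hi
      apply hpow
      have h1 : (i : ℝ) ≤ k := by exact_mod_cast hi
      calc ‖dd (g ^ i) φ‖ ≤ i * ‖dd g φ‖ := norm_dd_pow_le g φ i
        _ ≤ k * ‖dd g φ‖ := by gcongr
        _ ≤ c₁ / 2 := hk
        _ < c₁ := by linarith
    by_cases h0 : ‖dd g φ‖ = 0
    · rw [h0, mul_zero]
      by_contra hpos
      push Not at hpos
      obtain ⟨k, hk⟩ := exists_nat_gt (E.C / E.N g)
      have := key k (by rw [h0, mul_zero]; positivity)
      rw [div_lt_iff₀ hpos] at hk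
      linarith
    · have hpos : 0 < ‖dd g φ‖ := lt_of_le_of_ne (norm_nonneg _) (Ne.symm h0)
      by_cases hbig : c₁ / 2 < ‖dd g φ‖
      · calc E.N g ≤ 1 := E.N_le_one g
          _ ≤ 2 * E.C := by linarith
          _ = (4 * E.C / c₁) * (c₁ / 2) := by field_simp; ring
          _ ≤ (4 * E.C / c₁) * ‖dd g φ‖ := by
              apply mul_le_mul_of_nonneg_left hbig.le (by positivity)
      · push Not at hbig
        set n : ℕ := ⌊c₁ / 2 / ‖dd g φ‖⌋₊ with hn
        have hn1 : 1 ≤ n := by
          rw [hn, Nat.one_le_floor_iff]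
          rw [le_div_iff₀ hpos]; linarith
        have hn2 : (n : ℝ) * ‖dd g φ‖ ≤ c₁ / 2 := by
          have : (n : ℝ) ≤ c₁ / 2 / ‖dd g φ‖ := Nat.floor_le (by positivity)
          rwa [le_div_iff₀ hpos] at this
        have hn3 : c₁ / 2 < ((n : ℝ) + 1) * ‖dd g φ‖ := by
          have : c₁ / 2 / ‖dd g φ‖ < (n : ℝ) + 1 := Nat.lt_floor_add_one _
          rwa [div_lt_iff₀ hpos] at this
        have hnpos : (1 : ℝ) ≤ n := by exact_mod_cast hn1
        have h1 := key n hn2
        -- `n * N ≤ C`, `c₁/2 ≤ 2 n ‖dd‖`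
        have h2 : c₁ ≤ 4 * (n * ‖dd g φ‖) := by nlinarith
        have h3 : (n : ℝ) * E.N g ≤ n * ((4 * E.C / c₁) * ‖dd g φ‖) := by
          calc (n : ℝ) * E.N g ≤ E.C := h1
            _ = (E.C / c₁) * c₁ := by field_simp
            _ ≤ (E.C / c₁) * (4 * (n * ‖dd g φ‖)) :=
                mul_le_mul_of_nonneg_left h2 (by positivity)
            _ = n * ((4 * E.C / c₁) * ‖dd g φ‖) := by ring
        exact le_of_mul_le_mul_left h3 (by linarith)
  -- constants
  set D : ℝ := 4 * E.C / c₁ with hD
  have hDpos : 0 < D := by positivity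
  set C' : ℝ := max 1 ((M * M * m * E.C ^ 2) * D * D) with hC'
  have hC'1 : 1 ≤ C' := le_max_left _ _
  have hC'2 : (M * M * m * E.C ^ 2) * D * D ≤ C' := le_max_right _ _
  set r : ℝ := min (1 / (16 * C')) (min (c₁ / 2) (1 / (2 * D))) with hr
  have hr1 : r ≤ 1 / (16 * C') := min_le_left _ _
  have hr2 : r ≤ c₁ / 2 := (min_le_right _ _).trans (min_le_left _ _)
  have hr3 : r ≤ 1 / (2 * D) := (min_le_right _ _).trans (min_le_right _ _)
  have hrpos : 0 < r := lt_min (by positivity) (lt_min (by positivity) (by positivity))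
  have hmemU : ∀ g, ‖dd g φ‖ ≤ r → g ∈ E.U := by
    intro g hg
    apply E.mem_U
    calc E.N g ≤ D * ‖dd g φ‖ := hlow g
      _ ≤ D * (1 / (2 * D)) := mul_le_mul_of_nonneg_left (hg.trans hr3) hDpos.le
      _ = 1 / 2 := by field_simp
      _ < 1 := by norm_num
  have hsmall : ∀ ε > 0, ∀ᶠ g in 𝓝 (1 : G), ‖dd g φ‖ < ε := by
    intro ε hε
    have h1 : ∀ᶠ g in 𝓝 (1 : G), E.N g < ε / (M * m) := E.N_small _ (by positivity)
    filter_upwards [h1, E.isOpen_U.mem_nhds E.one_mem] with g hg hgU
    refine (hfirst g hgU).trans_lt ?_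
    rw [lt_div_iff₀ (by positivity)] at hg
    linarith
  have hcontφ : Continuous fun g : G => ‖dd g φ‖ := by
    rw [continuous_iff_continuousAt]
    intro x
    rw [ContinuousAt, Metric.tendsto_nhds]
    intro ε hε
    have h2 : Tendsto (fun y : G => y⁻¹ * x) (𝓝 x) (𝓝 1) := by
      have : Continuous fun y : G => y⁻¹ * x := by fun_prop
      simpa using this.tendsto x
    filter_upwards [h2.eventually (hsmall ε hε)] with y hy
    rw [Real.dist_eq]
    rw [norm_dd_inv_mul] at hy
    exact (abs_norm_sub_norm_le _ _).trans_lt hy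
  refine ⟨{ φ := φ, C := C', r := r, one_le_C := hC'1, r_pos := hrpos, Cr := ?_,
            small := hsmall, nhds := ?_, cpt := ?_, second := ?_ }⟩
  · have : C' * r ≤ C' * (1 / (16 * C')) := mul_le_mul_of_nonneg_left hr1 (by linarith)
    have h2 : C' * (1 / (16 * C')) = 1 / 16 := by
      have : C' ≠ 0 := by linarith
      field_simp
    linarith
  · intro V hV
    obtain ⟨ε, hε, h⟩ := E.N_nhds V hV
    refine ⟨ε / D, by positivity, fun g hg => h g ?_⟩
    rw [lt_div_iff₀ hDpos] at hg
    have := hlow g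
    linarith
  · apply E.compact_W.of_isClosed_subset (isClosed_le hcontφ continuous_const)
    intro g hg
    exact U_subset_W E (hmemU g hg)
  · intro g h hg hh
    have h1 := hsecond h g (hmemU h hh)
    refine h1.trans ?_
    have h2 := hlow g
    have h3 := hlow h
    have h4 := E.N_nonneg g
    have h5 := E.N_nonneg h
    calc (M * M * m * E.C ^ 2) * E.N h * E.N g
        ≤ (M * M * m * E.C ^ 2) * (D * ‖dd h φ‖) * (D * ‖dd g φ‖) := by
          apply mul_le_mul _ h2 h4 (by positivity)
          apply mul_le_mul_of_nonneg_left h3 (by positivity)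
      _ = ((M * M * m * E.C ^ 2) * D * D) * ‖dd g φ‖ * ‖dd h φ‖ := by ring
      _ ≤ C' * ‖dd g φ‖ * ‖dd h φ‖ := by gcongr

theorem taskA3.{u} : TaskA3.{u} := fun _ _ _ _ _ _ _ E hE => gleasonFn E hE

end Crest.Agent.R217.A3490
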