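import Crest.Agent.R217.SpecA_343

/-!
Row 217 (S0336), part A, tasks A4a, A4b, A4c: elementary estimates for Gleason metrics.
-/

set_option autoImplicit false

open Filter Topology BoundedContinuousFunction
open scoped Topology BoundedContinuousFunction
open Crest.Agent.R217.SpecA343

namespace Crest.Agent.R217.A4_970

/-! ## A4a -/

section A4a
variable {G : Type*} [Group G] [TopologicalSpace G] [IsTopologicalGroup G]

lemma dd_pow (g : G) (φ : G →ᵇ ℝ) (k : ℕ) :
    dd (g ^ k) φ = (k : ℝ) • dd g φ + ∑ i ∈ Finset.range k, dd (g ^ i) (dd g φ) := by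
  induction k with
  | zero => simp
  | succ k ih =>
    rw [pow_succ, dd_mul, ih, Finset.sum_range_succ]
    push_cast
    rw [add_smul, one_smul]
    abel

theorem exists_gnorm (F : GleasonFn G) : ∃ N : GNorm G, N.n = (fun g => ‖dd g F.φ‖) ∧ N.r = F.r ∧
      N.C = 2 * F.C := by
  have hC := F.one_le_C
  have hr := F.r_pos
  have hCr := F.Cr
  refine ⟨{ n := fun g => ‖dd g F.φ‖, C := 2 * F.C, r := F.r, one_le_C := by linarith,
            r_pos := hr, Cr := by linarith, nonneg := fun g => norm_nonneg _,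
            one := by simp, inv := fun g => norm_dd_inv g F.φ,
            mul := fun g h => norm_dd_mul_le g h F.φ, small := F.small, nhds := F.nhds,
            cpt := F.cpt, comm := ?_, esc := ?_ }, rfl, rfl, rfl⟩
  · intro g h hg hh
    have h1 : g⁻¹ * h⁻¹ * g * h = (h * g)⁻¹ * (g * h) := by group
    show ‖dd (g⁻¹ * h⁻¹ * g * h) F.φ‖ ≤ _
    rw [h1, norm_dd_inv_mul]
    have h2 : dd (h * g) F.φ - dd (g * h) F.φ = dd h (dd g F.φ) - dd g (dd h F.φ) := by
      rw [dd_mul, dd_mul]; abel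
    rw [h2]
    have e1 := F.second g h hg hh
    have e2 := F.second h g hh hg
    have := norm_sub_le (dd h (dd g F.φ)) (dd g (dd h F.φ))
    show _ ≤ 2 * F.C * ‖dd g F.φ‖ * ‖dd h F.φ‖
    nlinarith [this, e1, e2]
  · intro g k hk
    show (k : ℝ) * ‖dd g F.φ‖ ≤ 2 * ‖dd (g ^ k) F.φ‖
    rcases Nat.eq_zero_or_pos k with rfl | hkpos
    · simp
    have hg : ‖dd g F.φ‖ ≤ F.r := by simpa using hk 1 hkpos
    have hsum : ‖∑ i ∈ Finset.range k, dd (g ^ i) (dd g F.φ)‖ ≤
        (k : ℝ) * (F.C * F.r * ‖dd g F.φ‖) := by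
      calc ‖∑ i ∈ Finset.range k, dd (g ^ i) (dd g F.φ)‖
          ≤ ∑ i ∈ Finset.range k, ‖dd (g ^ i) (dd g F.φ)‖ := norm_sum_le _ _
        _ ≤ ∑ i ∈ Finset.range k, F.C * F.r * ‖dd g F.φ‖ := by
            apply Finset.sum_le_sum
            intro i hi
            have hi' : i ≤ k := (Finset.mem_range.mp hi).le
            have h1 := F.second (g ^ i) g (hk i hi') hg
            refine h1.trans ?_
            have h2 : F.C * ‖dd (g ^ i) F.φ‖ ≤ F.C * F.r :=
              mul_le_mul_of_nonneg_left (hk i hi') (by linarith)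
            exact mul_le_mul_of_nonneg_right h2 (norm_nonneg _)
        _ = (k : ℝ) * (F.C * F.r * ‖dd g F.φ‖) := by
            rw [Finset.sum_const, Finset.card_range, nsmul_eq_mul]
    have hk' := dd_pow g F.φ k
    have h3 : (k : ℝ) • dd g F.φ = dd (g ^ k) F.φ -
        ∑ i ∈ Finset.range k, dd (g ^ i) (dd g F.φ) := by rw [hk']; abel
    have h4 : (k : ℝ) * ‖dd g F.φ‖ = ‖(k : ℝ) • dd g F.φ‖ := by
      rw [norm_smul, Real.norm_natCast]
    have h5 : ‖(k : ℝ) • dd g F.φ‖ ≤ ‖dd (g ^ k) F.φ‖ + (k : ℝ) * (F.C * F.r * ‖dd g F.φ‖) := by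
      rw [h3]
      exact (norm_sub_le _ _).trans (by linarith)
    have h6 : (k : ℝ) * (F.C * F.r * ‖dd g F.φ‖) ≤ (k : ℝ) * ‖dd g F.φ‖ * (1 / 16) := by
      have h7 : F.C * F.r ≤ 1 / 16 := by linarith
      have h8 : 0 ≤ (k : ℝ) * ‖dd g F.φ‖ := by positivity
      nlinarith
    have h9 : 0 ≤ (k : ℝ) * ‖dd g F.φ‖ := by positivity
    linarith

end A4a

theorem taskA4a.{u} : TaskA4a.{u} := by
  intro G _ _ _ _ F
  exact exists_gnorm F

/-! ## A4b, A4c -/

section A4b
variable {G : Type*} [Group G] [TopologicalSpace G] (N : GNorm G)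

lemma conj_le (a b : G) (ha : N.n a ≤ N.r) (hb : N.n b ≤ N.r) :
    N.n (b⁻¹ * a * b) ≤ 2 * N.n a := by
  have h1 : b⁻¹ * a * b = a * (a⁻¹ * b⁻¹ * a * b) := by group
  rw [h1]
  have h2 := N.mul a (a⁻¹ * b⁻¹ * a * b)
  have h3 := N.comm a b ha hb
  have hC := N.one_le_C
  have hCr := N.Cr
  have hr := N.r_pos
  have ha0 := N.nonneg a
  have hb0 := N.nonneg b
  have h4 : N.C * N.n a * N.n b ≤ N.n a := by
    have : N.C * N.n b ≤ 1 := by
      have : N.C * N.n b ≤ N.C * N.r := mul_le_mul_of_nonneg_left hb (by linarith)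
      nlinarith
    nlinarith
  linarith

lemma prod_le (l : List (G × G))
    (h1 : ∀ l' : List (G × G), l' <:+ l → N.n (l'.map Prod.fst).prod ≤ N.r)
    (h2 : ∀ p ∈ l, N.n p.2 ≤ N.r) :
    N.n ((l.map Prod.fst).prod⁻¹ * (l.map (fun p => p.1 * p.2)).prod) ≤
      2 * (l.map (fun p => N.n p.2)).sum := by
  induction l with
  | nil => simp [N.one]
  | cons p t ih =>
    have ih' := ih (fun l' hl' => h1 l' (hl'.trans (List.suffix_cons p t)))
      (fun q hq => h2 q (List.mem_cons_of_mem _ hq))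
    have hT : N.n (t.map Prod.fst).prod ≤ N.r := h1 t (List.suffix_cons p t)
    have hp : N.n p.2 ≤ N.r := h2 p List.mem_cons_self
    simp only [List.map_cons, List.prod_cons, List.sum_cons]
    set T := (t.map Prod.fst).prod
    set T' := (t.map (fun p => p.1 * p.2)).prod
    have e : (p.1 * T)⁻¹ * (p.1 * p.2 * T') = (T⁻¹ * p.2 * T) * (T⁻¹ * T') := by group
    rw [e]
    have h3 := N.mul (T⁻¹ * p.2 * T) (T⁻¹ * T')
    have h4 := conj_le N p.2 T hp hT
    linarith

lemma pow_n_le (g : G) (k : ℕ) : N.n (g ^ k) ≤ (k : ℝ) * N.n g := by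
  induction k with
  | zero => simp [N.one]
  | succ k ih =>
    rw [pow_succ]
    have := N.mul (g ^ k) g
    push_cast
    linarith

lemma pow_le (g h : G) (k : ℕ) (hk : ∀ i ≤ k, N.n (g ^ i) ≤ N.r) (hgh : N.n (g⁻¹ * h) ≤ N.r) :
    N.n ((g ^ k)⁻¹ * h ^ k) ≤ 2 * k * N.n (g⁻¹ * h) := by
  have h1 := prod_le N (List.replicate k (g, g⁻¹ * h)) (by
    intro l' hl'
    obtain ⟨m, hm, rfl⟩ : ∃ m ≤ k, l' = List.replicate m (g, g⁻¹ * h) := by
      refine ⟨l'.length, ?_, ?_⟩
      · simpa using hl'.length_le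
      · rw [List.eq_replicate_iff]
        exact ⟨rfl, fun b hb => List.eq_of_mem_replicate (hl'.subset hb)⟩
    simpa using hk m hm) (by
    intro p hp
    rw [List.eq_of_mem_replicate hp]
    exact hgh)
  simp only [List.map_replicate, List.prod_replicate, List.sum_replicate, mul_inv_cancel_left,
    nsmul_eq_mul] at h1
  linarith

lemma mul_pow_le (a b : G) (k : ℕ) (ha : (k : ℝ) * N.n a ≤ N.r / 2)
    (hb : (k : ℝ) * N.n b ≤ N.r / 2) :
    N.n ((a ^ k * b ^ k)⁻¹ * (a * b) ^ k) ≤ 2 * N.C * k ^ 2 * N.n a * N.n b := by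
  have hC := N.one_le_C
  have hCr := N.Cr
  have hr := N.r_pos
  have ha0 := N.nonneg a
  have hb0 := N.nonneg b
  -- induction for j ≤ k
  have key : ∀ j : ℕ, j ≤ k → N.n ((a ^ j * b ^ j)⁻¹ * (a * b) ^ j) ≤
      2 * N.C * j ^ 2 * N.n a * N.n b := by
    intro j
    induction j with
    | zero => intro _; simp [N.one]
    | succ j ih =>
      intro hj
      have ih' := ih (by omega)
      have hjk : (j : ℝ) + 1 ≤ k := by exact_mod_cast hj
      have hj0 : (0 : ℝ) ≤ j := Nat.cast_nonneg j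
      have hk1 : (1 : ℝ) ≤ k := by linarith
      have hna : (j : ℝ) * N.n a ≤ N.r / 2 :=
        (mul_le_mul_of_nonneg_right (by linarith) ha0).trans ha
      have hnb : (j : ℝ) * N.n b ≤ N.r / 2 :=
        (mul_le_mul_of_nonneg_right (by linarith) hb0).trans hb
      have hnb1 : N.n b ≤ N.r / 2 := by nlinarith
      have haj : N.n (a ^ j) ≤ N.r / 2 := (pow_n_le N a j).trans hna
      have hbj : N.n (b ^ j) ≤ N.r / 2 := (pow_n_le N b j).trans hnb
      have haj' : N.n (a ^ j) ≤ (j : ℝ) * N.n a := pow_n_le N a j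
      have e : (a ^ (j + 1) * b ^ (j + 1))⁻¹ * (a * b) ^ (j + 1) =
          ((b ^ j)⁻¹ * (b⁻¹ * (a ^ j)⁻¹ * b * a ^ j) * b ^ j) *
            ((a ^ j * b ^ j)⁻¹ * (a * b) ^ j) := by
        rw [pow_succ' a, pow_succ' b, pow_succ' (a * b)]
        generalize (a * b) ^ j = P
        generalize a ^ j = A
        generalize b ^ j = B
        group
      rw [e]
      have h1 := N.mul ((b ^ j)⁻¹ * (b⁻¹ * (a ^ j)⁻¹ * b * a ^ j) * b ^ j)
        ((a ^ j * b ^ j)⁻¹ * (a * b) ^ j)
      have hcomm := N.comm b (a ^ j) (by linarith) (by linarith)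
      have haj0 := N.nonneg (a ^ j)
      have h2 : N.C * N.n b * N.n (a ^ j) ≤ N.C * N.n b * ((j : ℝ) * N.n a) :=
        mul_le_mul_of_nonneg_left haj' (by positivity)
      have h3 : N.n (b⁻¹ * (a ^ j)⁻¹ * b * a ^ j) ≤ N.r := by
        refine hcomm.trans ?_
        have : N.C * N.n b ≤ 1 := by
          have : N.C * N.n b ≤ N.C * N.r := mul_le_mul_of_nonneg_left (by linarith) (by linarith)
          nlinarith
        nlinarith
      have h4 := conj_le N (b⁻¹ * (a ^ j)⁻¹ * b * a ^ j) (b ^ j) h3 (by linarith)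
      have h5 : N.n ((b ^ j)⁻¹ * (b⁻¹ * (a ^ j)⁻¹ * b * a ^ j) * b ^ j) ≤
          2 * (N.C * N.n b * ((j : ℝ) * N.n a)) := by linarith
      have h6 : 2 * N.C * (j : ℝ) ^ 2 * N.n a * N.n b + 2 * (N.C * N.n b * ((j : ℝ) * N.n a)) ≤
          2 * N.C * ((j + 1 : ℕ) : ℝ) ^ 2 * N.n a * N.n b := by
        push_cast
        have : 0 ≤ N.C * N.n a * N.n b := by positivity
        nlinarith
      linarith
  exact key k le_rfl

end A4b

theorem taskA4b.{u} : TaskA4b.{u} := by
  intro G _ _ _ N l h1 h2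
  exact prod_le N l h1 h2

theorem taskA4c.{u} : TaskA4c.{u} := by
  intro G _ _ _ N
  exact ⟨fun g h k hk hgh => pow_le N g h k hk hgh,
    fun a b k ha hb => mul_pow_le N a b k ha hb,
    fun a b ha hb => conj_le N a b ha hb⟩

end Crest.Agent.R217.A4_970
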