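import Crest.Agent.R217.SpecA_343

/-!
Row 217 (S0336), PART A, tasks A5a and A5b (helper839): ultrafilter limits of powers are
one-parameter subgroups with a derivative; every one-parameter subgroup has a derivative, which
determines it.
-/

set_option autoImplicit false

open Filter Topology BoundedContinuousFunction Metric
open scoped Topology BoundedContinuousFunction

namespace Crest.Agent.R217.A5_839

open SpecA343

variable {G : Type*} [Group G] [TopologicalSpace G] [IsTopologicalGroup G]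

/-- the norm of a Gleason function -/
noncomputable def nn (F : GleasonFn G) (g : G) : ℝ := ‖dd g F.φ‖

lemma nn_nonneg (F : GleasonFn G) (g : G) : 0 ≤ nn F g := norm_nonneg _

lemma nn_one (F : GleasonFn G) : nn F 1 = 0 := by simp [nn]

lemma nn_inv (F : GleasonFn G) (g : G) : nn F g⁻¹ = nn F g := norm_dd_inv _ _

lemma nn_mul (F : GleasonFn G) (g h : G) : nn F (g * h) ≤ nn F g + nn F h := norm_dd_mul_le _ _ _

lemma nn_inv_mul (F : GleasonFn G) (g h : G) : nn F (g⁻¹ * h) = ‖dd g F.φ - dd h F.φ‖ :=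
  norm_dd_inv_mul _ _ _

lemma nn_pow_le (F : GleasonFn G) (g : G) (k : ℕ) : nn F (g ^ k) ≤ k * nn F g := by
  induction k with
  | zero => simp [nn_one]
  | succ k ih =>
    rw [pow_succ]
    have := nn_mul F (g ^ k) g
    push_cast
    linarith

lemma nn_zpow_le (F : GleasonFn G) (g : G) (k : ℤ) : nn F (g ^ k) ≤ |(k : ℝ)| * nn F g := by
  obtain ⟨l, rfl | rfl⟩ := k.eq_nat_or_neg
  · simpa using nn_pow_le F g l
  · rw [zpow_neg, nn_inv]
    simpa using nn_pow_le F g l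

/-- first order expansion of powers -/
lemma pow_approx (F : GleasonFn G) (g : G) (k : ℕ) (hk : (k : ℝ) * nn F g ≤ F.r) :
    ‖dd (g ^ k) F.φ - (k : ℝ) • dd g F.φ‖ ≤ F.C * nn F g ^ 2 * ((k : ℝ) * (k - 1) / 2) := by
  induction k with
  | zero => simp
  | succ k ih =>
    have hn := nn_nonneg F g
    have hk' : (k : ℝ) * nn F g ≤ F.r := by
      push_cast at hk; nlinarith
    have hg : nn F g ≤ F.r := by
      push_cast at hk
      nlinarith [mul_nonneg (Nat.cast_nonneg (α := ℝ) k) hn]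
    have h1 := ih hk'
    have h2 : ‖dd g (dd (g ^ k) F.φ)‖ ≤ F.C * nn F g * (k * nn F g) := by
      have h3 := nn_pow_le F g k
      refine (F.second g (g ^ k) hg (h3.trans hk')).trans ?_
      exact mul_le_mul_of_nonneg_left h3 (mul_nonneg (by linarith [F.one_le_C]) hn)
    have h4 : dd (g ^ (k + 1)) F.φ - ((k + 1 : ℕ) : ℝ) • dd g F.φ =
        (dd (g ^ k) F.φ - (k : ℝ) • dd g F.φ) + dd g (dd (g ^ k) F.φ) := by
      rw [pow_succ', dd_mul]
      push_cast
      rw [add_smul, one_smul]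
      abel
    rw [h4]
    refine (norm_add_le _ _).trans ?_
    push_cast
    nlinarith

lemma inv_approx (F : GleasonFn G) (g : G) (hg : nn F g ≤ F.r) :
    ‖dd g⁻¹ F.φ + dd g F.φ‖ ≤ F.C * nn F g ^ 2 := by
  have h1 : dd g⁻¹ F.φ + dd g F.φ = - dd g⁻¹ (dd g F.φ) := by
    have := dd_mul g⁻¹ g F.φ
    rw [inv_mul_cancel, dd_one] at this
    rw [eq_neg_iff_add_eq_zero]
    exact this.symm
  rw [h1, norm_neg]
  have h2 := F.second g⁻¹ g (by rw [norm_dd_inv]; exact hg) hg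
  rw [norm_dd_inv g F.φ] at h2
  calc ‖dd g⁻¹ (dd g F.φ)‖ ≤ F.C * ‖dd g F.φ‖ * ‖dd g F.φ‖ := h2
    _ = F.C * nn F g ^ 2 := by unfold nn; ring

lemma zpow_approx (F : GleasonFn G) (g : G) (k : ℤ) (hk : |(k : ℝ)| * nn F g ≤ F.r) :
    ‖dd (g ^ k) F.φ - (k : ℝ) • dd g F.φ‖ ≤ F.C * (k * nn F g) ^ 2 := by
  have hn := nn_nonneg F g
  have hC : 0 ≤ F.C * nn F g ^ 2 := mul_nonneg (by linarith [F.one_le_C]) (sq_nonneg _)
  obtain ⟨l, rfl | rfl⟩ := k.eq_nat_or_neg
  · have h0 : (0 : ℝ) ≤ l := Nat.cast_nonneg l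
    have := pow_approx F g l (by simpa using hk)
    simp only [zpow_natCast, Int.cast_natCast] at this ⊢
    refine this.trans ?_
    have h1 : (l : ℝ) * (l - 1) / 2 ≤ (l : ℝ) ^ 2 := by nlinarith
    calc F.C * nn F g ^ 2 * ((l : ℝ) * (l - 1) / 2) ≤ F.C * nn F g ^ 2 * (l : ℝ) ^ 2 :=
          mul_le_mul_of_nonneg_left h1 hC
      _ = _ := by ring
  · have h0 : (0 : ℝ) ≤ l := Nat.cast_nonneg l
    have hk' : (l : ℝ) * nn F g ≤ F.r := by simpa using hk
    rcases Nat.eq_zero_or_pos l with rfl | hl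
    · simp
    have hl1 : (1 : ℝ) ≤ l := by exact_mod_cast hl
    have hg : nn F g ≤ F.r := by nlinarith
    have h1 := pow_approx F g⁻¹ l (by rw [nn_inv]; exact hk')
    rw [nn_inv] at h1
    have h2 := inv_approx F g hg
    have h3 : dd (g ^ (-(l : ℤ))) F.φ - ((-(l : ℤ) : ℤ) : ℝ) • dd g F.φ =
        (dd (g⁻¹ ^ l) F.φ - (l : ℝ) • dd g⁻¹ F.φ) + (l : ℝ) • (dd g⁻¹ F.φ + dd g F.φ) := by
      have : g ^ (-(l : ℤ)) = g⁻¹ ^ l := by simp
      have e : (-(l : ℝ)) • dd g F.φ = -((l : ℝ) • dd g F.φ) := by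
        ext x
        simp only [BoundedContinuousFunction.coe_smul, BoundedContinuousFunction.coe_neg,
          Pi.neg_apply, smul_eq_mul]
        ring
      rw [this, smul_add]
      push_cast
      rw [e]
      abel
    rw [h3]
    refine (norm_add_le _ _).trans ?_
    rw [norm_smul, Real.norm_natCast]
    have h4 : (l : ℝ) * ‖dd g⁻¹ F.φ + dd g F.φ‖ ≤ l * (F.C * nn F g ^ 2) :=
      mul_le_mul_of_nonneg_left h2 h0
    have h5 : (l : ℝ) * (l - 1) / 2 + l ≤ (l : ℝ) ^ 2 := by nlinarith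
    push_cast
    calc _ ≤ F.C * nn F g ^ 2 * ((l : ℝ) * (l - 1) / 2) + l * (F.C * nn F g ^ 2) :=
          add_le_add h1 h4
      _ = F.C * nn F g ^ 2 * ((l : ℝ) * (l - 1) / 2 + l) := by ring
      _ ≤ F.C * nn F g ^ 2 * (l : ℝ) ^ 2 := mul_le_mul_of_nonneg_left h5 hC
      _ = _ := by ring

lemma continuous_ddφ (F : GleasonFn G) : Continuous (fun g => dd g F.φ) := by
  rw [continuous_iff_continuousAt]
  intro g
  rw [ContinuousAt, Metric.tendsto_nhds]
  intro ε hε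
  have h1 : Tendsto (fun h => g⁻¹ * h) (𝓝 g) (𝓝 1) := by
    have : Tendsto (fun h => g⁻¹ * h) (𝓝 g) (𝓝 (g⁻¹ * g)) :=
      (continuous_const.mul continuous_id).tendsto g
    simpa using this
  filter_upwards [h1.eventually (F.small ε hε)] with h hh
  rw [dist_comm, dist_eq_norm, ← norm_dd_inv_mul]
  exact hh

lemma continuous_nn (F : GleasonFn G) : Continuous (nn F) := (continuous_ddφ F).norm

lemma tendsto_one_of_nn (F : GleasonFn G) {α : Type*} {l : Filter α} {u : α → G}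
    (h : Tendsto (fun j => nn F (u j)) l (𝓝 0)) : Tendsto u l (𝓝 1) := by
  intro V hV
  obtain ⟨ε, hε, hV'⟩ := F.nhds V hV
  exact (h.eventually (gt_mem_nhds hε)).mono fun j hj => hV' _ hj

lemma tendsto_of_nn (F : GleasonFn G) {α : Type*} {l : Filter α} {u : α → G} {x : G}
    (h : Tendsto (fun j => nn F (x⁻¹ * u j)) l (𝓝 0)) : Tendsto u l (𝓝 x) := by
  have h1 := (tendsto_one_of_nn F h).const_mul x
  simpa using h1

section limits

variable {F : GleasonFn G} {g : ℕ → G} {m : ℕ → ℕ} {L : ℝ} {l : Filter ℕ}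

lemma tendsto_nn_zero (hm : Tendsto m l atTop)
    (hL : ∀ᶠ j in l, (m j : ℝ) * nn F (g j) ≤ L) :
    Tendsto (fun j => nn F (g j)) l (𝓝 0) := by
  have h1 : Tendsto (fun j => L / (m j : ℝ)) l (𝓝 0) :=
    (tendsto_const_nhds).div_atTop (tendsto_natCast_atTop_atTop.comp hm)
  refine squeeze_zero' (Eventually.of_forall fun j => nn_nonneg F _) ?_ h1
  filter_upwards [hL, hm.eventually (eventually_ge_atTop 1)] with j hj hmj
  have : (0 : ℝ) < m j := by exact_mod_cast hmj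
  rw [le_div_iff₀ this]
  linarith

lemma abs_floor_le (x : ℝ) : |(⌊x⌋ : ℝ)| ≤ |x| + 1 := by
  have h1 := Int.floor_le x
  have h2 := Int.lt_floor_add_one x
  rw [abs_le]
  constructor
  · have := neg_abs_le x; linarith
  · have := le_abs_self x; linarith

lemma floor_nn_le (t : ℝ) (j : ℕ) : |(⌊(m j : ℝ) * t⌋ : ℝ)| * nn F (g j) ≤
    |t| * ((m j : ℝ) * nn F (g j)) + nn F (g j) := by
  have h1 := abs_floor_le ((m j : ℝ) * t)
  rw [abs_mul, abs_of_nonneg (Nat.cast_nonneg (α := ℝ) (m j))] at h1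
  have := mul_le_mul_of_nonneg_right h1 (nn_nonneg F (g j))
  linarith

/-- limits of powers exist along an ultrafilter -/
lemma exists_lim {𝒰 : Ultrafilter ℕ} (hm : Tendsto m 𝒰 atTop)
    (hL : ∀ᶠ j in (𝒰 : Filter ℕ), (m j : ℝ) * nn F (g j) ≤ L) (t : ℝ) :
    ∃ x : G, Tendsto (fun j => g j ^ ⌊(m j : ℝ) * t⌋) 𝒰 (𝓝 x) := by
  have hn0 := tendsto_nn_zero hm hL
  obtain ⟨K, hK⟩ := exists_nat_gt ((|t| * |L| + 1) / (F.r / 2))
  have hr := F.r_pos
  have hK0 : (0 : ℝ) < K := lt_of_le_of_lt (by positivity) hK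
  have hK0' : 0 < K := by exact_mod_cast hK0
  have hK1 : (|t| * |L| + 1) / K ≤ F.r / 2 := by
    rw [div_lt_iff₀ (by positivity)] at hK
    rw [div_le_iff₀ hK0]
    linarith
  set S : Set G := {x | ‖dd x F.φ‖ ≤ F.r} with hS
  have hSc : IsCompact ((fun p : G × G => p.1 ^ K * p.2) '' (S ×ˢ S)) :=
    (F.cpt.prod F.cpt).image (by fun_prop)
  have hmem : ∀ᶠ j in (𝒰 : Filter ℕ), g j ^ ⌊(m j : ℝ) * t⌋ ∈
      (fun p : G × G => p.1 ^ K * p.2) '' (S ×ˢ S) := by
    have hc1 : (0 : ℝ) < min 1 (F.r / 2) := by positivity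
    have hc2 : (0 : ℝ) < F.r / K := by positivity
    filter_upwards [hL, hn0.eventually (gt_mem_nhds hc1), hn0.eventually (gt_mem_nhds hc2)]
      with j hj1 hj2 hj3
    set z : ℤ := ⌊(m j : ℝ) * t⌋ with hz
    have hn := nn_nonneg F (g j)
    refine ⟨(g j ^ (z / (K : ℤ)), g j ^ (z % (K : ℤ))), ⟨?_, ?_⟩, ?_⟩
    · show nn F (g j ^ (z / (K : ℤ))) ≤ F.r
      refine (nn_zpow_le F _ _).trans ?_
      have h1 : |((z / (K : ℤ) : ℤ) : ℝ)| ≤ |(z : ℝ)| / K + 1 := by
        have h2 : ((z / (K : ℤ) : ℤ) : ℝ) = ⌊(z : ℝ) / K⌋ := by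
          rw [Int.floor_div_natCast, Int.floor_intCast]
        rw [h2]
        have := abs_floor_le ((z : ℝ) / K)
        rwa [abs_div, abs_of_pos hK0] at this
      have h3 := floor_nn_le (F := F) (g := g) (m := m) t j
      rw [← hz] at h3
      have h4 : |t| * ((m j : ℝ) * nn F (g j)) ≤ |t| * |L| :=
        mul_le_mul_of_nonneg_left (hj1.trans (le_abs_self L)) (abs_nonneg t)
      have h5 : nn F (g j) ≤ 1 := (hj2.le).trans (min_le_left _ _)
      have h6 : nn F (g j) ≤ F.r / 2 := (hj2.le).trans (min_le_right _ _)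
      calc |((z / (K : ℤ) : ℤ) : ℝ)| * nn F (g j) ≤ (|(z : ℝ)| / K + 1) * nn F (g j) :=
            mul_le_mul_of_nonneg_right h1 hn
        _ = (|(z : ℝ)| * nn F (g j)) / K + nn F (g j) := by ring
        _ ≤ (|t| * |L| + 1) / K + F.r / 2 := by
            gcongr
            linarith
        _ ≤ F.r := by linarith
    · show nn F (g j ^ (z % (K : ℤ))) ≤ F.r
      refine (nn_zpow_le F _ _).trans ?_
      have h1 : |((z % (K : ℤ) : ℤ) : ℝ)| ≤ K := by
        have h2 : 0 ≤ z % (K : ℤ) := Int.emod_nonneg _ (by exact_mod_cast hK0'.ne')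
        have h3 : z % (K : ℤ) < K := Int.emod_lt_of_pos _ (by exact_mod_cast hK0')
        rw [abs_of_nonneg (by exact_mod_cast h2)]
        exact_mod_cast h3.le
      calc _ ≤ (K : ℝ) * nn F (g j) := mul_le_mul_of_nonneg_right h1 hn
        _ ≤ (K : ℝ) * (F.r / K) := by gcongr
        _ = F.r := by field_simp
    · show (g j ^ (z / (K : ℤ))) ^ K * g j ^ (z % (K : ℤ)) = g j ^ z
      rw [← zpow_natCast, ← zpow_mul, ← zpow_add]
      congr 1
      rw [mul_comm]
      exact Int.mul_ediv_add_emod z K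
  obtain ⟨x, -, hx⟩ := hSc.ultrafilter_le_nhds' (𝒰.map (fun j => g j ^ ⌊(m j : ℝ) * t⌋)) hmem
  exact ⟨x, hx⟩

end limits

/-- TASK A5a -/
theorem taskA5a.{u} : TaskA5a.{u} := by
  intro G _ _ _ _ _ F 𝒰 g m L hm hL
  have hL' : ∀ᶠ j in (𝒰 : Filter ℕ), (m j : ℝ) * nn F (g j) ≤ L := hL
  have hn0 := tendsto_nn_zero hm hL'
  have hmR : Tendsto (fun j => (m j : ℝ)) 𝒰 atTop := tendsto_natCast_atTop_atTop.comp hm
  choose X hX using fun t => exists_lim (F := F) hm hL' t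
  -- basic estimate `nn (X t) ≤ |t| |L|`
  have hXle : ∀ t, nn F (X t) ≤ |t| * |L| := by
    intro t
    have h1 : Tendsto (fun j => nn F (g j ^ ⌊(m j : ℝ) * t⌋)) 𝒰 (𝓝 (nn F (X t))) :=
      ((continuous_nn F).tendsto _).comp (hX t)
    have h2 : Tendsto (fun j => |t| * |L| + nn F (g j)) 𝒰 (𝓝 (|t| * |L| + 0)) :=
      tendsto_const_nhds.add hn0
    rw [add_zero] at h2
    refine le_of_tendsto_of_tendsto h1 h2 ?_
    filter_upwards [hL'] with j hj
    refine (nn_zpow_le F _ _).trans ((floor_nn_le t j).trans ?_)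
    have : |t| * ((m j : ℝ) * nn F (g j)) ≤ |t| * |L| :=
      mul_le_mul_of_nonneg_left (hj.trans (le_abs_self L)) (abs_nonneg t)
    linarith
  -- additivity
  have hXadd : ∀ s t, X (s + t) = X s * X t := by
    intro s t
    refine tendsto_nhds_unique (hX (s + t)) ?_
    have h1 : Tendsto (fun j => g j ^ (⌊(m j : ℝ) * (s + t)⌋ - ⌊(m j : ℝ) * s⌋ -
        ⌊(m j : ℝ) * t⌋)) 𝒰 (𝓝 1) := by
      apply tendsto_one_of_nn F
      refine squeeze_zero (fun j => nn_nonneg F _) (fun j => ?_) hn0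
      refine (nn_zpow_le F _ _).trans ?_
      have h2 : |((⌊(m j : ℝ) * (s + t)⌋ - ⌊(m j : ℝ) * s⌋ - ⌊(m j : ℝ) * t⌋ : ℤ) : ℝ)| ≤ 1 := by
        have e1 := Int.le_floor_add ((m j : ℝ) * s) ((m j : ℝ) * t)
        have e2 := Int.le_floor_add_floor ((m j : ℝ) * s) ((m j : ℝ) * t)
        rw [← mul_add] at e1 e2
        rw [abs_le]
        constructor
        · have : (-1 : ℤ) ≤ ⌊(m j : ℝ) * (s + t)⌋ - ⌊(m j : ℝ) * s⌋ - ⌊(m j : ℝ) * t⌋ := by omega
          exact_mod_cast this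
        · have : ⌊(m j : ℝ) * (s + t)⌋ - ⌊(m j : ℝ) * s⌋ - ⌊(m j : ℝ) * t⌋ ≤ 1 := by omega
          exact_mod_cast this
      calc _ ≤ 1 * nn F (g j) := mul_le_mul_of_nonneg_right h2 (nn_nonneg F _)
        _ = _ := one_mul _
    have h3 := ((hX s).mul (hX t)).mul h1
    rw [mul_one] at h3
    refine h3.congr fun j => ?_
    rw [← zpow_add, ← zpow_add]
    congr 1
    ring
  have hX0 : X 0 = 1 := by
    have := hXadd 0 0
    rw [add_zero] at this
    exact (mul_eq_left.mp this.symm)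
  have hXcont : Continuous X := by
    rw [continuous_iff_continuousAt]
    intro t
    apply tendsto_of_nn F
    have h1 : ∀ s, (X t)⁻¹ * X s = X (s - t) := by
      intro s
      have h2 : s = t + (s - t) := by ring
      rw [inv_mul_eq_iff_eq_mul, ← hXadd, ← h2]
    simp only [h1]
    have h2 : Tendsto (fun s : ℝ => |s - t| * |L|) (𝓝 t) (𝓝 0) := by
      have : Tendsto (fun s : ℝ => |s - t| * |L|) (𝓝 t) (𝓝 (|t - t| * |L|)) := by
        apply Continuous.tendsto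
        fun_prop
      simpa using this
    exact squeeze_zero (fun s => nn_nonneg F _) (fun s => hXle _) h2
  -- the derivative: the family is Cauchy
  have hconv : ∀ t, Tendsto (fun j => dd (g j ^ ⌊(m j : ℝ) * t⌋) F.φ) 𝒰 (𝓝 (dd (X t) F.φ)) :=
    fun t => ((continuous_ddφ F).tendsto _).comp (hX t)
  have hfl : ∀ t : ℝ, Tendsto (fun j => ((m j : ℝ) * t - ⌊(m j : ℝ) * t⌋) * nn F (g j)) 𝒰
      (𝓝 0) := by
    intro t
    refine squeeze_zero (fun j => mul_nonneg ?_ (nn_nonneg F _)) (fun j => ?_) hn0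
    · have := Int.floor_le ((m j : ℝ) * t); linarith
    · have h1 := Int.lt_floor_add_one ((m j : ℝ) * t)
      calc _ ≤ 1 * nn F (g j) := mul_le_mul_of_nonneg_right (by linarith) (nn_nonneg F _)
        _ = _ := one_mul _
  have hsm : ∀ t : ℝ, Tendsto (fun j => (⌊(m j : ℝ) * t⌋ : ℝ) • dd (g j) F.φ -
      t • ((m j : ℝ) • dd (g j) F.φ)) 𝒰 (𝓝 0) := by
    intro t
    rw [tendsto_zero_iff_norm_tendsto_zero]
    refine (hfl t).congr fun j => ?_
    have e : (⌊(m j : ℝ) * t⌋ : ℝ) • dd (g j) F.φ - t • ((m j : ℝ) • dd (g j) F.φ) =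
        ((⌊(m j : ℝ) * t⌋ : ℝ) - m j * t) • dd (g j) F.φ := by
      ext x
      simp only [BoundedContinuousFunction.coe_smul, BoundedContinuousFunction.coe_sub,
          Pi.sub_apply, smul_eq_mul]
      ring
    rw [e, norm_smul, Real.norm_eq_abs, abs_sub_comm]
    rw [abs_of_nonneg (by have := Int.floor_le ((m j : ℝ) * t); linarith)]
    rfl
  have hcauchy : Cauchy ((𝒰 : Filter ℕ).map (fun j => (m j : ℝ) • dd (g j) F.φ)) := by
    rw [Metric.cauchy_iff]
    refine ⟨inferInstance, fun ε hε => ?_⟩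
    -- choose `t`
    obtain ⟨t, ht0, ht1, ht2⟩ : ∃ t : ℝ, 0 < t ∧ t * (|L| + 1) ≤ F.r ∧
        F.C * t * (|L| + 1) ^ 2 ≤ ε / 8 := by
      have hC := F.one_le_C
      have hr := F.r_pos
      have hLp : 0 < |L| + 1 := by positivity
      refine ⟨min (F.r / (|L| + 1)) (ε / 8 / (F.C * (|L| + 1) ^ 2)), by positivity, ?_, ?_⟩
      · calc _ ≤ F.r / (|L| + 1) * (|L| + 1) := by
              gcongr; exact min_le_left _ _
          _ = F.r := by field_simp
      · have h0 : 0 < F.C * (|L| + 1) ^ 2 := by positivity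
        calc F.C * min (F.r / (|L| + 1)) (ε / 8 / (F.C * (|L| + 1) ^ 2)) * (|L| + 1) ^ 2
            = (F.C * (|L| + 1) ^ 2) * min (F.r / (|L| + 1)) (ε / 8 / (F.C * (|L| + 1) ^ 2)) := by
              ring
          _ ≤ (F.C * (|L| + 1) ^ 2) * (ε / 8 / (F.C * (|L| + 1) ^ 2)) := by
              gcongr; exact min_le_right _ _
          _ = ε / 8 := by field_simp
    have hev : ∀ᶠ j in (𝒰 : Filter ℕ),
        dist ((m j : ℝ) • dd (g j) F.φ) (t⁻¹ • dd (X t) F.φ) < ε / 2 := by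
      have hte : 0 < t * (ε / 8) := by positivity
      have e1 := (hconv t).eventually (Metric.ball_mem_nhds _ hte)
      have e2 := (hsm t).eventually (Metric.ball_mem_nhds _ hte)
      have e3 := hn0.eventually (gt_mem_nhds (show (0 : ℝ) < t by exact ht0))
      filter_upwards [e1, e2, e3, hL'] with j h1 h2 h3 h4
      have h5 : |(⌊(m j : ℝ) * t⌋ : ℝ)| * nn F (g j) ≤ t * (|L| + 1) := by
        refine (floor_nn_le t j).trans ?_
        rw [abs_of_pos ht0]
        have : t * ((m j : ℝ) * nn F (g j)) ≤ t * |L| :=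
          mul_le_mul_of_nonneg_left (h4.trans (le_abs_self L)) ht0.le
        linarith
      have h6 := zpow_approx F (g j) ⌊(m j : ℝ) * t⌋ (h5.trans ht1)
      have h7 : F.C * ((⌊(m j : ℝ) * t⌋ : ℝ) * nn F (g j)) ^ 2 ≤ t * (ε / 8) := by
        have h8 : ((⌊(m j : ℝ) * t⌋ : ℝ) * nn F (g j)) ^ 2 ≤ (t * (|L| + 1)) ^ 2 := by
          rw [sq_le_sq, abs_mul, abs_of_nonneg (nn_nonneg F (g j))]
          rw [abs_of_nonneg (by positivity : (0:ℝ) ≤ t * (|L| + 1))]
          exact h5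
        have hC := F.one_le_C
        calc _ ≤ F.C * (t * (|L| + 1)) ^ 2 := mul_le_mul_of_nonneg_left h8 (by linarith)
          _ = t * (F.C * t * (|L| + 1) ^ 2) := by ring
          _ ≤ t * (ε / 8) := mul_le_mul_of_nonneg_left ht2 ht0.le
      rw [dist_eq_norm] at h1
      rw [dist_eq_norm, sub_zero] at h2
      have h9 : t • ((m j : ℝ) • dd (g j) F.φ - t⁻¹ • dd (X t) F.φ) =
          -((⌊(m j : ℝ) * t⌋ : ℝ) • dd (g j) F.φ - t • ((m j : ℝ) • dd (g j) F.φ)) -
          (dd (g j ^ ⌊(m j : ℝ) * t⌋) F.φ - (⌊(m j : ℝ) * t⌋ : ℝ) • dd (g j) F.φ) +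
          (dd (g j ^ ⌊(m j : ℝ) * t⌋) F.φ - dd (X t) F.φ) := by
        rw [smul_sub, smul_smul t t⁻¹, mul_inv_cancel₀ ht0.ne', one_smul]
        abel
      have h10 : t * ‖(m j : ℝ) • dd (g j) F.φ - t⁻¹ • dd (X t) F.φ‖ < t * (ε / 2) := by
        have : t * ‖(m j : ℝ) • dd (g j) F.φ - t⁻¹ • dd (X t) F.φ‖ =
            ‖t • ((m j : ℝ) • dd (g j) F.φ - t⁻¹ • dd (X t) F.φ)‖ := by
          rw [norm_smul, Real.norm_of_nonneg ht0.le]
        rw [this, h9]
        refine (norm_add_le _ _).trans_lt ?_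
        have h11 := norm_sub_le
          (-((⌊(m j : ℝ) * t⌋ : ℝ) • dd (g j) F.φ - t • ((m j : ℝ) • dd (g j) F.φ)))
          (dd (g j ^ ⌊(m j : ℝ) * t⌋) F.φ - (⌊(m j : ℝ) * t⌋ : ℝ) • dd (g j) F.φ)
        rw [norm_neg] at h11
        nlinarith
      rw [dist_eq_norm]
      exact lt_of_mul_lt_mul_left h10 ht0.le
    refine ⟨ball (t⁻¹ • dd (X t) F.φ) (ε / 2), ?_, ?_⟩
    · exact hev
    · intro x hx y hy
      rw [mem_ball] at hx hy
      calc dist x y ≤ dist x (t⁻¹ • dd (X t) F.φ) + dist y (t⁻¹ • dd (X t) F.φ) :=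
            dist_triangle_right _ _ _
        _ < ε := by linarith
  obtain ⟨D, hD⟩ := CompleteSpace.complete hcauchy
  have hD' : Tendsto (fun j => (m j : ℝ) • dd (g j) F.φ) 𝒰 (𝓝 D) := hD
  have hDn : Tendsto (fun j => (m j : ℝ) * nn F (g j)) 𝒰 (𝓝 ‖D‖) := by
    refine hD'.norm.congr fun j => ?_
    rw [norm_smul, Real.norm_natCast]
    rfl
  have hfn : ∀ t : ℝ, Tendsto (fun j => (⌊(m j : ℝ) * t⌋ : ℝ) * nn F (g j)) 𝒰
      (𝓝 (t * ‖D‖)) := by
    intro t
    have h1 : Tendsto (fun j => t * ((m j : ℝ) * nn F (g j)) -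
        ((m j : ℝ) * t - ⌊(m j : ℝ) * t⌋) * nn F (g j)) 𝒰 (𝓝 (t * ‖D‖ - 0)) :=
      (hDn.const_mul t).sub (hfl t)
    rw [sub_zero] at h1
    refine h1.congr fun j => ?_
    ring
  have hfD : ∀ t : ℝ, Tendsto (fun j => (⌊(m j : ℝ) * t⌋ : ℝ) • dd (g j) F.φ) 𝒰
      (𝓝 (t • D)) := by
    intro t
    have h1 : Tendsto (fun j => ((⌊(m j : ℝ) * t⌋ : ℝ) • dd (g j) F.φ -
      t • ((m j : ℝ) • dd (g j) F.φ)) + t • ((m j : ℝ) • dd (g j) F.φ)) 𝒰 (𝓝 (0 + t • D)) :=
      (hsm t).add (hD'.const_smul t)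
    rw [zero_add] at h1
    refine h1.congr fun j => ?_
    abel
  have hlt : ∀ t : ℝ, |t| * ‖D‖ < F.r →
      ‖dd (X t) F.φ - t • D‖ ≤ F.C * (t * ‖D‖) ^ 2 := by
    intro t ht
    have h1 : Tendsto (fun j => ‖dd (g j ^ ⌊(m j : ℝ) * t⌋) F.φ -
        (⌊(m j : ℝ) * t⌋ : ℝ) • dd (g j) F.φ‖) 𝒰 (𝓝 ‖dd (X t) F.φ - t • D‖) :=
      ((hconv t).sub (hfD t)).norm
    have h2 : Tendsto (fun j => F.C * ((⌊(m j : ℝ) * t⌋ : ℝ) * nn F (g j)) ^ 2) 𝒰
        (𝓝 (F.C * (t * ‖D‖) ^ 2)) := ((hfn t).pow 2).const_mul _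
    refine le_of_tendsto_of_tendsto h1 h2 ?_
    have h3 : Tendsto (fun j => |(⌊(m j : ℝ) * t⌋ : ℝ) * nn F (g j)|) 𝒰 (𝓝 (|t * ‖D‖|)) :=
      (hfn t).abs
    rw [abs_mul, abs_norm] at h3
    filter_upwards [h3.eventually (gt_mem_nhds ht)] with j hj
    rw [abs_mul, abs_of_nonneg (nn_nonneg F (g j))] at hj
    exact zpow_approx F (g j) _ hj.le
  refine ⟨⟨X, hXcont, hXadd⟩, D, ⟨fun t => ?_, fun t ht => ?_⟩, hD', hX⟩
  · have h1 : Tendsto (fun j => nn F (g j ^ ⌊(m j : ℝ) * t⌋)) 𝒰 (𝓝 (nn F (X t))) :=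
      ((continuous_nn F).tendsto _).comp (hX t)
    have h3 : Tendsto (fun j => |(⌊(m j : ℝ) * t⌋ : ℝ) * nn F (g j)|) 𝒰 (𝓝 (|t * ‖D‖|)) :=
      (hfn t).abs
    rw [abs_mul, abs_norm] at h3
    refine le_of_tendsto_of_tendsto h1 h3 (Eventually.of_forall fun j => ?_)
    show nn F (g j ^ ⌊(m j : ℝ) * t⌋) ≤ |(⌊(m j : ℝ) * t⌋ : ℝ) * nn F (g j)|
    rw [abs_mul, abs_of_nonneg (nn_nonneg F (g j))]
    exact nn_zpow_le F _ _
  · show ‖dd (X t) F.φ - t • D‖ ≤ F.C * (t * ‖D‖) ^ 2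
    -- approximate from below
    have hs : Tendsto (fun s : ℝ => s * t) (𝓝[<] 1) (𝓝 t) := by
      have : Tendsto (fun s : ℝ => s * t) (𝓝 1) (𝓝 (1 * t)) :=
        (continuous_id.mul continuous_const).tendsto _
      rw [one_mul] at this
      exact this.mono_left nhdsWithin_le_nhds
    have hc1 : Continuous (fun t : ℝ => ‖dd (X t) F.φ - t • D‖) :=
      (((continuous_ddφ F).comp hXcont).sub (continuous_id.smul continuous_const)).norm
    have hc2 : Continuous (fun t : ℝ => F.C * (t * ‖D‖) ^ 2) := by fun_prop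
    refine le_of_tendsto_of_tendsto ((hc1.tendsto t).comp hs) ((hc2.tendsto t).comp hs) ?_
    have hpos : ∀ᶠ s in 𝓝[<] (1 : ℝ), 0 < s :=
      nhdsWithin_le_nhds (lt_mem_nhds one_pos)
    filter_upwards [self_mem_nhdsWithin, hpos] with s hs1 hs0
    apply hlt
    rw [abs_mul, abs_of_pos hs0, mul_assoc]
    have hs1' : s < 1 := hs1
    rcases (mul_nonneg (abs_nonneg t) (norm_nonneg D)).eq_or_lt with h | h
    · rw [← h, mul_zero]; exact F.r_pos
    · calc s * (|t| * ‖D‖) < 1 * (|t| * ‖D‖) := mul_lt_mul_of_pos_right hs1' h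
        _ ≤ F.r := by rw [one_mul]; exact ht

/-! ## one-parameter subgroups -/

lemma OP_zero {G : Type*} [Group G] [TopologicalSpace G] (X : OP G) : X.X 0 = 1 := by
  have := X.add 0 0
  rw [add_zero] at this
  exact mul_eq_left.mp this.symm

lemma OP_neg {G : Type*} [Group G] [TopologicalSpace G] (X : OP G) (s : ℝ) :
    X.X (-s) = (X.X s)⁻¹ := by
  rw [eq_inv_iff_mul_eq_one, ← X.add, neg_add_cancel, OP_zero]

lemma OP_pow {G : Type*} [Group G] [TopologicalSpace G] (X : OP G) (s : ℝ) (k : ℕ) :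
    X.X s ^ k = X.X (k * s) := by
  induction k with
  | zero => simp [OP_zero]
  | succ k ih =>
    rw [pow_succ, ih, ← X.add]
    congr 1
    push_cast
    ring

lemma OP_zpow {G : Type*} [Group G] [TopologicalSpace G] (X : OP G) (s : ℝ) (k : ℤ) :
    X.X s ^ k = X.X (k * s) := by
  obtain ⟨l, rfl | rfl⟩ := k.eq_nat_or_neg
  · simpa using OP_pow X s l
  · rw [zpow_neg, zpow_natCast, OP_pow, ← OP_neg]
    congr 1
    push_cast
    ring

lemma eq_one_of_nn [T2Space G] (F : GleasonFn G) {g : G} (h : nn F g = 0) : g = 1 := by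
  by_contra hne
  obtain ⟨ε, hε, hV⟩ := F.nhds {g}ᶜ (isClosed_singleton.isOpen_compl.mem_nhds
    (by simpa using (Ne.symm hne)))
  exact hV g (by rw [show ‖dd g F.φ‖ = 0 from h]; exact hε) rfl

lemma nn_conj_le (F : GleasonFn G) (g w : G) (hg : nn F g ≤ F.r) (hw : nn F w ≤ F.r) :
    nn F (g⁻¹ * w * g) ≤ (1 + 2 * F.C * nn F g) * nn F w := by
  have h1 : g⁻¹ * w * g = w * ((g * w)⁻¹ * (w * g)) := by group
  have h2 : nn F ((g * w)⁻¹ * (w * g)) ≤ 2 * F.C * nn F g * nn F w := by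
    rw [nn_inv_mul, dd_mul, dd_mul]
    have h3 : dd g F.φ + dd w F.φ + dd g (dd w F.φ) - (dd w F.φ + dd g F.φ + dd w (dd g F.φ)) =
        dd g (dd w F.φ) - dd w (dd g F.φ) := by abel
    rw [h3]
    have h4 := F.second g w hg hw
    have h5 := F.second w g hw hg
    refine (norm_sub_le _ _).trans ?_
    unfold nn
    nlinarith
  rw [h1]
  refine (nn_mul F _ _).trans ?_
  linarith

/-- comparison of powers -/
lemma pow_diff (F : GleasonFn G) (g h : G) (k : ℕ) (hg : (k : ℝ) * nn F g ≤ F.r / 2)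
    (hh : (k : ℝ) * nn F h ≤ F.r / 2) :
    nn F ((g ^ k)⁻¹ * h ^ k) ≤ 2 * k * nn F (g⁻¹ * h) := by
  have hn := nn_nonneg F g
  have hnh := nn_nonneg F h
  have hC := F.one_le_C
  have hr := F.r_pos
  have hCr := F.Cr
  set δ := nn F (g⁻¹ * h) with hδ
  have hδ0 : 0 ≤ δ := nn_nonneg F _
  set a := 2 * F.C * nn F g with ha
  have ha0 : 0 ≤ a := by positivity
  have hak : a * k ≤ 1 / 16 := by
    rw [ha]
    have : F.C * ((k : ℝ) * nn F g) ≤ F.C * (F.r / 2) := mul_le_mul_of_nonneg_left hg (by linarith)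
    nlinarith
  have key : ∀ i : ℕ, i ≤ k → nn F ((g ^ i)⁻¹ * h ^ i) ≤ δ * (i * (1 + 2 * a * i)) := by
    intro i
    induction i with
    | zero => intro _; simp [nn_one]
    | succ i ih =>
      intro hi
      have h1 := ih (by omega)
      have hik : ((i + 1 : ℕ) : ℝ) ≤ k := by exact_mod_cast hi
      have hi0 : (0 : ℝ) ≤ i := Nat.cast_nonneg i
      push_cast at hik
      have hai : a * i ≤ 1 / 16 := by nlinarith
      have e1 : (g ^ (i + 1))⁻¹ * h ^ (i + 1) = (g⁻¹ * ((g ^ i)⁻¹ * h ^ i) * g) * (g⁻¹ * h) := by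
        rw [pow_succ, pow_succ]; group
      have hgr : nn F g ≤ F.r := by nlinarith
      have hwr : nn F ((g ^ i)⁻¹ * h ^ i) ≤ F.r := by
        have e2 := nn_mul F (g ^ i)⁻¹ (h ^ i)
        rw [nn_inv] at e2
        have e3 := nn_pow_le F g i
        have e4 := nn_pow_le F h i
        nlinarith
      have e5 := nn_conj_le F g _ hgr hwr
      have e6 := nn_mul F (g⁻¹ * ((g ^ i)⁻¹ * h ^ i) * g) (g⁻¹ * h)
      rw [e1]
      refine e6.trans ?_
      have e7 : (1 + a) * nn F ((g ^ i)⁻¹ * h ^ i) ≤ (1 + a) * (δ * (i * (1 + 2 * a * i))) :=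
        mul_le_mul_of_nonneg_left h1 (by linarith)
      have e8 : (1 + a) * (δ * (i * (1 + 2 * a * i))) + δ ≤
          δ * (((i : ℝ) + 1) * (1 + 2 * a * ((i : ℝ) + 1))) := by
        have e9 : (1 + a) * ((i : ℝ) * (1 + 2 * a * i)) + 1 ≤
            ((i : ℝ) + 1) * (1 + 2 * a * ((i : ℝ) + 1)) := by
          have e10 : (a * i) * (a * i) ≤ 1 * (a * i) :=
            mul_le_mul_of_nonneg_right (by linarith) (by positivity)
          nlinarith [mul_nonneg ha0 hi0]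
        calc _ = δ * ((1 + a) * ((i : ℝ) * (1 + 2 * a * i)) + 1) := by ring
          _ ≤ _ := mul_le_mul_of_nonneg_left e9 hδ0
      push_cast
      have e11 : nn F (g⁻¹ * ((g ^ i)⁻¹ * h ^ i) * g) ≤
        (1 + a) * nn F ((g ^ i)⁻¹ * h ^ i) := by rw [ha]; exact e5
      linarith
  refine (key k le_rfl).trans ?_
  have hk0 : (0 : ℝ) ≤ k := Nat.cast_nonneg k
  have : 1 + 2 * a * k ≤ 2 := by linarith
  calc δ * (k * (1 + 2 * a * k)) ≤ δ * (k * 2) := by gcongr
    _ = _ := by ring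

/-- escape property -/
lemma esc (F : GleasonFn G) (g : G) (k : ℕ) (h : ∀ i ≤ k, nn F (g ^ i) ≤ F.r) :
    (k : ℝ) * nn F g ≤ 2 * nn F (g ^ k) := by
  rcases Nat.eq_zero_or_pos k with rfl | hk
  · simp [nn_one]
  have hn := nn_nonneg F g
  have hC := F.one_le_C
  have hr := F.r_pos
  have hCr := F.Cr
  have hg : nn F g ≤ F.r := by simpa using h 1 hk
  have key : ∀ i : ℕ, i ≤ k → ‖dd (g ^ i) F.φ - (i : ℝ) • dd g F.φ‖ ≤ i * nn F g * (F.C * F.r) := by
    intro i
    induction i with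
    | zero => intro _; simp
    | succ i ih =>
      intro hi
      have h1 := ih (by omega)
      have h2 := F.second g (g ^ i) hg (h i (by omega))
      have h3 : F.C * ‖dd g F.φ‖ * ‖dd (g ^ i) F.φ‖ ≤ nn F g * (F.C * F.r) := by
        have : ‖dd (g ^ i) F.φ‖ ≤ F.r := h i (by omega)
        calc _ ≤ F.C * ‖dd g F.φ‖ * F.r := by gcongr
          _ = _ := by unfold nn; ring
      have h4 : dd (g ^ (i + 1)) F.φ - ((i + 1 : ℕ) : ℝ) • dd g F.φ =
          (dd (g ^ i) F.φ - (i : ℝ) • dd g F.φ) + dd g (dd (g ^ i) F.φ) := by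
        rw [pow_succ', dd_mul]
        push_cast
        rw [add_smul, one_smul]
        abel
      rw [h4]
      refine (norm_add_le _ _).trans ?_
      push_cast
      linarith
  have h1 := key k le_rfl
  have h2 : (k : ℝ) * nn F g ≤ ‖dd (g ^ k) F.φ - (k : ℝ) • dd g F.φ‖ + nn F (g ^ k) := by
    have h3 : ‖(k : ℝ) • dd g F.φ‖ = (k : ℝ) * nn F g := by
      rw [norm_smul, Real.norm_natCast]; rfl
    rw [← h3]
    have h4 : (k : ℝ) • dd g F.φ = dd (g ^ k) F.φ - (dd (g ^ k) F.φ - (k : ℝ) • dd g F.φ) := by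
      abel
    calc ‖(k : ℝ) • dd g F.φ‖ = ‖dd (g ^ k) F.φ - (dd (g ^ k) F.φ - (k : ℝ) • dd g F.φ)‖ := by
          rw [← h4]
      _ ≤ ‖dd (g ^ k) F.φ‖ + ‖dd (g ^ k) F.φ - (k : ℝ) • dd g F.φ‖ := norm_sub_le _ _
      _ = _ := by unfold nn; ring
  have h5 : (k : ℝ) * nn F g * (F.C * F.r) ≤ (k : ℝ) * nn F g * (1 / 16) := by
    gcongr
    linarith
  nlinarith

lemma hasD_congr {F : GleasonFn G} {X Y : OP G} {D : G →ᵇ ℝ} (h : X.X = Y.X) (hX : HasD F X D) :
    HasD F Y D := by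
  unfold HasD at hX ⊢
  rw [← h]
  exact hX

/-- TASK A5b -/
theorem taskA5b.{u} : TaskA5b.{u} := by
  intro G _ _ _ _ _ F
  refine ⟨fun X => ?_, fun X Y D hX hY => ?_⟩
  · -- existence
    have hr := F.r_pos
    have hc : Tendsto (fun s => nn F (X.X s)) (𝓝 0) (𝓝 0) := by
      have : Tendsto (fun s => nn F (X.X s)) (𝓝 0) (𝓝 (nn F (X.X 0))) :=
        ((continuous_nn F).comp X.cont).tendsto 0
      rwa [OP_zero, nn_one] at this
    obtain ⟨t₁, ht₁, hball⟩ := Metric.eventually_nhds_iff.mp (hc.eventually (gt_mem_nhds hr))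
    obtain ⟨t₀, ht₀, hsmall⟩ : ∃ t₀ : ℝ, 0 < t₀ ∧ ∀ s, |s| ≤ t₀ → nn F (X.X s) ≤ F.r := by
      refine ⟨t₁ / 2, by positivity, fun s hs => (hball ?_).le⟩
      rw [Real.dist_eq, sub_zero]
      linarith
    have hm : Tendsto (fun j : ℕ => j + 1) (hyperfilter ℕ : Filter ℕ) atTop :=
      (tendsto_add_atTop_nat 1).mono_left Nat.hyperfilter_le_atTop
    have hmR : Tendsto (fun j : ℕ => ((j + 1 : ℕ) : ℝ)) (hyperfilter ℕ : Filter ℕ) atTop :=
      tendsto_natCast_atTop_atTop.comp hm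
    have hL : ∀ᶠ j in (hyperfilter ℕ : Filter ℕ),
        ((j + 1 : ℕ) : ℝ) * ‖dd (X.X (1 / ((j + 1 : ℕ) : ℝ))) F.φ‖ ≤ 4 * F.r / t₀ := by
      filter_upwards [hmR.eventually (eventually_ge_atTop (2 / t₀))] with j hj
      set M : ℝ := ((j + 1 : ℕ) : ℝ) with hM
      have hM0 : 0 < M := by rw [hM]; positivity
      have h1 := esc F (X.X (1 / M)) ⌊t₀ * M⌋₊ (fun i hi => by
        rw [OP_pow]
        apply hsmall
        have h2 : (i : ℝ) ≤ t₀ * M := by
          have h3 : (i : ℝ) ≤ (⌊t₀ * M⌋₊ : ℝ) := by exact_mod_cast hi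
          exact h3.trans (Nat.floor_le (by positivity))
        rw [abs_of_nonneg (by positivity), mul_one_div, div_le_iff₀ hM0]
        exact h2)
      have h4 : nn F (X.X (1 / M) ^ ⌊t₀ * M⌋₊) ≤ F.r := by
        rw [OP_pow]
        apply hsmall
        rw [abs_of_nonneg (by positivity), mul_one_div, div_le_iff₀ hM0]
        exact Nat.floor_le (by positivity)
      have h5 : t₀ * M / 2 ≤ (⌊t₀ * M⌋₊ : ℝ) := by
        have h6 := Nat.lt_floor_add_one (t₀ * M)
        have h7 : 2 ≤ t₀ * M := by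
          rw [div_le_iff₀ ht₀] at hj
          linarith
        linarith
      have h8 := nn_nonneg F (X.X (1 / M))
      have h9 : t₀ * M / 2 * nn F (X.X (1 / M)) ≤ 2 * F.r := by
        calc _ ≤ (⌊t₀ * M⌋₊ : ℝ) * nn F (X.X (1 / M)) := by gcongr
          _ ≤ _ := by linarith
      rw [le_div_iff₀ ht₀]
      show M * nn F (X.X (1 / M)) * t₀ ≤ 4 * F.r
      linarith
    obtain ⟨X', D, hD, -, hlim⟩ := taskA5a G F (hyperfilter ℕ)
      (fun j => X.X (1 / ((j + 1 : ℕ) : ℝ))) (fun j => j + 1) (4 * F.r / t₀) hm hL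
    refine ⟨D, hasD_congr ?_ hD⟩
    funext t
    refine tendsto_nhds_unique (hlim t) ?_
    have h1 : Tendsto (fun j : ℕ => (⌊((j + 1 : ℕ) : ℝ) * t⌋ : ℝ) * (1 / ((j + 1 : ℕ) : ℝ)))
        (hyperfilter ℕ : Filter ℕ) (𝓝 t) := by
      have h2 : Tendsto (fun j : ℕ => 1 / ((j + 1 : ℕ) : ℝ)) (hyperfilter ℕ : Filter ℕ) (𝓝 0) :=
        tendsto_const_nhds.div_atTop hmR
      have h3 : Tendsto (fun j : ℕ => t - 1 / ((j + 1 : ℕ) : ℝ)) (hyperfilter ℕ : Filter ℕ)
          (𝓝 t) := by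
        simpa using tendsto_const_nhds.sub h2
      refine tendsto_of_tendsto_of_tendsto_of_le_of_le h3 tendsto_const_nhds ?_ ?_
      · intro j
        have hM0 : (0 : ℝ) < ((j + 1 : ℕ) : ℝ) := by positivity
        have h4 := Int.lt_floor_add_one (((j + 1 : ℕ) : ℝ) * t)
        show t - 1 / ((j + 1 : ℕ) : ℝ) ≤ (⌊((j + 1 : ℕ) : ℝ) * t⌋ : ℝ) * (1 / ((j + 1 : ℕ) : ℝ))
        rw [mul_one_div, le_div_iff₀ hM0, sub_mul, one_div, inv_mul_cancel₀ hM0.ne']
        linarith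
      · intro j
        have hM0 : (0 : ℝ) < ((j + 1 : ℕ) : ℝ) := by positivity
        have h4 := Int.floor_le (((j + 1 : ℕ) : ℝ) * t)
        show (⌊((j + 1 : ℕ) : ℝ) * t⌋ : ℝ) * (1 / ((j + 1 : ℕ) : ℝ)) ≤ t
        rw [mul_one_div, div_le_iff₀ hM0]
        linarith
    refine ((X.cont.tendsto t).comp h1).congr fun j => ?_
    exact (OP_zpow X _ _).symm
  · -- uniqueness
    have hC := F.one_le_C
    have hr := F.r_pos
    have hloc : ∀ t : ℝ, |t| * ‖D‖ ≤ F.r / 2 → X.X t = Y.X t := by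
      intro t ht
      have h0 : nn F ((X.X t)⁻¹ * Y.X t) = 0 := by
        refine le_antisymm ?_ (nn_nonneg F _)
        have hlim : Tendsto (fun k : ℕ => 4 * F.C * (t * ‖D‖) ^ 2 / ((k + 1 : ℕ) : ℝ)) atTop
            (𝓝 0) :=
          tendsto_const_nhds.div_atTop (tendsto_natCast_atTop_atTop.comp
            (tendsto_add_atTop_nat 1))
        refine ge_of_tendsto' hlim fun k => ?_
        set M : ℝ := ((k + 1 : ℕ) : ℝ) with hM
        have hM0 : 0 < M := by rw [hM]; positivity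
        have hM1 : 1 ≤ M := by rw [hM]; push_cast; linarith [Nat.cast_nonneg (α := ℝ) k]
        have e1 : X.X t = X.X (t / M) ^ (k + 1) := by
          rw [OP_pow, ← hM]; congr 1; field_simp
        have e2 : Y.X t = Y.X (t / M) ^ (k + 1) := by
          rw [OP_pow, ← hM]; congr 1; field_simp
        have e3 : |t / M| * ‖D‖ ≤ F.r := by
          rw [abs_div, abs_of_pos hM0, div_mul_eq_mul_div, div_le_iff₀ hM0]
          nlinarith
        have h1 : M * nn F (X.X (t / M)) ≤ F.r / 2 := by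
          have := hX.1 (t / M)
          rw [abs_div, abs_of_pos hM0] at this
          calc M * nn F (X.X (t / M)) ≤ M * (|t| / M * ‖D‖) := by gcongr; exact this
            _ = |t| * ‖D‖ := by field_simp
            _ ≤ _ := ht
        have h2 : M * nn F (Y.X (t / M)) ≤ F.r / 2 := by
          have := hY.1 (t / M)
          rw [abs_div, abs_of_pos hM0] at this
          calc M * nn F (Y.X (t / M)) ≤ M * (|t| / M * ‖D‖) := by gcongr; exact this
            _ = |t| * ‖D‖ := by field_simp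
            _ ≤ _ := ht
        have h3 : nn F ((X.X (t / M))⁻¹ * Y.X (t / M)) ≤ 2 * F.C * (t / M * ‖D‖) ^ 2 := by
          rw [nn_inv_mul]
          have e4 := hX.2 (t / M) e3
          have e5 := hY.2 (t / M) e3
          have e6 : dd (X.X (t / M)) F.φ - dd (Y.X (t / M)) F.φ =
              (dd (X.X (t / M)) F.φ - (t / M) • D) - (dd (Y.X (t / M)) F.φ - (t / M) • D) := by
            abel
          rw [e6]
          refine (norm_sub_le _ _).trans ?_
          linarith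
        have h4 := pow_diff F (X.X (t / M)) (Y.X (t / M)) (k + 1) (by rw [← hM]; exact h1)
          (by rw [← hM]; exact h2)
        rw [e1, e2]
        refine h4.trans ?_
        rw [← hM]
        calc 2 * M * nn F ((X.X (t / M))⁻¹ * Y.X (t / M)) ≤
              2 * M * (2 * F.C * (t / M * ‖D‖) ^ 2) := by gcongr
          _ = 4 * F.C * (t * ‖D‖) ^ 2 / M := by field_simp; ring
      have := eq_one_of_nn F h0
      exact (inv_mul_eq_one.mp this)
    funext t
    obtain ⟨k, hk⟩ := exists_nat_gt (|t| * ‖D‖ / (F.r / 2))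
    have hk0 : (0 : ℝ) < k := lt_of_le_of_lt (by positivity) hk
    have h1 : X.X (t / k) = Y.X (t / k) := by
      apply hloc
      rw [abs_div, abs_of_pos hk0, div_mul_eq_mul_div, div_le_iff₀ hk0]
      rw [div_lt_iff₀ (by positivity)] at hk
      linarith
    have e1 : X.X t = X.X (t / k) ^ k := by
      rw [OP_pow]; congr 1; field_simp
    have e2 : Y.X t = Y.X (t / k) ^ k := by
      rw [OP_pow]; congr 1; field_simp
    rw [e1, e2, h1]

end Crest.Agent.R217.A5_839
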