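import Crest.Agent.R217.SpecA_343

/-!
Row 217, PART A: tasks A5a (ultrafilter limits of powers are one-parameter subgroups) and
A5b (every one-parameter subgroup has a derivative, which determines it).
-/

set_option autoImplicit false

open Filter Topology BoundedContinuousFunction Metric
open scoped Topology BoundedContinuousFunction

namespace Crest.Agent.R217.A5_947

open Crest.Agent.R217.SpecA343

section
variable {G : Type*} [Group G] [TopologicalSpace G] [IsTopologicalGroup G]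

/-- continuity of `g ↦ dd g φ` -/
lemma continuous_dd (F : GleasonFn G) : Continuous (fun g : G => dd g F.φ) := by
  rw [continuous_iff_continuousAt]
  intro g
  rw [ContinuousAt, Metric.tendsto_nhds]
  intro ε hε
  have h1 : Tendsto (fun h : G => g⁻¹ * h) (𝓝 g) (𝓝 1) := by
    have : Continuous (fun h : G => g⁻¹ * h) := by fun_prop
    simpa using this.tendsto g
  filter_upwards [h1.eventually (F.small ε hε)] with h hh
  rw [dist_comm, dist_eq_norm, ← norm_dd_inv_mul]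
  exact hh

lemma norm_dd_pow_le (g : G) (k : ℕ) (f : G →ᵇ ℝ) : ‖dd (g ^ k) f‖ ≤ k * ‖dd g f‖ := by
  induction k with
  | zero => simp
  | succ k ih =>
    rw [pow_succ]
    refine (norm_dd_mul_le _ _ _).trans ?_
    push_cast
    linarith

lemma norm_dd_zpow_le (g : G) (z : ℤ) (f : G →ᵇ ℝ) : ‖dd (g ^ z) f‖ ≤ |(z : ℝ)| * ‖dd g f‖ := by
  obtain ⟨k, rfl | rfl⟩ := z.eq_nat_or_neg
  · simpa using norm_dd_pow_le g k f
  · rw [zpow_neg, norm_dd_inv, zpow_natCast]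
    simpa using norm_dd_pow_le g k f

lemma dd_pow_bound (F : GleasonFn G) (g : G) (k : ℕ) (hk : (k : ℝ) * ‖dd g F.φ‖ ≤ F.r) :
    ‖dd (g ^ k) F.φ - (k : ℝ) • dd g F.φ‖ ≤ F.C * ((k : ℝ) * ((k : ℝ) - 1) / 2) * ‖dd g F.φ‖ ^ 2 := by
  induction k with
  | zero => simp
  | succ k ih =>
    have hn : 0 ≤ ‖dd g F.φ‖ := norm_nonneg _
    push_cast at hk
    have hk' : (k : ℝ) * ‖dd g F.φ‖ ≤ F.r := by nlinarith
    have hg : ‖dd g F.φ‖ ≤ F.r := by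
      have : 0 ≤ (k : ℝ) * ‖dd g F.φ‖ := by positivity
      nlinarith
    have h1 := ih hk'
    have hgk : ‖dd (g ^ k) F.φ‖ ≤ k * ‖dd g F.φ‖ := norm_dd_pow_le g k F.φ
    have h2 : ‖dd (g ^ k) (dd g F.φ)‖ ≤ F.C * ((k : ℝ) * ‖dd g F.φ‖) * ‖dd g F.φ‖ := by
      refine (F.second (g ^ k) g (hgk.trans hk') hg).trans ?_
      have hC : 0 ≤ F.C := by linarith [F.one_le_C]
      gcongr
    have h3 : dd (g ^ (k + 1)) F.φ - ((k + 1 : ℕ) : ℝ) • dd g F.φ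
        = (dd (g ^ k) F.φ - (k : ℝ) • dd g F.φ) + dd (g ^ k) (dd g F.φ) := by
      rw [pow_succ, dd_mul]
      push_cast
      rw [add_smul, one_smul]
      abel
    rw [h3]
    refine (norm_add_le _ _).trans ?_
    push_cast
    nlinarith [h1, h2]

lemma dd_zpow_bound (F : GleasonFn G) (g : G) (z : ℤ) (hz : |(z : ℝ)| * ‖dd g F.φ‖ ≤ F.r) :
    ‖dd (g ^ z) F.φ - (z : ℝ) • dd g F.φ‖ ≤ F.C * ((z : ℝ) * ‖dd g F.φ‖) ^ 2 := by
  have hC : 0 ≤ F.C := by linarith [F.one_le_C]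
  have hn : 0 ≤ ‖dd g F.φ‖ := norm_nonneg _
  obtain ⟨k, rfl | rfl⟩ := z.eq_nat_or_neg
  · have h1 := dd_pow_bound F g k (by simpa using hz)
    have hk : (0 : ℝ) ≤ k := Nat.cast_nonneg k
    simp only [zpow_natCast, Int.cast_natCast]
    refine h1.trans ?_
    have : F.C * ((k : ℝ) * ((k : ℝ) - 1) / 2) * ‖dd g F.φ‖ ^ 2
        ≤ F.C * ((k : ℝ) * (k : ℝ)) * ‖dd g F.φ‖ ^ 2 := by
      gcongr
      nlinarith
    nlinarith [this]
  · rcases Nat.eq_zero_or_pos k with rfl | hkpos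
    · simp
    have hk1 : (1 : ℝ) ≤ k := by exact_mod_cast hkpos
    have hz' : (k : ℝ) * ‖dd g⁻¹ F.φ‖ ≤ F.r := by
      rw [norm_dd_inv]
      simpa using hz
    have h1 := dd_pow_bound F g⁻¹ k hz'
    rw [norm_dd_inv] at h1
    have hg : ‖dd g F.φ‖ ≤ F.r := by
      rw [norm_dd_inv] at hz'
      nlinarith
    have hgi : ‖dd g⁻¹ F.φ‖ ≤ F.r := by rwa [norm_dd_inv]
    have h2 : ‖dd g⁻¹ (dd g F.φ)‖ ≤ F.C * ‖dd g F.φ‖ * ‖dd g F.φ‖ := by
      have := F.second g⁻¹ g hgi hg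
      rwa [norm_dd_inv g F.φ] at this
    have h3 : dd g⁻¹ F.φ = - dd g F.φ - dd g⁻¹ (dd g F.φ) := by
      have := dd_mul g⁻¹ g F.φ
      rw [inv_mul_cancel, dd_one] at this
      rw [eq_comm, sub_eq_iff_eq_add, neg_eq_iff_add_eq_zero]
      rw [eq_comm] at this
      rw [← this]
      abel
    have h4 : dd (g ^ (-(k : ℤ))) F.φ - ((-(k : ℤ) : ℤ) : ℝ) • dd g F.φ
        = (dd (g⁻¹ ^ k) F.φ - (k : ℝ) • dd g⁻¹ F.φ) - (k : ℝ) • dd g⁻¹ (dd g F.φ) := by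
      rw [zpow_neg, zpow_natCast, inv_pow]
      conv_rhs => rw [h3]
      push_cast
      module
    rw [h4]
    refine (norm_sub_le _ _).trans ?_
    rw [norm_smul, Real.norm_of_nonneg (by positivity : (0 : ℝ) ≤ k)]
    push_cast
    have h5 : (k : ℝ) * ‖dd g⁻¹ (dd g F.φ)‖ ≤ (k : ℝ) * (F.C * ‖dd g F.φ‖ * ‖dd g F.φ‖) := by
      gcongr
    have h6 : F.C * ((k : ℝ) * ((k : ℝ) - 1) / 2) * ‖dd g F.φ‖ ^ 2
        + (k : ℝ) * (F.C * ‖dd g F.φ‖ * ‖dd g F.φ‖) ≤ F.C * (-(k : ℝ) * ‖dd g F.φ‖) ^ 2 := by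
      have h7 : 0 ≤ F.C * ‖dd g F.φ‖ ^ 2 := by positivity
      have h8 : (k : ℝ) * ((k : ℝ) - 1) / 2 + k ≤ (k : ℝ) ^ 2 := by nlinarith
      nlinarith [mul_le_mul_of_nonneg_left h8 h7]
    linarith

end

section main
variable {G : Type*} [Group G] [TopologicalSpace G] [IsTopologicalGroup G]

/-- the norm vanishes only at `1` -/
lemma eq_one_of_norm_eq_zero [T2Space G] (F : GleasonFn G) {g : G} (hg : ‖dd g F.φ‖ = 0) :
    g = 1 := by
  by_contra hne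
  have : ({g}ᶜ : Set G) ∈ 𝓝 (1 : G) := isOpen_compl_singleton.mem_nhds (by simpa using fun h => hne h.symm)
  obtain ⟨ε, hε, h⟩ := F.nhds _ this
  exact h g (by rw [hg]; exact hε) rfl

lemma tendsto_one_of_norm (F : GleasonFn G) {ι : Type*} {l : Filter ι} {u : ι → G}
    (h : Tendsto (fun i => ‖dd (u i) F.φ‖) l (𝓝 0)) : Tendsto u l (𝓝 1) := by
  rw [tendsto_def]
  intro V hV
  obtain ⟨ε, hε, hh⟩ := F.nhds V hV
  have := h.eventually (gt_mem_nhds hε)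
  filter_upwards [this] with i hi
  exact hh _ hi

/-- The setting of A5a: the elements `g j` are small of size `O(1 / m j)`. -/
structure Setup (G : Type*) [Group G] [TopologicalSpace G] [IsTopologicalGroup G]
    (F : GleasonFn G) (𝒰 : Ultrafilter ℕ) (g : ℕ → G) (m : ℕ → ℕ) (L : ℝ) : Prop where
  L_pos : 0 < L
  m_top : Tendsto m 𝒰 atTop
  bd : ∀ᶠ j in (𝒰 : Filter ℕ), (m j : ℝ) * ‖dd (g j) F.φ‖ ≤ L

namespace Setup
variable {F : GleasonFn G} {𝒰 : Ultrafilter ℕ} {g : ℕ → G} {m : ℕ → ℕ} {L : ℝ}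

lemma m_top' (S : Setup G F 𝒰 g m L) : Tendsto (fun j => (m j : ℝ)) 𝒰 atTop :=
  tendsto_natCast_atTop_atTop.comp S.m_top

lemma m_pos (S : Setup G F 𝒰 g m L) : ∀ᶠ j in (𝒰 : Filter ℕ), (0 : ℝ) < m j :=
  S.m_top'.eventually_gt_atTop 0

lemma n_tendsto (S : Setup G F 𝒰 g m L) : Tendsto (fun j => ‖dd (g j) F.φ‖) 𝒰 (𝓝 0) := by
  have h1 : Tendsto (fun j => L / (m j : ℝ)) 𝒰 (𝓝 0) := tendsto_const_nhds.div_atTop S.m_top'
  refine squeeze_zero' (Eventually.of_forall fun j => norm_nonneg _) ?_ h1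
  filter_upwards [S.m_pos, S.bd] with j hj hb
  rw [le_div_iff₀ hj]
  linarith

lemma g_tendsto (S : Setup G F 𝒰 g m L) : Tendsto g 𝒰 (𝓝 1) := tendsto_one_of_norm F S.n_tendsto

/-- bounded powers tend to `1` -/
lemma pow_tendsto (S : Setup G F 𝒰 g m L) (z : ℕ → ℤ) (B : ℝ)
    (hz : ∀ᶠ j in (𝒰 : Filter ℕ), |(z j : ℝ)| ≤ B) : Tendsto (fun j => g j ^ z j) 𝒰 (𝓝 1) := by
  apply tendsto_one_of_norm F
  have h1 : Tendsto (fun j => B * ‖dd (g j) F.φ‖) 𝒰 (𝓝 0) := by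
    simpa using S.n_tendsto.const_mul B
  refine squeeze_zero' (Eventually.of_forall fun j => norm_nonneg _) ?_ h1
  filter_upwards [hz] with j hj
  refine (norm_dd_zpow_le _ _ _).trans ?_
  gcongr

lemma floor_abs_le (x : ℝ) : |((⌊x⌋ : ℤ) : ℝ)| ≤ |x| + 1 := by
  have h1 := Int.floor_le x
  have h2 := Int.lt_floor_add_one x
  rw [abs_le]
  constructor
  · have := neg_abs_le x; linarith
  · have := le_abs_self x; linarith

lemma zn_le (_S : Setup G F 𝒰 g m L) (t : ℝ) : ∀ᶠ j in (𝒰 : Filter ℕ),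
    |((⌊(m j : ℝ) * t⌋ : ℤ) : ℝ)| * ‖dd (g j) F.φ‖
      ≤ |t| * ((m j : ℝ) * ‖dd (g j) F.φ‖) + ‖dd (g j) F.φ‖ := by
  filter_upwards with j
  have h1 := floor_abs_le ((m j : ℝ) * t)
  rw [abs_mul, Nat.abs_cast] at h1
  have hn : 0 ≤ ‖dd (g j) F.φ‖ := norm_nonneg _
  nlinarith [mul_le_mul_of_nonneg_right h1 hn]

lemma zn_le' (S : Setup G F 𝒰 g m L) (t : ℝ) : ∀ᶠ j in (𝒰 : Filter ℕ),
    |((⌊(m j : ℝ) * t⌋ : ℤ) : ℝ)| * ‖dd (g j) F.φ‖ ≤ |t| * L + ‖dd (g j) F.φ‖ := by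
  filter_upwards [S.zn_le t, S.bd] with j h1 h2
  have : |t| * ((m j : ℝ) * ‖dd (g j) F.φ‖) ≤ |t| * L := by gcongr
  linarith

/-- the limit exists for small times -/
lemma exists_lim_small (S : Setup G F 𝒰 g m L) (t : ℝ) (ht : |t| * L ≤ F.r / 2) :
    ∃ x : G, Tendsto (fun j => g j ^ ⌊(m j : ℝ) * t⌋) 𝒰 (𝓝 x) := by
  have hr := F.r_pos
  have hmem : ∀ᶠ j in (𝒰 : Filter ℕ), g j ^ ⌊(m j : ℝ) * t⌋ ∈ {x : G | ‖dd x F.φ‖ ≤ F.r} := by
    have h1 : ∀ᶠ j in (𝒰 : Filter ℕ), ‖dd (g j) F.φ‖ < F.r / 2 :=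
      S.n_tendsto.eventually (gt_mem_nhds (by linarith))
    filter_upwards [S.zn_le' t, h1] with j h2 h3
    have := norm_dd_zpow_le (g j) ⌊(m j : ℝ) * t⌋ F.φ
    show ‖dd (g j ^ ⌊(m j : ℝ) * t⌋) F.φ‖ ≤ F.r
    linarith
  obtain ⟨x, _, hx⟩ := F.cpt.ultrafilter_le_nhds' (𝒰.map fun j => g j ^ ⌊(m j : ℝ) * t⌋) hmem
  exact ⟨x, hx⟩

lemma exists_lim (S : Setup G F 𝒰 g m L) (t : ℝ) :
    ∃ x : G, Tendsto (fun j => g j ^ ⌊(m j : ℝ) * t⌋) 𝒰 (𝓝 x) := by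
  have hr := F.r_pos
  obtain ⟨k, hk⟩ := exists_nat_ge (|t| * L / (F.r / 2))
  have hk1 : |t| * L ≤ (k + 1 : ℝ) * (F.r / 2) := by
    rw [div_le_iff₀ (by linarith)] at hk
    nlinarith
  have hk0 : (0 : ℝ) < k + 1 := by positivity
  have hts : |t / (k + 1)| * L ≤ F.r / 2 := by
    rw [abs_div, abs_of_pos hk0, div_mul_eq_mul_div, div_le_iff₀ hk0]
    linarith
  obtain ⟨x, hx⟩ := S.exists_lim_small (t / (k + 1)) hts
  refine ⟨x ^ (k + 1), ?_⟩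
  have h1 : Tendsto (fun j => (g j ^ ⌊(m j : ℝ) * (t / (k + 1))⌋) ^ (k + 1)) 𝒰 (𝓝 (x ^ (k + 1))) :=
    hx.pow (k + 1)
  have h2 : Tendsto (fun j => g j ^ (⌊(m j : ℝ) * t⌋ - (k + 1) * ⌊(m j : ℝ) * (t / (k + 1))⌋)) 𝒰
      (𝓝 1) := by
    refine S.pow_tendsto _ (k + 1) (Eventually.of_forall fun j => ?_)
    set y : ℝ := (m j : ℝ) * (t / (k + 1)) with hy
    have hmt : (m j : ℝ) * t = (k + 1) * y := by rw [hy]; field_simp
    rw [hmt]
    have a1 := Int.floor_le y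
    have a2 := Int.lt_floor_add_one y
    have a3 := Int.floor_le ((k + 1) * y)
    have a4 := Int.lt_floor_add_one ((k + 1 : ℝ) * y)
    push_cast
    have b1 : (k + 1 : ℝ) * ⌊y⌋ ≤ (k + 1) * y := by gcongr
    have b2 : (k + 1 : ℝ) * y ≤ (k + 1) * (⌊y⌋ + 1) := by gcongr
    have b3 : (k + 1) * ⌊y⌋ ≤ ⌊(k + 1 : ℝ) * y⌋ := by
      rw [Int.le_floor]; push_cast; exact b1
    have b3' : (k + 1 : ℝ) * ⌊y⌋ ≤ ⌊(k + 1 : ℝ) * y⌋ := by exact_mod_cast b3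
    rw [abs_le]
    constructor <;> nlinarith
  have h3 := h1.mul h2
  rw [mul_one] at h3
  refine h3.congr fun j => ?_
  rw [← zpow_natCast, ← zpow_mul, ← zpow_add]
  congr 1
  push_cast
  ring

/-- the one-parameter subgroup -/
noncomputable def X (S : Setup G F 𝒰 g m L) (t : ℝ) : G := (S.exists_lim t).choose

lemma X_spec (S : Setup G F 𝒰 g m L) (t : ℝ) :
    Tendsto (fun j => g j ^ ⌊(m j : ℝ) * t⌋) 𝒰 (𝓝 (S.X t)) := (S.exists_lim t).choose_spec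

lemma X_add [T2Space G] (S : Setup G F 𝒰 g m L) (s t : ℝ) : S.X (s + t) = S.X s * S.X t := by
  have h2 : Tendsto (fun j => g j ^ (⌊(m j : ℝ) * (s + t)⌋ - ⌊(m j : ℝ) * s⌋ - ⌊(m j : ℝ) * t⌋)) 𝒰
      (𝓝 1) := by
    refine S.pow_tendsto _ 2 (Eventually.of_forall fun j => ?_)
    have a1 := Int.floor_le ((m j : ℝ) * s)
    have a2 := Int.lt_floor_add_one ((m j : ℝ) * s)
    have a3 := Int.floor_le ((m j : ℝ) * t)
    have a4 := Int.lt_floor_add_one ((m j : ℝ) * t)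
    have a5 := Int.floor_le ((m j : ℝ) * (s + t))
    have a6 := Int.lt_floor_add_one ((m j : ℝ) * (s + t))
    push_cast
    rw [abs_le]
    constructor <;> linarith
  have h3 := ((S.X_spec s).mul (S.X_spec t)).mul h2
  rw [mul_one] at h3
  refine tendsto_nhds_unique (S.X_spec (s + t)) (h3.congr fun j => ?_)
  rw [← zpow_add, ← zpow_add]
  congr 1
  ring

lemma norm_X_le (S : Setup G F 𝒰 g m L) (t : ℝ) {B : ℝ}
    (hB : Tendsto (fun j => (m j : ℝ) * ‖dd (g j) F.φ‖) 𝒰 (𝓝 B)) :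
    ‖dd (S.X t) F.φ‖ ≤ |t| * B := by
  have h1 : Tendsto (fun j => ‖dd (g j ^ ⌊(m j : ℝ) * t⌋) F.φ‖) 𝒰 (𝓝 ‖dd (S.X t) F.φ‖) :=
    (((continuous_dd F).tendsto _).comp (S.X_spec t)).norm
  have h2 : Tendsto (fun j => |t| * ((m j : ℝ) * ‖dd (g j) F.φ‖) + ‖dd (g j) F.φ‖) 𝒰
      (𝓝 (|t| * B + 0)) := (hB.const_mul _).add S.n_tendsto
  rw [add_zero] at h2
  refine le_of_tendsto_of_tendsto h1 h2 ?_
  filter_upwards [S.zn_le t] with j hj
  exact (norm_dd_zpow_le _ _ _).trans hj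

lemma norm_X_le' (S : Setup G F 𝒰 g m L) (t : ℝ) : ‖dd (S.X t) F.φ‖ ≤ |t| * L := by
  have h1 : Tendsto (fun j => ‖dd (g j ^ ⌊(m j : ℝ) * t⌋) F.φ‖) 𝒰 (𝓝 ‖dd (S.X t) F.φ‖) :=
    (((continuous_dd F).tendsto _).comp (S.X_spec t)).norm
  have h2 : Tendsto (fun j => |t| * L + ‖dd (g j) F.φ‖) 𝒰
      (𝓝 (|t| * L + 0)) := tendsto_const_nhds.add S.n_tendsto
  rw [add_zero] at h2
  refine le_of_tendsto_of_tendsto h1 h2 ?_
  filter_upwards [S.zn_le' t] with j hj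
  exact (norm_dd_zpow_le _ _ _).trans hj

lemma X_cont [T2Space G] (S : Setup G F 𝒰 g m L) : Continuous S.X := by
  rw [continuous_iff_continuousAt]
  intro t
  have h1 : Tendsto (fun s : ℝ => S.X (s - t)) (𝓝 t) (𝓝 1) := by
    apply tendsto_one_of_norm F
    have h2 : Tendsto (fun s : ℝ => |s - t| * L) (𝓝 t) (𝓝 0) := by
      have : Continuous (fun s : ℝ => |s - t| * L) := by fun_prop
      simpa using this.tendsto t
    exact squeeze_zero (fun s => norm_nonneg _) (fun s => S.norm_X_le' _) h2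
  have h2 : Tendsto (fun s : ℝ => S.X t * S.X (s - t)) (𝓝 t) (𝓝 (S.X t * 1)) :=
    tendsto_const_nhds.mul h1
  rw [mul_one] at h2
  refine h2.congr fun s => ?_
  rw [← S.X_add]
  congr 1
  ring

/-- comparison of `m j • dd (g j) φ` with the difference quotient of the limit -/
lemma near (S : Setup G F 𝒰 g m L) (t : ℝ) (ht0 : 0 < t) (ht : t * L ≤ F.r / 2) {ε : ℝ}
    (hε : F.C * t * (L) ^ 2 < ε) :
    ∀ᶠ j in (𝒰 : Filter ℕ), ‖(m j : ℝ) • dd (g j) F.φ - t⁻¹ • dd (S.X t) F.φ‖ < ε := by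
  have hC : 0 < F.C := by linarith [F.one_le_C]
  have hr := F.r_pos
  have h1 : Tendsto (fun j => dd (g j ^ ⌊(m j : ℝ) * t⌋) F.φ) 𝒰 (𝓝 (dd (S.X t) F.φ)) :=
    ((continuous_dd F).tendsto _).comp (S.X_spec t)
  have h1' : Tendsto (fun j => ‖dd (g j ^ ⌊(m j : ℝ) * t⌋) F.φ - dd (S.X t) F.φ‖) 𝒰 (𝓝 0) := by
    have := (h1.sub_const (dd (S.X t) F.φ)).norm
    simpa using this
  have h2 : Tendsto (fun j => t⁻¹ * (‖dd (g j) F.φ‖ + F.C * (t * L + ‖dd (g j) F.φ‖) ^ 2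
      + ‖dd (g j ^ ⌊(m j : ℝ) * t⌋) F.φ - dd (S.X t) F.φ‖)) 𝒰
      (𝓝 (t⁻¹ * (0 + F.C * (t * L + 0) ^ 2 + 0))) :=
    ((S.n_tendsto.add (((tendsto_const_nhds.add S.n_tendsto).pow 2).const_mul F.C)).add
      h1').const_mul _
  have h3 : t⁻¹ * (0 + F.C * (t * L + 0) ^ 2 + 0) < ε := by
    have : t⁻¹ * (0 + F.C * (t * L + 0) ^ 2 + 0) = F.C * t * L ^ 2 := by
      field_simp
      ring
    rw [this]; exact hε
  have h4 : ∀ᶠ j in (𝒰 : Filter ℕ), ‖dd (g j) F.φ‖ < F.r / 2 :=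
    S.n_tendsto.eventually (gt_mem_nhds (by linarith))
  filter_upwards [h2.eventually (gt_mem_nhds h3), h4, S.zn_le' t] with j h5 h6 h7
  refine lt_of_le_of_lt ?_ h5
  rw [abs_of_pos ht0] at h7
  set z : ℤ := ⌊(m j : ℝ) * t⌋ with hz
  have h8 := dd_zpow_bound F (g j) z (by linarith)
  have hn : 0 ≤ ‖dd (g j) F.φ‖ := norm_nonneg _
  have h9 : F.C * ((z : ℝ) * ‖dd (g j) F.φ‖) ^ 2 ≤ F.C * (t * L + ‖dd (g j) F.φ‖) ^ 2 := by
    have : |(z : ℝ) * ‖dd (g j) F.φ‖| ≤ t * L + ‖dd (g j) F.φ‖ := by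
      rw [abs_mul, abs_of_nonneg hn]; exact h7
    have h10 : ((z : ℝ) * ‖dd (g j) F.φ‖) ^ 2 ≤ (t * L + ‖dd (g j) F.φ‖) ^ 2 := by
      rw [← sq_abs]
      gcongr
    gcongr
  have h11 : (m j : ℝ) • dd (g j) F.φ - t⁻¹ • dd (S.X t) F.φ
      = t⁻¹ • (((m j : ℝ) * t - z) • dd (g j) F.φ - (dd (g j ^ z) F.φ - (z : ℝ) • dd (g j) F.φ)
        + (dd (g j ^ z) F.φ - dd (S.X t) F.φ)) := by
    have ht' : t⁻¹ * t = 1 := inv_mul_cancel₀ ht0.ne'
    have e1 : (m j : ℝ) = t⁻¹ * ((m j : ℝ) * t) := by field_simp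
    conv_lhs => rw [e1]
    module
  rw [h11, norm_smul, Real.norm_of_nonneg (by positivity : (0 : ℝ) ≤ t⁻¹)]
  gcongr
  refine (norm_add_le _ _).trans ?_
  gcongr
  refine (norm_sub_le _ _).trans ?_
  have h12 : ‖((m j : ℝ) * t - z) • dd (g j) F.φ‖ ≤ ‖dd (g j) F.φ‖ := by
    rw [norm_smul]
    have : ‖(m j : ℝ) * t - z‖ ≤ 1 := by
      rw [Real.norm_eq_abs, abs_le]
      have a1 := Int.floor_le ((m j : ℝ) * t)
      have a2 := Int.lt_floor_add_one ((m j : ℝ) * t)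
      constructor <;> linarith
    nlinarith
  linarith

lemma exists_D (S : Setup G F 𝒰 g m L) :
    ∃ D : G →ᵇ ℝ, Tendsto (fun j => (m j : ℝ) • dd (g j) F.φ) 𝒰 (𝓝 D) := by
  have hC : 0 < F.C := by linarith [F.one_le_C]
  have hr := F.r_pos
  have hL := S.L_pos
  have hcauchy : Cauchy (Filter.map (fun j => (m j : ℝ) • dd (g j) F.φ) (𝒰 : Filter ℕ)) := by
    rw [Metric.cauchy_iff]
    refine ⟨inferInstance, fun ε hε => ?_⟩
    -- choose a small time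
    set t : ℝ := min (F.r / 2 / L) (ε / (4 * (F.C * L ^ 2))) with ht
    have ht0 : 0 < t := by rw [ht]; positivity
    have ht1 : t * L ≤ F.r / 2 := by
      have : t ≤ F.r / 2 / L := min_le_left _ _
      rwa [le_div_iff₀ hL] at this
    have ht2 : F.C * t * L ^ 2 < ε / 2 := by
      have : t ≤ ε / (4 * (F.C * L ^ 2)) := min_le_right _ _
      rw [le_div_iff₀ (by positivity)] at this
      nlinarith
    have h1 := S.near t ht0 ht1 ht2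
    refine ⟨_, Filter.image_mem_map h1, ?_⟩
    rintro _ ⟨i, hi, rfl⟩ _ ⟨j, hj, rfl⟩
    have hi' : ‖(m i : ℝ) • dd (g i) F.φ - t⁻¹ • dd (S.X t) F.φ‖ < ε / 2 := hi
    have hj' : ‖(m j : ℝ) • dd (g j) F.φ - t⁻¹ • dd (S.X t) F.φ‖ < ε / 2 := hj
    calc dist ((m i : ℝ) • dd (g i) F.φ) ((m j : ℝ) • dd (g j) F.φ)
        ≤ dist ((m i : ℝ) • dd (g i) F.φ) (t⁻¹ • dd (S.X t) F.φ)
          + dist (t⁻¹ • dd (S.X t) F.φ) ((m j : ℝ) • dd (g j) F.φ) := dist_triangle _ _ _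
      _ < ε / 2 + ε / 2 := by
          rw [dist_comm (t⁻¹ • dd (S.X t) F.φ), dist_eq_norm, dist_eq_norm]
          exact add_lt_add hi' hj'
      _ = ε := by ring
  obtain ⟨D, hD⟩ := CompleteSpace.complete hcauchy
  exact ⟨D, hD⟩

end Setup

theorem taskA5a : TaskA5a := by
  intro G _ _ _ _ _ F 𝒰 g m L hm hL
  have S : Setup G F 𝒰 g m (max L 1) :=
    ⟨lt_of_lt_of_le one_pos (le_max_right _ _), hm, hL.mono fun j hj => hj.trans (le_max_left _ _)⟩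
  obtain ⟨D, hD⟩ := S.exists_D
  have hC : 0 < F.C := by linarith [F.one_le_C]
  have hr := F.r_pos
  have hnD : Tendsto (fun j => (m j : ℝ) * ‖dd (g j) F.φ‖) 𝒰 (𝓝 ‖D‖) := by
    refine hD.norm.congr fun j => ?_
    rw [norm_smul, Real.norm_of_nonneg (by positivity : (0 : ℝ) ≤ m j)]
  refine ⟨⟨S.X, S.X_cont, S.X_add⟩, D, ⟨fun t => S.norm_X_le t hnD, ?_⟩, hD, S.X_spec⟩
  -- quadratic error, strict case
  have key : ∀ t : ℝ, |t| * ‖D‖ < F.r → ‖dd (S.X t) F.φ - t • D‖ ≤ F.C * (t * ‖D‖) ^ 2 := by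
    intro t ht
    have h1 : Tendsto (fun j => dd (g j ^ ⌊(m j : ℝ) * t⌋) F.φ) 𝒰 (𝓝 (dd (S.X t) F.φ)) :=
      ((continuous_dd F).tendsto _).comp (S.X_spec t)
    have h2 : Tendsto (fun j => ((⌊(m j : ℝ) * t⌋ : ℤ) : ℝ) • dd (g j) F.φ) 𝒰 (𝓝 (t • D)) := by
      have h3 : Tendsto (fun j => t • ((m j : ℝ) • dd (g j) F.φ)) 𝒰 (𝓝 (t • D)) := hD.const_smul t
      have h4 : Tendsto (fun j => (((⌊(m j : ℝ) * t⌋ : ℤ) : ℝ) - (m j : ℝ) * t) • dd (g j) F.φ) 𝒰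
          (𝓝 0) := by
        rw [tendsto_zero_iff_norm_tendsto_zero]
        refine squeeze_zero (fun j => norm_nonneg _) (fun j => ?_) S.n_tendsto
        rw [norm_smul]
        have : ‖((⌊(m j : ℝ) * t⌋ : ℤ) : ℝ) - (m j : ℝ) * t‖ ≤ 1 := by
          rw [Real.norm_eq_abs, abs_le]
          have a1 := Int.floor_le ((m j : ℝ) * t)
          have a2 := Int.lt_floor_add_one ((m j : ℝ) * t)
          constructor <;> linarith
        have hn : 0 ≤ ‖dd (g j) F.φ‖ := norm_nonneg _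
        nlinarith
      have h5 := h3.add h4
      rw [add_zero] at h5
      refine h5.congr fun j => ?_
      module
    have h3 : Tendsto (fun j => ‖dd (g j ^ ⌊(m j : ℝ) * t⌋) F.φ
        - ((⌊(m j : ℝ) * t⌋ : ℤ) : ℝ) • dd (g j) F.φ‖) 𝒰 (𝓝 ‖dd (S.X t) F.φ - t • D‖) :=
      (h1.sub h2).norm
    have h4 : Tendsto (fun j => |t| * ((m j : ℝ) * ‖dd (g j) F.φ‖) + ‖dd (g j) F.φ‖) 𝒰
        (𝓝 (|t| * ‖D‖ + 0)) := (hnD.const_mul _).add S.n_tendsto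
    have h5 : Tendsto (fun j => F.C * (|t| * ((m j : ℝ) * ‖dd (g j) F.φ‖) + ‖dd (g j) F.φ‖) ^ 2) 𝒰
        (𝓝 (F.C * (|t| * ‖D‖ + 0) ^ 2)) := (h4.pow 2).const_mul F.C
    have h6 : F.C * (|t| * ‖D‖ + 0) ^ 2 = F.C * (t * ‖D‖) ^ 2 := by
      rw [add_zero, mul_pow, sq_abs, mul_pow]
    rw [h6] at h5
    refine le_of_tendsto_of_tendsto h3 h5 ?_
    have h7 : ∀ᶠ j in (𝒰 : Filter ℕ), |t| * ((m j : ℝ) * ‖dd (g j) F.φ‖) + ‖dd (g j) F.φ‖ < F.r :=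
      h4.eventually (gt_mem_nhds (by rw [add_zero]; exact ht))
    filter_upwards [h7, S.zn_le t] with j h8 h9
    refine (dd_zpow_bound F (g j) ⌊(m j : ℝ) * t⌋ (by linarith)).trans ?_
    have hn : 0 ≤ ‖dd (g j) F.φ‖ := norm_nonneg _
    have h10 : (((⌊(m j : ℝ) * t⌋ : ℤ) : ℝ) * ‖dd (g j) F.φ‖) ^ 2
        ≤ (|t| * ((m j : ℝ) * ‖dd (g j) F.φ‖) + ‖dd (g j) F.φ‖) ^ 2 := by
      rw [← sq_abs, abs_mul, abs_of_nonneg hn]
      gcongr
    gcongr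
  intro t ht
  rcases ht.lt_or_eq with h | h
  · exact key t h
  -- boundary case by continuity
  have hcont : Continuous (fun s : ℝ => ‖dd (S.X s) F.φ - s • D‖ - F.C * (s * ‖D‖) ^ 2) := by
    have h1 : Continuous (fun s : ℝ => dd (S.X s) F.φ) := (continuous_dd F).comp S.X_cont
    fun_prop
  have hlim : Tendsto (fun k : ℕ => (1 - 1 / ((k : ℝ) + 1)) * t) atTop (𝓝 ((1 - 0) * t)) :=
    (tendsto_const_nhds.sub tendsto_one_div_add_atTop_nhds_zero_nat).mul_const t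
  rw [sub_zero, one_mul] at hlim
  have h1 := (hcont.tendsto t).comp hlim
  have h2 : ‖dd (S.X t) F.φ - t • D‖ - F.C * (t * ‖D‖) ^ 2 ≤ 0 := by
    refine le_of_tendsto h1 (Eventually.of_forall fun k => ?_)
    have hk : (0 : ℝ) < 1 / ((k : ℝ) + 1) := by positivity
    have hk1 : 1 / ((k : ℝ) + 1) ≤ 1 := by
      rw [div_le_one (by positivity)]
      have : (0 : ℝ) ≤ k := Nat.cast_nonneg k
      linarith
    have := key ((1 - 1 / ((k : ℝ) + 1)) * t) (by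
      rw [abs_mul, abs_of_nonneg (by linarith), mul_assoc, h]
      nlinarith)
    simp only [Function.comp]
    linarith
  linarith

end main

end Crest.Agent.R217.A5_947
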