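import Crest.Agent.R217.A5_947

/-!
Row 217, PART A: task A5b (every one-parameter subgroup has a derivative, which determines it) and
task A6 (the derivatives form a finite dimensional subspace).
-/

set_option autoImplicit false

open Filter Topology BoundedContinuousFunction Metric
open scoped Topology BoundedContinuousFunction

namespace Crest.Agent.R217.A5_947

open Crest.Agent.R217.SpecA343

section OPbasic
variable {G : Type*} [Group G] [TopologicalSpace G]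

lemma OP_zero (X : OP G) : X.X 0 = 1 := by
  have h := X.add 0 0
  rw [add_zero] at h
  exact (mul_eq_left.mp h.symm)

lemma OP_neg (X : OP G) (s : ℝ) : X.X (-s) = (X.X s)⁻¹ := by
  have h := X.add (-s) s
  rw [neg_add_cancel, OP_zero] at h
  exact eq_inv_of_mul_eq_one_left h.symm

lemma OP_pow (X : OP G) (s : ℝ) (k : ℕ) : X.X s ^ k = X.X (k * s) := by
  induction k with
  | zero => simp [OP_zero]
  | succ k ih =>
    rw [pow_succ, ih, ← X.add]
    congr 1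
    push_cast
    ring

lemma OP_zpow (X : OP G) (s : ℝ) (z : ℤ) : X.X s ^ z = X.X (z * s) := by
  obtain ⟨k, rfl | rfl⟩ := z.eq_nat_or_neg
  · simpa using OP_pow X s k
  · rw [zpow_neg, zpow_natCast, OP_pow, ← OP_neg]
    congr 1
    push_cast
    ring

lemma OP_ext {X Y : OP G} (h : X.X = Y.X) : X = Y := by
  cases X; cases Y; cases h; rfl

/-- trivial one-parameter subgroup -/
def OP0 : OP G := ⟨fun _ => 1, continuous_const, fun _ _ => (mul_one 1).symm⟩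

/-- rescaled one-parameter subgroup -/
def OPsmul (c : ℝ) (X : OP G) : OP G :=
  ⟨fun t => X.X (c * t), X.cont.comp (continuous_const.mul continuous_id), fun s t => by
    simp only [mul_add, X.add]⟩

end OPbasic

section
variable {G : Type*} [Group G] [TopologicalSpace G] [IsTopologicalGroup G]

/-- conjugation by a small element -/
lemma conj_le (F : GleasonFn G) (h c : G) (hh : ‖dd h F.φ‖ ≤ F.r) (hc : ‖dd c F.φ‖ ≤ F.r) :
    ‖dd (h⁻¹ * c * h) F.φ‖ ≤ 2 * ‖dd c F.φ‖ := by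
  have h1 : h⁻¹ * c * h = h⁻¹ * (c * h) := mul_assoc _ _ _
  rw [h1, norm_dd_inv_mul, dd_mul]
  have h2 : dd h F.φ - (dd c F.φ + dd h F.φ + dd c (dd h F.φ))
      = -(dd c F.φ + dd c (dd h F.φ)) := by abel
  rw [h2, norm_neg]
  refine (norm_add_le _ _).trans ?_
  have h3 := F.second c h hc hh
  have h4 : F.C * ‖dd c F.φ‖ * ‖dd h F.φ‖ ≤ ‖dd c F.φ‖ := by
    have hC : 0 ≤ F.C := by linarith [F.one_le_C]
    have hr := F.r_pos
    have h5 : F.C * ‖dd h F.φ‖ ≤ 1 := by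
      have : F.C * ‖dd h F.φ‖ ≤ F.C * F.r := by gcongr
      have := F.Cr
      have h6 : 0 ≤ F.C * F.r := by positivity
      linarith
    nlinarith [norm_nonneg (dd c F.φ)]
  linarith

/-- escape property -/
lemma esc_le (F : GleasonFn G) (g : G) (k : ℕ) (hk : ∀ i ≤ k, ‖dd (g ^ i) F.φ‖ ≤ F.r) :
    (k : ℝ) * ‖dd g F.φ‖ ≤ 2 * ‖dd (g ^ k) F.φ‖ := by
  rcases Nat.eq_zero_or_pos k with rfl | hkpos
  · simp
  have hg : ‖dd g F.φ‖ ≤ F.r := by simpa using hk 1 hkpos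
  have hC : 0 ≤ F.C := by linarith [F.one_le_C]
  have hr := F.r_pos
  have hn : 0 ≤ ‖dd g F.φ‖ := norm_nonneg _
  have key : ∀ j ≤ k, ‖dd (g ^ j) F.φ - (j : ℝ) • dd g F.φ‖ ≤ (j : ℝ) * (‖dd g F.φ‖ / 16) := by
    intro j
    induction j with
    | zero => intro _; simp
    | succ j ih =>
      intro hj
      have h1 := ih (by omega)
      have h2 : ‖dd (g ^ j) (dd g F.φ)‖ ≤ ‖dd g F.φ‖ / 16 := by
        refine (F.second (g ^ j) g (hk j (by omega)) hg).trans ?_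
        have h3 : F.C * ‖dd (g ^ j) F.φ‖ ≤ 1 / 16 := by
          have : F.C * ‖dd (g ^ j) F.φ‖ ≤ F.C * F.r := by
            have := hk j (by omega)
            gcongr
          have := F.Cr
          linarith
        nlinarith
      have h3 : dd (g ^ (j + 1)) F.φ - ((j + 1 : ℕ) : ℝ) • dd g F.φ
          = (dd (g ^ j) F.φ - (j : ℝ) • dd g F.φ) + dd (g ^ j) (dd g F.φ) := by
        rw [pow_succ, dd_mul]
        push_cast
        module
      rw [h3]
      refine (norm_add_le _ _).trans ?_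
      push_cast
      linarith
  have h1 := key k le_rfl
  have h2 : ‖(k : ℝ) • dd g F.φ‖ ≤ ‖dd (g ^ k) F.φ‖ + ‖dd (g ^ k) F.φ - (k : ℝ) • dd g F.φ‖ := by
    have : (k : ℝ) • dd g F.φ = dd (g ^ k) F.φ - (dd (g ^ k) F.φ - (k : ℝ) • dd g F.φ) := by abel
    calc ‖(k : ℝ) • dd g F.φ‖ = ‖dd (g ^ k) F.φ - (dd (g ^ k) F.φ - (k : ℝ) • dd g F.φ)‖ := by
          rw [← this]
      _ ≤ _ := norm_sub_le _ _
  rw [norm_smul, Real.norm_of_nonneg (by positivity : (0 : ℝ) ≤ k)] at h2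
  have h3 : 0 ≤ (k : ℝ) * ‖dd g F.φ‖ := by positivity
  nlinarith

/-- two elements with close small powers -/
lemma pow_dist_le (F : GleasonFn G) (a b : G) (k : ℕ)
    (hb : ∀ i ≤ k, ‖dd (b ^ i) F.φ‖ ≤ F.r) (hab : ‖dd (a⁻¹ * b) F.φ‖ ≤ F.r) :
    ‖dd ((a ^ k)⁻¹ * b ^ k) F.φ‖ ≤ 2 * (k : ℝ) * ‖dd (a⁻¹ * b) F.φ‖ := by
  induction k with
  | zero => simp
  | succ k ih =>
    have h1 := ih fun i hi => hb i (by omega)
    have h2 : (a ^ (k + 1))⁻¹ * b ^ (k + 1)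
        = ((a ^ k)⁻¹ * b ^ k) * ((b ^ k)⁻¹ * (a⁻¹ * b) * b ^ k) := by
      rw [pow_succ', pow_succ']
      group
    rw [h2]
    refine (norm_dd_mul_le _ _ _).trans ?_
    have h3 := conj_le F (b ^ k) (a⁻¹ * b) (hb k (by omega)) hab
    push_cast
    linarith

end

section A5b
variable {G : Type*} [Group G] [TopologicalSpace G] [IsTopologicalGroup G]

lemma tendsto_norm_OP (F : GleasonFn G) (X : OP G) (t : ℝ) :
    Tendsto (fun s => ‖dd (X.X s) F.φ‖) (𝓝 t) (𝓝 ‖dd (X.X t) F.φ‖) :=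
  (((continuous_dd F).comp X.cont).norm).tendsto t

/-- every one-parameter subgroup has a derivative -/
theorem exists_HasD [T2Space G] [LocallyCompactSpace G] (F : GleasonFn G) (X : OP G) :
    ∃ D, HasD F X D := by
  have hr := F.r_pos
  -- small times
  have h0 : ∀ᶠ s in 𝓝 (0 : ℝ), ‖dd (X.X s) F.φ‖ < F.r := by
    have := tendsto_norm_OP F X 0
    rw [OP_zero, dd_one, norm_zero] at this
    exact this.eventually (gt_mem_nhds hr)
  obtain ⟨t₀, ht₀, hball⟩ := Metric.eventually_nhds_iff.mp h0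
  set t₁ : ℝ := t₀ / 2 with ht₁
  have ht₁pos : 0 < t₁ := by positivity
  have hsmall : ∀ s : ℝ, |s| ≤ t₁ → ‖dd (X.X s) F.φ‖ ≤ F.r := by
    intro s hs
    refine (hball ?_).le
    rw [Real.dist_eq, sub_zero]
    linarith
  set 𝒰 : Ultrafilter ℕ := Filter.hyperfilter ℕ with h𝒰
  have hle : (𝒰 : Filter ℕ) ≤ atTop := by
    rw [h𝒰, ← Nat.cofinite_eq_atTop]
    exact hyperfilter_le_cofinite
  have hm : Tendsto (fun j : ℕ => j + 1) 𝒰 atTop := (tendsto_add_atTop_nat 1).mono_left hle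
  have hbd : ∀ᶠ j in (𝒰 : Filter ℕ), ((j + 1 : ℕ) : ℝ) * ‖dd (X.X (1 / ((j : ℝ) + 1))) F.φ‖
      ≤ 4 * F.r / t₁ := by
    have hev : ∀ᶠ j : ℕ in (𝒰 : Filter ℕ), 1 ≤ ((j : ℝ) + 1) * t₁ := by
      have h1 : Tendsto (fun j : ℕ => ((j : ℝ) + 1) * t₁) atTop atTop :=
        (tendsto_atTop_add_const_right _ 1 tendsto_natCast_atTop_atTop).atTop_mul_const ht₁pos
      exact (h1.mono_left hle).eventually_ge_atTop 1
    filter_upwards [hev] with j hj
    set k : ℕ := ⌊((j : ℝ) + 1) * t₁⌋₊ with hk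
    have hk1 : 1 ≤ k := by
      rw [hk, Nat.one_le_floor_iff]
      exact hj
    have hkle : (k : ℝ) ≤ ((j : ℝ) + 1) * t₁ := Nat.floor_le (by positivity)
    have hklt : ((j : ℝ) + 1) * t₁ < k + 1 := Nat.lt_floor_add_one _
    have hj0 : (0 : ℝ) < (j : ℝ) + 1 := by positivity
    have hpow : ∀ i ≤ k, ‖dd (X.X (1 / ((j : ℝ) + 1)) ^ i) F.φ‖ ≤ F.r := by
      intro i hi
      rw [OP_pow]
      apply hsmall
      rw [abs_of_nonneg (by positivity), mul_one_div, div_le_iff₀ hj0]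
      have : (i : ℝ) ≤ k := by exact_mod_cast hi
      linarith
    have h1 := esc_le F (X.X (1 / ((j : ℝ) + 1))) k hpow
    have h2 := hpow k le_rfl
    have hn : 0 ≤ ‖dd (X.X (1 / ((j : ℝ) + 1))) F.φ‖ := norm_nonneg _
    rw [le_div_iff₀ ht₁pos]
    have hk1' : (1 : ℝ) ≤ k := by exact_mod_cast hk1
    push_cast
    have h3 : ((j : ℝ) + 1) * t₁ * ‖dd (X.X (1 / ((j : ℝ) + 1))) F.φ‖
        ≤ (2 * k) * ‖dd (X.X (1 / ((j : ℝ) + 1))) F.φ‖ := by
      have : ((j : ℝ) + 1) * t₁ ≤ 2 * k := by linarith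
      exact mul_le_mul_of_nonneg_right this hn
    nlinarith
  obtain ⟨Y, D, hD, -, hY⟩ := taskA5a G F 𝒰 (fun j => X.X (1 / ((j : ℝ) + 1))) (fun j => j + 1) _
    hm hbd
  refine ⟨D, ?_⟩
  have hYX : Y = X := by
    apply OP_ext
    funext t
    refine tendsto_nhds_unique (hY t) ?_
    have h1 : Tendsto (fun j : ℕ => ((⌊((j + 1 : ℕ) : ℝ) * t⌋ : ℤ) : ℝ) * (1 / ((j : ℝ) + 1)))
        (𝒰 : Filter ℕ) (𝓝 t) := by
      refine Tendsto.mono_left ?_ hle
      rw [tendsto_iff_norm_sub_tendsto_zero]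
      refine squeeze_zero (fun j => norm_nonneg _) (fun j => ?_)
        tendsto_one_div_add_atTop_nhds_zero_nat
      have hj0 : (0 : ℝ) < (j : ℝ) + 1 := by positivity
      have a1 := Int.floor_le (((j + 1 : ℕ) : ℝ) * t)
      have a2 := Int.lt_floor_add_one (((j + 1 : ℕ) : ℝ) * t)
      have h2 : ((⌊((j + 1 : ℕ) : ℝ) * t⌋ : ℤ) : ℝ) * (1 / ((j : ℝ) + 1)) - t
          = (((⌊((j + 1 : ℕ) : ℝ) * t⌋ : ℤ) : ℝ) - ((j + 1 : ℕ) : ℝ) * t) * (1 / ((j : ℝ) + 1)) := by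
        push_cast
        field_simp
      rw [h2, norm_mul, Real.norm_of_nonneg (by positivity : (0 : ℝ) ≤ 1 / ((j : ℝ) + 1))]
      have h3 : ‖((⌊((j + 1 : ℕ) : ℝ) * t⌋ : ℤ) : ℝ) - ((j + 1 : ℕ) : ℝ) * t‖ ≤ 1 := by
        rw [Real.norm_eq_abs, abs_le]
        constructor <;> linarith
      have h4 : (0 : ℝ) ≤ 1 / ((j : ℝ) + 1) := by positivity
      nlinarith
    have h2 := (X.cont.tendsto t).comp h1
    refine h2.congr fun j => ?_
    simp only [Function.comp]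
    rw [OP_zpow]
  rw [← hYX]
  exact hD

/-- the derivative determines the one-parameter subgroup -/
theorem HasD_unique [T2Space G] (F : GleasonFn G) (X Y : OP G) (D : G →ᵇ ℝ) (hX : HasD F X D)
    (hY : HasD F Y D) : X.X = Y.X := by
  have hC : 0 < F.C := by linarith [F.one_le_C]
  have hr := F.r_pos
  -- small times
  have small : ∀ t : ℝ, |t| * ‖D‖ ≤ F.r → X.X t = Y.X t := by
    intro t ht
    have hbound : ∀ k : ℕ, 4 * F.C * (|t| / ((k : ℝ) + 1) * ‖D‖) ^ 2 ≤ F.r →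
        ‖dd ((X.X t)⁻¹ * Y.X t) F.φ‖ ≤ 4 * F.C * (t * ‖D‖) ^ 2 * (1 / ((k : ℝ) + 1)) := by
      intro k hk
      have hk0 : (0 : ℝ) < (k : ℝ) + 1 := by positivity
      set s : ℝ := t / ((k : ℝ) + 1) with hs
      have hst : X.X t = X.X s ^ (k + 1) := by
        rw [OP_pow]; congr 1; rw [hs]; push_cast; field_simp
      have hst' : Y.X t = Y.X s ^ (k + 1) := by
        rw [OP_pow]; congr 1; rw [hs]; push_cast; field_simp
      have hs_abs : |s| = |t| / ((k : ℝ) + 1) := by rw [hs, abs_div, abs_of_pos hk0]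
      have hsD : |s| * ‖D‖ ≤ F.r := by
        rw [hs_abs]
        have : |t| / ((k : ℝ) + 1) ≤ |t| := by
          apply div_le_self (abs_nonneg t)
          have : (0 : ℝ) ≤ k := Nat.cast_nonneg k
          linarith
        have h1 : |t| / ((k : ℝ) + 1) * ‖D‖ ≤ |t| * ‖D‖ := by gcongr
        linarith
      have hd : ‖dd ((X.X s)⁻¹ * Y.X s) F.φ‖ ≤ 2 * F.C * (s * ‖D‖) ^ 2 := by
        rw [norm_dd_inv_mul]
        have h1 := hX.2 s hsD
        have h2 := hY.2 s hsD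
        have h3 : dd (X.X s) F.φ - dd (Y.X s) F.φ
            = (dd (X.X s) F.φ - s • D) - (dd (Y.X s) F.φ - s • D) := by abel
        rw [h3]
        refine (norm_sub_le _ _).trans ?_
        linarith
      have hsq : (s * ‖D‖) ^ 2 = (|t| / ((k : ℝ) + 1) * ‖D‖) ^ 2 := by
        rw [← hs_abs, mul_pow, mul_pow, sq_abs]
      have hdr : ‖dd ((X.X s)⁻¹ * Y.X s) F.φ‖ ≤ F.r := by
        have h0 : 0 ≤ F.C * (s * ‖D‖) ^ 2 := by positivity
        rw [← hsq] at hk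
        linarith
      have hpow : ∀ i ≤ k + 1, ‖dd (Y.X s ^ i) F.φ‖ ≤ F.r := by
        intro i hi
        rw [OP_pow]
        refine (hY.1 _).trans ?_
        have hi' : (i : ℝ) ≤ (k : ℝ) + 1 := by exact_mod_cast hi
        rw [abs_mul, Nat.abs_cast, hs_abs]
        have : (i : ℝ) * (|t| / ((k : ℝ) + 1)) ≤ |t| := by
          rw [mul_div_assoc', div_le_iff₀ hk0]
          nlinarith [abs_nonneg t]
        have h1 : (i : ℝ) * (|t| / ((k : ℝ) + 1)) * ‖D‖ ≤ |t| * ‖D‖ := by gcongr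
        linarith
      have h1 := pow_dist_le F (X.X s) (Y.X s) (k + 1) hpow hdr
      rw [hst, hst']
      refine h1.trans ?_
      push_cast
      have h2 : 2 * ((k : ℝ) + 1) * ‖dd ((X.X s)⁻¹ * Y.X s) F.φ‖
          ≤ 2 * ((k : ℝ) + 1) * (2 * F.C * (s * ‖D‖) ^ 2) := by gcongr
      refine h2.trans (le_of_eq ?_)
      rw [hs]
      field_simp
      ring
    have hlim0 : Tendsto (fun k : ℕ => 4 * F.C * (|t| / ((k : ℝ) + 1) * ‖D‖) ^ 2) atTop (𝓝 0) := by
      have h1 : Tendsto (fun k : ℕ => |t| * (1 / ((k : ℝ) + 1))) atTop (𝓝 (|t| * 0)) :=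
        tendsto_one_div_add_atTop_nhds_zero_nat.const_mul _
      have h2 := ((h1.mul_const ‖D‖).pow 2).const_mul (4 * F.C)
      simp only [mul_zero, zero_mul, ne_eq, OfNat.ofNat_ne_zero, not_false_eq_true, zero_pow] at h2
      refine h2.congr fun k => ?_
      rw [mul_one_div]
    have hlim : Tendsto (fun k : ℕ => 4 * F.C * (t * ‖D‖) ^ 2 * (1 / ((k : ℝ) + 1))) atTop (𝓝 0) := by
      have h1 := (tendsto_one_div_add_atTop_nhds_zero_nat (𝕜 := ℝ)).const_mul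
        (4 * F.C * (t * ‖D‖) ^ 2)
      rwa [mul_zero] at h1
    have hle : ‖dd ((X.X t)⁻¹ * Y.X t) F.φ‖ ≤ 0 := by
      refine ge_of_tendsto hlim ?_
      filter_upwards [hlim0.eventually (gt_mem_nhds hr)] with k hk
      exact hbound k hk.le
    have h1 : (X.X t)⁻¹ * Y.X t = 1 := eq_one_of_norm_eq_zero F (le_antisymm hle (norm_nonneg _))
    exact (inv_mul_eq_one.mp h1)
  funext t
  obtain ⟨k, hk⟩ := exists_nat_ge (|t| * ‖D‖ / F.r)
  have hk0 : (0 : ℝ) < (k : ℝ) + 1 := by positivity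
  have h1 : |t / ((k : ℝ) + 1)| * ‖D‖ ≤ F.r := by
    rw [abs_div, abs_of_pos hk0, div_mul_eq_mul_div, div_le_iff₀ hk0]
    rw [div_le_iff₀ hr] at hk
    nlinarith
  have h2 := small _ h1
  have h3 : X.X t = X.X (t / ((k : ℝ) + 1)) ^ (k + 1) := by
    rw [OP_pow]; congr 1; push_cast; field_simp
  have h4 : Y.X t = Y.X (t / ((k : ℝ) + 1)) ^ (k + 1) := by
    rw [OP_pow]; congr 1; push_cast; field_simp
  rw [h3, h4, h2]

end A5b

theorem taskA5b : TaskA5b := by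
  intro G _ _ _ _ _ F
  exact ⟨fun X => exists_HasD F X, fun X Y D hX hY => HasD_unique F X Y D hX hY⟩

section A6
variable {G : Type*} [Group G] [TopologicalSpace G] [IsTopologicalGroup G]

lemma HasD_zero (F : GleasonFn G) : HasD F (OP0 : OP G) (0 : G →ᵇ ℝ) := by
  constructor
  · intro t; simp [OP0]
  · intro t _; simp [OP0]

lemma HasD_smul (F : GleasonFn G) {X : OP G} {D : G →ᵇ ℝ} (h : HasD F X D) (c : ℝ) :
    HasD F (OPsmul c X) (c • D) := by
  constructor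
  · intro t
    refine (h.1 (c * t)).trans (le_of_eq ?_)
    rw [norm_smul, abs_mul, Real.norm_eq_abs]
    ring
  · intro t ht
    rw [norm_smul, Real.norm_eq_abs] at ht
    have h1 := h.2 (c * t) (by rw [abs_mul]; linarith)
    have h2 : t • c • D = (c * t) • D := by rw [smul_smul, mul_comm]
    rw [h2]
    refine h1.trans (le_of_eq ?_)
    rw [norm_smul, Real.norm_eq_abs]
    have : (c * t * ‖D‖) ^ 2 = (t * (|c| * ‖D‖)) ^ 2 := by
      rw [mul_pow, mul_pow, mul_pow, mul_pow, sq_abs]; ring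
    rw [this]

lemma tendsto_hyper {f : ℕ → ℝ} (h : Tendsto f atTop atTop) :
    Tendsto f (Filter.hyperfilter ℕ : Filter ℕ) atTop := by
  refine h.mono_left ?_
  rw [← Nat.cofinite_eq_atTop]
  exact hyperfilter_le_cofinite

lemma hyper_le : (Filter.hyperfilter ℕ : Filter ℕ) ≤ atTop := by
  rw [← Nat.cofinite_eq_atTop]
  exact hyperfilter_le_cofinite

/-- difference quotients converge, along sequences of one-parameter subgroups with bounded
derivatives -/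
lemma quotient_near (F : GleasonFn G) {D : ℕ → (G →ᵇ ℝ)} {X : ℕ → OP G}
    (h : ∀ j, HasD F (X j) (D j)) {L : ℝ} (hL : ∀ j, ‖D j‖ ≤ L) :
    Tendsto (fun j : ℕ => ((j + 1 : ℕ) : ℝ) • dd ((X j).X (1 / ((j : ℝ) + 1))) F.φ - D j) atTop
      (𝓝 0) := by
  have hC : 0 < F.C := by linarith [F.one_le_C]
  have hr := F.r_pos
  have hL0 : 0 ≤ L := (norm_nonneg _).trans (hL 0)
  rw [tendsto_zero_iff_norm_tendsto_zero]
  have hlim : Tendsto (fun j : ℕ => F.C * L ^ 2 * (1 / ((j : ℝ) + 1))) atTop (𝓝 0) := by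
    simpa using tendsto_one_div_add_atTop_nhds_zero_nat.const_mul (F.C * L ^ 2)
  have hlim2 : Tendsto (fun j : ℕ => L * (1 / ((j : ℝ) + 1))) atTop (𝓝 0) := by
    simpa using tendsto_one_div_add_atTop_nhds_zero_nat.const_mul L
  refine squeeze_zero' (Eventually.of_forall fun j => norm_nonneg _) ?_ hlim
  filter_upwards [hlim2.eventually (gt_mem_nhds hr)] with j hj
  have hj0 : (0 : ℝ) < (j : ℝ) + 1 := by positivity
  have hs0 : (0 : ℝ) < 1 / ((j : ℝ) + 1) := by positivity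
  have h1 := (h j).2 (1 / ((j : ℝ) + 1)) (by
    rw [abs_of_pos hs0]
    have : 1 / ((j : ℝ) + 1) * ‖D j‖ ≤ 1 / ((j : ℝ) + 1) * L := by
      gcongr
      exact hL j
    linarith)
  have h2 : ((j + 1 : ℕ) : ℝ) • dd ((X j).X (1 / ((j : ℝ) + 1))) F.φ - D j
      = ((j : ℝ) + 1) • (dd ((X j).X (1 / ((j : ℝ) + 1))) F.φ - (1 / ((j : ℝ) + 1)) • D j) := by
    rw [smul_sub, smul_smul, mul_one_div, div_self hj0.ne', one_smul]
    push_cast
    rfl
  rw [h2, norm_smul, Real.norm_of_nonneg hj0.le]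
  have h3 : ((j : ℝ) + 1) * ‖dd ((X j).X (1 / ((j : ℝ) + 1))) F.φ - (1 / ((j : ℝ) + 1)) • D j‖
      ≤ ((j : ℝ) + 1) * (F.C * (1 / ((j : ℝ) + 1) * L) ^ 2) := by
    gcongr
    refine h1.trans ?_
    gcongr
    exact hL j
  refine h3.trans (le_of_eq ?_)
  field_simp

lemma HasD_add [T2Space G] [LocallyCompactSpace G] (F : GleasonFn G) {X Y : OP G} {D E : G →ᵇ ℝ}
    (hX : HasD F X D) (hY : HasD F Y E) : ∃ Z : OP G, HasD F Z (D + E) := by
  have hC : 0 < F.C := by linarith [F.one_le_C]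
  have hr := F.r_pos
  set g : ℕ → G := fun j => X.X (1 / ((j : ℝ) + 1)) * Y.X (1 / ((j : ℝ) + 1)) with hg
  have hm : Tendsto (fun j : ℕ => j + 1) (Filter.hyperfilter ℕ : Filter ℕ) atTop :=
    (tendsto_add_atTop_nat 1).mono_left hyper_le
  have hXn : ∀ j : ℕ, ‖dd (X.X (1 / ((j : ℝ) + 1))) F.φ‖ ≤ (1 / ((j : ℝ) + 1)) * ‖D‖ := by
    intro j
    have := hX.1 (1 / ((j : ℝ) + 1))
    rwa [abs_of_nonneg (by positivity)] at this
  have hYn : ∀ j : ℕ, ‖dd (Y.X (1 / ((j : ℝ) + 1))) F.φ‖ ≤ (1 / ((j : ℝ) + 1)) * ‖E‖ := by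
    intro j
    have := hY.1 (1 / ((j : ℝ) + 1))
    rwa [abs_of_nonneg (by positivity)] at this
  have hbd : ∀ᶠ j in (Filter.hyperfilter ℕ : Filter ℕ),
      ((j + 1 : ℕ) : ℝ) * ‖dd (g j) F.φ‖ ≤ ‖D‖ + ‖E‖ := by
    filter_upwards with j
    have hj0 : (0 : ℝ) < (j : ℝ) + 1 := by positivity
    have h1 : ‖dd (g j) F.φ‖ ≤ (1 / ((j : ℝ) + 1)) * (‖D‖ + ‖E‖) := by
      refine (norm_dd_mul_le _ _ _).trans ?_
      rw [mul_add]
      exact add_le_add (hXn j) (hYn j)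
    push_cast
    have h2 : ((j : ℝ) + 1) * ‖dd (g j) F.φ‖
        ≤ ((j : ℝ) + 1) * ((1 / ((j : ℝ) + 1)) * (‖D‖ + ‖E‖)) := by gcongr
    refine h2.trans (le_of_eq ?_)
    field_simp
  obtain ⟨Z, D', hZ, hD', -⟩ := taskA5a G F (Filter.hyperfilter ℕ) g (fun j => j + 1) _ hm hbd
  refine ⟨Z, ?_⟩
  have h1 := quotient_near F (D := fun _ => D) (X := fun _ => X) (fun _ => hX) (L := ‖D‖)
    (fun _ => le_rfl)
  have h2 := quotient_near F (D := fun _ => E) (X := fun _ => Y) (fun _ => hY) (L := ‖E‖)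
    (fun _ => le_rfl)
  have h3 : Tendsto (fun j : ℕ => ((j + 1 : ℕ) : ℝ) •
      dd (X.X (1 / ((j : ℝ) + 1))) (dd (Y.X (1 / ((j : ℝ) + 1))) F.φ)) atTop (𝓝 0) := by
    rw [tendsto_zero_iff_norm_tendsto_zero]
    have hlim : Tendsto (fun j : ℕ => F.C * ‖D‖ * ‖E‖ * (1 / ((j : ℝ) + 1))) atTop (𝓝 0) := by
      simpa using tendsto_one_div_add_atTop_nhds_zero_nat.const_mul (F.C * ‖D‖ * ‖E‖)
    have hlimD : Tendsto (fun j : ℕ => 1 / ((j : ℝ) + 1) * ‖D‖) atTop (𝓝 0) := by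
      simpa using tendsto_one_div_add_atTop_nhds_zero_nat.mul_const ‖D‖
    have hlimE : Tendsto (fun j : ℕ => 1 / ((j : ℝ) + 1) * ‖E‖) atTop (𝓝 0) := by
      simpa using tendsto_one_div_add_atTop_nhds_zero_nat.mul_const ‖E‖
    refine squeeze_zero' (Eventually.of_forall fun j => norm_nonneg _) ?_ hlim
    filter_upwards [hlimD.eventually (gt_mem_nhds hr), hlimE.eventually (gt_mem_nhds hr)]
      with j hjD hjE
    have hj0 : (0 : ℝ) < (j : ℝ) + 1 := by positivity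
    rw [norm_smul, Real.norm_of_nonneg (by positivity : (0 : ℝ) ≤ ((j + 1 : ℕ) : ℝ))]
    have h4 := F.second (X.X (1 / ((j : ℝ) + 1))) (Y.X (1 / ((j : ℝ) + 1)))
      ((hXn j).trans hjD.le) ((hYn j).trans hjE.le)
    have h5 : F.C * ‖dd (X.X (1 / ((j : ℝ) + 1))) F.φ‖ * ‖dd (Y.X (1 / ((j : ℝ) + 1))) F.φ‖
        ≤ F.C * ((1 / ((j : ℝ) + 1)) * ‖D‖) * ((1 / ((j : ℝ) + 1)) * ‖E‖) := by
      gcongr
      · exact hXn j
      · exact hYn j
    push_cast
    have h6 := mul_le_mul_of_nonneg_left (h4.trans h5) hj0.le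
    refine h6.trans (le_of_eq ?_)
    field_simp
  have h4 : Tendsto (fun j : ℕ => ((j + 1 : ℕ) : ℝ) • dd (g j) F.φ)
      (Filter.hyperfilter ℕ : Filter ℕ) (𝓝 (D + E)) := by
    have h5 := (((h1.add_const D).add (h2.add_const E)).add h3).mono_left hyper_le
    rw [zero_add, zero_add, add_zero] at h5
    refine h5.congr fun j => ?_
    simp only [hg]
    rw [dd_mul]
    module
  have h5 : D' = D + E := tendsto_nhds_unique hD' h4
  rw [← h5]
  exact hZ

theorem taskA6 : TaskA6 := by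
  intro G _ _ _ _ _ F
  obtain ⟨𝔤, hmem⟩ : ∃ 𝔤 : Submodule ℝ (G →ᵇ ℝ), ∀ D, D ∈ 𝔤 ↔ ∃ X : OP G, HasD F X D :=
    ⟨{ carrier := {D | ∃ X : OP G, HasD F X D}
       zero_mem' := ⟨OP0, HasD_zero F⟩
       add_mem' := by
         rintro D E ⟨X, hX⟩ ⟨Y, hY⟩
         exact HasD_add F hX hY
       smul_mem' := by
         rintro c D ⟨X, hX⟩
         exact ⟨_, HasD_smul F hX c⟩ }, fun D => Iff.rfl⟩
  refine ⟨𝔤, ?_, hmem⟩
  -- the unit ball is compact
  refine FiniteDimensional.of_isCompact_closedBall (V := 𝔤) (c := 0) ℝ (r := 1) one_pos ?_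
  · apply IsSeqCompact.isCompact
    intro u hu
    have hX : ∀ j, ∃ X : OP G, HasD F X (u j : G →ᵇ ℝ) := fun j => (hmem _).1 (u j).2
    choose X hX using hX
    have hL : ∀ j, ‖(u j : G →ᵇ ℝ)‖ ≤ 1 := by
      intro j
      have h : dist (u j : G →ᵇ ℝ) 0 ≤ 1 := hu j
      rwa [dist_zero_right] at h
    have hm : Tendsto (fun j : ℕ => j + 1) (Filter.hyperfilter ℕ : Filter ℕ) atTop :=
      (tendsto_add_atTop_nat 1).mono_left hyper_le
    have hbd : ∀ᶠ j in (Filter.hyperfilter ℕ : Filter ℕ),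
        ((j + 1 : ℕ) : ℝ) * ‖dd ((X j).X (1 / ((j : ℝ) + 1))) F.φ‖ ≤ 1 := by
      filter_upwards with j
      have hj0 : (0 : ℝ) < (j : ℝ) + 1 := by positivity
      have h1 := (hX j).1 (1 / ((j : ℝ) + 1))
      rw [abs_of_nonneg (by positivity)] at h1
      have h2 : ((j : ℝ) + 1) * ‖dd ((X j).X (1 / ((j : ℝ) + 1))) F.φ‖
          ≤ ((j : ℝ) + 1) * (1 / ((j : ℝ) + 1) * 1) := by
        have h3 : 1 / ((j : ℝ) + 1) * ‖(u j : G →ᵇ ℝ)‖ ≤ 1 / ((j : ℝ) + 1) * 1 := by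
          gcongr
          exact hL j
        have := h1.trans h3
        gcongr
      push_cast
      refine h2.trans (le_of_eq ?_)
      field_simp
    obtain ⟨Z, D', hZ, hD', -⟩ := taskA5a G F (Filter.hyperfilter ℕ)
      (fun j => (X j).X (1 / ((j : ℝ) + 1))) (fun j => j + 1) _ hm hbd
    have h1 := (quotient_near F (D := fun j => (u j : G →ᵇ ℝ)) (X := X) hX (L := 1) hL).mono_left
      hyper_le
    have h2 : Tendsto (fun j => (u j : G →ᵇ ℝ)) (Filter.hyperfilter ℕ : Filter ℕ) (𝓝 D') := by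
      have := hD'.sub h1
      rw [sub_zero] at this
      refine this.congr fun j => ?_
      abel
    have hD'mem : D' ∈ 𝔤 := (hmem D').2 ⟨Z, hZ⟩
    have h3 : Tendsto u (Filter.hyperfilter ℕ : Filter ℕ) (𝓝 ⟨D', hD'mem⟩) := by
      rw [tendsto_subtype_rng]
      exact h2
    have h4 : MapClusterPt (⟨D', hD'mem⟩ : 𝔤) atTop u :=
      (h3.mapClusterPt).mono hyper_le
    obtain ⟨ψ, hψ, hlim⟩ := MapClusterPt.tendsto_subseq h4
    refine ⟨⟨D', hD'mem⟩, ?_, ψ, hψ, hlim⟩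
    exact Metric.isClosed_closedBall.mem_of_tendsto hlim (Eventually.of_forall fun j => hu _)

end A6

end Crest.Agent.R217.A5_947
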