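import Crest.Agent.R217.SpecA_343

/-!
Row 217 (S0336), PART A, TASK A7: the exponential map of a Gleason function.
The tasks A4a, A4b, A4c, A5a, A5b are used as hypotheses.
-/

set_option autoImplicit false

open Filter Topology BoundedContinuousFunction Metric
open scoped Topology BoundedContinuousFunction

namespace Crest.Agent.R217.A7288

open Crest.Agent.R217.SpecA343

universe u

section Rescale
variable {G : Type u} [Group G] [TopologicalSpace G]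

/-- reparametrisation of a one-parameter subgroup -/
def rescale (X : OP G) (t : ℝ) : OP G where
  X := fun s => X.X (t * s)
  cont := X.cont.comp (continuous_const.mul continuous_id)
  add := fun a b => by rw [mul_add, X.add]

@[simp] lemma rescale_X (X : OP G) (t s : ℝ) : (rescale X t).X s = X.X (t * s) := rfl

variable [IsTopologicalGroup G]

lemma hasD_rescale {F : GleasonFn G} {X : OP G} {D : G →ᵇ ℝ} (h : HasD F X D) (t : ℝ) :
    HasD F (rescale X t) (t • D) := by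
  refine ⟨fun s => ?_, fun s hs => ?_⟩
  · have := h.1 (t * s)
    rw [abs_mul] at this
    rw [rescale_X, norm_smul, Real.norm_eq_abs]
    calc _ ≤ _ := this
      _ = _ := by ring
  · have h0 : |t * s| * ‖D‖ ≤ F.r := by
      rw [norm_smul, Real.norm_eq_abs] at hs
      rw [abs_mul]
      calc _ = |s| * (|t| * ‖D‖) := by ring
        _ ≤ _ := hs
    have := h.2 (t * s) h0
    rw [rescale_X, norm_smul, Real.norm_eq_abs, smul_smul, mul_comm s t]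
    refine this.trans (le_of_eq ?_)
    rw [show (s * (|t| * ‖D‖)) ^ 2 = |t| ^ 2 * (s * ‖D‖) ^ 2 by ring, sq_abs]
    ring

end Rescale

/-- All hypotheses collected. -/
structure Ctx (G : Type u) [Group G] [TopologicalSpace G] [IsTopologicalGroup G] where
  F : GleasonFn G
  N : GNorm G
  hN : ∀ g, N.n g = ‖dd g F.φ‖
  hr : N.r = F.r
  hC : N.C = 2 * F.C
  pert : ∀ l : List (G × G),
    (∀ l' : List (G × G), l' <:+ l → N.n (l'.map Prod.fst).prod ≤ N.r) →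
    (∀ p ∈ l, N.n p.2 ≤ N.r) →
    N.n ((l.map Prod.fst).prod⁻¹ * (l.map (fun p => p.1 * p.2)).prod) ≤
      2 * (l.map (fun p => N.n p.2)).sum
  pow1 : ∀ g h, ∀ k : ℕ, (∀ i ≤ k, N.n (g ^ i) ≤ N.r) → N.n (g⁻¹ * h) ≤ N.r →
      N.n ((g ^ k)⁻¹ * h ^ k) ≤ 2 * k * N.n (g⁻¹ * h)
  pow2 : ∀ a b, ∀ k : ℕ, (k : ℝ) * N.n a ≤ N.r / 2 → (k : ℝ) * N.n b ≤ N.r / 2 →
      N.n ((a ^ k * b ^ k)⁻¹ * (a * b) ^ k) ≤ 2 * N.C * k ^ 2 * N.n a * N.n b
  𝔤 : Submodule ℝ (G →ᵇ ℝ)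
  X : 𝔤 → OP G
  hX : ∀ v : 𝔤, HasD F (X v) (v : G →ᵇ ℝ)
  uniq : ∀ (Y : OP G) (v : 𝔤), HasD F Y (v : G →ᵇ ℝ) → Y.X = (X v).X

namespace Ctx
variable {G : Type u} [Group G] [TopologicalSpace G] [IsTopologicalGroup G] (c : Ctx G)

/-- exponential map -/
noncomputable def exp (v : c.𝔤) : G := (c.X v).X 1

lemma exp_smul (v : c.𝔤) (t : ℝ) : c.exp (t • v) = (c.X v).X t := by
  have h := c.uniq (rescale (c.X v) t) (t • v) (by
    have := hasD_rescale (c.hX v) t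
    simpa using this)
  have h1 := congrFun h 1
  rw [rescale_X, mul_one] at h1
  exact h1.symm

lemma exp_add_smul (v : c.𝔤) (s t : ℝ) :
    c.exp ((s + t) • v) = c.exp (s • v) * c.exp (t • v) := by
  rw [exp_smul, exp_smul, exp_smul, (c.X v).add]

omit [IsTopologicalGroup G] in
lemma op_zero (X : OP G) : X.X 0 = 1 := by
  have h := X.add 0 0
  rw [add_zero] at h
  exact (left_eq_mul.mp h)

lemma exp_zero : c.exp 0 = 1 := by
  have := c.exp_smul 0 0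
  rw [zero_smul, op_zero] at this
  exact this

lemma exp_nsmul (v : c.𝔤) (i : ℕ) : c.exp ((i : ℝ) • v) = c.exp v ^ i := by
  induction i with
  | zero => simp [exp_zero]
  | succ i ih =>
    have := c.exp_add_smul v (i : ℝ) 1
    rw [pow_succ, ← ih, Nat.cast_succ, this, one_smul]

lemma exp_div (v : c.𝔤) {k : ℕ} (hk : k ≠ 0) : c.exp ((k : ℝ)⁻¹ • v) ^ k = c.exp v := by
  rw [← exp_nsmul, smul_smul, mul_inv_cancel₀ (by exact_mod_cast hk), one_smul]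

lemma exp_div_pow (v : c.𝔤) (k i : ℕ) :
    c.exp ((k : ℝ)⁻¹ • v) ^ i = c.exp (((i : ℝ) / k) • v) := by
  rw [← exp_nsmul, smul_smul, div_eq_mul_inv]

lemma n_exp_le (v : c.𝔤) : c.N.n (c.exp v) ≤ ‖v‖ := by
  rw [c.hN]
  have := (c.hX v).1 1
  rw [abs_one, one_mul] at this
  exact this

lemma E1 (v : c.𝔤) (hv : ‖v‖ ≤ c.F.r) :
    ‖dd (c.exp v) c.F.φ - (v : G →ᵇ ℝ)‖ ≤ c.F.C * ‖v‖ ^ 2 := by
  have := (c.hX v).2 1 (by rw [abs_one, one_mul]; exact hv)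
  rw [one_smul, one_mul] at this
  exact this

lemma C_pos : 0 < c.F.C := lt_of_lt_of_le one_pos c.F.one_le_C

/-- the small-scale estimate -/
lemma E2 (v w : c.𝔤) (hv : ‖v‖ ≤ c.F.r) (hw : ‖w‖ ≤ c.F.r) :
    |c.N.n ((c.exp v)⁻¹ * c.exp w) - ‖w - v‖| ≤ c.F.C * (‖v‖ ^ 2 + ‖w‖ ^ 2) := by
  rw [c.hN, norm_dd_inv_mul]
  have h1 := c.E1 v hv
  have h2 := c.E1 w hw
  have h3 : ‖w - v‖ = ‖(v : G →ᵇ ℝ) - (w : G →ᵇ ℝ)‖ := by
    rw [norm_sub_rev]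
    rfl
  rw [h3]
  refine (abs_norm_sub_norm_le _ _).trans ?_
  have h4 : dd (c.exp v) c.F.φ - dd (c.exp w) c.F.φ - ((v : G →ᵇ ℝ) - (w : G →ᵇ ℝ)) =
      (dd (c.exp v) c.F.φ - (v : G →ᵇ ℝ)) - (dd (c.exp w) c.F.φ - (w : G →ᵇ ℝ)) := by
    abel
  rw [h4]
  refine (norm_sub_le _ _).trans ?_
  linarith

lemma nsm (t : ℝ) (v : c.𝔤) : ‖t • v‖ = |t| * ‖v‖ := by
  change ‖((t • v : c.𝔤) : G →ᵇ ℝ)‖ = |t| * ‖(v : G →ᵇ ℝ)‖
  rw [Submodule.coe_smul, norm_smul, Real.norm_eq_abs]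

lemma nn (v : c.𝔤) : 0 ≤ ‖v‖ := norm_nonneg (v : G →ᵇ ℝ)

lemma dist_eq' (v w : c.𝔤) : dist v w = ‖v - w‖ := dist_eq_norm (v : G →ᵇ ℝ) (w : G →ᵇ ℝ)

lemma dist_zero' (v : c.𝔤) : dist v 0 = ‖v‖ := dist_zero_right (v : G →ᵇ ℝ)

lemma sub_zero' (v : c.𝔤) : v - 0 = v := by
  apply Subtype.ext
  ext x
  simp

lemma smul_sub' (t : ℝ) (v w : c.𝔤) : t • (v - w) = t • v - t • w := by
  apply Subtype.ext
  ext x
  simp [mul_sub]

lemma norm_inv_smul (v : c.𝔤) {k : ℕ} (_hk : k ≠ 0) : ‖((k : ℝ)⁻¹ • v)‖ = ‖v‖ / k := by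
  rw [nsm, abs_inv, Nat.abs_cast, div_eq_inv_mul]

/-- `k n(exp(v/k)⁻¹ exp(w/k)) → ‖w - v‖` -/
lemma E3 (v w : c.𝔤) : Tendsto (fun k : ℕ => (k : ℝ) * c.N.n ((c.exp ((k : ℝ)⁻¹ • v))⁻¹ *
    c.exp ((k : ℝ)⁻¹ • w))) atTop (𝓝 ‖w - v‖) := by
  have hpos := c.F.r_pos
  have hev : ∀ v : c.𝔤, ∀ᶠ k : ℕ in atTop, ‖v‖ / k ≤ c.F.r := by
    intro v
    have h : Tendsto (fun k : ℕ => ‖v‖ / (k : ℝ)) atTop (𝓝 0) :=
      tendsto_const_div_atTop_nhds_zero_nat _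
    exact (h.eventually (Iic_mem_nhds hpos))
  have hlim : Tendsto (fun k : ℕ => c.F.C * (‖v‖ ^ 2 + ‖w‖ ^ 2) / (k : ℝ)) atTop (𝓝 0) :=
    tendsto_const_div_atTop_nhds_zero_nat _
  rw [tendsto_iff_norm_sub_tendsto_zero]
  refine squeeze_zero' (Eventually.of_forall fun _ => norm_nonneg _) ?_ hlim
  filter_upwards [hev v, hev w, eventually_ne_atTop 0] with k hkv hkw hk
  have hk0 : (0 : ℝ) < k := by exact_mod_cast Nat.pos_of_ne_zero hk
  have h := c.E2 ((k : ℝ)⁻¹ • v) ((k : ℝ)⁻¹ • w) (by rwa [c.norm_inv_smul v hk])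
    (by rwa [c.norm_inv_smul w hk])
  rw [← c.smul_sub', c.norm_inv_smul v hk, c.norm_inv_smul w hk, c.norm_inv_smul (w - v) hk] at h
  rw [Real.norm_eq_abs]
  have h5 : (k : ℝ) * c.N.n ((c.exp ((k : ℝ)⁻¹ • v))⁻¹ * c.exp ((k : ℝ)⁻¹ • w)) - ‖w - v‖ =
      (k : ℝ) * (c.N.n ((c.exp ((k : ℝ)⁻¹ • v))⁻¹ * c.exp ((k : ℝ)⁻¹ • w)) - ‖w - v‖ / k) := by
    field_simp
  rw [h5, abs_mul, abs_of_pos hk0]
  calc (k : ℝ) * _ ≤ (k : ℝ) * (c.F.C * ((‖v‖ / k) ^ 2 + (‖w‖ / k) ^ 2)) :=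
        mul_le_mul_of_nonneg_left h hk0.le
    _ = _ := by field_simp

lemma n_exp_smul_le (v : c.𝔤) (t : ℝ) (ht : |t| ≤ 1) : c.N.n (c.exp (t • v)) ≤ ‖v‖ := by
  refine (c.n_exp_le _).trans ?_
  rw [nsm]
  exact mul_le_of_le_one_left (c.nn _) ht

lemma n_exp_div_pow_le (v : c.𝔤) {k i : ℕ} (hi : i ≤ k) :
    c.N.n (c.exp ((k : ℝ)⁻¹ • v) ^ i) ≤ ‖v‖ := by
  rw [exp_div_pow]
  apply c.n_exp_smul_le
  rw [abs_of_nonneg (by positivity)]
  exact div_le_one_of_le₀ (by exact_mod_cast hi) (by positivity)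

lemma eventually_div_le (v : c.𝔤) {ε : ℝ} (hε : 0 < ε) : ∀ᶠ k : ℕ in atTop, ‖v‖ / (k : ℝ) ≤ ε :=
  (tendsto_const_div_atTop_nhds_zero_nat ‖v‖).eventually (Iic_mem_nhds hε)

lemma n_small (v w : c.𝔤) {ε : ℝ} (hε : 0 < ε) : ∀ᶠ k : ℕ in atTop,
    c.N.n ((c.exp ((k : ℝ)⁻¹ • v))⁻¹ * c.exp ((k : ℝ)⁻¹ • w)) ≤ ε := by
  filter_upwards [c.eventually_div_le v (half_pos hε), c.eventually_div_le w (half_pos hε),
    eventually_ne_atTop 0] with k hv hw hk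
  refine (c.N.mul _ _).trans ?_
  rw [c.N.inv]
  have h1 := c.n_exp_le ((k : ℝ)⁻¹ • v)
  have h2 := c.n_exp_le ((k : ℝ)⁻¹ • w)
  rw [c.norm_inv_smul v hk] at h1
  rw [c.norm_inv_smul w hk] at h2
  linarith

/-- upper bound -/
lemma dist_le (v w : c.𝔤) (hv : ‖v‖ ≤ c.N.r) :
    c.N.n ((c.exp v)⁻¹ * c.exp w) ≤ 2 * ‖w - v‖ := by
  refine ge_of_tendsto ((c.E3 v w).const_mul 2) ?_
  filter_upwards [eventually_ne_atTop 0, c.n_small v w c.N.r_pos] with k hk hsm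
  have h := c.pow1 (c.exp ((k : ℝ)⁻¹ • v)) (c.exp ((k : ℝ)⁻¹ • w)) k
    (fun i hi => (c.n_exp_div_pow_le v hi).trans hv) hsm
  rw [c.exp_div v hk, c.exp_div w hk] at h
  linarith

omit [TopologicalSpace G] [IsTopologicalGroup G] in
/-- lower bound for powers -/
lemma conj_list (g z : G) (k : ℕ) :
    (g ^ k)⁻¹ * (g * z) ^ k =
      ((List.range k).map (fun i => z * (z⁻¹ * ((g ^ (k - 1 - i))⁻¹ * z * g ^ (k - 1 - i))))).prod := by
  induction k with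
  | zero => simp
  | succ k ih =>
    rw [List.range_succ_eq_map, List.map_cons, List.prod_cons, List.map_map]
    have h1 : ((List.range k).map ((fun i => z * (z⁻¹ * ((g ^ (k + 1 - 1 - i))⁻¹ * z *
        g ^ (k + 1 - 1 - i)))) ∘ Nat.succ)).prod = (g ^ k)⁻¹ * (g * z) ^ k := by
      rw [ih]
      congr 1
      apply List.map_congr_left
      intro i _
      simp only [Function.comp]
      have : k + 1 - 1 - i.succ = k - 1 - i := by omega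
      rw [this]
    rw [h1]
    simp only [Nat.add_sub_cancel, Nat.sub_zero]
    rw [pow_succ' (g * z) k, pow_succ' g k]
    simp [mul_assoc]

lemma lower (g z : G) (k : ℕ) (r' : ℝ) (hr' : r' ≤ c.N.r) (hg : ∀ i ≤ k, c.N.n (g ^ i) ≤ r')
    (hz : ∀ i ≤ k, c.N.n (z ^ i) ≤ c.N.r) (hC : 8 * (c.N.C * r') ≤ 1) :
    (k : ℝ) * c.N.n z ≤ 4 * c.N.n ((g ^ k)⁻¹ * (g * z) ^ k) := by
  rcases Nat.eq_zero_or_pos k with hk | hk
  · subst hk
    simp only [Nat.cast_zero, zero_mul]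
    exact mul_nonneg (by norm_num) (c.N.nonneg _)
  have hr0 : 0 ≤ r' := (c.N.nonneg _).trans (hg 0 (Nat.zero_le _))
  have hz1 : c.N.n z ≤ c.N.r := by simpa using hz 1 hk
  set f : ℕ → G × G := fun i => (z, z⁻¹ * ((g ^ (k - 1 - i))⁻¹ * z * g ^ (k - 1 - i))) with hf
  set l : List (G × G) := (List.range k).map f with hl
  have hcomm : ∀ i, c.N.n (f i).2 ≤ c.N.C * c.N.n z * r' := by
    intro i
    have h1 := c.N.comm z (g ^ (k - 1 - i)) hz1 ((hg _ (by omega)).trans hr')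
    have h2 : z⁻¹ * (g ^ (k - 1 - i))⁻¹ * z * g ^ (k - 1 - i) = (f i).2 := by
      simp only [hf]; group
    rw [h2] at h1
    refine h1.trans ?_
    exact mul_le_mul_of_nonneg_left (hg _ (by omega))
      (mul_nonneg (le_trans zero_le_one c.N.one_le_C) (c.N.nonneg _))
  have hp := c.pert l ?_ ?_
  · have h1 : (l.map Prod.fst).prod = z ^ k := by
      rw [hl, List.map_map]
      have : (Prod.fst ∘ f) = fun _ => z := by
        funext i; simp [hf]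
      rw [this]
      simp
    have h2 : (l.map (fun p => p.1 * p.2)).prod = (g ^ k)⁻¹ * (g * z) ^ k := by
      rw [conj_list, hl, List.map_map]
      rfl
    rw [h1, h2] at hp
    have h3 : (l.map (fun p => c.N.n p.2)).sum ≤ k * (c.N.C * c.N.n z * r') := by
      have : (l.map (fun p => c.N.n p.2)).sum ≤ (l.map (fun p => c.N.n p.2)).length •
          (c.N.C * c.N.n z * r') := by
        apply List.sum_le_card_nsmul
        intro x hx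
        rw [hl, List.map_map, List.mem_map] at hx
        obtain ⟨i, _, rfl⟩ := hx
        exact hcomm i
      refine this.trans (le_of_eq ?_)
      rw [hl]
      simp
    have h4 := c.N.esc z k hz
    have h5 : c.N.n (z ^ k) ≤ c.N.n ((g ^ k)⁻¹ * (g * z) ^ k) +
        c.N.n ((z ^ k)⁻¹ * ((g ^ k)⁻¹ * (g * z) ^ k)) := by
      have := c.N.mul ((g ^ k)⁻¹ * (g * z) ^ k) (((z ^ k)⁻¹ * ((g ^ k)⁻¹ * (g * z) ^ k))⁻¹)
      rw [c.N.inv ((z ^ k)⁻¹ * ((g ^ k)⁻¹ * (g * z) ^ k))] at this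
      refine le_trans (le_of_eq ?_) this
      congr 1
      group
    have h6 : (k : ℝ) * (c.N.C * c.N.n z * r') ≤ (k : ℝ) * c.N.n z / 8 := by
      have h7 : c.N.C * r' ≤ 1 / 8 := by linarith
      calc (k : ℝ) * (c.N.C * c.N.n z * r') = ((k : ℝ) * c.N.n z) * (c.N.C * r') := by ring
        _ ≤ ((k : ℝ) * c.N.n z) * (1 / 8) :=
          mul_le_mul_of_nonneg_left h7 (mul_nonneg (Nat.cast_nonneg _) (c.N.nonneg _))
        _ = _ := by ring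
    linarith
  · intro l' hl'
    obtain ⟨l'', hl''⟩ := hl'
    have hlen : l'.length ≤ k := by
      have : l''.length + l'.length = k := by
        rw [← List.length_append, hl'', hl]; simp
      omega
    have h1 : ∀ x ∈ l'.map Prod.fst, x = z := by
      intro x hx
      rw [List.mem_map] at hx
      obtain ⟨p, hp, rfl⟩ := hx
      have : p ∈ l := by
        rw [← hl'']; exact List.mem_append_right _ hp
      rw [hl, List.mem_map] at this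
      obtain ⟨i, _, rfl⟩ := this
      rfl
    rw [List.eq_replicate_of_mem h1, List.prod_replicate]
    apply hz
    simpa using hlen
  · intro p hp
    rw [hl, List.mem_map] at hp
    obtain ⟨i, _, rfl⟩ := hp
    refine (hcomm i).trans ?_
    have h7 : c.N.C * r' ≤ 1 := by
      have := mul_nonneg (le_trans zero_le_one c.N.one_le_C) hr0
      linarith
    calc c.N.C * c.N.n z * r' = c.N.n z * (c.N.C * r') := by ring
      _ ≤ c.N.n z * 1 := mul_le_mul_of_nonneg_left h7 (c.N.nonneg _)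
      _ ≤ _ := by rw [mul_one]; exact hz1

lemma n_pow_le (g : G) (i : ℕ) : c.N.n (g ^ i) ≤ i * c.N.n g := by
  induction i with
  | zero => simp [c.N.one]
  | succ i ih =>
    rw [pow_succ]
    refine (c.N.mul _ _).trans ?_
    push_cast
    linarith

/-- lower bound -/
lemma le_dist (v w : c.𝔤) (ρ : ℝ) (hρr : 4 * ρ ≤ c.N.r) (hρC : 8 * (c.N.C * ρ) ≤ 1)
    (hv : ‖v‖ ≤ ρ) (hw : ‖w‖ ≤ ρ) :
    ‖w - v‖ ≤ 4 * c.N.n ((c.exp v)⁻¹ * c.exp w) := by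
  refine le_of_tendsto (c.E3 v w) ?_
  have hr := c.N.r_pos
  have hρ0 : 0 ≤ ρ := (c.nn v).trans hv
  have hlt : ‖w - v‖ < c.N.r := by
    have h : ‖w - v‖ ≤ ‖w‖ + ‖v‖ := norm_sub_le (w : G →ᵇ ℝ) (v : G →ᵇ ℝ)
    rcases eq_or_lt_of_le hρ0 with h0 | h0
    · rw [← h0] at hv hw
      linarith
    · linarith
  filter_upwards [eventually_ne_atTop 0, (c.E3 v w).eventually (Iio_mem_nhds hlt)] with k hk hkr
  have h := c.lower (c.exp ((k : ℝ)⁻¹ • v)) ((c.exp ((k : ℝ)⁻¹ • v))⁻¹ * c.exp ((k : ℝ)⁻¹ • w)) k ρ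
    (by linarith) (fun i hi => (c.n_exp_div_pow_le v hi).trans hv) ?_ hρC
  · rw [mul_inv_cancel_left, c.exp_div v hk, c.exp_div w hk] at h
    exact h
  · intro i hi
    refine (c.n_pow_le _ i).trans (le_trans ?_ hkr.le)
    exact mul_le_mul_of_nonneg_right (by exact_mod_cast hi) (c.N.nonneg _)

lemma E4 (v w : c.𝔤) {k : ℕ} (hk : k ≠ 0) (hv : ‖v‖ / k ≤ c.F.r) (hw : ‖w‖ / k ≤ c.F.r)
    (hvw : ‖v + w‖ / k ≤ c.F.r) :
    (k : ℝ) * c.N.n ((c.exp ((k : ℝ)⁻¹ • (v + w)))⁻¹ *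
      (c.exp ((k : ℝ)⁻¹ • v) * c.exp ((k : ℝ)⁻¹ • w))) ≤
      c.F.C * (‖v + w‖ ^ 2 + ‖v‖ ^ 2 + ‖w‖ ^ 2 + ‖v‖ * ‖w‖) / k := by
  have hk0 : (0 : ℝ) < k := by exact_mod_cast Nat.pos_of_ne_zero hk
  set a := c.exp ((k : ℝ)⁻¹ • v) with ha
  set b := c.exp ((k : ℝ)⁻¹ • w) with hb
  set g := c.exp ((k : ℝ)⁻¹ • (v + w)) with hg
  rw [c.hN, norm_dd_inv_mul, dd_mul]
  have h1 := c.E1 ((k : ℝ)⁻¹ • v) (by rwa [c.norm_inv_smul v hk])
  have h2 := c.E1 ((k : ℝ)⁻¹ • w) (by rwa [c.norm_inv_smul w hk])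
  have h3 := c.E1 ((k : ℝ)⁻¹ • (v + w)) (by rwa [c.norm_inv_smul (v + w) hk])
  rw [c.norm_inv_smul _ hk] at h1 h2 h3
  have hna : ‖dd a c.F.φ‖ ≤ ‖v‖ / k := by
    have := c.n_exp_le ((k : ℝ)⁻¹ • v)
    rwa [c.norm_inv_smul v hk, c.hN] at this
  have hnb : ‖dd b c.F.φ‖ ≤ ‖w‖ / k := by
    have := c.n_exp_le ((k : ℝ)⁻¹ • w)
    rwa [c.norm_inv_smul w hk, c.hN] at this
  have h4 : ‖dd a (dd b c.F.φ)‖ ≤ c.F.C * (‖v‖ / k) * (‖w‖ / k) := by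
    refine (c.F.second a b (hna.trans hv) (hnb.trans hw)).trans ?_
    have hC := c.C_pos
    gcongr
  have hsum : (((k : ℝ)⁻¹ • (v + w) : c.𝔤) : G →ᵇ ℝ) =
      (((k : ℝ)⁻¹ • v : c.𝔤) : G →ᵇ ℝ) + (((k : ℝ)⁻¹ • w : c.𝔤) : G →ᵇ ℝ) := by
    ext x
    simp
  have h5 : dd g c.F.φ - (dd a c.F.φ + dd b c.F.φ + dd a (dd b c.F.φ)) =
      (dd g c.F.φ - (((k : ℝ)⁻¹ • (v + w) : c.𝔤) : G →ᵇ ℝ)) -
      (dd a c.F.φ - (((k : ℝ)⁻¹ • v : c.𝔤) : G →ᵇ ℝ)) -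
      (dd b c.F.φ - (((k : ℝ)⁻¹ • w : c.𝔤) : G →ᵇ ℝ)) - dd a (dd b c.F.φ) := by
    rw [hsum]; abel
  have h6 : ‖dd g c.F.φ - (dd a c.F.φ + dd b c.F.φ + dd a (dd b c.F.φ))‖ ≤
      c.F.C * (‖v + w‖ / k) ^ 2 + c.F.C * (‖v‖ / k) ^ 2 + c.F.C * (‖w‖ / k) ^ 2 +
      c.F.C * (‖v‖ / k) * (‖w‖ / k) := by
    rw [h5]
    refine (norm_sub_le _ _).trans (add_le_add ((norm_sub_le _ _).trans
      (add_le_add ((norm_sub_le _ _).trans (add_le_add h3 h1)) h2)) h4)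
  calc (k : ℝ) * _ ≤ (k : ℝ) * (c.F.C * (‖v + w‖ / k) ^ 2 + c.F.C * (‖v‖ / k) ^ 2 +
        c.F.C * (‖w‖ / k) ^ 2 + c.F.C * (‖v‖ / k) * (‖w‖ / k)) :=
        mul_le_mul_of_nonneg_left h6 hk0.le
    _ = _ := by field_simp

/-- `(exp(v/k) exp(w/k))^k → exp(v+w)` -/
lemma E5 (v w : c.𝔤) (hvw : ‖v + w‖ ≤ c.N.r) :
    Tendsto (fun k : ℕ => c.N.n ((c.exp (v + w))⁻¹ *
      (c.exp ((k : ℝ)⁻¹ • v) * c.exp ((k : ℝ)⁻¹ • w)) ^ k)) atTop (𝓝 0) := by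
  have hlim : Tendsto (fun k : ℕ => 2 * (c.F.C * (‖v + w‖ ^ 2 + ‖v‖ ^ 2 + ‖w‖ ^ 2 + ‖v‖ * ‖w‖)
      / (k : ℝ))) atTop (𝓝 0) := by
    have := (tendsto_const_div_atTop_nhds_zero_nat (c.F.C * (‖v + w‖ ^ 2 + ‖v‖ ^ 2 + ‖w‖ ^ 2 +
      ‖v‖ * ‖w‖))).const_mul 2
    rwa [mul_zero] at this
  refine squeeze_zero' (Eventually.of_forall fun _ => c.N.nonneg _) ?_ hlim
  filter_upwards [eventually_ne_atTop 0, c.eventually_div_le v c.F.r_pos,
    c.eventually_div_le w c.F.r_pos, c.eventually_div_le (v + w) c.F.r_pos,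
    (tendsto_const_div_atTop_nhds_zero_nat (c.F.C * (‖v + w‖ ^ 2 + ‖v‖ ^ 2 + ‖w‖ ^ 2 +
      ‖v‖ * ‖w‖))).eventually (Iic_mem_nhds c.N.r_pos)] with k hk h1 h2 h3 h4
  have hk1 : (1 : ℝ) ≤ k := by exact_mod_cast Nat.one_le_iff_ne_zero.mpr hk
  have h5 := c.E4 v w hk h1 h2 h3
  have h6 := c.pow1 (c.exp ((k : ℝ)⁻¹ • (v + w)))
    (c.exp ((k : ℝ)⁻¹ • v) * c.exp ((k : ℝ)⁻¹ • w)) k
    (fun i hi => (c.n_exp_div_pow_le _ hi).trans hvw) ?_
  · rw [c.exp_div _ hk] at h6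
    linarith
  · refine le_trans ?_ (h5.trans h4)
    exact le_mul_of_one_le_left (c.N.nonneg _) hk1

lemma exp_add (v w : c.𝔤) (hv : ‖v‖ ≤ c.N.r / 2) (hw : ‖w‖ ≤ c.N.r / 2) :
    c.N.n ((c.exp v * c.exp w)⁻¹ * c.exp (v + w)) ≤ 2 * c.N.C * ‖v‖ * ‖w‖ := by
  have hvw : ‖v + w‖ ≤ c.N.r := by
    have h : ‖v + w‖ ≤ ‖v‖ + ‖w‖ := norm_add_le (v : G →ᵇ ℝ) (w : G →ᵇ ℝ)
    linarith
  have hlim : Tendsto (fun k : ℕ => 2 * c.N.C * ‖v‖ * ‖w‖ + c.N.n ((c.exp (v + w))⁻¹ *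
      (c.exp ((k : ℝ)⁻¹ • v) * c.exp ((k : ℝ)⁻¹ • w)) ^ k)) atTop
      (𝓝 (2 * c.N.C * ‖v‖ * ‖w‖)) := by
    simpa using (c.E5 v w hvw).const_add (2 * c.N.C * ‖v‖ * ‖w‖)
  refine ge_of_tendsto hlim ?_
  filter_upwards [eventually_ne_atTop 0] with k hk
  have hk0 : (0 : ℝ) < k := by exact_mod_cast Nat.pos_of_ne_zero hk
  set a := c.exp ((k : ℝ)⁻¹ • v) with ha
  set b := c.exp ((k : ℝ)⁻¹ • w) with hb
  have hna : c.N.n a ≤ ‖v‖ / k := by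
    have := c.n_exp_le ((k : ℝ)⁻¹ • v)
    rwa [c.norm_inv_smul v hk] at this
  have hnb : c.N.n b ≤ ‖w‖ / k := by
    have := c.n_exp_le ((k : ℝ)⁻¹ • w)
    rwa [c.norm_inv_smul w hk] at this
  have hna' : (k : ℝ) * c.N.n a ≤ ‖v‖ := by
    rw [le_div_iff₀ hk0] at hna
    linarith
  have hnb' : (k : ℝ) * c.N.n b ≤ ‖w‖ := by
    rw [le_div_iff₀ hk0] at hnb
    linarith
  have h1 := c.pow2 a b k (hna'.trans hv) (hnb'.trans hw)
  rw [ha, hb, c.exp_div v hk, c.exp_div w hk, ← ha, ← hb] at h1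
  have h2 : 2 * c.N.C * (k : ℝ) ^ 2 * c.N.n a * c.N.n b ≤ 2 * c.N.C * ‖v‖ * ‖w‖ := by
    have hC : 0 ≤ c.N.C := le_trans zero_le_one c.N.one_le_C
    calc 2 * c.N.C * (k : ℝ) ^ 2 * c.N.n a * c.N.n b =
        2 * c.N.C * (((k : ℝ) * c.N.n a) * ((k : ℝ) * c.N.n b)) := by ring
      _ ≤ 2 * c.N.C * (‖v‖ * ‖w‖) := by
        apply mul_le_mul_of_nonneg_left _ (by linarith)
        exact mul_le_mul hna' hnb' (mul_nonneg hk0.le (c.N.nonneg _)) (c.nn v)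
      _ = _ := by ring
  have h3 := c.N.mul ((c.exp v * c.exp w)⁻¹ * (a * b) ^ k)
    (((c.exp (v + w))⁻¹ * (a * b) ^ k)⁻¹)
  rw [c.N.inv] at h3
  have h4 : (c.exp v * c.exp w)⁻¹ * (a * b) ^ k * ((c.exp (v + w))⁻¹ * (a * b) ^ k)⁻¹ =
      (c.exp v * c.exp w)⁻¹ * c.exp (v + w) := by
    have : ∀ x y z : G, x⁻¹ * y * (z⁻¹ * y)⁻¹ = x⁻¹ * z := by
      intro x y z
      simp [mul_assoc]
    exact this _ _ _
  rw [h4] at h3
  linarith

lemma continuousAt_exp (v : c.𝔤) (hv : ‖v‖ ≤ c.N.r) : ContinuousAt c.exp v := by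
  rw [ContinuousAt, _root_.tendsto_nhds]
  intro s hs hvs
  have h1 : (fun g => c.exp v * g) ⁻¹' s ∈ 𝓝 (1 : G) := by
    apply (hs.preimage (continuous_const_mul (c.exp v))).mem_nhds
    simpa using hvs
  obtain ⟨ε, hε, h2⟩ := c.N.nhds _ h1
  have h3 : ∀ᶠ w : c.𝔤 in 𝓝 v, dist w v < ε / 2 := Metric.ball_mem_nhds v (half_pos hε)
  filter_upwards [h3] with w hw
  have h4 : ‖w - v‖ < ε / 2 := by
    rw [c.dist_eq'] at hw
    exact hw
  have h5 := c.dist_le v w hv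
  have h6 := h2 ((c.exp v)⁻¹ * c.exp w) (by linarith)
  simpa using h6

lemma continuous_exp : Continuous c.exp := by
  rw [continuous_iff_continuousAt]
  intro v
  obtain ⟨k, hk, hkv⟩ : ∃ k : ℕ, k ≠ 0 ∧ ‖v‖ / k ≤ c.N.r :=
    ((eventually_ne_atTop 0).and (c.eventually_div_le v c.N.r_pos)).exists
  have h1 : c.exp = fun w : c.𝔤 => c.exp ((k : ℝ)⁻¹ • w) ^ k := by
    funext w
    rw [c.exp_div w hk]
  have h2 : ContinuousAt (fun w : c.𝔤 => (k : ℝ)⁻¹ • w) v := by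
    rw [Metric.continuousAt_iff]
    intro ε hε
    refine ⟨ε, hε, fun {w} hw => ?_⟩
    have h3 : dist ((k : ℝ)⁻¹ • w) ((k : ℝ)⁻¹ • v) = ‖w - v‖ / k := by
      rw [← c.norm_inv_smul _ hk, c.smul_sub', c.dist_eq']
    have h4 : dist w v = ‖w - v‖ := c.dist_eq' w v
    change dist ((k : ℝ)⁻¹ • w) ((k : ℝ)⁻¹ • v) < ε
    rw [h3]
    rw [h4] at hw
    have hk1 : (1 : ℝ) ≤ k := by exact_mod_cast Nat.one_le_iff_ne_zero.mpr hk
    exact lt_of_le_of_lt (div_le_self (c.nn _) hk1) hw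
  rw [h1]
  have h5 : ContinuousAt c.exp ((k : ℝ)⁻¹ • v) :=
    c.continuousAt_exp _ (by rwa [c.norm_inv_smul v hk])
  have h6 : ContinuousAt (fun w : c.𝔤 => c.exp ((k : ℝ)⁻¹ • w)) v :=
    ContinuousAt.comp (g := c.exp) (f := fun w : c.𝔤 => (k : ℝ)⁻¹ • w) h5 h2
  exact h6.pow k

lemma continuous_n : Continuous c.N.n := by
  rw [continuous_iff_continuousAt]
  intro g
  rw [Metric.continuousAt_iff']
  intro ε hε
  have h1 : Tendsto (fun h : G => g⁻¹ * h) (𝓝 g) (𝓝 1) := by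
    have := (continuous_const_mul (g⁻¹)).tendsto g
    rwa [inv_mul_cancel] at this
  filter_upwards [h1.eventually (c.N.small ε hε)] with h hh
  rw [Real.dist_eq, abs_lt]
  have h2 := c.N.mul g (g⁻¹ * h)
  have h3 := c.N.mul h ((g⁻¹ * h)⁻¹)
  rw [c.N.inv (g⁻¹ * h)] at h3
  rw [mul_inv_cancel_left] at h2
  rw [mul_inv_rev, inv_inv, mul_inv_cancel_left] at h3
  constructor <;> linarith

lemma eq_one_of_n [T2Space G] (g : G) (h : c.N.n g = 0) : g = 1 := by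
  by_contra hne
  obtain ⟨ε, hε, h1⟩ := c.N.nhds {g}ᶜ (isOpen_compl_singleton.mem_nhds (Ne.symm hne))
  exact h1 g (by rw [h]; exact hε) rfl

set_option maxHeartbeats 1000000 in
/-- surjectivity near the identity -/
lemma exp_nhds [T2Space G] [ProperSpace c.𝔤]
    (hlim : ∀ (𝒰 : Ultrafilter ℕ) (g : ℕ → G) (m : ℕ → ℕ) (L : ℝ), Tendsto m 𝒰 atTop →
      (∀ᶠ j in (𝒰 : Filter ℕ), (m j : ℝ) * ‖dd (g j) c.F.φ‖ ≤ L) →
      ∃ v : c.𝔤, Tendsto (fun j => (m j : ℝ) • dd (g j) c.F.φ) 𝒰 (𝓝 (v : G →ᵇ ℝ)))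
    (ρ : ℝ) (hρ : 0 < ρ) (hρr : 4 * ρ ≤ c.N.r) (hρC : 8 * (c.N.C * ρ) ≤ 1)
    (δ : ℝ) (hδ : 0 < δ) : c.exp '' ball (0 : c.𝔤) δ ∈ 𝓝 (1 : G) := by
  by_contra hcon
  have hex : ∀ j : ℕ, ∃ g : G, c.N.n g < 1 / ((j : ℝ) + 1) ∧ g ∉ c.exp '' ball (0 : c.𝔤) δ := by
    intro j
    by_contra hj
    push Not at hj
    apply hcon
    filter_upwards [c.N.small (1 / ((j : ℝ) + 1)) (by positivity)] with g hg
    exact hj g hg
  choose g hg1 hg2 using hex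
  set δ₁ : ℝ := min δ ρ / 2 with hδ₁
  have hδ₁pos : 0 < δ₁ := by positivity
  have hδ₁δ : δ₁ < δ := by
    have := min_le_left δ ρ
    have h2 := lt_min hδ hρ
    linarith
  have hδ₁ρ : δ₁ ≤ ρ := by
    have := min_le_right δ ρ
    have h2 := lt_min hδ hρ
    linarith
  have hcpt : IsCompact (closedBall (0 : c.𝔤) δ₁) := isCompact_closedBall 0 δ₁
  have hne : (closedBall (0 : c.𝔤) δ₁).Nonempty := ⟨0, mem_closedBall_self hδ₁pos.le⟩
  have hmin : ∀ j : ℕ, ∃ v ∈ closedBall (0 : c.𝔤) δ₁, ∀ w ∈ closedBall (0 : c.𝔤) δ₁,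
      c.N.n ((c.exp v)⁻¹ * g j) ≤ c.N.n ((c.exp w)⁻¹ * g j) := by
    intro j
    have hc : ContinuousOn (fun v : c.𝔤 => c.N.n ((c.exp v)⁻¹ * g j)) (closedBall (0 : c.𝔤) δ₁) :=
      (c.continuous_n.comp ((c.continuous_exp.inv).mul continuous_const)).continuousOn
    obtain ⟨v, hv, hv2⟩ := hcpt.exists_isMinOn hne hc
    exact ⟨v, hv, fun w hw => hv2 hw⟩
  choose v hv hvmin using hmin
  have hvn : ∀ j, ‖v j‖ ≤ δ₁ := by
    intro j
    have := hv j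
    rw [mem_closedBall, c.dist_zero'] at this
    exact this
  set h : ℕ → G := fun j => (c.exp (v j))⁻¹ * g j with hh
  have hgh : ∀ j, c.N.n (h j) ≤ c.N.n (g j) := by
    intro j
    have := hvmin j 0 (mem_closedBall_self hδ₁pos.le)
    rw [c.exp_zero, inv_one, one_mul] at this
    exact this
  have hgj : ∀ j, g j = c.exp (v j) * h j := by
    intro j; simp [hh]
  have hpos : ∀ j, 0 < c.N.n (h j) := by
    intro j
    refine lt_of_le_of_ne (c.N.nonneg _) (fun h0 => ?_)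
    have h1 := c.eq_one_of_n _ h0.symm
    apply hg2 j
    refine ⟨v j, ?_, ?_⟩
    · rw [mem_ball, c.dist_zero']
      exact lt_of_le_of_lt (hvn j) hδ₁δ
    · rw [hgj j, h1, mul_one]
  have hg0 : Tendsto (fun j => c.N.n (g j)) atTop (𝓝 0) :=
    squeeze_zero (fun _ => c.N.nonneg _) (fun j => (hg1 j).le)
      tendsto_one_div_add_atTop_nhds_zero_nat
  have hh0 : Tendsto (fun j => c.N.n (h j)) atTop (𝓝 0) :=
    squeeze_zero (fun _ => c.N.nonneg _) hgh hg0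
  have hv0 : Tendsto (fun j => ‖v j‖) atTop (𝓝 0) := by
    have h8 : Tendsto (fun j => 8 * c.N.n (g j)) atTop (𝓝 0) := by
      simpa using hg0.const_mul 8
    refine squeeze_zero (fun j => c.nn _) (fun j => ?_) h8
    have h1 := c.le_dist 0 (v j) ρ hρr hρC (by
      have : ‖(0 : c.𝔤)‖ = 0 := norm_zero (E := G →ᵇ ℝ)
      rw [this]; exact hρ.le) ((hvn j).trans hδ₁ρ)
    rw [c.exp_zero, inv_one, one_mul, c.sub_zero'] at h1
    have h2 : c.N.n (c.exp (v j)) ≤ c.N.n (g j) + c.N.n (h j) := by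
      have := c.N.mul (g j) (h j)⁻¹
      rw [c.N.inv] at this
      have h3 : g j * (h j)⁻¹ = c.exp (v j) := by simp [hh]
      rwa [h3] at this
    have h3 := hgh j
    linarith
  set m : ℕ → ℕ := fun j => ⌊1 / c.N.n (h j)⌋₊ with hm
  have hminf : Tendsto m atTop atTop := by
    apply tendsto_nat_floor_atTop.comp
    have : Tendsto (fun j => (c.N.n (h j))⁻¹) atTop atTop := by
      apply Tendsto.comp tendsto_inv_nhdsGT_zero
      rw [tendsto_nhdsWithin_iff]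
      exact ⟨hh0, Eventually.of_forall hpos⟩
    simpa [one_div] using this
  have hm1 : ∀ j, (m j : ℝ) * c.N.n (h j) ≤ 1 := by
    intro j
    have := Nat.floor_le (show 0 ≤ 1 / c.N.n (h j) from (one_div_pos.mpr (hpos j)).le)
    rwa [le_div_iff₀ (hpos j)] at this
  have hm2 : ∀ j, 1 - c.N.n (h j) ≤ (m j : ℝ) * c.N.n (h j) := by
    intro j
    have := Nat.lt_floor_add_one (1 / c.N.n (h j))
    rw [div_lt_iff₀ (hpos j)] at this
    have h3 : ((⌊1 / c.N.n (h j)⌋₊ : ℝ) + 1) * c.N.n (h j) = (m j : ℝ) * c.N.n (h j) +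
      c.N.n (h j) := by
      rw [hm]; ring
    linarith
  set 𝒰 : Ultrafilter ℕ := hyperfilter ℕ with h𝒰
  have hle : (𝒰 : Filter ℕ) ≤ atTop := by
    rw [← Nat.cofinite_eq_atTop]
    exact hyperfilter_le_cofinite
  obtain ⟨D, hD⟩ := hlim 𝒰 h m 1 (hminf.mono_left hle) (Eventually.of_forall fun j => by
    rw [← c.hN]; exact hm1 j)
  -- contradiction
  have key : ∀ᶠ j in (𝒰 : Filter ℕ), (m j : ℝ) * c.N.n (h j) ≤
      2 * c.N.C * ‖v j‖ * ‖D‖ + c.F.C * ‖D‖ ^ 2 / (m j : ℝ) +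
      ‖(m j : ℝ) • dd (h j) c.F.φ - (D : G →ᵇ ℝ)‖ := by
    have hmr : Tendsto (fun j => (m j : ℝ)) 𝒰 atTop :=
      tendsto_natCast_atTop_atTop.comp (hminf.mono_left hle)
    have e1 : ∀ᶠ j in (𝒰 : Filter ℕ), ‖D‖ / (m j : ℝ) ≤ c.F.r :=
      (((c.eventually_div_le D c.F.r_pos)).filter_mono (hminf.mono_left hle))
    have e2 : ∀ᶠ j in (𝒰 : Filter ℕ), ‖D‖ / (m j : ℝ) ≤ δ₁ / 2 :=
      (((c.eventually_div_le D (half_pos hδ₁pos))).filter_mono (hminf.mono_left hle))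
    have e3 : ∀ᶠ j in (𝒰 : Filter ℕ), ‖v j‖ ≤ δ₁ / 2 :=
      (hv0.eventually (Iic_mem_nhds (half_pos hδ₁pos))).filter_mono hle
    have e4 : ∀ᶠ j in (𝒰 : Filter ℕ), m j ≠ 0 :=
      (eventually_ne_atTop 0).filter_mono (hminf.mono_left hle)
    filter_upwards [e1, e2, e3, e4] with j h1 h2 h3 h4
    have hm0 : (0 : ℝ) < m j := by exact_mod_cast Nat.pos_of_ne_zero h4
    set d : c.𝔤 := (m j : ℝ)⁻¹ • D with hd
    have hdn : ‖d‖ = ‖D‖ / m j := c.norm_inv_smul D h4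
    have hwn : ‖v j + d‖ ≤ δ₁ := by
      have h5 : ‖v j + d‖ ≤ ‖v j‖ + ‖d‖ := norm_add_le (v j : G →ᵇ ℝ) (d : G →ᵇ ℝ)
      rw [hdn] at h5
      linarith
    have h5 := hvmin j (v j + d) (by
      rw [mem_closedBall, c.dist_zero']; exact hwn)
    have h6 : c.N.n ((c.exp (v j + d))⁻¹ * g j) ≤
        2 * c.N.C * ‖v j‖ * ‖d‖ + c.N.n ((c.exp d)⁻¹ * h j) := by
      have h7 : (c.exp (v j + d))⁻¹ * g j =
          ((c.exp (v j) * c.exp d)⁻¹ * c.exp (v j + d))⁻¹ * ((c.exp d)⁻¹ * h j) := by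
        rw [hgj j]
        simp [mul_assoc]
      rw [h7]
      refine (c.N.mul _ _).trans ?_
      rw [c.N.inv]
      have h8 := c.exp_add (v j) d (by linarith) (by rw [hdn]; linarith)
      linarith
    have h9 : c.N.n ((c.exp d)⁻¹ * h j) ≤ c.F.C * (‖D‖ / m j) ^ 2 +
        (m j : ℝ)⁻¹ * ‖(m j : ℝ) • dd (h j) c.F.φ - (D : G →ᵇ ℝ)‖ := by
      rw [c.hN, norm_dd_inv_mul]
      have h10 := c.E1 d (by rw [hdn]; exact h1)
      rw [hdn] at h10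
      have h11 : dd (c.exp d) c.F.φ - dd (h j) c.F.φ =
          (dd (c.exp d) c.F.φ - (d : G →ᵇ ℝ)) -
          (m j : ℝ)⁻¹ • ((m j : ℝ) • dd (h j) c.F.φ - (D : G →ᵇ ℝ)) := by
        have h12 : (d : G →ᵇ ℝ) = (m j : ℝ)⁻¹ • (D : G →ᵇ ℝ) := by
          rw [hd]; rfl
        rw [h12, smul_sub, smul_smul, inv_mul_cancel₀ hm0.ne', one_smul]
        abel
      rw [h11]
      refine (norm_sub_le _ _).trans (add_le_add h10 ?_)
      rw [norm_smul, norm_inv, Real.norm_natCast]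
    have h10 : c.N.n (h j) ≤ 2 * c.N.C * ‖v j‖ * (‖D‖ / m j) + (c.F.C * (‖D‖ / m j) ^ 2 +
        (m j : ℝ)⁻¹ * ‖(m j : ℝ) • dd (h j) c.F.φ - (D : G →ᵇ ℝ)‖) := by
      rw [hdn] at h6
      exact h5.trans (h6.trans (by linarith))
    calc (m j : ℝ) * c.N.n (h j) ≤ (m j : ℝ) * _ := mul_le_mul_of_nonneg_left h10 hm0.le
      _ = _ := by field_simp; ring
  have hlimR : Tendsto (fun j => 2 * c.N.C * ‖v j‖ * ‖D‖ + c.F.C * ‖D‖ ^ 2 / (m j : ℝ) +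
      ‖(m j : ℝ) • dd (h j) c.F.φ - (D : G →ᵇ ℝ)‖) 𝒰 (𝓝 0) := by
    have t1 : Tendsto (fun j => 2 * c.N.C * ‖v j‖ * ‖D‖) 𝒰 (𝓝 0) := by
      have := ((hv0.mono_left hle).const_mul (2 * c.N.C)).mul_const ‖D‖
      rw [mul_zero, zero_mul] at this
      exact this
    have t2 : Tendsto (fun j => c.F.C * ‖D‖ ^ 2 / (m j : ℝ)) 𝒰 (𝓝 0) :=
      (tendsto_const_div_atTop_nhds_zero_nat _).comp (hminf.mono_left hle)
    have t3 : Tendsto (fun j => ‖(m j : ℝ) • dd (h j) c.F.φ - (D : G →ᵇ ℝ)‖) 𝒰 (𝓝 0) := by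
      have := (tendsto_iff_norm_sub_tendsto_zero.mp hD)
      exact this
    have t4 := (t1.add t2).add t3
    rw [add_zero, add_zero] at t4
    exact t4
  have hlimL : Tendsto (fun j => (m j : ℝ) * c.N.n (h j)) 𝒰 (𝓝 1) := by
    refine tendsto_of_tendsto_of_tendsto_of_le_of_le ?_ tendsto_const_nhds hm2 hm1
    simpa using (hh0.mono_left hle).const_sub 1
  have := le_of_tendsto_of_tendsto hlimL hlimR key
  linarith

end Ctx

/-- TASK A7 from A4 and A5. -/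
theorem taskA7_of (h4a : TaskA4a.{u}) (h4b : TaskA4b.{u}) (h4c : TaskA4c.{u})
    (h5a : TaskA5a.{u}) (h5b : TaskA5b.{u}) : TaskA7.{u} := by
  intro G _ _ _ _ _ F 𝔤 hfin hmem
  obtain ⟨N, hNn, hNr, hNC⟩ := h4a G F
  have hex : ∀ v : 𝔤, ∃ X : OP G, HasD F X (v : G →ᵇ ℝ) := fun v => (hmem v).1 v.2
  choose X hX using hex
  obtain ⟨c1, c2, -⟩ := h4c G N
  let c : Ctx G :=
    { F := F
      N := N
      hN := fun g => congrFun hNn g
      hr := hNr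
      hC := hNC
      pert := h4b G N
      pow1 := c1
      pow2 := c2
      𝔤 := 𝔤
      X := X
      hX := hX
      uniq := fun Y v hY => (h5b G F).2 Y (X v) v hY (hX v) }
  have hCpos : 0 < N.C := lt_of_lt_of_le one_pos N.one_le_C
  have hrpos := N.r_pos
  set ρ : ℝ := min (N.r / 4) (1 / (16 * N.C)) with hρ
  have hρpos : 0 < ρ := lt_min (by positivity) (by positivity)
  have hρ1 : 4 * ρ ≤ N.r := by
    have := min_le_left (N.r / 4) (1 / (16 * N.C))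
    linarith
  have hρ2 : 16 * (N.C * ρ) ≤ 1 := by
    have := min_le_right (N.r / 4) (1 / (16 * N.C))
    rw [← hρ, le_div_iff₀ (by positivity)] at this
    linarith
  have : ProperSpace c.𝔤 := FiniteDimensional.proper_real 𝔤
  refine ⟨{
    N := N
    exp := c.exp
    K := 2 * N.C
    ρ := ρ
    one_le_K := by have := N.one_le_C; linarith
    ρ_pos := hρpos
    ρ_le := by linarith
    Kρ := by linarith
    cont := c.continuous_exp
    exp_add_smul := fun u s t => c.exp_add_smul u s t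
    exp_surj := ?_
    n_exp_le := fun u => c.n_exp_le u
    exp_add := fun u w hu hw => c.exp_add u w (by linarith) (by linarith)
    le_dist := fun u w hu hw => c.le_dist u w ρ hρ1 (by linarith) hu hw
    dist_le := fun u w hu hw => ?_
    exp_nhds := ?_ }⟩
  · intro Y
    obtain ⟨D, hD⟩ := (h5b G F).1 Y
    refine ⟨⟨D, (hmem D).2 ⟨Y, hD⟩⟩, fun t => ?_⟩
    have h1 := c.exp_smul ⟨D, (hmem D).2 ⟨Y, hD⟩⟩ t
    have h2 := c.uniq Y ⟨D, (hmem D).2 ⟨Y, hD⟩⟩ hD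
    rw [h2]
    exact h1.symm
  · have h1 := c.dist_le u w (by linarith)
    have h2 := c.nn (w - u)
    refine h1.trans ?_
    change 2 * ‖w - u‖ ≤ 4 * ‖w - u‖
    linarith
  · intro δ hδ
    refine c.exp_nhds ?_ ρ hρpos hρ1 (by linarith) δ hδ
    intro 𝒰 g m L hm hL
    obtain ⟨Y, D, hD, hlim, -⟩ := h5a G F 𝒰 g m L hm hL
    exact ⟨⟨D, (hmem D).2 ⟨Y, hD⟩⟩, hlim⟩

end Crest.Agent.R217.A7288
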