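import Crest.Agent.R217.SpecA_343

/-!
Row 217, PART A, TASK A7: the exponential map from the Gleason function and the finite dimensional
space of derivatives (uses A4a, A4c, A5a, A5b as hypotheses).
-/

set_option autoImplicit false

open Filter Topology BoundedContinuousFunction Metric
open scoped Topology BoundedContinuousFunction

namespace Crest.Agent.R217.A7_418

open Crest.Agent.R217.SpecA343

variable {G : Type*} [Group G] [TopologicalSpace G] [IsTopologicalGroup G]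

/-- time change of a one-parameter subgroup -/
def OP.scale (X : OP G) (s : ℝ) : OP G where
  X := fun t => X.X (s * t)
  cont := X.cont.comp (by fun_prop)
  add := fun a b => by rw [mul_add, X.add]

lemma hasD_scale (F : GleasonFn G) {X : OP G} {D : G →ᵇ ℝ} (h : HasD F X D) (s : ℝ) :
    HasD F (OP.scale X s) (s • D) := by
  refine ⟨fun t => ?_, fun t ht => ?_⟩
  · have := h.1 (s * t)
    simp only [OP.scale]
    rw [norm_smul, Real.norm_eq_abs]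
    rw [abs_mul] at this
    calc _ ≤ _ := this
      _ = _ := by ring
  · have h1 : |s * t| * ‖D‖ ≤ F.r := by
      rw [norm_smul, Real.norm_eq_abs] at ht
      rw [abs_mul]
      calc |s| * |t| * ‖D‖ = |t| * (|s| * ‖D‖) := by ring
        _ ≤ F.r := ht
    have := h.2 (s * t) h1
    simp only [OP.scale]
    have e1 : t • s • D = (s * t) • D := by rw [smul_smul, mul_comm]
    rw [e1, norm_smul, Real.norm_eq_abs]
    calc ‖dd (X.X (s * t)) F.φ - (s * t) • D‖ ≤ F.C * (s * t * ‖D‖) ^ 2 := this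
      _ = F.C * (s ^ 2 * (t * ‖D‖) ^ 2) := by ring
      _ = F.C * (|s| ^ 2 * (t * ‖D‖) ^ 2) := by rw [sq_abs]
      _ = F.C * (t * (|s| * ‖D‖)) ^ 2 := by ring

/-- what we need to know about `exp` on the space of derivatives -/
structure PreExp (F : GleasonFn G) (V : Type*) [NormedAddCommGroup V] [NormedSpace ℝ V]
    (ι : V →ₗᵢ[ℝ] (G →ᵇ ℝ)) where
  e : V → G
  add_smul : ∀ (u : V) (s t : ℝ), e ((s + t) • u) = e (s • u) * e (t • u)
  surj : ∀ X : OP G, ∃ u : V, ∀ t : ℝ, X.X t = e (t • u)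
  le : ∀ u : V, ‖dd (e u) F.φ‖ ≤ ‖u‖
  approx : ∀ u : V, ‖u‖ ≤ F.r → ‖dd (e u) F.φ - ι u‖ ≤ F.C * ‖u‖ ^ 2

theorem exists_preExp (F : GleasonFn G) (V : Type*) [NormedAddCommGroup V] [NormedSpace ℝ V]
    (ι : V →ₗᵢ[ℝ] (G →ᵇ ℝ))
    (h51 : ∀ X : OP G, ∃ D, HasD F X D)
    (h52 : ∀ (X Y : OP G) (D : G →ᵇ ℝ), HasD F X D → HasD F Y D → X.X = Y.X)
    (hmem : ∀ D, (∃ u, ι u = D) ↔ ∃ X : OP G, HasD F X D) : Nonempty (PreExp F V ι) := by
  have hch : ∀ u : V, ∃ X : OP G, HasD F X (ι u) := fun u => (hmem (ι u)).1 ⟨u, rfl⟩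
  choose X hX using hch
  have hsm : ∀ (u : V) (s : ℝ), (X (s • u)).X 1 = (X u).X s := by
    intro u s
    have h1 : HasD F (OP.scale (X u) s) (ι (s • u)) := by
      rw [map_smul]; exact hasD_scale F (hX u) s
    have h2 := h52 _ _ _ (hX (s • u)) h1
    rw [h2]
    simp [OP.scale]
  refine ⟨⟨fun u => (X u).X 1, ?_, ?_, ?_, ?_⟩⟩
  · intro u s t
    simp only [hsm]
    exact (X u).add s t
  · intro Y
    obtain ⟨D, hD⟩ := h51 Y
    obtain ⟨u, rfl⟩ := (hmem D).2 ⟨Y, hD⟩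
    refine ⟨u, fun t => ?_⟩
    simp only [hsm]
    rw [h52 _ _ _ hD (hX u)]
  · intro u
    have := (hX u).1 1
    simpa using this
  · intro u hu
    have := (hX u).2 1 (by simpa using hu)
    simpa using this

section main

variable {F : GleasonFn G} {V : Type*} [NormedAddCommGroup V] [NormedSpace ℝ V]
    {ι : V →ₗᵢ[ℝ] (G →ᵇ ℝ)} (P : PreExp F V ι)

include P

lemma e_zero : P.e 0 = 1 := by
  have := P.add_smul 0 0 0
  simp only [add_zero, smul_zero] at this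
  exact (mul_eq_left.mp this.symm)

lemma e_nsmul (u : V) (k : ℕ) : P.e ((k : ℝ) • u) = P.e u ^ k := by
  induction k with
  | zero => simp [e_zero P]
  | succ k ih =>
    have := P.add_smul u k 1
    push_cast
    rw [this, ih, one_smul, pow_succ]

lemma e_pow (u : V) {k : ℕ} (hk : 0 < k) : P.e ((1 / (k : ℝ)) • u) ^ k = P.e u := by
  rw [← e_nsmul P, smul_smul]
  have : (k : ℝ) ≠ 0 := by positivity
  rw [mul_one_div_cancel this, one_smul]

lemma e_pow' (u : V) {k : ℕ} (i : ℕ) :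
    P.e ((1 / (k : ℝ)) • u) ^ i = P.e (((i : ℝ) / k) • u) := by
  rw [← e_nsmul P, smul_smul]
  congr 2
  ring

/-- the key estimate: `exp (u + w)` versus `exp u * exp w` -/
lemma exp_add_aux
    (h4c1 : ∀ g h : G, ∀ k : ℕ, (∀ i ≤ k, ‖dd (g ^ i) F.φ‖ ≤ F.r) → ‖dd (g⁻¹ * h) F.φ‖ ≤ F.r →
      ‖dd ((g ^ k)⁻¹ * h ^ k) F.φ‖ ≤ 2 * k * ‖dd (g⁻¹ * h) F.φ‖)
    (h4c2 : ∀ a b : G, ∀ k : ℕ, (k : ℝ) * ‖dd a F.φ‖ ≤ F.r / 2 → (k : ℝ) * ‖dd b F.φ‖ ≤ F.r / 2 →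
      ‖dd ((a ^ k * b ^ k)⁻¹ * (a * b) ^ k) F.φ‖ ≤
        2 * (2 * F.C) * k ^ 2 * ‖dd a F.φ‖ * ‖dd b F.φ‖)
    (u w : V) (hu : ‖u‖ ≤ F.r / 4) (hw : ‖w‖ ≤ F.r / 4) :
    ‖dd ((P.e u * P.e w)⁻¹ * P.e (u + w)) F.φ‖ ≤ 4 * F.C * ‖u‖ * ‖w‖ := by
  have hC : 0 < F.C := lt_of_lt_of_le one_pos F.one_le_C
  have hr : 0 < F.r := F.r_pos
  have hCr : F.C * F.r ≤ 1 / 16 := by have := F.Cr; linarith
  have huw : ‖u + w‖ ≤ F.r / 2 := by have := norm_add_le u w; linarith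
  -- the bound for every `k`
  have key : ∀ k : ℕ, 0 < k →
      ‖dd ((P.e u * P.e w)⁻¹ * P.e (u + w)) F.φ‖ ≤
        4 * F.C * ‖u‖ * ‖w‖ + 2 * F.C * F.r ^ 2 * (1 / (k : ℝ)) := by
    intro k hk
    have hk' : (0 : ℝ) < k := by exact_mod_cast hk
    have hk1 : (1 : ℝ) ≤ k := by exact_mod_cast hk
    have hik : (1 / (k : ℝ)) ≤ 1 := by rw [div_le_one hk']; exact hk1
    have hik0 : 0 < (1 / (k : ℝ)) := by positivity
    set c : ℝ := 1 / (k : ℝ) with hc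
    have hkc : (k : ℝ) * c = 1 := by rw [hc]; field_simp
    set a := P.e (c • u) with ha
    set b := P.e (c • w) with hb
    set g := P.e (c • (u + w)) with hg
    have hau : a ^ k = P.e u := e_pow P u hk
    have hbw : b ^ k = P.e w := e_pow P w hk
    have hguw : g ^ k = P.e (u + w) := e_pow P (u + w) hk
    have hncu : ‖c • u‖ = c * ‖u‖ := by rw [norm_smul, Real.norm_of_nonneg hik0.le]
    have hncw : ‖c • w‖ = c * ‖w‖ := by rw [norm_smul, Real.norm_of_nonneg hik0.le]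
    have hncuw : ‖c • (u + w)‖ = c * ‖u + w‖ := by rw [norm_smul, Real.norm_of_nonneg hik0.le]
    have hqa : ‖dd a F.φ‖ ≤ c * ‖u‖ := hncu ▸ P.le (c • u)
    have hqb : ‖dd b F.φ‖ ≤ c * ‖w‖ := hncw ▸ P.le (c • w)
    have hcu : c * ‖u‖ ≤ ‖u‖ := by nlinarith [norm_nonneg u]
    have hcw : c * ‖w‖ ≤ ‖w‖ := by nlinarith [norm_nonneg w]
    have hcuw : c * ‖u + w‖ ≤ ‖u + w‖ := by nlinarith [norm_nonneg (u + w)]
    -- step 1
    have s1 : ‖dd ((a ^ k * b ^ k)⁻¹ * (a * b) ^ k) F.φ‖ ≤ 4 * F.C * ‖u‖ * ‖w‖ := by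
      have hka : (k : ℝ) * ‖dd a F.φ‖ ≤ ‖u‖ := by
        calc (k : ℝ) * ‖dd a F.φ‖ ≤ k * (c * ‖u‖) := by gcongr
          _ = (k * c) * ‖u‖ := by ring
          _ = ‖u‖ := by rw [hkc, one_mul]
      have hkb : (k : ℝ) * ‖dd b F.φ‖ ≤ ‖w‖ := by
        calc (k : ℝ) * ‖dd b F.φ‖ ≤ k * (c * ‖w‖) := by gcongr
          _ = (k * c) * ‖w‖ := by ring
          _ = ‖w‖ := by rw [hkc, one_mul]
      refine (h4c2 a b k (by linarith) (by linarith)).trans ?_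
      calc 2 * (2 * F.C) * k ^ 2 * ‖dd a F.φ‖ * ‖dd b F.φ‖
          = 4 * F.C * ((k : ℝ) * ‖dd a F.φ‖) * ((k : ℝ) * ‖dd b F.φ‖) := by ring
        _ ≤ 4 * F.C * ‖u‖ * ‖w‖ := by gcongr
    -- step 2
    have s2 : ‖dd (g⁻¹ * (a * b)) F.φ‖ ≤ F.C * F.r ^ 2 * c ^ 2 := by
      rw [norm_dd_inv_mul, dd_mul]
      have t1 : ‖dd g F.φ - ι (c • (u + w))‖ ≤ F.C * (c * ‖u + w‖) ^ 2 := by
        rw [← hncuw]; exact P.approx _ (by rw [hncuw]; linarith)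
      have t2 : ‖dd a F.φ - ι (c • u)‖ ≤ F.C * (c * ‖u‖) ^ 2 := by
        rw [← hncu]; exact P.approx _ (by rw [hncu]; linarith)
      have t3 : ‖dd b F.φ - ι (c • w)‖ ≤ F.C * (c * ‖w‖) ^ 2 := by
        rw [← hncw]; exact P.approx _ (by rw [hncw]; linarith)
      have t4 : ‖dd a (dd b F.φ)‖ ≤ F.C * (c * ‖u‖) * (c * ‖w‖) := by
        refine (F.second a b (by linarith) (by linarith)).trans ?_
        gcongr
      have e : dd g F.φ - (dd a F.φ + dd b F.φ + dd a (dd b F.φ)) =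
          (dd g F.φ - ι (c • (u + w))) - (dd a F.φ - ι (c • u))
          - (dd b F.φ - ι (c • w)) - dd a (dd b F.φ) := by
        have : ι (c • (u + w)) = ι (c • u) + ι (c • w) := by
          rw [smul_add, map_add]
        rw [this]; abel
      rw [e]
      have n1 := norm_sub_le (dd g F.φ - ι (c • (u + w)))
        (dd a F.φ - ι (c • u))
      have n2 := norm_sub_le ((dd g F.φ - ι (c • (u + w))) -
        (dd a F.φ - ι (c • u))) (dd b F.φ - ι (c • w))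
      have n3 := norm_sub_le (((dd g F.φ - ι (c • (u + w))) -
        (dd a F.φ - ι (c • u))) - (dd b F.φ - ι (c • w)))
        (dd a (dd b F.φ))
      have b1 : F.C * (c * ‖u + w‖) ^ 2 ≤ F.C * (c * (F.r / 2)) ^ 2 := by gcongr
      have b2 : F.C * (c * ‖u‖) ^ 2 ≤ F.C * (c * (F.r / 4)) ^ 2 := by gcongr
      have b3 : F.C * (c * ‖w‖) ^ 2 ≤ F.C * (c * (F.r / 4)) ^ 2 := by gcongr
      have b4 : F.C * (c * ‖u‖) * (c * ‖w‖) ≤ F.C * (c * (F.r / 4)) * (c * (F.r / 4)) := by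
        gcongr
      have b5 : 0 ≤ F.C * F.r ^ 2 * c ^ 2 := by positivity
      have b6 : F.C * (c * (F.r / 2)) ^ 2 + F.C * (c * (F.r / 4)) ^ 2
          + F.C * (c * (F.r / 4)) ^ 2 + F.C * (c * (F.r / 4)) * (c * (F.r / 4))
          = 7 / 16 * (F.C * F.r ^ 2 * c ^ 2) := by ring
      linarith
    have s3 : ‖dd ((g ^ k)⁻¹ * (a * b) ^ k) F.φ‖ ≤ 2 * F.C * F.r ^ 2 * c := by
      have hgi : ∀ i ≤ k, ‖dd (g ^ i) F.φ‖ ≤ F.r := by
        intro i hi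
        rw [hg, hc, e_pow' P]
        refine (P.le _).trans ?_
        rw [norm_smul, Real.norm_of_nonneg (by positivity)]
        have : (i : ℝ) / k ≤ 1 := by
          rw [div_le_one hk']; exact_mod_cast hi
        nlinarith [norm_nonneg (u + w)]
      have hsm : F.C * F.r ^ 2 * c ^ 2 ≤ F.r := by
        have h1 : c ^ 2 ≤ 1 := by nlinarith
        have h2 : F.C * F.r ^ 2 * c ^ 2 ≤ F.C * F.r ^ 2 * 1 := by gcongr
        nlinarith
      refine (h4c1 g (a * b) k hgi (s2.trans hsm)).trans ?_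
      calc 2 * (k : ℝ) * ‖dd (g⁻¹ * (a * b)) F.φ‖ ≤ 2 * k * (F.C * F.r ^ 2 * c ^ 2) := by gcongr
        _ = 2 * F.C * F.r ^ 2 * c * (k * c) := by ring
        _ = 2 * F.C * F.r ^ 2 * c := by rw [hkc, mul_one]
    have e : (P.e u * P.e w)⁻¹ * P.e (u + w) =
        ((a ^ k * b ^ k)⁻¹ * (a * b) ^ k) * ((g ^ k)⁻¹ * (a * b) ^ k)⁻¹ := by
      rw [hau, hbw, hguw]; group
    rw [e]
    refine (norm_dd_mul_le _ _ _).trans ?_
    rw [norm_dd_inv]
    linarith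
  have hlim : Tendsto (fun k : ℕ => 4 * F.C * ‖u‖ * ‖w‖ + 2 * F.C * F.r ^ 2 * (1 / (k : ℝ)))
      atTop (𝓝 (4 * F.C * ‖u‖ * ‖w‖ + 2 * F.C * F.r ^ 2 * 0)) :=
    (tendsto_one_div_atTop_nhds_zero_nat.const_mul _).const_add _
  rw [mul_zero, add_zero] at hlim
  exact ge_of_tendsto hlim (eventually_atTop.2 ⟨1, fun k hk => key k hk⟩)

/-- the output of the estimates -/
lemma dist_aux (hadd : ∀ u w : V, ‖u‖ ≤ F.r / 4 → ‖w‖ ≤ F.r / 4 →
      ‖dd ((P.e u * P.e w)⁻¹ * P.e (u + w)) F.φ‖ ≤ 4 * F.C * ‖u‖ * ‖w‖)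
    (u w : V) (hu : ‖u‖ ≤ F.r / 8) (hw : ‖w‖ ≤ F.r / 8) :
    ‖w - u‖ ≤ 4 * ‖dd ((P.e u)⁻¹ * P.e w) F.φ‖ ∧
      ‖dd ((P.e u)⁻¹ * P.e w) F.φ‖ ≤ 4 * ‖w - u‖ := by
  have hC : 0 < F.C := lt_of_lt_of_le one_pos F.one_le_C
  have hr : 0 < F.r := F.r_pos
  have hCr : F.C * F.r ≤ 1 / 16 := by have := F.Cr; linarith
  set v := w - u with hv
  have hvn : ‖v‖ ≤ F.r / 4 := by have := norm_sub_le w u; linarith
  have hw' : w = u + v := by rw [hv]; abel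
  have h1 := hadd u v (by linarith) hvn
  rw [← hw'] at h1
  have e : (P.e u)⁻¹ * P.e w = P.e v * ((P.e u * P.e v)⁻¹ * P.e w) := by group
  have h2 := norm_dd_mul_le (P.e v) ((P.e u * P.e v)⁻¹ * P.e w) F.φ
  have e' : P.e v = ((P.e u)⁻¹ * P.e w) * ((P.e u * P.e v)⁻¹ * P.e w)⁻¹ := by group
  have h3 := norm_dd_mul_le ((P.e u)⁻¹ * P.e w) ((P.e u * P.e v)⁻¹ * P.e w)⁻¹ F.φ
  rw [← e', norm_dd_inv] at h3
  rw [← e] at h2
  have h4 := P.le v
  have h5 := P.approx v (by linarith)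
  have h6 : ‖v‖ ≤ ‖dd (P.e v) F.φ‖ + F.C * ‖v‖ ^ 2 := by
    have : ‖ι v‖ ≤ ‖dd (P.e v) F.φ‖ + ‖dd (P.e v) F.φ - ι v‖ := by
      have := norm_sub_le (dd (P.e v) F.φ) (dd (P.e v) F.φ - ι v)
      simpa using this
    have h7 : ‖v‖ = ‖ι v‖ := (ι.norm_map v).symm
    linarith
  have b1 : 4 * F.C * ‖u‖ * ‖v‖ ≤ 1 / 32 * ‖v‖ := by
    have : F.C * ‖u‖ ≤ F.C * (F.r / 8) := by gcongr
    have h8 : 4 * F.C * ‖u‖ ≤ 1 / 32 := by linarith
    gcongr
  have b2 : F.C * ‖v‖ ^ 2 ≤ 1 / 64 * ‖v‖ := by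
    have : F.C * ‖v‖ ≤ F.C * (F.r / 4) := by gcongr
    have h8 : F.C * ‖v‖ ≤ 1 / 64 := by linarith
    calc F.C * ‖v‖ ^ 2 = F.C * ‖v‖ * ‖v‖ := by ring
      _ ≤ 1 / 64 * ‖v‖ := by gcongr
  have hvpos := norm_nonneg v
  constructor <;> linarith

/-- continuity of `exp` near `0` -/
lemma cont_near (hdist : ∀ u w : V, ‖u‖ ≤ F.r / 8 → ‖w‖ ≤ F.r / 8 →
      ‖dd ((P.e u)⁻¹ * P.e w) F.φ‖ ≤ 4 * ‖w - u‖) (u : V) (hu : ‖u‖ < F.r / 8) :
    ContinuousAt P.e u := by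
  have h1 : Tendsto (fun w => (P.e u)⁻¹ * P.e w) (𝓝 u) (𝓝 1) := by
    intro S hV
    obtain ⟨ε, hε, hV'⟩ := F.nhds S hV
    have hev1 : ∀ᶠ w in 𝓝 u, ‖w‖ < F.r / 8 :=
      (continuous_norm.tendsto u).eventually_lt_const hu
    have hev2 : ∀ᶠ w in 𝓝 u, ‖w - u‖ < ε / 4 := by
      have : Tendsto (fun w : V => ‖w - u‖) (𝓝 u) (𝓝 ‖u - u‖) :=
        (Continuous.tendsto (by fun_prop) u)
      rw [sub_self, norm_zero] at this
      exact this.eventually_lt_const (by positivity)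
    rw [Filter.mem_map]
    filter_upwards [hev1, hev2] with w hw1 hw2
    exact hV' _ (lt_of_le_of_lt (hdist u w hu.le hw1.le) (by linarith))
  have h2 := h1.const_mul (P.e u)
  simpa [ContinuousAt] using h2

lemma cont (hdist : ∀ u w : V, ‖u‖ ≤ F.r / 8 → ‖w‖ ≤ F.r / 8 →
      ‖dd ((P.e u)⁻¹ * P.e w) F.φ‖ ≤ 4 * ‖w - u‖) : Continuous P.e := by
  have hr : 0 < F.r := F.r_pos
  rw [continuous_iff_continuousAt]
  intro x
  obtain ⟨k, hk⟩ := exists_nat_gt (‖x‖ / (F.r / 8))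
  have hk0 : 0 < k := by
    have : (0 : ℝ) < k := lt_of_le_of_lt (by positivity) hk
    exact_mod_cast this
  have hk' : (0 : ℝ) < k := by exact_mod_cast hk0
  have hx : ‖(1 / (k : ℝ)) • x‖ < F.r / 8 := by
    rw [norm_smul, Real.norm_of_nonneg (by positivity), one_div, inv_mul_lt_iff₀ hk']
    rwa [div_lt_iff₀ (by positivity)] at hk
  have e : P.e = fun y => P.e ((1 / (k : ℝ)) • y) ^ k := by
    ext1 y; exact (e_pow P y hk0).symm
  rw [e]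
  have h1 : ContinuousAt (fun y : V => (1 / (k : ℝ)) • y) x := by fun_prop
  exact (ContinuousAt.comp (f := fun y : V => (1 / (k : ℝ)) • y) (x := x)
    (cont_near P hdist _ hx) h1).pow k

omit P [NormedAddCommGroup V] [NormedSpace ℝ V] in
lemma eq_one_of_norm [T2Space G] {g : G} (F : GleasonFn G) (h : ‖dd g F.φ‖ = 0) : g = 1 := by
  by_contra hne
  obtain ⟨ε, hε, hV⟩ := F.nhds {g}ᶜ (isOpen_compl_singleton.mem_nhds (by simpa using Ne.symm hne))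
  exact hV g (by rw [h]; exact hε) rfl

/-- local surjectivity of `exp` -/
lemma surj_near [T2Space G] [FiniteDimensional ℝ V]
    (h5a : ∀ (𝒰 : Ultrafilter ℕ)
      (g : ℕ → G) (m : ℕ → ℕ) (L : ℝ), Tendsto m 𝒰 atTop →
      (∀ᶠ j in (𝒰 : Filter ℕ), (m j : ℝ) * ‖dd (g j) F.φ‖ ≤ L) →
      ∃ (X : OP G) (D : G →ᵇ ℝ), HasD F X D ∧ Tendsto (fun j => (m j : ℝ) • dd (g j) F.φ) 𝒰 (𝓝 D))
    (hmem : ∀ D, (∃ u, ι u = D) ↔ ∃ X : OP G, HasD F X D)
    (hadd : ∀ u w : V, ‖u‖ ≤ F.r / 4 → ‖w‖ ≤ F.r / 4 →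
      ‖dd ((P.e u * P.e w)⁻¹ * P.e (u + w)) F.φ‖ ≤ 4 * F.C * ‖u‖ * ‖w‖)
    (hdist : ∀ u w : V, ‖u‖ ≤ F.r / 8 → ‖w‖ ≤ F.r / 8 →
      ‖w - u‖ ≤ 4 * ‖dd ((P.e u)⁻¹ * P.e w) F.φ‖ ∧
      ‖dd ((P.e u)⁻¹ * P.e w) F.φ‖ ≤ 4 * ‖w - u‖) (δ : ℝ) (hδ : 0 < δ) :
    P.e '' ball (0 : V) δ ∈ 𝓝 (1 : G) := by
  have hC : 0 < F.C := lt_of_lt_of_le one_pos F.one_le_C
  have hr : 0 < F.r := F.r_pos
  have hCr : F.C * F.r ≤ 1 / 16 := by have := F.Cr; linarith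
  by_contra hcon
  -- bad sequence
  have hbad : ∀ j : ℕ, ∃ g : G, ‖dd g F.φ‖ < 1 / ((j : ℝ) + 1) ∧ g ∉ P.e '' ball (0 : V) δ := by
    intro j
    by_contra hno
    push Not at hno
    exact hcon (Filter.mem_of_superset (F.small (1 / ((j : ℝ) + 1)) (by positivity))
      (fun g hg => hno g hg))
  choose g hg1 hg2 using hbad
  set ρ' : ℝ := min (F.r / 8) (δ / 2) with hρ'
  have hρ'pos : 0 < ρ' := by rw [hρ']; positivity
  have hρ'1 : ρ' ≤ F.r / 8 := min_le_left _ _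
  have hρ'2 : ρ' ≤ δ / 2 := min_le_right _ _
  have : ProperSpace V := FiniteDimensional.proper ℝ V
  have hKc : IsCompact (closedBall (0 : V) ρ') := isCompact_closedBall 0 ρ'
  have hKn : (closedBall (0 : V) ρ').Nonempty := ⟨0, by simp [hρ'pos.le]⟩
  -- closest points
  have hcontK : ∀ g : G, ContinuousOn (fun u : V => ‖dd ((P.e u)⁻¹ * g) F.φ‖)
      (closedBall (0 : V) ρ') := by
    intro g
    have : LipschitzOnWith 4 (fun u : V => ‖dd ((P.e u)⁻¹ * g) F.φ‖)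
        (closedBall (0 : V) ρ') := by
      apply LipschitzOnWith.of_dist_le_mul
      intro u hu w hw
      rw [mem_closedBall_zero_iff] at hu hw
      have h1 := (hdist u w (by linarith) (by linarith)).2
      rw [norm_dd_inv_mul] at h1
      rw [Real.dist_eq, norm_dd_inv_mul, norm_dd_inv_mul]
      refine (abs_norm_sub_norm_le _ _).trans ?_
      have e : dd (P.e u) F.φ - dd g F.φ - (dd (P.e w) F.φ - dd g F.φ) =
        dd (P.e u) F.φ - dd (P.e w) F.φ := by abel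
      rw [e, dist_eq_norm, norm_sub_rev u w]
      exact h1
    exact this.continuousOn
  have hmin : ∀ j, ∃ u ∈ closedBall (0 : V) ρ', ∀ w ∈ closedBall (0 : V) ρ',
      ‖dd ((P.e u)⁻¹ * g j) F.φ‖ ≤ ‖dd ((P.e w)⁻¹ * g j) F.φ‖ := by
    intro j
    obtain ⟨u, hu, hu'⟩ := hKc.exists_isMinOn hKn (hcontK (g j))
    exact ⟨u, hu, fun w hw => hu' hw⟩
  choose u huK humin using hmin
  set h : ℕ → G := fun j => (P.e (u j))⁻¹ * g j with hh
  have hgh : ∀ j, g j = P.e (u j) * h j := fun j => by simp [hh]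
  have hq : ∀ j, ‖dd (h j) F.φ‖ ≤ 1 / ((j : ℝ) + 1) := by
    intro j
    have h1 := humin j 0 (by simp [hρ'pos.le])
    rw [e_zero P, inv_one, one_mul] at h1
    exact h1.trans (hg1 j).le
  have hu_small : ∀ j, ‖u j‖ ≤ 8 / ((j : ℝ) + 1) := by
    intro j
    have huj : ‖u j‖ ≤ F.r / 8 := by
      have := huK j
      rw [mem_closedBall_zero_iff] at this
      linarith
    have h1 := (hdist 0 (u j) (by rw [norm_zero]; positivity) huj).1
    rw [sub_zero, e_zero P, inv_one, one_mul] at h1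
    have e : P.e (u j) = g j * (h j)⁻¹ := by rw [hgh j]; group
    have h2 := norm_dd_mul_le (g j) (h j)⁻¹ F.φ
    rw [← e, norm_dd_inv] at h2
    have h3 := (hg1 j).le
    have h4 := hq j
    have h5 : 8 / ((j : ℝ) + 1) = 4 * (1 / ((j : ℝ) + 1) + 1 / ((j : ℝ) + 1)) := by ring
    rw [h5]; linarith
  have hne : ∀ j, 0 < ‖dd (h j) F.φ‖ := by
    intro j
    rcases (norm_nonneg (dd (h j) F.φ)).lt_or_eq with h1 | h1
    · exact h1
    · exfalso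
      have h2 := eq_one_of_norm F h1.symm
      have h3 : g j = P.e (u j) := by rw [hgh j, h2, mul_one]
      apply hg2 j
      refine ⟨u j, ?_, h3.symm⟩
      have := huK j
      rw [mem_closedBall_zero_iff] at this
      rw [mem_ball_zero_iff]; linarith
  set m : ℕ → ℕ := fun j => ⌈1 / ‖dd (h j) F.φ‖⌉₊ with hm
  have hm1 : ∀ j, 1 ≤ (m j : ℝ) * ‖dd (h j) F.φ‖ := by
    intro j
    have := Nat.le_ceil (1 / ‖dd (h j) F.φ‖)
    rwa [div_le_iff₀ (hne j)] at this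
  have hm2 : ∀ j, (m j : ℝ) * ‖dd (h j) F.φ‖ ≤ 2 := by
    intro j
    have h1 := (Nat.ceil_lt_add_one (a := 1 / ‖dd (h j) F.φ‖) (by positivity)).le
    have h2 : (m j : ℝ) * ‖dd (h j) F.φ‖ ≤ (1 / ‖dd (h j) F.φ‖ + 1) * ‖dd (h j) F.φ‖ := by
      gcongr
    have h3 : (1 / ‖dd (h j) F.φ‖ + 1) * ‖dd (h j) F.φ‖ = 1 + ‖dd (h j) F.φ‖ := by
      field_simp [(hne j).ne']
    have h4 : 1 / ((j : ℝ) + 1) ≤ 1 := by
      rw [div_le_one (by positivity)]; linarith [Nat.cast_nonneg (α := ℝ) j]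
    linarith [hq j]
  have hmpos : ∀ j, 0 < (m j : ℝ) := by
    intro j
    by_contra hno
    have h0 : (m j : ℝ) = 0 := le_antisymm (not_lt.1 hno) (Nat.cast_nonneg _)
    have h1 := hm1 j
    rw [h0, zero_mul] at h1
    linarith
  have hmge : ∀ j : ℕ, (j : ℝ) + 1 ≤ m j := by
    intro j
    have h1 := hm1 j
    have h2 : (m j : ℝ) * ‖dd (h j) F.φ‖ ≤ m j * (1 / ((j : ℝ) + 1)) := by
      have := hq j
      gcongr
    have h3 : 1 ≤ (m j : ℝ) * (1 / ((j : ℝ) + 1)) := h1.trans h2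
    rw [mul_one_div, le_div_iff₀ (by positivity)] at h3
    linarith
  set 𝒰 : Ultrafilter ℕ := Filter.hyperfilter ℕ with h𝒰
  have h𝒰le : (𝒰 : Filter ℕ) ≤ atTop := by
    rw [← Nat.cofinite_eq_atTop]; exact Filter.hyperfilter_le_cofinite
  have hmtop : Tendsto m 𝒰 atTop := by
    refine Tendsto.mono_left ?_ h𝒰le
    refine tendsto_atTop_mono (fun j => ?_) tendsto_id
    have := hmge j
    have : (j : ℝ) ≤ m j := by linarith
    exact_mod_cast this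
  obtain ⟨X, D, hD, hlim⟩ := h5a 𝒰 h m 2 hmtop (Eventually.of_forall hm2)
  obtain ⟨D', hD'⟩ := (hmem D).2 ⟨X, hD⟩
  have hDn : ‖D‖ ≤ 2 := by
    refine le_of_tendsto hlim.norm (Eventually.of_forall fun j => ?_)
    rw [norm_smul, Real.norm_of_nonneg (hmpos j).le]
    exact hm2 j
  -- three smallness conditions
  have tend0 : Tendsto (fun j : ℕ => 1 / ((j : ℝ) + 1)) 𝒰 (𝓝 0) :=
    tendsto_one_div_add_atTop_nhds_zero_nat.mono_left h𝒰le
  have ev1 : ∀ᶠ j in (𝒰 : Filter ℕ), ‖D - (m j : ℝ) • dd (h j) F.φ‖ < 1 / 4 := by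
    have : Tendsto (fun j => ‖D - (m j : ℝ) • dd (h j) F.φ‖) 𝒰 (𝓝 ‖D - D‖) :=
      (tendsto_const_nhds.sub hlim).norm
    rw [sub_self, norm_zero] at this
    exact this.eventually_lt_const (by norm_num)
  have ev2 : ∀ᶠ j : ℕ in (𝒰 : Filter ℕ), 1 / ((j : ℝ) + 1) < ρ' / 16 :=
    tend0.eventually_lt_const (by positivity)
  have ev3 : ∀ᶠ j : ℕ in (𝒰 : Filter ℕ), 1 / ((j : ℝ) + 1) < 1 / (256 * F.C) :=
    tend0.eventually_lt_const (by positivity)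
  obtain ⟨j, h1, h2, h3⟩ := (ev1.and (ev2.and ev3)).exists
  set M : ℝ := (m j : ℝ) with hM
  have hMpos : 0 < M := hmpos j
  have hMj : (j : ℝ) + 1 ≤ M := hmge j
  have hMinv : 1 / M ≤ 1 / ((j : ℝ) + 1) := one_div_le_one_div_of_le (by positivity) hMj
  set v : V := (1 / M) • D' with hv
  have hvc : ι v = (1 / M) • D := by rw [hv, map_smul, hD']
  have hvn : ‖v‖ = (1 / M) * ‖D‖ := by
    rw [hv, norm_smul, Real.norm_of_nonneg (by positivity), ← hD', ι.norm_map]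
  have hvle : ‖v‖ ≤ 2 * (1 / M) := by
    rw [hvn, mul_comm]; gcongr
  have huj := hu_small j
  have huj' : ‖u j‖ < ρ' / 2 := by
    have : 8 / ((j : ℝ) + 1) = 8 * (1 / ((j : ℝ) + 1)) := by ring
    rw [this] at huj; linarith
  have hvρ : ‖v‖ < ρ' / 2 := by linarith
  have hmemK : u j + v ∈ closedBall (0 : V) ρ' := by
    rw [mem_closedBall_zero_iff]
    have := norm_add_le (u j) v
    linarith
  have hmin := humin j (u j + v) hmemK
  have e : (P.e (u j + v))⁻¹ * g j =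
      ((P.e (u j) * P.e v)⁻¹ * P.e (u j + v))⁻¹ * ((P.e v)⁻¹ * h j) := by
    rw [hgh j]; group
  have a1 := norm_dd_mul_le ((P.e (u j) * P.e v)⁻¹ * P.e (u j + v))⁻¹ ((P.e v)⁻¹ * h j) F.φ
  rw [← e, norm_dd_inv] at a1
  have a2 := hadd (u j) v (by linarith) (by linarith)
  have a3 : ‖dd ((P.e v)⁻¹ * h j) F.φ‖ ≤ F.C * ‖v‖ ^ 2 + 1 / M * (1 / 4) := by
    rw [norm_dd_inv_mul]
    have b1 := P.approx v (by linarith)
    have b2 : ‖ι v - dd (h j) F.φ‖ ≤ 1 / M * (1 / 4) := by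
      have : ι v - dd (h j) F.φ = (1 / M) • (D - M • dd (h j) F.φ) := by
        rw [hvc, smul_sub, smul_smul, one_div_mul_cancel hMpos.ne', one_smul]
      rw [this, norm_smul, Real.norm_of_nonneg (by positivity)]
      gcongr
    have b3 : dd (P.e v) F.φ - dd (h j) F.φ =
      (dd (P.e v) F.φ - ι v) + (ι v - dd (h j) F.φ) := by abel
    rw [b3]
    exact (norm_add_le _ _).trans (add_le_add b1 b2)
  have hC1 : F.C * (1 / ((j : ℝ) + 1)) ≤ 1 / 256 := by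
    have : F.C * (1 / ((j : ℝ) + 1)) ≤ F.C * (1 / (256 * F.C)) := by gcongr
    have e2 : F.C * (1 / (256 * F.C)) = 1 / 256 := by field_simp
    linarith
  have a4 : 4 * F.C * ‖u j‖ * ‖v‖ ≤ 1 / M * (1 / 4) := by
    have c1 : 4 * F.C * ‖u j‖ ≤ 1 / 8 := by
      have c2 : F.C * ‖u j‖ ≤ F.C * (8 / ((j : ℝ) + 1)) := by gcongr
      have c3 : F.C * (8 / ((j : ℝ) + 1)) = 8 * (F.C * (1 / ((j : ℝ) + 1))) := by ring
      linarith
    calc 4 * F.C * ‖u j‖ * ‖v‖ ≤ 1 / 8 * (2 * (1 / M)) := by gcongr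
      _ = 1 / M * (1 / 4) := by ring
  have a5 : F.C * ‖v‖ ^ 2 ≤ 1 / M * (1 / 4) := by
    have c1 : F.C * ‖v‖ ≤ 1 / 8 := by
      have c2 : F.C * ‖v‖ ≤ F.C * (2 * (1 / ((j : ℝ) + 1))) := by gcongr; linarith
      linarith
    calc F.C * ‖v‖ ^ 2 = F.C * ‖v‖ * ‖v‖ := by ring
      _ ≤ 1 / 8 * (2 * (1 / M)) := by gcongr
      _ = 1 / M * (1 / 4) := by ring
  have a6 : 1 / M ≤ ‖dd (h j) F.φ‖ := by
    rw [div_le_iff₀ hMpos, mul_comm]; exact hm1 j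
  have a7 : ‖dd (h j) F.φ‖ ≤ ‖dd ((P.e (u j + v))⁻¹ * g j) F.φ‖ := hmin
  have a8 : 0 < 1 / M := by positivity
  linarith

end main

/-- the exponential data, for an abstract copy of the space of derivatives -/
theorem expData_of.{u, v} (h4a : TaskA4a.{u}) (h4c : TaskA4c.{u}) (h5a : TaskA5a.{u})
    (h5b : TaskA5b.{u}) (G : Type u) [Group G] [TopologicalSpace G] [IsTopologicalGroup G]
    [T2Space G] [LocallyCompactSpace G] (F : GleasonFn G)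
    (V : Type v) [NormedAddCommGroup V] [NormedSpace ℝ V] [FiniteDimensional ℝ V]
    (ι : V →ₗᵢ[ℝ] (G →ᵇ ℝ)) (hmem : ∀ D, (∃ u, ι u = D) ↔ ∃ X : OP G, HasD F X D) :
    Nonempty (ExpData G V) := by
  obtain ⟨N, hN, hNr, hNC⟩ := h4a G F
  obtain ⟨h51, h52⟩ := h5b G F
  obtain ⟨P⟩ := exists_preExp F V ι h51 h52 hmem
  obtain ⟨c1, c2, -⟩ := h4c G N
  rw [hN, hNr] at c1 c2
  rw [hNC] at c2
  have hadd : ∀ u w : V, ‖u‖ ≤ F.r / 4 → ‖w‖ ≤ F.r / 4 →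
      ‖dd ((P.e u * P.e w)⁻¹ * P.e (u + w)) F.φ‖ ≤ 4 * F.C * ‖u‖ * ‖w‖ :=
    fun u w hu hw => exp_add_aux P c1 c2 u w hu hw
  have hdist := fun u w hu hw => dist_aux P hadd u w hu hw
  have hC : 1 ≤ F.C := F.one_le_C
  have hr : 0 < F.r := F.r_pos
  have hCr : F.C * F.r ≤ 1 / 16 := by have := F.Cr; linarith
  refine ⟨{
    N := N
    exp := P.e
    K := 4 * F.C
    ρ := F.r / 8
    one_le_K := by linarith
    ρ_pos := by positivity
    ρ_le := by rw [hNr]; linarith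
    Kρ := by nlinarith
    cont := cont P (fun u w hu hw => (hdist u w hu hw).2)
    exp_add_smul := P.add_smul
    exp_surj := P.surj
    n_exp_le := by rw [hN]; exact P.le
    exp_add := ?_
    le_dist := by rw [hN]; exact fun u w hu hw => (hdist u w hu hw).1
    dist_le := by rw [hN]; exact fun u w hu hw => (hdist u w hu hw).2
    exp_nhds := ?_ }⟩
  · rw [hN]
    exact fun u w hu hw => hadd u w (by linarith) (by linarith)
  · intro δ hδ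
    refine surj_near P ?_ hmem hadd hdist δ hδ
    intro 𝒰 g m L h1 h2
    obtain ⟨X, D, h3, h4, -⟩ := h5a G F 𝒰 g m L h1 h2
    exact ⟨X, D, h3, h4⟩

/-- TASK A7 from A4a, A4c, A5a, A5b. -/
theorem taskA7_of.{u} (h4a : TaskA4a.{u}) (h4c : TaskA4c.{u}) (h5a : TaskA5a.{u})
    (h5b : TaskA5b.{u}) : TaskA7.{u} := by
  intro G _ _ _ _ _ F 𝔤 hfin hmem
  have := hfin
  have hmem' : ∀ D, (∃ u, 𝔤.subtypeₗᵢ u = D) ↔ ∃ X : OP G, HasD F X D := by
    intro D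
    rw [← hmem D]
    constructor
    · rintro ⟨u, rfl⟩; exact u.2
    · intro hD; exact ⟨⟨D, hD⟩, rfl⟩
  exact expData_of h4a h4c h5a h5b G F 𝔤 𝔤.subtypeₗᵢ hmem'

end Crest.Agent.R217.A7_418
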