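import Crest.Agent.R217.SpecA_343

/-!
Row 217 (S0336), part A, task A9a: `Psi B = ∫₀¹ exp (-sB) ds` is smooth in `B`.
-/

set_option autoImplicit false

open Filter Topology
open scoped Topology ContDiff
open Crest.Agent.R217.SpecA343

namespace Crest.Agent.R217.A9a_970

open ContinuousLinearMap in
/-- Intertwining of exponentials. -/
theorem exp_comp_intertwine {V : Type*} [NormedAddCommGroup V] [NormedSpace ℝ V] [CompleteSpace V]
    {W : Type*} [NormedAddCommGroup W] [NormedSpace ℝ W] [CompleteSpace W]
    (M : W →L[ℝ] W) (N : V →L[ℝ] V) (L : V →L[ℝ] W) (h : M.comp L = L.comp N) :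
    (NormedSpace.exp M).comp L = L.comp (NormedSpace.exp N) := by
  have hpow : ∀ n : ℕ, (M ^ n).comp L = L.comp (N ^ n) := by
    intro n
    induction n with
    | zero => rfl
    | succ n ih =>
      rw [pow_succ, pow_succ, ContinuousLinearMap.mul_def, ContinuousLinearMap.mul_def,
        ContinuousLinearMap.comp_assoc, h, ← ContinuousLinearMap.comp_assoc, ih,
        ContinuousLinearMap.comp_assoc]
  have h1 := NormedSpace.exp_series_hasSum_exp' (𝕂 := ℝ) M
  have h2 := NormedSpace.exp_series_hasSum_exp' (𝕂 := ℝ) N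
  have h3 := ((ContinuousLinearMap.compL ℝ V W W).flip L).hasSum h1
  have h4 := ((ContinuousLinearMap.compL ℝ V V W) L).hasSum h2
  have h5 : (fun b : ℕ => ((ContinuousLinearMap.compL ℝ V W W).flip L)
      ((b.factorial : ℝ)⁻¹ • M ^ b)) =
      fun b : ℕ => ((ContinuousLinearMap.compL ℝ V V W) L) ((b.factorial : ℝ)⁻¹ • N ^ b) := by
    funext b
    simp only [ContinuousLinearMap.flip_apply, ContinuousLinearMap.compL_apply,
      ContinuousLinearMap.smul_comp, ContinuousLinearMap.comp_smul, hpow]
  rw [h5] at h3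
  have h6 := h3.unique h4
  simpa using h6

/-- The block operator. -/
noncomputable def blk {V : Type*} [NormedAddCommGroup V] [NormedSpace ℝ V] (B : V →L[ℝ] V) :
    (V × V) →L[ℝ] (V × V) :=
  (ContinuousLinearMap.inl ℝ V V).comp
    ((-B).comp (ContinuousLinearMap.fst ℝ V V) + ContinuousLinearMap.snd ℝ V V)

theorem blk_contDiff {V : Type*} [NormedAddCommGroup V] [NormedSpace ℝ V] :
    ContDiff ℝ ∞ (blk (V := V)) := by
  unfold blk
  refine contDiff_const.clm_comp ?_
  refine ContDiff.add ?_ contDiff_const
  exact (contDiff_neg).clm_comp contDiff_const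

theorem blk_inl {V : Type*} [NormedAddCommGroup V] [NormedSpace ℝ V] (B : V →L[ℝ] V) (s : ℝ) :
    (s • blk B).comp (ContinuousLinearMap.inl ℝ V V) =
      (ContinuousLinearMap.inl ℝ V V).comp (-(s • B)) := by
  ext v
  · simp [blk]
  · simp [blk]

theorem blk_apply_inr {V : Type*} [NormedAddCommGroup V] [NormedSpace ℝ V] (B : V →L[ℝ] V) (v : V) :
    blk B (0, v) = (v, 0) := by
  simp [blk]

theorem psi_eq {V : Type*} [NormedAddCommGroup V] [NormedSpace ℝ V] [CompleteSpace V]
    (B : V →L[ℝ] V) :
    Psi B = (ContinuousLinearMap.fst ℝ V V).comp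
      ((NormedSpace.exp (blk B)).comp (ContinuousLinearMap.inr ℝ V V)) := by
  have hcont : Continuous (fun s : ℝ => NormedSpace.exp (-(s • B))) := by
    have h0 : (fun s : ℝ => NormedSpace.exp (-(s • B))) =
        fun s : ℝ => NormedSpace.exp (s • (-B)) := by
      funext s
      rw [smul_neg]
    rw [h0]
    exact continuous_iff_continuousAt.2
      (fun s => (hasDerivAt_exp_smul_const (𝕂 := ℝ) (-B) s).continuousAt)
  ext y
  unfold Psi
  rw [ContinuousLinearMap.intervalIntegral_apply (hcont.intervalIntegrable _ _)]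
  have hder : ∀ s : ℝ, HasDerivAt
      (fun s : ℝ => (ContinuousLinearMap.fst ℝ V V)
        ((NormedSpace.exp (s • blk B)) (0, y)))
      (NormedSpace.exp (-(s • B)) y) s := by
    intro s
    have h1 := hasDerivAt_exp_smul_const (𝕂 := ℝ) (blk B) s
    have h2 := (((ContinuousLinearMap.fst ℝ V V).comp
      (ContinuousLinearMap.apply ℝ (V × V) ((0 : V), y))).hasFDerivAt).comp_hasDerivAt s h1
    have h3 : ((ContinuousLinearMap.fst ℝ V V).comp
      (ContinuousLinearMap.apply ℝ (V × V) ((0 : V), y)))
        (NormedSpace.exp (s • blk B) * blk B) = NormedSpace.exp (-(s • B)) y := by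
      have h4 := exp_comp_intertwine (s • blk B) (-(s • B)) (ContinuousLinearMap.inl ℝ V V)
        (blk_inl B s)
      have h5 := congrArg (fun T => T y) h4
      simp only [ContinuousLinearMap.comp_apply, ContinuousLinearMap.inl_apply] at h5
      simp only [ContinuousLinearMap.comp_apply, ContinuousLinearMap.apply_apply,
        mul_apply_eq_comp, blk_apply_inr, h5, ContinuousLinearMap.coe_fst']
    rw [h3] at h2
    exact h2
  rw [intervalIntegral.integral_eq_sub_of_hasDerivAt (fun s _ => hder s)
    ((hcont.clm_apply continuous_const).intervalIntegrable _ _)]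
  simp

end Crest.Agent.R217.A9a_970

namespace Crest.Agent.R217.A9a_970

theorem taskA9a.{v} : TaskA9a.{v} := by
  intro V _ _ _
  have : CompleteSpace V := FiniteDimensional.complete ℝ V
  refine ⟨?_, ?_⟩
  · have h : (Psi (V := V)) = fun B => (ContinuousLinearMap.fst ℝ V V).comp
        ((NormedSpace.exp (blk B)).comp (ContinuousLinearMap.inr ℝ V V)) := by
      funext B
      exact psi_eq B
    rw [h]
    have hexp : ContDiff ℝ ∞ (NormedSpace.exp : ((V × V) →L[ℝ] (V × V)) → _) := by
      rw [contDiff_iff_contDiffAt]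
      intro x
      exact (NormedSpace.exp_analytic (𝕂 := ℝ) x).contDiffAt
    exact contDiff_const.clm_comp ((hexp.comp blk_contDiff).clm_comp contDiff_const)
  · unfold Psi
    simp only [smul_zero, neg_zero, NormedSpace.exp_zero]
    simp
    rfl

end Crest.Agent.R217.A9a_970
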