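import Crest.Agent.R217.A8_430

/-!
Row 217 (S0336), PART A, task A9b: the derivative of the exponential map. helper430
-/

set_option autoImplicit false

open Filter Topology BoundedContinuousFunction Metric
open scoped Topology BoundedContinuousFunction Manifold ContDiff

namespace Crest.Agent.R217.A9b_430
open Crest.Agent.R217.SpecA343 Crest.Agent.R217.A8_430

universe u v

/-- reversed product `f (k-1) * ... * f 0` -/
def PR {G : Type u} [Group G] (f : ℕ → G) : ℕ → G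
  | 0 => 1
  | k + 1 => f k * PR f k

lemma mul_pow_eq {G : Type u} [Group G] (a x : G) (k : ℕ) :
    (a * x) ^ k = a ^ k * PR (fun j => (a ^ j)⁻¹ * x * a ^ j) k := by
  induction k with
  | zero => simp [PR]
  | succ k ih =>
    rw [pow_succ' (a * x), ih, PR, pow_succ' a]
    simp only [mul_assoc, mul_inv_cancel_left]

section
variable {G : Type u} [Group G] [TopologicalSpace G]

lemma conj_le (N : GNorm G) (b q : G) (hb : N.n b ≤ N.r) (hq : N.n q ≤ N.r) :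
    N.n (b⁻¹ * q * b) ≤ 2 * N.n q := by
  have h1 := N.comm q b hq hb
  have h2 : b⁻¹ * q * b = q * (q⁻¹ * b⁻¹ * q * b) := by group
  rw [h2]
  have h3 := N.mul q (q⁻¹ * b⁻¹ * q * b)
  have hC : 0 ≤ N.C := zero_le_one.trans N.one_le_C
  have h4 : N.C * N.n q * N.n b ≤ N.n q := by
    have h5 : N.C * N.n b ≤ 1 := by
      have := N.Cr
      have : N.C * N.n b ≤ N.C * N.r := mul_le_mul_of_nonneg_left hb hC
      linarith
    calc N.C * N.n q * N.n b = (N.C * N.n b) * N.n q := by ring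
      _ ≤ 1 * N.n q := mul_le_mul_of_nonneg_right h5 (N.nonneg q)
      _ = N.n q := one_mul _
  linarith

variable {V : Type v} [NormedAddCommGroup V] [NormedSpace ℝ V] (E : ExpData G V)

lemma prod_est (w : ℕ → V) (q : ℕ → G) (m : ℕ) (σ η : ℝ) (hσ : σ ≤ E.ρ)
    (hw : ∑ j ∈ Finset.range m, ‖w j‖ ≤ σ) (hq : ∀ j < m, E.N.n (q j) ≤ η)
    (hη : η ≤ E.N.r) :
    E.N.n ((E.exp (∑ j ∈ Finset.range m, w j))⁻¹ * PR (fun j => E.exp (w j) * q j) m) ≤
      E.K * σ ^ 2 + 2 * m * η := by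
  have hK : 0 ≤ E.K := zero_le_one.trans E.one_le_K
  have hσ0 : 0 ≤ σ := (Finset.sum_nonneg fun _ _ => norm_nonneg _).trans hw
  have key : ∀ k ≤ m, E.N.n ((E.exp (∑ j ∈ Finset.range k, w j))⁻¹ *
      PR (fun j => E.exp (w j) * q j) k) ≤
      E.K * σ * (∑ j ∈ Finset.range k, ‖w j‖) + 2 * k * η := by
    intro k
    induction k with
    | zero => intro _; simp [PR, exp_zero, E.N.one]
    | succ k ih =>
      intro hk
      have hk' : k < m := hk
      have ih' := ih hk'.le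
      set S := ∑ j ∈ Finset.range k, w j with hS
      have hSk : ‖S‖ ≤ σ := by
        refine (norm_sum_le _ _).trans (le_trans ?_ hw)
        exact Finset.sum_le_sum_of_subset_of_nonneg (Finset.range_mono hk'.le)
          (fun _ _ _ => norm_nonneg _)
      have hwk : ‖w k‖ ≤ σ := by
        refine le_trans ?_ hw
        exact Finset.single_le_sum (f := fun j => ‖w j‖) (fun _ _ => norm_nonneg _)
          (Finset.mem_range.mpr hk')
      have h1 := E.exp_add (w k) S (hwk.trans hσ) (hSk.trans hσ)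
      have h2 : E.N.n ((E.exp S)⁻¹ * q k * E.exp S) ≤ 2 * η := by
        refine (conj_le E.N _ _ ((E.n_exp_le S).trans (hSk.trans (hσ.trans E.ρ_le)))
          ((hq k hk').trans hη)).trans ?_
        have := hq k hk'
        linarith
      have e : (E.exp (∑ j ∈ Finset.range (k + 1), w j))⁻¹ *
          PR (fun j => E.exp (w j) * q j) (k + 1) =
          ((E.exp (w k) * E.exp S)⁻¹ * E.exp (w k + S))⁻¹ *
          (((E.exp S)⁻¹ * q k * E.exp S) *
            ((E.exp S)⁻¹ * PR (fun j => E.exp (w j) * q j) k)) := by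
        rw [Finset.sum_range_succ, ← hS, add_comm S, PR]
        group
      rw [e, Finset.sum_range_succ]
      refine (E.N.mul _ _).trans ?_
      rw [E.N.inv]
      have h3 := E.N.mul ((E.exp S)⁻¹ * q k * E.exp S)
        ((E.exp S)⁻¹ * PR (fun j => E.exp (w j) * q j) k)
      have h4 : E.K * ‖w k‖ * ‖S‖ ≤ E.K * σ * ‖w k‖ := by
        calc E.K * ‖w k‖ * ‖S‖ ≤ E.K * ‖w k‖ * σ := by gcongr
          _ = _ := by ring
      push_cast
      have h5 : E.K * σ * (∑ j ∈ Finset.range k, ‖w j‖ + ‖w k‖) =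
        E.K * σ * (∑ j ∈ Finset.range k, ‖w j‖) + E.K * σ * ‖w k‖ := by ring
      rw [h5]
      linarith
  refine (key m le_rfl).trans ?_
  have : E.K * σ * (∑ j ∈ Finset.range m, ‖w j‖) ≤ E.K * σ * σ := by gcongr
  nlinarith

end

section
variable {A : Type v} [NormedRing A] [NormedAlgebra ℝ A] [CompleteSpace A]

/-- the primitive of `exp (-sB)` -/
noncomputable def FF (B : A) (x : ℝ) : A := ∫ s in (0 : ℝ)..x, NormedSpace.exp (-(s • B))

lemma cont_exp (B : A) : Continuous (fun s : ℝ => NormedSpace.exp (-(s • B))) := by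
  let _ : NormedAlgebra ℚ A := NormedAlgebra.restrictScalars ℚ ℝ A
  exact NormedSpace.exp_continuous.comp (by fun_prop)

lemma exp_add_mul (B : A) (s t : ℝ) : NormedSpace.exp (-((s + t) • B)) =
    NormedSpace.exp (-(s • B)) * NormedSpace.exp (-(t • B)) := by
  let _ : NormedAlgebra ℚ A := NormedAlgebra.restrictScalars ℚ ℝ A
  rw [← NormedSpace.exp_add_of_commute, add_smul, neg_add]
  exact (((Commute.refl B).smul_left s).smul_right t).neg_left.neg_right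

lemma FF_add (B : A) (x y : ℝ) : FF B (x + y) = FF B x + NormedSpace.exp (-(x • B)) * FF B y := by
  have hc := cont_exp B
  have h1 : NormedSpace.exp (-(x • B)) * FF B y =
      ∫ s in (0:ℝ)..y, NormedSpace.exp (-((x + s) • B)) := by
    have := (ContinuousLinearMap.mul ℝ A (NormedSpace.exp (-(x • B)))).intervalIntegral_comp_comm
      (hc.intervalIntegrable (μ := MeasureTheory.volume) 0 y)
    simp only [exp_add_mul]
    simpa [FF] using this.symm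
  rw [h1, intervalIntegral.integral_comp_add_left (fun x => NormedSpace.exp (-(x • B))) x,
    add_zero]
  exact (intervalIntegral.integral_add_adjacent_intervals (hc.intervalIntegrable _ _)
    (hc.intervalIntegrable _ _)).symm

lemma FF_mul (B : A) (h : ℝ) (k : ℕ) : FF B (k * h) =
    (∑ j ∈ Finset.range k, NormedSpace.exp (-(((j : ℝ) * h) • B))) * FF B h := by
  induction k with
  | zero => simp [FF]
  | succ k ih =>
    push_cast
    rw [add_mul, one_mul, FF_add, ih, Finset.sum_range_succ, add_mul]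

lemma FF_tendsto (B : A) : Tendsto (fun m : ℕ => (m : ℝ) • FF B ((m : ℝ)⁻¹)) atTop (𝓝 1) := by
  have hc := cont_exp B
  have h1 : HasDerivAt (FF B) (NormedSpace.exp (-((0 : ℝ) • B))) 0 :=
    (hc.integral_hasStrictDerivAt 0 0).hasDerivAt
  rw [zero_smul, neg_zero, NormedSpace.exp_zero] at h1
  have h2 := h1.tendsto_slope_zero_right
  have h3 : Tendsto (fun m : ℕ => ((m : ℝ))⁻¹) atTop (𝓝[>] 0) := by
    refine tendsto_nhdsWithin_iff.mpr ⟨tendsto_inv_atTop_nhds_zero_nat, ?_⟩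
    filter_upwards [eventually_gt_atTop 0] with m hm
    have : (0 : ℝ) < m := by exact_mod_cast hm
    exact inv_pos.mpr this
  refine (h2.comp h3).congr fun m => ?_
  simp [FF]

end

section MAIN
variable {G : Type u} [Group G] [TopologicalSpace G]
  {V : Type v} [NormedAddCommGroup V] [NormedSpace ℝ V]

lemma exp_smul_nat (E : ExpData G V) (u : V) (k : ℕ) : E.exp ((k : ℝ) • u) = E.exp u ^ k := by
  induction k with
  | zero => simp [exp_zero]
  | succ k ih =>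
    push_cast
    rw [E.exp_add_smul, ih, one_smul, pow_succ]

variable [IsTopologicalGroup G] [T2Space G] (E : ExpData G V) (A : AdData E)

omit [T2Space G] in
lemma Ad_eq (g : G) (u : V) : A.Ad g u = adf E g u :=
  (adf_unique E fun t => by rw [A.exp_Ad, map_smul]).symm

omit [T2Space G] in
lemma Ad_le (g : G) (hg : E.N.n g ≤ E.ρ) (u : V) : ‖A.Ad g u‖ ≤ 2 * ‖u‖ := by
  have h1 := adf_near E g (hg.trans E.ρ_le) u
  rw [← Ad_eq E A] at h1
  have hC : 0 ≤ E.N.C := zero_le_one.trans E.N.one_le_C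
  have h2 : E.N.C * E.N.n g ≤ E.N.C * E.N.r := by
    have := hg.trans E.ρ_le
    gcongr
  have h3 := E.N.Cr
  have h4 : 4 * E.N.C * E.N.n g * ‖u‖ ≤ 1 * ‖u‖ := by
    have : 4 * E.N.C * E.N.n g ≤ 1 := by linarith
    gcongr
  have h5 : ‖A.Ad g u‖ ≤ ‖A.Ad g u - u‖ + ‖u‖ := by
    simpa using norm_add_le (A.Ad g u - u) u
  linarith

omit [IsTopologicalGroup G] [T2Space G] in
lemma exp_ad_eq (z : V) (s : ℝ) :
    NormedSpace.exp (-(s • A.ad z)) = A.Ad (E.exp (-(s • z))) := by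
  rw [A.Ad_exp, map_neg, map_smul]

omit [IsTopologicalGroup G] [T2Space G] in
lemma norm_neg_smul_le {z : V} {s : ℝ} (h0 : 0 ≤ s) (h1 : s ≤ 1) (hz : ‖z‖ ≤ E.ρ) :
    E.N.n (E.exp (-(s • z))) ≤ E.ρ := by
  refine (E.n_exp_le _).trans ?_
  rw [norm_neg, norm_smul, Real.norm_eq_abs, abs_of_nonneg h0]
  calc s * ‖z‖ ≤ 1 * ‖z‖ := by gcongr
    _ ≤ E.ρ := by rw [one_mul]; exact hz

/-- the approximating sums -/
noncomputable def SS (z v : V) (m : ℕ) : V :=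
  ∑ j ∈ Finset.range m, (m : ℝ)⁻¹ • A.Ad (E.exp (-(((j : ℝ) * (m : ℝ)⁻¹) • z))) v

lemma jm_mem {j m : ℕ} (hj : j < m) : 0 ≤ (j : ℝ) * (m : ℝ)⁻¹ ∧ (j : ℝ) * (m : ℝ)⁻¹ ≤ 1 := by
  have hm : (0 : ℝ) < m := by exact_mod_cast (Nat.zero_le j).trans_lt hj
  have hj' : (j : ℝ) ≤ m := by exact_mod_cast hj.le
  refine ⟨by positivity, ?_⟩
  rw [← div_eq_mul_inv, div_le_one hm]
  exact hj'

omit [T2Space G] in
lemma sum_norm_le {z v : V} (hz : ‖z‖ ≤ E.ρ) (m : ℕ) :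
    ∑ j ∈ Finset.range m, ‖(m : ℝ)⁻¹ • A.Ad (E.exp (-(((j : ℝ) * (m : ℝ)⁻¹) • z))) v‖ ≤
      2 * ‖v‖ := by
  rcases Nat.eq_zero_or_pos m with rfl | hm
  · simp
  have hm' : (0 : ℝ) < m := by exact_mod_cast hm
  calc ∑ j ∈ Finset.range m, ‖(m : ℝ)⁻¹ • A.Ad (E.exp (-(((j : ℝ) * (m : ℝ)⁻¹) • z))) v‖
      ≤ ∑ j ∈ Finset.range m, (m : ℝ)⁻¹ * (2 * ‖v‖) := by
        refine Finset.sum_le_sum fun j hj => ?_
        obtain ⟨h0, h1⟩ := jm_mem (Finset.mem_range.mp hj)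
        rw [norm_smul, Real.norm_eq_abs, abs_of_pos (inv_pos.mpr hm')]
        have := Ad_le E A _ (norm_neg_smul_le E h0 h1 hz) v
        gcongr
    _ = 2 * ‖v‖ := by
        rw [Finset.sum_const, Finset.card_range, nsmul_eq_mul]
        field_simp

omit [T2Space G] in
lemma SS_norm {z v : V} (hz : ‖z‖ ≤ E.ρ) (m : ℕ) : ‖SS E A z v m‖ ≤ 2 * ‖v‖ :=
  (norm_sum_le _ _).trans (sum_norm_le E A hz m)

omit [T2Space G] in
lemma main_est {z v : V} (hz : ‖z‖ ≤ E.ρ) (hv : 2 * ‖v‖ ≤ E.ρ) {m : ℕ} (hm : 0 < m) :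
    E.N.n ((E.exp (SS E A z v m))⁻¹ * ((E.exp z)⁻¹ * E.exp (z + v))) ≤
      4 * E.K * ‖v‖ ^ 2 + 4 * E.K * ‖z‖ * ‖v‖ * (m : ℝ)⁻¹ := by
  have hm' : (0 : ℝ) < m := by exact_mod_cast hm
  have hK : 0 ≤ E.K := zero_le_one.trans E.one_le_K
  set a := E.exp ((m : ℝ)⁻¹ • z) with ha
  set r := (E.exp ((m : ℝ)⁻¹ • z) * E.exp ((m : ℝ)⁻¹ • v))⁻¹ * E.exp ((m : ℝ)⁻¹ • (z + v)) with hr
  set x := E.exp ((m : ℝ)⁻¹ • v) * r with hx
  have hax : a * x = E.exp ((m : ℝ)⁻¹ • (z + v)) := by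
    rw [hx, hr, ha]; group
  have haxm : (a * x) ^ m = E.exp (z + v) := by
    rw [hax, ← exp_smul_nat, smul_smul, mul_inv_cancel₀ hm'.ne', one_smul]
  have ham : a ^ m = E.exp z := by
    rw [ha, ← exp_smul_nat, smul_smul, mul_inv_cancel₀ hm'.ne', one_smul]
  have haj : ∀ j : ℕ, (a ^ j)⁻¹ = E.exp (-(((j : ℝ) * (m : ℝ)⁻¹) • z)) := by
    intro j
    rw [ha, ← exp_smul_nat, smul_smul, exp_neg]
  have hf : ∀ j : ℕ, (a ^ j)⁻¹ * x * a ^ j =
      E.exp ((m : ℝ)⁻¹ • A.Ad (E.exp (-(((j : ℝ) * (m : ℝ)⁻¹) • z))) v) *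
        ((a ^ j)⁻¹ * r * a ^ j) := by
    intro j
    rw [← haj, ← map_smul, ← A.exp_Ad, hx]
    group
  have h1 := mul_pow_eq a x m
  rw [haxm, ham] at h1
  have h2 : (E.exp z)⁻¹ * E.exp (z + v) = PR (fun j =>
      E.exp ((m : ℝ)⁻¹ • A.Ad (E.exp (-(((j : ℝ) * (m : ℝ)⁻¹) • z))) v) *
        ((a ^ j)⁻¹ * r * a ^ j)) m := by
    rw [h1, inv_mul_cancel_left]
    congr 1
    funext j
    exact hf j
  have hminv : (m : ℝ)⁻¹ ≤ 1 := by
    rw [inv_le_one₀ hm']; exact_mod_cast hm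
  have hminv0 : 0 ≤ (m : ℝ)⁻¹ := (inv_pos.mpr hm').le
  have hv' : ‖v‖ ≤ E.ρ := by have := norm_nonneg v; linarith
  have hs : ∀ u : V, ‖u‖ ≤ E.ρ → ‖(m : ℝ)⁻¹ • u‖ ≤ E.ρ := by
    intro u hu
    rw [norm_smul, Real.norm_eq_abs, abs_of_nonneg hminv0]
    calc (m : ℝ)⁻¹ * ‖u‖ ≤ 1 * ‖u‖ := by gcongr
      _ ≤ E.ρ := by rw [one_mul]; exact hu
  have hrn : E.N.n r ≤ E.K * ‖z‖ * ‖v‖ * (m : ℝ)⁻¹ ^ 2 := by
    have := E.exp_add _ _ (hs z hz) (hs v hv')
    rw [hr, smul_add]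
    refine this.trans (le_of_eq ?_)
    rw [norm_smul, norm_smul, Real.norm_eq_abs, abs_of_nonneg hminv0]
    ring
  have hρ := E.ρ_pos
  have hrρ : E.K * ‖z‖ * ‖v‖ * (m : ℝ)⁻¹ ^ 2 ≤ E.ρ / 8 := by
    have h3 : (m : ℝ)⁻¹ ^ 2 ≤ 1 := pow_le_one₀ hminv0 hminv
    have h4 : E.K * ‖z‖ * ‖v‖ ≤ E.K * E.ρ * E.ρ := by gcongr
    have h5 := E.Kρ
    have h6 : E.K * E.ρ * E.ρ ≤ (1 / 8) * E.ρ := by
      have : E.K * E.ρ ≤ 1 / 8 := by linarith
      gcongr
    calc E.K * ‖z‖ * ‖v‖ * (m : ℝ)⁻¹ ^ 2 ≤ E.K * ‖z‖ * ‖v‖ * 1 := by gcongr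
      _ ≤ E.ρ / 8 := by linarith
  have hq : ∀ j < m, E.N.n ((a ^ j)⁻¹ * r * a ^ j) ≤ 2 * (E.K * ‖z‖ * ‖v‖ * (m : ℝ)⁻¹ ^ 2) := by
    intro j hj
    obtain ⟨h0, h1⟩ := jm_mem hj
    have h3 : E.N.n (a ^ j) ≤ E.N.r := by
      rw [← E.N.inv, haj]
      exact (norm_neg_smul_le E h0 h1 hz).trans E.ρ_le
    refine (conj_le E.N _ _ h3 (hrn.trans (hrρ.trans ?_))).trans ?_
    · have := E.ρ_le; linarith
    · linarith
  have h3 := prod_est E _ _ m (2 * ‖v‖) _ hv (sum_norm_le E A (v := v) hz m) hq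
    (by have := E.ρ_le; linarith)
  rw [h2]
  refine h3.trans (le_of_eq ?_)
  field_simp
  ring

/-- TASK A9b -/
theorem SS_tendsto [FiniteDimensional ℝ V] {z v : V} (hz : ‖z‖ ≤ E.ρ) :
    Tendsto (SS E A z v) atTop (𝓝 (Psi (A.ad z) v)) := by
  have : CompleteSpace V := FiniteDimensional.complete ℝ V
  set B := A.ad z with hB
  have hF : Tendsto (fun m : ℕ => ‖((m : ℝ) • FF B ((m : ℝ)⁻¹)) v - v‖) atTop (𝓝 0) := by
    have h1 := (ContinuousLinearMap.apply ℝ V v).continuous.tendsto (1 : V →L[ℝ] V)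
    have h2 := (h1.comp (FF_tendsto B)).sub_const v
    have h3 := h2.norm
    simpa using h3
  rw [tendsto_iff_norm_sub_tendsto_zero]
  refine squeeze_zero' (g := fun m : ℕ => 2 * ‖((m : ℝ) • FF B ((m : ℝ)⁻¹)) v - v‖)
    (Eventually.of_forall fun _ => norm_nonneg _) ?_ (by simpa using hF.const_mul 2)
  filter_upwards [eventually_gt_atTop 0] with m hm
  have hm' : (0 : ℝ) < m := by exact_mod_cast hm
  have h1 : Psi B v = (∑ j ∈ Finset.range m,
      NormedSpace.exp (-(((j : ℝ) * (m : ℝ)⁻¹) • B))) (FF B ((m : ℝ)⁻¹) v) := by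
    have := FF_mul B ((m : ℝ)⁻¹) m
    rw [mul_inv_cancel₀ hm'.ne'] at this
    have h2 : Psi B = FF B 1 := rfl
    rw [h2, this]
    rfl
  have h2 : Psi B v = ∑ j ∈ Finset.range m, (m : ℝ)⁻¹ •
      A.Ad (E.exp (-(((j : ℝ) * (m : ℝ)⁻¹) • z))) (((m : ℝ) • FF B ((m : ℝ)⁻¹)) v) := by
    rw [h1, _root_.sum_apply]
    refine Finset.sum_congr rfl fun j _ => ?_
    rw [hB, exp_ad_eq, _root_.smul_apply, map_smul, smul_smul,
      inv_mul_cancel₀ hm'.ne', one_smul]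
  have h3 : SS E A z v m - Psi B v = ∑ j ∈ Finset.range m, (m : ℝ)⁻¹ •
      A.Ad (E.exp (-(((j : ℝ) * (m : ℝ)⁻¹) • z))) (v - ((m : ℝ) • FF B ((m : ℝ)⁻¹)) v) := by
    rw [h2, SS, ← Finset.sum_sub_distrib]
    refine Finset.sum_congr rfl fun j _ => ?_
    rw [map_sub, smul_sub]
  rw [h3]
  refine (norm_sum_le _ _).trans ((sum_norm_le E A hz m).trans ?_)
  rw [norm_sub_rev]

/-- TASK A9b -/
theorem taskA9b : TaskA9b.{u, v} := by
  intro G _ _ _ _ V _ _ _ E A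
  have hK : 0 < E.K := zero_lt_one.trans_le E.one_le_K
  refine ⟨4 * E.K, by positivity, E.ρ / 2, by have := E.ρ_pos; positivity, fun z v hz hv => ?_⟩
  have hρ := E.ρ_pos
  have hz' : ‖z‖ ≤ E.ρ := by linarith
  have hv' : 2 * ‖v‖ ≤ E.ρ := by linarith
  have hS := SS_tendsto E A (v := v) hz'
  have hΨ : ‖Psi (A.ad z) v‖ ≤ E.ρ :=
    le_of_tendsto hS.norm (Eventually.of_forall fun m => (SS_norm E A hz' m).trans hv')
  have h1 : Tendsto (fun m : ℕ => 4 * ‖SS E A z v m - Psi (A.ad z) v‖ +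
      (4 * E.K * ‖v‖ ^ 2 + 4 * E.K * ‖z‖ * ‖v‖ * (m : ℝ)⁻¹)) atTop
      (𝓝 (4 * 0 + (4 * E.K * ‖v‖ ^ 2 + 4 * E.K * ‖z‖ * ‖v‖ * 0))) := by
    refine ((tendsto_iff_norm_sub_tendsto_zero.mp hS).const_mul 4).add ?_
    exact (tendsto_inv_atTop_nhds_zero_nat.const_mul _).const_add _
  have h2 : 4 * 0 + (4 * E.K * ‖v‖ ^ 2 + 4 * E.K * ‖z‖ * ‖v‖ * 0) = 4 * E.K * ‖v‖ ^ 2 := by ring
  rw [h2] at h1
  refine ge_of_tendsto h1 ?_
  filter_upwards [eventually_gt_atTop 0] with m hm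
  have h3 := main_est E A hz' hv' hm
  have h4 := E.dist_le _ _ hΨ ((SS_norm E A hz' m).trans hv')
  have e : (E.exp z * E.exp (Psi (A.ad z) v))⁻¹ * E.exp (z + v) =
      ((E.exp (Psi (A.ad z) v))⁻¹ * E.exp (SS E A z v m)) *
      ((E.exp (SS E A z v m))⁻¹ * ((E.exp z)⁻¹ * E.exp (z + v))) := by group
  rw [e]
  exact (E.N.mul _ _).trans (add_le_add h4 h3)

end MAIN

end Crest.Agent.R217.A9b_430
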