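import Mathlib

/-!
Row 217 (S0336), part C, topological input (helper970).

`G` is a compact group acting continuously on a metric space `V`.

* X1: `rho G u v = sup_g dist (g • u) (g • v)` (an invariant metric) and the orbit pseudo-metric
  `rhoX G u v = inf_g rho (g • u) v`.
* X2: separation and degrees, for `χ : G →* Circle` with `χ g ^ q = 1`.
* X3: gauge cover.
* X4: return times of a topological generator.
* X5: invariant functions are uniformly continuous for `rhoX`; invariant compact neighbourhoods.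
-/

set_option autoImplicit false
set_option linter.unusedSectionVars false
set_option linter.unusedVariables false

open Filter Topology Set

namespace Crest.Agent.R217.Act970

section Basic

variable (G : Type*) [Group G] [TopologicalSpace G] [CompactSpace G]
variable {V : Type*} [MetricSpace V] [MulAction G V] [ContinuousSMul G V]

/-- The orbit map `u ↦ (g ↦ g • u)`. -/
def orb : C(V, C(G, V)) :=
  ContinuousMap.curry ⟨fun p : V × G => p.2 • p.1, by fun_prop⟩

@[simp] theorem orb_apply (u : V) (g : G) : orb G u g = g • u := rfl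

/-- The invariant metric `sup_g dist (g • u) (g • v)`. -/
noncomputable def rho (u v : V) : ℝ := dist (orb G u) (orb G v)

theorem rho_self (u : V) : rho G u u = 0 := dist_self _

theorem rho_nonneg (u v : V) : 0 ≤ rho G u v := dist_nonneg

theorem rho_comm (u v : V) : rho G u v = rho G v u := dist_comm _ _

theorem rho_triangle (u v w : V) : rho G u w ≤ rho G u v + rho G v w := dist_triangle _ _ _

theorem dist_smul_le_rho (g : G) (u v : V) : dist (g • u) (g • v) ≤ rho G u v :=
  ContinuousMap.dist_apply_le_dist (f := orb G u) (g := orb G v) g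

theorem dist_le_rho (u v : V) : dist u v ≤ rho G u v := by
  have h := dist_smul_le_rho G (1 : G) u v
  simpa using h

theorem rho_le {u v : V} {c : ℝ} (h : ∀ g : G, dist (g • u) (g • v) ≤ c) : rho G u v ≤ c :=
  (ContinuousMap.dist_le_iff_of_nonempty (f := orb G u) (g := orb G v)).2 h

theorem rho_smul_le (g : G) (u v : V) : rho G (g • u) (g • v) ≤ rho G u v := by
  refine rho_le G fun h => ?_
  rw [← mul_smul, ← mul_smul]
  exact dist_smul_le_rho G _ u v

@[simp] theorem rho_smul (g : G) (u v : V) : rho G (g • u) (g • v) = rho G u v := by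
  refine le_antisymm (rho_smul_le G g u v) ?_
  have h := rho_smul_le G g⁻¹ (g • u) (g • v)
  simpa using h

theorem rho_smul_left (g : G) (u v : V) : rho G (g • u) v = rho G u (g⁻¹ • v) := by
  have h := rho_smul G g u (g⁻¹ • v)
  rw [smul_inv_smul] at h
  exact h

theorem cont_rho {α : Type*} [TopologicalSpace α] {a b : α → V} (ha : Continuous a)
    (hb : Continuous b) : Continuous fun x => rho G (a x) (b x) :=
  ((orb G).continuous.comp ha).dist ((orb G).continuous.comp hb)

theorem continuous_rho : Continuous fun p : V × V => rho G p.1 p.2 :=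
  cont_rho G continuous_fst continuous_snd

/-- `rho` is uniformly small on compact sets. -/
theorem exists_rho_lt {K : Set V} (hK : IsCompact K) {ε : ℝ} (hε : 0 < ε) :
    ∃ δ > 0, ∀ u ∈ K, ∀ v, dist u v < δ → rho G u v < ε := by
  have h := hK.uniformContinuousAt_of_continuousAt (r := {p : C(G, V) × C(G, V) | dist p.1 p.2 < ε})
    (orb G) (fun a _ => (orb G).continuous.continuousAt) (Metric.dist_mem_uniformity hε)
  obtain ⟨δ, hδ, hd⟩ := Metric.mem_uniformity_dist.1 h
  exact ⟨δ, hδ, fun u hu v huv => hd huv hu⟩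

/-- The orbit pseudo-metric. -/
noncomputable def rhoX (u v : V) : ℝ := ⨅ g : G, rho G (g • u) v

theorem rhoX_bddBelow (u v : V) : BddBelow (Set.range fun g : G => rho G (g • u) v) :=
  ⟨0, by rintro _ ⟨g, rfl⟩; exact rho_nonneg G _ _⟩

theorem rhoX_le_smul (g : G) (u v : V) : rhoX G u v ≤ rho G (g • u) v :=
  ciInf_le (rhoX_bddBelow G u v) g

theorem rhoX_le_rho (u v : V) : rhoX G u v ≤ rho G u v := by
  simpa using rhoX_le_smul G (1 : G) u v

theorem rhoX_nonneg (u v : V) : 0 ≤ rhoX G u v :=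
  le_ciInf fun g => rho_nonneg G _ _

theorem exists_smul_lt {u v : V} {c : ℝ} (h : rhoX G u v < c) : ∃ g : G, rho G (g • u) v < c :=
  exists_lt_of_ciInf_lt h

@[simp] theorem rhoX_self (u : V) : rhoX G u u = 0 :=
  le_antisymm (by simpa [rho_self] using rhoX_le_rho G u u) (rhoX_nonneg G u u)

theorem rhoX_comm_le (u v : V) : rhoX G u v ≤ rhoX G v u := by
  refine le_ciInf fun g => ?_
  rw [rho_smul_left, rho_comm]
  exact rhoX_le_smul G g⁻¹ u v

theorem rhoX_comm (u v : V) : rhoX G u v = rhoX G v u :=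
  le_antisymm (rhoX_comm_le G u v) (rhoX_comm_le G v u)

theorem rhoX_triangle (u v w : V) : rhoX G u w ≤ rhoX G u v + rhoX G v w := by
  refine le_of_forall_pos_lt_add fun ε hε => ?_
  obtain ⟨g, hg⟩ := exists_smul_lt G (show rhoX G u v < rhoX G u v + ε / 2 by linarith)
  obtain ⟨h, hh⟩ := exists_smul_lt G (show rhoX G v w < rhoX G v w + ε / 2 by linarith)
  have h1 : rhoX G u w ≤ rho G ((h * g) • u) w := rhoX_le_smul G _ _ _
  have h2 : rho G ((h * g) • u) w ≤ rho G ((h * g) • u) (h • v) + rho G (h • v) w :=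
    rho_triangle G _ _ _
  have h3 : rho G ((h * g) • u) (h • v) = rho G (g • u) v := by
    rw [mul_smul, rho_smul]
  linarith

@[simp] theorem rhoX_smul_left (g : G) (u v : V) : rhoX G (g • u) v = rhoX G u v := by
  refine le_antisymm ?_ ?_
  · refine le_ciInf fun h => ?_
    have := rhoX_le_smul G (h * g⁻¹) (g • u) v
    rwa [smul_smul, inv_mul_cancel_right] at this
  · refine le_ciInf fun h => ?_
    have := rhoX_le_smul G (h * g) u v
    rwa [mul_smul] at this

@[simp] theorem rhoX_smul_right (g : G) (u v : V) : rhoX G u (g • v) = rhoX G u v := by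
  rw [rhoX_comm, rhoX_smul_left, rhoX_comm]

theorem abs_rhoX_sub_le (u v w : V) : |rhoX G u v - rhoX G u w| ≤ rhoX G v w := by
  rw [abs_le]
  have h1 := rhoX_triangle G u v w
  have h2 := rhoX_triangle G u w v
  rw [rhoX_comm G w v] at h2
  constructor <;> linarith

theorem continuous_rhoX : Continuous fun p : V × V => rhoX G p.1 p.2 := by
  rw [continuous_iff_continuousAt]
  rintro ⟨u, v⟩
  rw [Metric.continuousAt_iff']
  intro ε hε
  have h1 : ∀ᶠ p : V × V in 𝓝 (u, v), rho G p.1 u < ε / 2 := by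
    have hc : Continuous fun p : V × V => rho G p.1 u :=
      cont_rho G continuous_fst continuous_const
    exact (hc.tendsto (u, v)).eventually_lt_const (by simpa [rho_self] using half_pos hε)
  have h2 : ∀ᶠ p : V × V in 𝓝 (u, v), rho G p.2 v < ε / 2 := by
    have hc : Continuous fun p : V × V => rho G p.2 v :=
      cont_rho G continuous_snd continuous_const
    exact (hc.tendsto (u, v)).eventually_lt_const (by simpa [rho_self] using half_pos hε)
  filter_upwards [h1, h2] with p hp1 hp2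
  rw [Real.dist_eq]
  have e1 := abs_rhoX_sub_le G p.1 p.2 v
  have e2 := abs_rhoX_sub_le G v p.1 u
  rw [rhoX_comm G v p.1, rhoX_comm G v u] at e2
  have e3 := rhoX_le_rho G p.2 v
  have e4 := rhoX_le_rho G p.1 u
  calc |rhoX G p.1 p.2 - rhoX G u v|
      = |(rhoX G p.1 p.2 - rhoX G p.1 v) + (rhoX G p.1 v - rhoX G u v)| := by ring_nf
    _ ≤ |rhoX G p.1 p.2 - rhoX G p.1 v| + |rhoX G p.1 v - rhoX G u v| := abs_add_le _ _
    _ < ε := by linarith

theorem cont_rhoX {α : Type*} [TopologicalSpace α] {a b : α → V} (ha : Continuous a)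
    (hb : Continuous b) : Continuous fun x => rhoX G (a x) (b x) := by
  have h : Continuous fun x => (a x, b x) := ha.prodMk hb
  exact Continuous.comp (g := fun p : V × V => rhoX G p.1 p.2) (f := fun x => (a x, b x))
    (continuous_rhoX G) h

end Basic

section Generator

variable {G : Type*} [Group G] [TopologicalSpace G] [IsTopologicalGroup G] [CompactSpace G]

/-- X4: in a compact group the positive powers of `y` return to every neighbourhood of `1`. -/
theorem exists_pow_mem (y : G) {U : Set G} (hU : U ∈ 𝓝 (1 : G)) (n : ℕ) :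
    ∃ m, n < m ∧ y ^ m ∈ U := by
  obtain ⟨z, hz⟩ : ∃ z, MapClusterPt z atTop (fun k : ℕ => y ^ k) :=
    exists_clusterPt_of_compactSpace _
  have hc : Continuous fun p : G × G => p.1 * p.2⁻¹ := by fun_prop
  have hU' : (fun p : G × G => p.1 * p.2⁻¹) ⁻¹' U ∈ 𝓝 (z, z) :=
    hc.continuousAt.preimage_mem_nhds (by simpa using hU)
  rw [nhds_prod_eq, Filter.mem_prod_same_iff] at hU'
  obtain ⟨W, hW, hWU⟩ := hU'
  have hf := (mapClusterPt_iff_frequently.1 hz) W hW
  rw [Filter.frequently_atTop] at hf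
  obtain ⟨i, _, hi⟩ := hf 0
  obtain ⟨j, hj, hj'⟩ := hf (i + n + 1)
  refine ⟨j - i, by omega, ?_⟩
  have hmem : (y ^ j, y ^ i) ∈ W ×ˢ W := ⟨hj', hi⟩
  have h := hWU hmem
  have he : y ^ (j - i) = y ^ j * (y ^ i)⁻¹ := by
    rw [eq_mul_inv_iff_mul_eq, ← pow_add]
    congr 1
    omega
  rw [he]
  exact h

end Generator

section Return

variable {G : Type*} [Group G] [TopologicalSpace G] [IsTopologicalGroup G] [CompactSpace G]
variable {V : Type*} [MetricSpace V] [MulAction G V] [ContinuousSMul G V]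

/-- Elements of `G` near `1` move points of a compact set little. -/
theorem eventually_rho_smul_lt {K : Set V} (hK : IsCompact K) {ε : ℝ} (hε : 0 < ε) :
    ∀ᶠ g : G in 𝓝 1, ∀ v ∈ K, rho G (g • v) v < ε := by
  refine hK.eventually_forall_of_forall_eventually fun v _ => ?_
  have hc : Continuous fun p : G × V => rho G (p.1 • p.2) p.2 :=
    cont_rho G (continuous_smul (M := G) (X := V)) continuous_snd
  have h := hc.tendsto ((1 : G), v)
  simp only [one_smul, rho_self] at h
  exact h.eventually_lt_const hε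

/-- X4: return times for the action. -/
theorem exists_return (x : G) {q : ℕ} (hq : 0 < q) {K : Set V} (hK : IsCompact K) {ε : ℝ}
    (hε : 0 < ε) (n : ℕ) :
    ∃ m, n < m ∧ ∀ v ∈ K, rho G (x ^ (q * m) • v) v < ε := by
  obtain ⟨m, hm, hm'⟩ := exists_pow_mem (x ^ q) (eventually_rho_smul_lt (G := G) hK hε) n
  refine ⟨m, hm, ?_⟩
  rw [← pow_mul] at hm'
  exact hm'

end Return

section Degree

variable {G : Type*} [Group G] [TopologicalSpace G] [IsTopologicalGroup G] [CompactSpace G]
variable {V : Type*} [MetricSpace V] [MulAction G V] [ContinuousSMul G V]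

theorem finite_circle_pow {q : ℕ} (hq : 0 < q) : {z : Circle | z ^ q = 1}.Finite := by
  have h1 : {z : ℂ | z ^ q = 1}.Finite := by
    have h2 : {z : ℂ | z ^ q = 1} ⊆ (Polynomial.nthRootsFinset q (1 : ℂ) : Set ℂ) := by
      intro z hz
      exact (Polynomial.mem_nthRootsFinset hq 1).2 hz
    exact (Finset.finite_toSet _).subset h2
  refine (h1.preimage (f := fun z : Circle => (z : ℂ)) (Circle.coe_injective.injOn)).subset ?_
  intro z hz
  have hz' : z ^ q = 1 := hz
  show ((z : ℂ)) ^ q = 1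
  rw [← Circle.coe_pow, hz', Circle.coe_one]

theorem isClosed_ne_one {χ : G →* Circle} (hχ : Continuous χ) {q : ℕ} (hq : 0 < q)
    (hχq : ∀ g, χ g ^ q = 1) : IsClosed {g : G | χ g ≠ 1} := by
  have h1 : {g : G | χ g ≠ 1} = χ ⁻¹' ({z : Circle | z ^ q = 1} \ {1}) := by
    ext g
    simp [hχq g]
  rw [h1]
  exact (((finite_circle_pow hq).subset Set.sdiff_subset).isClosed).preimage hχ

/-- If `χ x ^ q = 1` for a topological generator `x` then `χ g ^ q = 1` for all `g`. -/
theorem pow_eq_one_of_dense {χ : G →* Circle} (hχ : Continuous χ) {q : ℕ} {x : G}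
    (hx : Dense (Set.range fun k : ℤ => x ^ k)) (hxq : χ x ^ q = 1) (g : G) : χ g ^ q = 1 := by
  have hcl : IsClosed {g : G | χ g ^ q = 1} := isClosed_eq (hχ.pow q) continuous_const
  have hsub : (Set.range fun k : ℤ => x ^ k) ⊆ {g : G | χ g ^ q = 1} := by
    rintro _ ⟨k, rfl⟩
    show χ (x ^ k) ^ q = 1
    rw [map_zpow, ← zpow_natCast, zpow_comm, zpow_natCast, hxq, one_zpow]
  have h := closure_minimal hsub hcl
  rw [hx.closure_eq] at h
  exact h (mem_univ g)

/-- The set of points not fixed by any `g` with `χ g ≠ 1` is open. -/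
theorem isOpen_free {χ : G →* Circle} (hχ : Continuous χ) {q : ℕ} (hq : 0 < q)
    (hχq : ∀ g, χ g ^ q = 1) : IsOpen {v : V | ∀ g : G, χ g ≠ 1 → g • v ≠ v} := by
  rw [isOpen_iff_mem_nhds]
  intro v hv
  have hC : IsCompact {g : G | χ g ≠ 1} := (isClosed_ne_one hχ hq hχq).isCompact
  refine hC.eventually_forall_of_forall_eventually (x₀ := v)
    (P := fun v g => g • v ≠ v) fun g hg => ?_
  have hc : Continuous fun p : V × G => p.2 • p.1 := by fun_prop
  exact (isOpen_ne_fun hc continuous_fst).mem_nhds (hv g hg)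

/-- X2, separation on a compact set. -/
theorem exists_sep {χ : G →* Circle} (hχ : Continuous χ) {q : ℕ} (hq : 0 < q)
    (hχq : ∀ g, χ g ^ q = 1) {K : Set V} (hK : IsCompact K)
    (hfree : ∀ v ∈ K, ∀ g : G, χ g ≠ 1 → g • v ≠ v) :
    ∃ δ > 0, ∀ u ∈ K, ∀ g : G, rho G (g • u) u < δ → χ g = 1 := by
  have hC : IsCompact ({g : G | χ g ≠ 1} ×ˢ K) := (isClosed_ne_one hχ hq hχq).isCompact.prod hK
  rcases ({g : G | χ g ≠ 1} ×ˢ K).eq_empty_or_nonempty with he | hne
  · refine ⟨1, one_pos, fun u hu g _ => ?_⟩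
    by_contra hg
    have : (g, u) ∈ ({g : G | χ g ≠ 1} ×ˢ K) := ⟨hg, hu⟩
    rw [he] at this
    exact this
  · have hc : Continuous fun p : G × V => rho G (p.1 • p.2) p.2 :=
      cont_rho G (continuous_smul (M := G) (X := V)) continuous_snd
    obtain ⟨⟨g0, u0⟩, ⟨hg0, hu0⟩, hmin⟩ := hC.exists_isMinOn hne hc.continuousOn
    refine ⟨rho G (g0 • u0) u0, ?_, fun u hu g hgu => ?_⟩
    · have h1 : 0 < dist (g0 • u0) u0 := dist_pos.2 (hfree u0 hu0 g0 hg0)
      exact lt_of_lt_of_le h1 (dist_le_rho G _ _)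
    · by_contra hg
      have := hmin (show (g, u) ∈ ({g : G | χ g ≠ 1} ×ˢ K) from ⟨hg, hu⟩)
      exact absurd hgu (not_lt.2 this)

variable (χ : G →* Circle)

/-- `Sep χ K δ`: for `u ∈ K`, `rho (g • u) u < δ` forces `χ g = 1`. -/
def Sep (K : Set V) (δ : ℝ) : Prop := ∀ u ∈ K, ∀ g : G, rho G (g • u) u < δ → χ g = 1

theorem Sep.eq {K : Set V} {δ : ℝ} (h : Sep χ K δ) {u v : V} (hu : u ∈ K) {g g' : G} {a b : ℝ}
    (hab : a + b ≤ δ) (hg : rho G (g • u) v < a) (hg' : rho G (g' • u) v < b) : χ g = χ g' := by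
  have h1 : rho G ((g'⁻¹ * g) • u) u < δ := by
    have h2 : rho G ((g'⁻¹ * g) • u) u = rho G (g • u) (g' • u) := by
      rw [mul_smul, rho_smul_left, inv_inv]
    rw [h2]
    have h3 := rho_triangle G (g • u) v (g' • u)
    rw [rho_comm G v] at h3
    linarith
  have h4 := h u hu _ h1
  rw [map_mul, map_inv, inv_mul_eq_one] at h4
  exact h4.symm

open Classical in
/-- The degree `χ g` where `g • u` is `δ`-near `v` (junk value `1` if there is no such `g`). -/
noncomputable def deg (δ : ℝ) (v u : V) : Circle :=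
  if h : ∃ g : G, rho G (g • u) v < δ then χ h.choose else 1

theorem deg_eq {K : Set V} {δ : ℝ} (h : Sep χ K δ) {c : ℝ} (hc : c + c ≤ δ) {u v : V}
    (hu : u ∈ K) {g : G} (hg : rho G (g • u) v < c) : deg χ c v u = χ g := by
  have hex : ∃ g : G, rho G (g • u) v < c := ⟨g, hg⟩
  unfold deg
  rw [dif_pos hex]
  exact h.eq χ hu hc hex.choose_spec hg

/-- The degree does not depend on the scale. -/
theorem deg_scale {K : Set V} {δ : ℝ} (h : Sep χ K δ) {c c' : ℝ} (hc : c + c ≤ δ)
    (hc' : c' + c' ≤ δ) {u v : V} (hu : u ∈ K) (h1 : rhoX G u v < c) (h2 : rhoX G u v < c') :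
    deg χ c v u = deg χ c' v u := by
  obtain ⟨g, hg⟩ := exists_smul_lt G h1
  obtain ⟨g', hg'⟩ := exists_smul_lt G h2
  rw [deg_eq χ h hc hu hg, deg_eq χ h hc' hu hg']
  exact h.eq χ hu (by linarith) hg hg'

theorem deg_self {K : Set V} {δ : ℝ} (h : Sep χ K δ) {c : ℝ} (hc0 : 0 < c) (hc : c + c ≤ δ) {u : V}
    (hu : u ∈ K) : deg χ c u u = 1 := by
  have h1 : rho G ((1 : G) • u) u < c := by simpa [rho_self] using hc0
  rw [deg_eq χ h hc hu h1, map_one]

/-- Symmetry of the degree. -/
theorem deg_symm {K : Set V} {δ : ℝ} (h : Sep χ K δ) {c : ℝ} (hc : c + c ≤ δ) {u v : V}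
    (hu : u ∈ K) (hv : v ∈ K) (huv : rhoX G u v < c) : deg χ c u v = (deg χ c v u)⁻¹ := by
  obtain ⟨g, hg⟩ := exists_smul_lt G huv
  have hg' : rho G (g⁻¹ • v) u < c := by rwa [rho_smul_left, inv_inv, rho_comm]
  rw [deg_eq χ h hc hu hg, deg_eq χ h hc hv hg', map_inv]

/-- Cocycle property of the degree. -/
theorem deg_mul {K : Set V} {δ : ℝ} (h : Sep χ K δ) {c : ℝ} (hc : c + c ≤ δ) {u v w : V}
    (hu : u ∈ K) (hv : v ∈ K) {a b : ℝ} (hab : a + b ≤ c) (ha : 0 ≤ a) (hb : 0 ≤ b)
    (huv : rhoX G u v < a) (hvw : rhoX G v w < b) :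
    deg χ c w v * deg χ c v u = deg χ c w u := by
  obtain ⟨g, hg⟩ := exists_smul_lt G huv
  obtain ⟨g', hg'⟩ := exists_smul_lt G hvw
  have h1 : rho G ((g' * g) • u) w < c := by
    have h2 := rho_triangle G ((g' * g) • u) (g' • v) w
    have h3 : rho G ((g' * g) • u) (g' • v) = rho G (g • u) v := by rw [mul_smul, rho_smul]
    linarith
  rw [deg_eq χ h hc hv (lt_of_lt_of_le hg' (by linarith)),
    deg_eq χ h hc hu (lt_of_lt_of_le hg (by linarith)), deg_eq χ h hc hu h1, map_mul]

/-- The degree is equivariant (commutative `G`). -/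
theorem deg_smul (hcomm : ∀ a b : G, a * b = b * a) {K : Set V} {δ : ℝ} (h : Sep χ K δ) {c : ℝ}
    (hc : c + c ≤ δ) {u v : V} (hu : u ∈ K) (g k : G) (hgu : g • u ∈ K) (huv : rhoX G u v < c) :
    deg χ c (k • v) (g • u) = χ (k * g⁻¹) * deg χ c v u := by
  obtain ⟨m, hm⟩ := exists_smul_lt G huv
  have h1 : rho G ((k * m * g⁻¹) • g • u) (k • v) < c := by
    rw [smul_smul, inv_mul_cancel_right, mul_smul, rho_smul]
    exact hm
  rw [deg_eq χ h hc hgu h1, deg_eq χ h hc hu hm, ← map_mul]
  congr 1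
  rw [mul_assoc, hcomm m, ← mul_assoc]

/-- X3, gauge: on the `rhoX`-ball of radius `c/2` around `v₀` the degree is a coboundary. -/
theorem deg_gauge {K : Set V} {δ : ℝ} (h : Sep χ K δ) {c : ℝ} (hc : c + c ≤ δ) {v₀ u v : V}
    (h0 : v₀ ∈ K) (hu : u ∈ K) (huv : rhoX G u v < c / 2) (h0u : rhoX G v₀ u < c / 2) :
    deg χ c v u = deg χ c v v₀ * (deg χ c u v₀)⁻¹ := by
  have hc0 : 0 ≤ c / 2 := le_trans (rhoX_nonneg G u v) huv.le
  have h1 := deg_mul χ h hc h0 hu (a := c / 2) (b := c / 2) (by linarith) hc0 hc0 h0u huv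
  rw [← h1, mul_inv_cancel_right]

/-- X3, finite cover by `rhoX`-balls. -/
theorem exists_gauge_cover {K : Set V} (hK : IsCompact K) {c : ℝ} (hc : 0 < c) :
    ∃ t : Finset V, (∀ v ∈ t, v ∈ K) ∧ ∀ u ∈ K, ∃ v ∈ t, rhoX G v u < c := by
  obtain ⟨t, ht, htc⟩ := hK.elim_nhds_subcover (fun v => {u | rhoX G v u < c}) (fun v _ => by
    have hcont : Continuous fun u => rhoX G v u := cont_rhoX G continuous_const continuous_id
    exact (isOpen_lt hcont continuous_const).mem_nhds (by simpa using hc))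
  refine ⟨t, ht, fun u hu => ?_⟩
  obtain ⟨v, hv, huv⟩ := Set.mem_iUnion₂.1 (htc hu)
  exact ⟨v, hv, huv⟩

end Degree

section Invariant

variable {G : Type*} [Group G] [TopologicalSpace G] [IsTopologicalGroup G] [CompactSpace G]
variable {V : Type*} [MetricSpace V] [MulAction G V] [ContinuousSMul G V]

/-- The saturation of a compact set is compact. -/
theorem isCompact_sat {K : Set V} (hK : IsCompact K) :
    IsCompact ((fun p : G × V => p.1 • p.2) '' (Set.univ ×ˢ K)) :=
  (isCompact_univ.prod hK).image (continuous_smul (M := G) (X := V))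

/-- Every compact set has a compact invariant neighbourhood. -/
theorem exists_inv_compact_nhd [LocallyCompactSpace V] {K : Set V} (hK : IsCompact K) :
    ∃ K' : Set V, IsCompact K' ∧ K ⊆ interior K' ∧ ∀ g : G, ∀ v ∈ K', g • v ∈ K' := by
  obtain ⟨L, hL, hKL⟩ := exists_compact_superset hK
  refine ⟨_, isCompact_sat (G := G) hL, hKL.trans (interior_mono ?_), ?_⟩
  · intro v hv
    exact ⟨(1, v), ⟨mem_univ _, hv⟩, one_smul _ _⟩
  · rintro g _ ⟨⟨h, v⟩, ⟨_, hv⟩, rfl⟩
    exact ⟨(g * h, v), ⟨mem_univ _, hv⟩, mul_smul _ _ _⟩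

/-- Inside an open set a compact invariant set has a compact invariant neighbourhood. -/
theorem exists_inv_compact_nhd_subset [LocallyCompactSpace V] {K U : Set V} (hK : IsCompact K)
    (hKinv : ∀ g : G, ∀ v ∈ K, g • v ∈ K) (hU : IsOpen U) (hKU : K ⊆ U) :
    ∃ K' : Set V, IsCompact K' ∧ K ⊆ interior K' ∧ K' ⊆ U ∧ ∀ g : G, ∀ v ∈ K', g • v ∈ K' := by
  have hopen : IsOpen {v : V | ∀ g : G, g • v ∈ U} := by
    rw [isOpen_iff_mem_nhds]
    intro v hv
    have h := (isCompact_univ (X := G)).eventually_forall_of_forall_eventually (x₀ := v)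
      (P := fun v g => g • v ∈ U) fun g _ => by
        have hc : Continuous fun p : V × G => p.2 • p.1 := by fun_prop
        exact (hU.preimage hc).mem_nhds (hv g)
    filter_upwards [h] with w hw g using hw g (mem_univ g)
  have hsub : K ⊆ {v : V | ∀ g : G, g • v ∈ U} := fun v hv g => hKU (hKinv g v hv)
  obtain ⟨L, hL, hKL, hLU⟩ := exists_compact_between hK hopen hsub
  refine ⟨_, isCompact_sat (G := G) hL, hKL.trans (interior_mono ?_), ?_, ?_⟩
  · intro v hv
    exact ⟨(1, v), ⟨mem_univ _, hv⟩, one_smul _ _⟩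
  · rintro _ ⟨⟨h, v⟩, ⟨_, hv⟩, rfl⟩
    exact hLU hv h
  · rintro g _ ⟨⟨h, v⟩, ⟨_, hv⟩, rfl⟩
    exact ⟨(g * h, v), ⟨mem_univ _, hv⟩, mul_smul _ _ _⟩

/-- X5: an invariant function is uniformly `rhoX`-continuous near a compact set. -/
theorem exists_rhoX_dist_lt {E : Type*} [PseudoMetricSpace E] {f : V → E} {K : Set V}
    (hK : IsCompact K) (hf : Continuous f) (hinv : ∀ (g : G) (v : V), f (g • v) = f v) {ε : ℝ}
    (hε : 0 < ε) : ∃ δ > 0, ∀ u ∈ K, ∀ v, rhoX G u v < δ → dist (f u) (f v) < ε := by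
  have hS := isCompact_sat (G := G) hK
  have h := hS.uniformContinuousAt_of_continuousAt (r := {p : E × E | dist p.1 p.2 < ε})
    f (fun a _ => hf.continuousAt) (Metric.dist_mem_uniformity hε)
  obtain ⟨δ, hδ, hd⟩ := Metric.mem_uniformity_dist.1 h
  refine ⟨δ, hδ, fun u hu v huv => ?_⟩
  obtain ⟨g, hg⟩ := exists_smul_lt G huv
  have h1 : dist (g • u) v < δ := lt_of_le_of_lt (dist_le_rho G _ _) hg
  have h2 := hd h1 ⟨(g, u), ⟨mem_univ _, hu⟩, rfl⟩
  simp only [Set.mem_ofPred_eq, hinv] at h2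
  exact h2

end Invariant

end Crest.Agent.R217.Act970
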