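import Crest.Agent.R217.Grid2_897
import Crest.Agent.R217.Carrier_834

/-! Row 217: comparison of the torus grid `gridT` with the integer grid of `Carrier_834`. -/

set_option autoImplicit false
set_option linter.unusedSectionVars false

open Matrix Finset
open scoped BigOperators

namespace Crest.Agent.R217.Grid897

open Crest.Agent.R217.PC473

noncomputable section

variable {N : ℕ} [NeZero N]

/-- the representative with coordinates in `(-N/2, N/2]` -/
def lift {n : ℕ} (s : Cell n N) : Carrier834.Cell n := fun i => ((s i).1.valMinAbs, (s i).2)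

/-- projection of the integer grid to the torus grid -/
def pr (N : ℕ) {n : ℕ} (s : Carrier834.Cell n) : Cell n N := fun i => (((s i).1 : ZMod N), (s i).2)

theorem pr_lift {n : ℕ} (s : Cell n N) : pr N (lift s) = s := by
  funext i
  simp only [pr, lift, ZMod.coe_valMinAbs]

theorem lift_injective {n : ℕ} : Function.Injective (lift : Cell n N → Carrier834.Cell n) :=
  fun s t h => by rw [← pr_lift s, ← pr_lift t, h]

theorem tail_lift {n : ℕ} (s : Cell (n + 1) N) : Fin.tail (lift s) = lift (Fin.tail s) := rfl

theorem ins_apply {R : Type*} [CommRing R] {n : ℕ} (c : ℤ × Bool) (x : Carrier834.Ch R n)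
    (t : Carrier834.Cell (n + 1)) :
    Carrier834.ins c x t = if t 0 = c then x (Fin.tail t) else 0 := by
  induction x using Finsupp.induction_linear with
  | zero => simp
  | add x y hx hy => rw [map_add, Finsupp.add_apply, hx, hy, Finsupp.add_apply]; split_ifs <;> simp
  | single s r =>
    classical
    rw [Carrier834.ins_single, Finsupp.single_apply, Finsupp.single_apply]
    by_cases h0 : t 0 = c
    · rw [if_pos h0]
      congr 1
      rw [eq_iff_iff]
      constructor
      · intro h; rw [← h, Fin.tail_cons]
      · intro h; rw [← Fin.cons_self_tail t, h0, ← h]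
    · rw [if_neg h0, if_neg]
      intro h
      exact h0 (by rw [← h, Fin.cons_zero])

theorem valMinAbs_succ {a b : ZMod N} (hb : 2 * |b.valMinAbs| + 4 ≤ N) :
    a.valMinAbs = b.valMinAbs + 1 ↔ a = b + 1 := by
  constructor
  · intro h
    rw [← ZMod.coe_valMinAbs a, h]
    push_cast
    rfl
  · intro h
    rw [ZMod.valMinAbs_spec]
    refine ⟨by rw [Int.cast_add, Int.cast_one, ZMod.coe_valMinAbs, h], ?_⟩
    have h1 := abs_le.mp (le_refl |b.valMinAbs|)
    rw [Set.mem_Ioc]
    constructor <;> omega

/-- on cells away from the cut locus the torus boundary is the boundary of the integer grid -/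
theorem gridT_d_lift : (n : ℕ) → (s t : Cell n N) → (∀ i, 2 * |(s i).1.valMinAbs| + 4 ≤ N) →
    (gridT N n).d t s = (Carrier834.bd ℂ n (lift s)) (lift t)
  | 0, s, t, _ => by simp [gridT, Carrier834.bd]
  | (n + 1), s, t, hs => by
    classical
    have ih := gridT_d_lift n (Fin.tail s) (Fin.tail t) (fun i => hs i.succ)
    rw [gridT_d_succ, Matrix.add_apply, tc_apply, tc_apply, ih, Carrier834.bd]
    have hc : ∀ k : ℤ × Bool, ((Fin.cons k (Fin.tail (lift s)) : Carrier834.Cell (n + 1)) = lift t ↔
        lift t 0 = k ∧ Fin.tail s = Fin.tail t) := by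
      intro k
      constructor
      · intro h
        refine ⟨by rw [← h, Fin.cons_zero], lift_injective ?_⟩
        rw [← tail_lift t, ← h, Fin.tail_cons, tail_lift]
      · rintro ⟨h0, h1⟩
        rw [← Fin.cons_self_tail (lift t), h0, tail_lift, tail_lift, h1]
    have h0 : (lift t 0 = lift s 0) ↔ t 0 = s 0 := by
      constructor
      · intro h
        have h1 := congrArg Prod.fst h
        have h2 := congrArg Prod.snd h
        exact Prod.ext (ZMod.injective_valMinAbs h1) h2
      · intro h
        simp only [lift, h]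
    have h1 : (lift t 0 = ((lift s 0).1, false)) ↔ ((t 0).2 = false ∧ (t 0).1 = (s 0).1) := by
      constructor
      · intro h
        have h1 := congrArg Prod.fst h
        have h2 := congrArg Prod.snd h
        exact ⟨h2, ZMod.injective_valMinAbs h1⟩
      · rintro ⟨h1, h2⟩
        simp only [lift, h1, h2]
    have h2 : (lift t 0 = ((lift s 0).1 + 1, false)) ↔ ((t 0).2 = false ∧ (t 0).1 = (s 0).1 + 1) := by
      constructor
      · intro h
        have h1 := congrArg Prod.fst h
        have h2 := congrArg Prod.snd h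
        exact ⟨h2, (valMinAbs_succ (hs 0)).mp h1⟩
      · rintro ⟨h1, h2⟩
        have h3 := (valMinAbs_succ (hs 0)).mpr h2
        simp only [lift, h1, h3]
    have hl : (lift s 0).2 = (s 0).2 := rfl
    rw [hl]
    by_cases hb : (s 0).2 = true
    · rw [if_pos hb, Finsupp.sub_apply, Finsupp.sub_apply, Finsupp.single_apply,
        Finsupp.single_apply, ins_apply, tail_lift t]
      simp only [hc, h0, h1, h2]
      rw [tail_lift]
      simp only [d1, rr, jj, Matrix.sub_apply, Matrix.of_apply, Matrix.one_apply, g1_apply, hb,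
        true_and]
      by_cases ht : Fin.tail s = Fin.tail t
      · by_cases e0 : (t 0).2 = false
        · have e1 : t 0 ≠ s 0 := fun h => by rw [h, hb] at e0; exact Bool.noConfusion e0
          simp [ht, e0, e1]
        · rw [Bool.not_eq_false] at e0
          by_cases e1 : t 0 = s 0
          · simp [ht, e1, hb]
          · simp [ht, e0, e1]
      · have ht' : Fin.tail t ≠ Fin.tail s := fun h => ht h.symm
        by_cases e1 : t 0 = s 0
        · simp [ht, ht', e1, hb]
        · simp [ht, ht', e1]
    · rw [if_neg hb, ins_apply, tail_lift t, tail_lift]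
      simp only [h0]
      simp only [d1, rr, jj, Matrix.sub_apply, Matrix.of_apply, g1_apply, hb]
      by_cases e1 : t 0 = s 0
      · simp [e1, hb]
      · simp [e1]

/-- the augmentation vector -/
def isv {n : ℕ} (t : Cell n N) : Prop := ∀ i, (t i).2 = false

instance {n : ℕ} (t : Cell n N) : Decidable (isv t) := by unfold isv; infer_instance

theorem isv_cons {n : ℕ} (c : C1 N) (t : Cell n N) :
    isv (Fin.cons c t : Cell (n + 1) N) ↔ c.2 = false ∧ isv t := by
  unfold isv
  rw [Fin.forall_fin_succ]
  simp

theorem sum_v_d1 (u : C1 N) : ∑ i : C1 N, (if i.2 = false then d1 N i u else 0) = 0 := by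
  rw [Fintype.sum_prod_type]
  simp only [Fintype.sum_bool, d1, rr, jj, Matrix.sub_apply, Matrix.of_apply]
  rcases u with ⟨u, _ | _⟩
  · simp
  · simp [Finset.sum_sub_distrib]

theorem gridT_d_aug : (n : ℕ) → (u : Cell n N) →
    ∑ t : Cell n N, (if isv t then (gridT N n).d t u else 0) = 0
  | 0, u => by simp [gridT]
  | (n + 1), u => by
    have ih := gridT_d_aug n (Fin.tail u)
    rw [sum_cons]
    have h : ∀ (i : C1 N) (t : Cell n N),
        (if isv (Fin.cons i t : Cell (n + 1) N) then (gridT N (n + 1)).d (Fin.cons i t) u else 0) =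
        (if i.2 = false then d1 N i (u 0) else 0) * (if isv t then (1 : Matrix _ _ ℂ) t (Fin.tail u) else 0) +
        (if i.2 = false then g1 N i (u 0) else 0) * (if isv t then (gridT N n).d t (Fin.tail u) else 0) := by
      intro i t
      rw [gridT_d_succ, Matrix.add_apply, tc_apply, tc_apply]
      have e1 : Fin.tail (Fin.cons i t : Cell (n + 1) N) = t := Fin.tail_cons _ _
      have e2 : (Fin.cons i t : Cell (n + 1) N) 0 = i := rfl
      rw [e1, e2]
      simp only [isv_cons]
      by_cases h1 : i.2 = false <;> by_cases h2 : isv t <;> simp [h1, h2]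
    simp only [h, Finset.sum_add_distrib, ← Finset.mul_sum, ih, mul_zero,
      add_zero, ← Finset.sum_mul, sum_v_d1, zero_mul]

/-! ### exact push-forward -/

theorem pr_cons {n : ℕ} (c : ℤ × Bool) (s : Carrier834.Cell n) :
    pr N (Fin.cons c s : Carrier834.Cell (n + 1)) =
      (Fin.cons ((c.1 : ZMod N), c.2) (pr N s) : Cell (n + 1) N) := by
  funext i
  refine Fin.cases ?_ (fun j => ?_) i
  · rfl
  · rfl

theorem tail_pr {n : ℕ} (s : Carrier834.Cell (n + 1)) :
    (Fin.tail (pr N s) : Cell n N) = pr N (Fin.tail s) := rfl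

theorem map_ins_apply {n : ℕ} (c : ℤ × Bool) (x : Carrier834.Ch ℂ n) (t : Cell (n + 1) N) :
    Finsupp.mapDomain (pr N) (Carrier834.ins c x) t =
      if t 0 = ((c.1 : ZMod N), c.2) then Finsupp.mapDomain (pr N) x (Fin.tail t) else 0 := by
  classical
  induction x using Finsupp.induction_linear with
  | zero => simp
  | add x y hx hy =>
    rw [map_add, Finsupp.mapDomain_add, Finsupp.add_apply, hx, hy, Finsupp.mapDomain_add,
      Finsupp.add_apply]
    split_ifs <;> simp
  | single s r =>
    rw [Carrier834.ins_single, Finsupp.mapDomain_single, Finsupp.mapDomain_single,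
      Finsupp.single_apply, Finsupp.single_apply, pr_cons]
    by_cases h0 : t 0 = ((c.1 : ZMod N), c.2)
    · rw [if_pos h0]
      congr 1
      rw [eq_iff_iff]
      constructor
      · intro h; rw [← h, Fin.tail_cons]
      · intro h; rw [← Fin.cons_self_tail t, h0, ← h]
    · rw [if_neg h0, if_neg]
      intro h
      exact h0 (by rw [← h, Fin.cons_zero])

/-- the torus boundary is the push-forward of the boundary of the integer grid -/
theorem gridT_d_pr : (n : ℕ) → (s : Carrier834.Cell n) → (t : Cell n N) →
    (gridT N n).d t (pr N s) = Finsupp.mapDomain (pr N) (Carrier834.bd ℂ n s) t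
  | 0, s, t => by simp [gridT, Carrier834.bd]
  | (n + 1), s, t => by
    classical
    have ih := gridT_d_pr n (Fin.tail s) (Fin.tail t)
    have hc : ∀ (k : ZMod N × Bool) (u : Cell n N),
        ((Fin.cons k u : Cell (n + 1) N) = t ↔ t 0 = k ∧ u = Fin.tail t) := by
      intro k u
      constructor
      · intro h
        rw [← h]
        exact ⟨rfl, rfl⟩
      · rintro ⟨h0, h1⟩
        rw [h1, ← h0, Fin.cons_self_tail]
    rw [gridT_d_succ, Matrix.add_apply, tc_apply, tc_apply, tail_pr, ih, Carrier834.bd]
    have hp : pr N s 0 = (((s 0).1 : ZMod N), (s 0).2) := rfl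
    by_cases hb : (s 0).2 = true
    · rw [if_pos hb]
      rw [show ∀ a b c : Carrier834.Ch ℂ (n + 1), Finsupp.mapDomain (pr N) (a - b - c) =
        Finsupp.mapDomain (pr N) a - Finsupp.mapDomain (pr N) b - Finsupp.mapDomain (pr N) c from
        fun a b c => by
          rw [← Finsupp.lmapDomain_apply (M := ℂ) (R := ℂ), map_sub, map_sub]; rfl]
      rw [Finsupp.mapDomain_single, Finsupp.mapDomain_single, Finsupp.sub_apply, Finsupp.sub_apply,
        Finsupp.single_apply, Finsupp.single_apply, pr_cons, pr_cons, map_ins_apply]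
      simp only [hc, hp, hb]
      push_cast
      rcases ht0 : t 0 with ⟨a, b⟩
      simp only [d1, rr, jj, Matrix.sub_apply, Matrix.of_apply, Matrix.one_apply, g1_apply,
        true_and]
      by_cases ht : pr N (Fin.tail s) = Fin.tail t
      · have ht' : Fin.tail t = pr N (Fin.tail s) := ht.symm
        cases b <;> by_cases e1 : a = ((s 0).1 : ZMod N) <;> simp [ht, e1]
      · have ht' : Fin.tail t ≠ pr N (Fin.tail s) := fun h => ht h.symm
        cases b <;> by_cases e1 : a = ((s 0).1 : ZMod N) <;> simp [ht, ht', e1]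
    · rw [if_neg hb, map_ins_apply]
      rw [Bool.not_eq_true] at hb
      simp only [hp, hb, d1, rr, jj, Matrix.sub_apply, Matrix.of_apply, g1_apply]
      by_cases e1 : t 0 = (((s 0).1 : ZMod N), false)
      · simp [e1]
      · simp [e1]

/-! ### block form: `J × vertices`, `J = Fin n → Bool` -/

/-- block index -/
abbrev JJ (n : ℕ) := Fin n → Bool

/-- vertices -/
abbrev VV (n N : ℕ) := Fin n → ZMod N

/-- cells = block index and vertex -/
def cellEquiv (n N : ℕ) : JJ n × VV n N ≃ Cell n N where
  toFun p := fun i => (p.2 i, p.1 i)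
  invFun x := (fun i => (x i).2, fun i => (x i).1)
  left_inv _ := rfl
  right_inv _ := rfl

/-- the block form of a matrix on cells -/
def blk (n N : ℕ) [NeZero N] :
    Matrix (Cell n N) (Cell n N) ℂ →+* Matrix (JJ n) (JJ n) (Matrix (VV n N) (VV n N) ℂ) where
  toFun M := Matrix.of fun i j => Matrix.of fun v w =>
    M (cellEquiv n N (i, v)) (cellEquiv n N (j, w))
  map_one' := by
    ext i j v w
    by_cases hij : i = j
    · subst hij
      by_cases hvw : v = w
      · subst hvw; simp
      · have : cellEquiv n N (i, v) ≠ cellEquiv n N (i, w) := fun h =>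
          hvw (congrArg Prod.snd ((cellEquiv n N).injective h))
        simp [Matrix.one_apply_ne this, Matrix.one_apply_ne hvw]
    · have : cellEquiv n N (i, v) ≠ cellEquiv n N (j, w) := fun h =>
          hij (congrArg Prod.fst ((cellEquiv n N).injective h))
      simp [Matrix.one_apply_ne this, Matrix.one_apply_ne hij]
  map_mul' A B := by
    ext i j v w
    simp only [Matrix.of_apply, Matrix.mul_apply, Matrix.sum_apply]
    rw [← (cellEquiv n N).sum_comp, Fintype.sum_prod_type]
  map_zero' := by ext i j v w; simp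
  map_add' A B := by ext i j v w; simp

theorem blk_apply (n N : ℕ) [NeZero N] (M : Matrix (Cell n N) (Cell n N) ℂ) (i j : JJ n)
    (v w : VV n N) : blk n N M i j v w = M (cellEquiv n N (i, v)) (cellEquiv n N (j, w)) := rfl

theorem blk_star (n N : ℕ) [NeZero N] (M : Matrix (Cell n N) (Cell n N) ℂ) :
    blk n N (star M) = star (blk n N M) := by
  ext i j v w
  rfl

theorem blk_smul (n N : ℕ) [NeZero N] (c : ℂ) (M : Matrix (Cell n N) (Cell n N) ℂ) :
    blk n N (c • M) = c • blk n N M := by
  ext i j v w
  rfl

/-- degree of a block -/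
def degJ {n : ℕ} (j : JJ n) : ℕ := ∑ i, if j i then 1 else 0

theorem dm_cellEquiv {n N : ℕ} (i : JJ n) (v : VV n N) : dm N (cellEquiv n N (i, v)) = degJ i := rfl

/-- the grid tuple in block form -/
def gridB (N n : ℕ) [NeZero N] : Tup (Matrix (JJ n) (JJ n) (Matrix (VV n N) (VV n N) ℂ)) :=
  (gridT N n).map (blk n N)

theorem gridB_isPC (N n : ℕ) [NeZero N] : (gridB N n).IsPC n :=
  (gridT_isPC N n).map (blk n N) (blk_star n N)

theorem gridB_p (N n : ℕ) [NeZero N] : (gridB N n).p = 1 := by
  show blk n N (gridT N n).p = 1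
  rw [gridT_p, map_one]

theorem gridB_g (N n : ℕ) [NeZero N] :
    (gridB N n).g = Matrix.diagonal fun j => (-1) ^ degJ j := by
  show blk n N (gridT N n).g = _
  ext i j v w
  rw [blk_apply, gridT_g_apply, Matrix.diagonal_apply]
  by_cases hij : i = j
  · subst hij
    rw [if_pos rfl]
    have hq : ((-1 : Matrix (VV n N) (VV n N) ℂ) ^ degJ i) = Matrix.diagonal fun _ => (-1 : ℂ) ^ degJ i := by
      rcases neg_one_pow_cases (A := Matrix (VV n N) (VV n N) ℂ) (degJ i) with
        ⟨h1, h2⟩ | ⟨h1, h2⟩ <;> rw [h1, h2]
      · exact Matrix.diagonal_one.symm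
      · ext a b
        rw [Matrix.neg_apply, Matrix.one_apply, Matrix.diagonal_apply]
        split_ifs <;> simp
    rw [hq, Matrix.diagonal_apply, dm_cellEquiv]
    by_cases hvw : v = w
    · subst hvw; simp
    · have : cellEquiv n N (i, v) ≠ cellEquiv n N (i, w) := fun h =>
          hvw (congrArg Prod.snd ((cellEquiv n N).injective h))
      rw [if_neg this, if_neg hvw]
  · have : cellEquiv n N (i, v) ≠ cellEquiv n N (j, w) := fun h =>
          hij (congrArg Prod.fst ((cellEquiv n N).injective h))
    rw [if_neg this, if_neg hij]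
    rfl

theorem gridB_d_deg (N n : ℕ) [NeZero N] {i j : JJ n} (h : (gridB N n).d i j ≠ 0) :
    degJ j = degJ i + 1 := by
  by_contra hne
  refine h ?_
  ext v w
  rw [Matrix.zero_apply]
  by_contra h2
  exact hne (gridT_d_supp n _ _ h2).1

theorem gridB_S_deg (N n : ℕ) [NeZero N] {i j : JJ n} (h : (gridB N n).S i j ≠ 0) :
    degJ i + degJ j = n := by
  by_contra hne
  refine h ?_
  ext v w
  rw [Matrix.zero_apply]
  by_contra h2
  exact hne (gridT_S_supp n _ _ h2).1

theorem gridB_H_deg (N n : ℕ) [NeZero N] {i j : JJ n} (h : (gridB N n).H i j ≠ 0) :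
    degJ i = degJ j + 1 := by
  by_contra hne
  refine h ?_
  ext v w
  rw [Matrix.zero_apply]
  by_contra h2
  exact hne (gridT_H_supp n _ _ h2).1

end

end Crest.Agent.R217.Grid897
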