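import Crest.Agent.R217.Asym_476
import Crest.Agent.R217.Grid3_897

/-!
Row 217 (S0336), part C (helper970): cell level sequences of matrices and their classes in
`Matrix (JJ n) (JJ n) (Asy C ℂ)`, for any control data `C` on the torus vertices `VV n (N a)`.

* `vt c` : the vertex part of a cell.
* `LocC C` : the star subalgebra of local sequences of matrices on cells (`mem_LocC`).
* `toA C : LocC C →⋆ₐ[ℂ] Matrix (JJ n) (JJ n) (Asy C ℂ)`, `toA_eq`.
* `GridCont C`, `gridA`, `gridA_isPC`.
-/

set_option autoImplicit false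
set_option linter.unusedSectionVars false
set_option linter.unusedVariables false

open Filter Topology

namespace Crest.Agent.R217.AsyCell970

open Crest.Agent.R217.Asym476 Crest.Agent.R217.Grid897 Crest.Agent.R217.PC473

/-- vertex part of a cell -/
def vt {n N : ℕ} (c : Cell n N) : VV n N := fun i => (c i).1

/-- block part of a cell -/
def jt {n N : ℕ} (c : Cell n N) : JJ n := fun i => (c i).2

theorem vt_cellEquiv {n N : ℕ} (i : JJ n) (v : VV n N) : vt (cellEquiv n N (i, v)) = v := rfl

theorem jt_cellEquiv {n N : ℕ} (i : JJ n) (v : VV n N) : jt (cellEquiv n N (i, v)) = i := rfl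

theorem cellEquiv_jt_vt {n N : ℕ} (c : Cell n N) : cellEquiv n N (jt c, vt c) = c := rfl

variable {n : ℕ} {A : Type} {N : A → ℕ} [∀ a, NeZero (N a)]

/-- the family of vertex sets -/
abbrev BV (n : ℕ) {A : Type} (N : A → ℕ) : A → Type := fun a => VV n (N a)

/-- sequences of matrices on cells -/
abbrev SeqC (n : ℕ) {A : Type} (N : A → ℕ) : Type :=
  ∀ a, Matrix (Cell n (N a)) (Cell n (N a)) ℂ

/-- blocks of a sequence -/
def blkSeq (M : SeqC n N) (i j : JJ n) : Seq (BV n N) ℂ := fun a => blk n (N a) (M a) i j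

variable (C : Ctl (BV n N))

/-- cell-level locality -/
def IsLocC (M : SeqC n N) : Prop :=
  ∀ φ, ∀ r < (1 : ℝ), ∀ ε > (0 : ℝ), ∀ᶠ a in C.l, ∀ c' c,
    (C.u C.o a (vt c') ≤ r ∨ C.u C.o a (vt c) ≤ r) → M a c' c ≠ 0 →
      |C.u φ a (vt c') - C.u φ a (vt c)| < ε

/-- cell-level equality on the good region -/
def RelC (M M' : SeqC n N) : Prop :=
  ∀ r < (1 : ℝ), ∀ᶠ a in C.l, ∀ c' c,
    (C.u C.o a (vt c') ≤ r ∨ C.u C.o a (vt c) ≤ r) → M a c' c = M' a c' c

theorem isLocC_iff {M : SeqC n N} : IsLocC C M ↔ ∀ i j, IsLoc C (blkSeq M i j) := by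
  constructor
  · intro h i j φ r hr ε hε
    filter_upwards [h φ r hr ε hε] with a ha v w hvw h0
    exact ha (cellEquiv n (N a) (i, v)) (cellEquiv n (N a) (j, w)) hvw h0
  · intro h φ r hr ε hε
    have h1 : ∀ᶠ a in C.l, ∀ i j : JJ n, ∀ s t,
        (C.u C.o a s ≤ r ∨ C.u C.o a t ≤ r) → blkSeq M i j a s t ≠ 0 →
          |C.u φ a s - C.u φ a t| < ε := by
      rw [eventually_all]
      intro i
      rw [eventually_all]
      intro j
      exact h i j φ r hr ε hε
    filter_upwards [h1] with a ha c' c hc h0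
    exact ha (jt c') (jt c) (vt c') (vt c) hc h0

theorem relC_iff {M M' : SeqC n N} : RelC C M M' ↔ ∀ i j, Rel C (blkSeq M i j) (blkSeq M' i j) := by
  constructor
  · intro h i j r hr
    filter_upwards [h r hr] with a ha v w hvw
    exact ha (cellEquiv n (N a) (i, v)) (cellEquiv n (N a) (j, w)) hvw
  · intro h r hr
    have h1 : ∀ᶠ a in C.l, ∀ i j : JJ n, ∀ s t,
        (C.u C.o a s ≤ r ∨ C.u C.o a t ≤ r) → blkSeq M i j a s t = blkSeq M' i j a s t := by
      rw [eventually_all]
      intro i
      rw [eventually_all]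
      intro j
      exact h i j r hr
    filter_upwards [h1] with a ha c' c hc
    exact ha (jt c') (jt c) (vt c') (vt c) hc

theorem blkSeq_mul (M M' : SeqC n N) (i j : JJ n) :
    blkSeq (M * M') i j = ∑ k, blkSeq M i k * blkSeq M' k j := by
  funext a
  rw [Finset.sum_apply]
  show blk n (N a) (M a * M' a) i j = _
  rw [map_mul]
  rfl

theorem isLoc_sum {ι : Type*} (s : Finset ι) {f : ι → Seq (BV n N) ℂ}
    (h : ∀ i ∈ s, IsLoc C (f i)) : IsLoc C (∑ i ∈ s, f i) :=
  sum_mem (S := (Loc C ℂ)) h

theorem IsLocC.mul {M M' : SeqC n N} (h : IsLocC C M) (h' : IsLocC C M') :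
    IsLocC C (M * M') := by
  rw [isLocC_iff] at h h' ⊢
  intro i j
  rw [blkSeq_mul]
  exact isLoc_sum C _ fun k _ => (h i k).mul (h' k j)

theorem isLocC_of_diag {M : SeqC n N} (h : ∀ a c' c, vt c' ≠ vt c → M a c' c = 0) :
    IsLocC C M := by
  intro φ r hr ε hε
  refine Eventually.of_forall fun a c' c _ h0 => ?_
  have h1 : vt c' = vt c := by
    by_contra hne
    exact h0 (h a c' c hne)
  rw [h1, sub_self, abs_zero]
  exact hε

/-- the star algebra of local sequences on cells -/
def LocC : StarSubalgebra ℂ (SeqC n N) where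
  carrier := {M | IsLocC C M}
  mul_mem' h1 h2 := IsLocC.mul C h1 h2
  add_mem' := by
    intro M M' h h'
    rw [Set.mem_ofPred_eq, isLocC_iff] at h h' ⊢
    intro i j
    exact (h i j).add (h' i j)
  algebraMap_mem' r := isLocC_of_diag C fun a c' c hne => by
    have : c' ≠ c := fun h => hne (by rw [h])
    simp [Pi.algebraMap_apply, Matrix.algebraMap_matrix_apply, this]
  star_mem' := by
    intro M h
    rw [Set.mem_ofPred_eq, isLocC_iff] at h ⊢
    intro i j
    exact (h j i).star

variable {C}

theorem mem_LocC {M : SeqC n N} : M ∈ LocC C ↔ IsLocC C M := Iff.rfl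

theorem IsLocC.blk {M : SeqC n N} (h : IsLocC C M) (i j : JJ n) : IsLoc C (blkSeq M i j) :=
  (isLocC_iff C).1 h i j

variable (C)

/-- the blocks of a local sequence -/
def lblk (M : LocC C) (i j : JJ n) : Loc C ℂ :=
  ⟨blkSeq M.1 i j, (mem_loc C).2 (IsLocC.blk (mem_LocC.1 M.2) i j)⟩

/-- classes of local sequences on cells -/
noncomputable def toA : LocC C →⋆ₐ[ℂ] Matrix (JJ n) (JJ n) (Asy C ℂ) where
  toFun M := Matrix.of fun i j => cls C ℂ (lblk C M i j)
  map_one' := by
    ext i j
    rw [Matrix.of_apply]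
    by_cases h : i = j
    · subst h
      rw [Matrix.one_apply_eq, ← map_one (cls C ℂ)]
      congr 1
      apply Subtype.ext
      funext a
      show blk n (N a) 1 i i = 1
      rw [map_one, Matrix.one_apply_eq]
    · rw [Matrix.one_apply_ne h, ← map_zero (cls C ℂ)]
      congr 1
      apply Subtype.ext
      funext a
      show blk n (N a) 1 i j = 0
      rw [map_one, Matrix.one_apply_ne h]
  map_mul' M M' := by
    ext i j
    rw [Matrix.mul_apply]
    simp only [Matrix.of_apply, ← map_mul, ← map_sum]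
    congr 1
    apply Subtype.ext
    rw [AddSubmonoidClass.coe_finsetSum]
    exact blkSeq_mul M.1 M'.1 i j
  map_zero' := by
    ext i j
    rw [Matrix.zero_apply, Matrix.of_apply, ← map_zero (cls C ℂ)]
    rfl
  map_add' M M' := by
    ext i j
    rw [Matrix.add_apply, Matrix.of_apply, Matrix.of_apply, Matrix.of_apply, ← map_add]
    rfl
  commutes' r := by
    ext i j
    rw [Matrix.algebraMap_matrix_apply, Matrix.of_apply]
    by_cases h : i = j
    · subst h
      rw [if_pos rfl, ← AlgHomClass.commutes (cls C ℂ) r]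
      congr 1
      apply Subtype.ext
      funext a
      show blk n (N a) (algebraMap ℂ _ r) i i = algebraMap ℂ _ r
      rw [Algebra.algebraMap_eq_smul_one, blk_smul, map_one, Matrix.smul_apply,
        Matrix.one_apply_eq, Algebra.algebraMap_eq_smul_one]
    · rw [if_neg h, ← map_zero (cls C ℂ)]
      congr 1
      apply Subtype.ext
      funext a
      show blk n (N a) (algebraMap ℂ _ r) i j = 0
      rw [Algebra.algebraMap_eq_smul_one, blk_smul, map_one, Matrix.smul_apply,
        Matrix.one_apply_ne h, smul_zero]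
  map_star' M := by
    ext i j
    rw [Matrix.star_apply, Matrix.of_apply, Matrix.of_apply, ← map_star]
    rfl

variable {C}

theorem toA_apply (M : LocC C) (i j : JJ n) : toA C M i j = cls C ℂ (lblk C M i j) := rfl

theorem toA_eq {M M' : LocC C} : toA C M = toA C M' ↔ RelC C M.1 M'.1 := by
  rw [relC_iff]
  constructor
  · intro h i j
    exact cls_eq.1 (congrFun (congrFun h i) j)
  · intro h
    ext i j
    exact cls_eq.2 (h i j)

/-- homogeneous sequences give homogeneous classes -/
theorem toA_zero_of {M : LocC C} {i j : JJ n}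
    (h : ∀ a c' c, jt c' = i → jt c = j → M.1 a c' c = 0) : toA C M i j = 0 := by
  rw [toA_apply, ← map_zero (cls C ℂ)]
  congr 1
  apply Subtype.ext
  funext a
  ext v w
  exact h a _ _ rfl rfl

theorem dm_eq {N : ℕ} (c : Cell n N) : dm N c = degJ (jt c) := rfl

/-! ### the grid -/

/-- neighbouring vertices -/
def nbV {N : ℕ} (v w : VV n N) : Prop := ∀ i, v i = w i ∨ v i = w i + 1 ∨ w i = v i + 1

theorem nb_iff {N : ℕ} (c' c : Cell n N) : nb N c' c ↔ nbV (vt c') (vt c) := Iff.rfl

/-- all controls are grid-continuous on the good region -/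
def GridCont (C : Ctl (BV n N)) : Prop :=
  ∀ φ, ∀ r < (1 : ℝ), ∀ ε > (0 : ℝ), ∀ᶠ a in C.l, ∀ v w : VV n (N a), nbV v w →
    (C.u C.o a v ≤ r ∨ C.u C.o a w ≤ r) → |C.u φ a v - C.u φ a w| < ε

/-- sequences moving only to neighbours are local -/
theorem GridCont.isLocC {C : Ctl (BV n N)} (h : GridCont C) {M : SeqC n N}
    (hM : ∀ a c' c, M a c' c ≠ 0 → nb (N a) c' c) : IsLocC C M := by
  intro φ r hr ε hε
  filter_upwards [h φ r hr ε hε] with a ha c' c hc h0
  exact ha (vt c') (vt c) (hM a c' c h0) hc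

theorem isLocC_d (h : GridCont C) : IsLocC C (fun a => (gridT (N a) n).d) :=
  h.isLocC fun a c' c h0 => (gridT_d_supp n c' c h0).2

theorem isLocC_S (h : GridCont C) : IsLocC C (fun a => (gridT (N a) n).S) :=
  h.isLocC fun a c' c h0 => (gridT_S_supp n c' c h0).2

theorem isLocC_T (h : GridCont C) : IsLocC C (fun a => (gridT (N a) n).T) := by
  simp only [gridT_T]
  exact isLocC_S h

theorem isLocC_H (h : GridCont C) : IsLocC C (fun a => (gridT (N a) n).H) :=
  h.isLocC fun a c' c h0 => (gridT_H_supp n c' c h0).2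

theorem isLocC_g (C : Ctl (BV n N)) : IsLocC C (fun a => (gridT (N a) n).g) :=
  isLocC_of_diag C fun a c' c hne => by
    have : c' ≠ c := fun h => hne (by rw [h])
    rw [gridT_g_apply, if_neg this]

theorem isLocC_p (C : Ctl (BV n N)) : IsLocC C (fun a => (gridT (N a) n).p) := by
  simp only [gridT_p]
  exact (LocC C).one_mem

/-- the grid tuple at the level of sequences -/
noncomputable def gridL (h : GridCont C) : Tup (LocC C) where
  p := ⟨fun a => (gridT (N a) n).p, isLocC_p C⟩
  g := ⟨fun a => (gridT (N a) n).g, isLocC_g C⟩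
  d := ⟨fun a => (gridT (N a) n).d, isLocC_d h⟩
  S := ⟨fun a => (gridT (N a) n).S, isLocC_S h⟩
  T := ⟨fun a => (gridT (N a) n).T, isLocC_T h⟩
  H := ⟨fun a => (gridT (N a) n).H, isLocC_H h⟩

theorem sgn_pow_map {R S : Type*} [Ring R] [Ring S] (f : R →+* S) (m : ℕ) (x : R) :
    f ((-1) ^ m * x) = (-1) ^ m * f x := by
  rw [map_mul, map_pow, map_neg, map_one]

/-- reflection of `IsPC` along injective star homomorphisms -/
theorem isPC_of_map {R S : Type*} [Ring R] [StarRing R] [Ring S] [StarRing S] {m : ℕ} {x : Tup R}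
    (f : R →+* S) (hf : Function.Injective f) (hs : ∀ a, f (star a) = star (f a))
    (h : (x.map f).IsPC m) : x.IsPC m where
  pp := hf (by rw [map_mul]; exact h.pp)
  sp := hf (by rw [hs]; exact h.sp)
  gg := hf (by rw [map_mul]; exact h.gg)
  sg := hf (by rw [hs]; exact h.sg)
  pg := hf (by rw [map_mul]; exact h.pg)
  pd := hf (by rw [map_mul]; exact h.pd)
  dp := hf (by rw [map_mul]; exact h.dp)
  pS := hf (by rw [map_mul]; exact h.pS)
  pT := hf (by rw [map_mul]; exact h.pT)
  pH := hf (by rw [map_mul]; exact h.pH)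
  Hp := hf (by rw [map_mul]; exact h.Hp)
  dd := hf (by rw [map_mul, map_zero]; exact h.dd)
  sS := hf (by rw [hs]; exact h.sS)
  sT := hf (by rw [hs]; exact h.sT)
  dS := hf (by rw [map_add, map_mul, map_mul, hs, map_zero]; exact h.dS)
  Td := hf (by rw [map_add, map_mul, map_mul, hs, map_zero]; exact h.Td)
  ST := hf (by rw [map_add, map_add, map_mul, map_mul, map_mul]; exact h.ST)
  gd := hf (by rw [map_neg, map_mul, map_mul]; exact h.gd)
  gS := hf (by rw [sgn_pow_map, map_mul, map_mul]; exact h.gS)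
  gT := hf (by rw [sgn_pow_map, map_mul, map_mul]; exact h.gT)
  gH := hf (by rw [map_neg, map_mul, map_mul]; exact h.gH)

/-- the product tuple -/
def piT {A : Type*} {R : A → Type*} (x : ∀ a, Tup (R a)) : Tup (∀ a, R a) where
  p a := (x a).p
  g a := (x a).g
  d a := (x a).d
  S a := (x a).S
  T a := (x a).T
  H a := (x a).H

theorem isPC_pi {A : Type*} {R : A → Type*} [∀ a, Ring (R a)] [∀ a, StarRing (R a)] {m : ℕ}
    {x : ∀ a, Tup (R a)} (h : ∀ a, (x a).IsPC m) : (piT x).IsPC m where
  pp := funext fun a => (h a).pp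
  sp := funext fun a => (h a).sp
  gg := funext fun a => (h a).gg
  sg := funext fun a => (h a).sg
  pg := funext fun a => (h a).pg
  pd := funext fun a => (h a).pd
  dp := funext fun a => (h a).dp
  pS := funext fun a => (h a).pS
  pT := funext fun a => (h a).pT
  pH := funext fun a => (h a).pH
  Hp := funext fun a => (h a).Hp
  dd := funext fun a => (h a).dd
  sS := funext fun a => (h a).sS
  sT := funext fun a => (h a).sT
  dS := funext fun a => (h a).dS
  Td := funext fun a => (h a).Td
  ST := funext fun a => (h a).ST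
  gd := funext fun a => (h a).gd
  gS := funext fun a => by
    rw [Pi.mul_apply, Pi.mul_apply, Pi.pow_apply, Pi.mul_apply]
    exact (h a).gS
  gT := funext fun a => by
    rw [Pi.mul_apply, Pi.mul_apply, Pi.pow_apply, Pi.mul_apply]
    exact (h a).gT
  gH := funext fun a => (h a).gH

/-- inclusion of the local sequences -/
def incL (C : Ctl (BV n N)) : LocC C →+* SeqC n N := ((LocC C).toSubalgebra.val : _ →+* _)

theorem incL_inj (C : Ctl (BV n N)) : Function.Injective (incL C) := Subtype.val_injective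

theorem gridL_isPC (h : GridCont C) : (gridL h).IsPC n :=
  isPC_of_map (incL C) (incL_inj C) (fun _ => rfl) (isPC_pi fun a => gridT_isPC (N a) n)

/-- the grid tuple over the asymptotic algebra -/
noncomputable def gridA (h : GridCont C) : Tup (Matrix (JJ n) (JJ n) (Asy C ℂ)) :=
  (gridL h).map (toA C)

theorem gridA_isPC (h : GridCont C) : (gridA h).IsPC n :=
  (gridL_isPC h).map (toA C).toAlgHom.toRingHom (map_star (toA C))

theorem gridA_p (h : GridCont C) : (gridA h).p = 1 := by
  show toA C (gridL h).p = 1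
  have : (gridL h).p = 1 := Subtype.ext (funext fun a => gridT_p (N a) n)
  rw [this, map_one]

end Crest.Agent.R217.AsyCell970
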