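import Mathlib

/-!
Row 217 (S0336), part C: the asymptotic `*`-algebra of local sequences of finite matrices.

`Ctl B` : filter, control functions `u φ`, noise function `u o` (the good region is `u o < 1`);
`IsLoc C M` : the sequence `M` of matrices is local on the good region;
`Asy C K` : local sequences modulo eventual equality on the good region.
-/

set_option autoImplicit false
set_option linter.unusedSectionVars false
set_option linter.unusedVariables false

open Filter Topology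

namespace Crest.Agent.R217.Asym476

/-- control data for a family `B` of finite based sets -/
structure Ctl {A : Type} (B : A → Type) where
  l : Filter A
  Φ : Type
  o : Φ
  u : Φ → ∀ a, B a → ℝ

variable {A : Type} {B : A → Type} [∀ a, Fintype (B a)] [∀ a, DecidableEq (B a)]
variable (C : Ctl B)

/-- sequences of matrices -/
abbrev Seq (B : A → Type) (K : Type) := ∀ a, Matrix (B a) (B a) K

section defs
variable {K : Type} [Zero K]

/-- local sequences (on the good region) -/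
def IsLoc (M : Seq B K) : Prop :=
  ∀ φ, ∀ r < (1 : ℝ), ∀ ε > (0 : ℝ), ∀ᶠ a in C.l, ∀ s t, (C.u C.o a s ≤ r ∨ C.u C.o a t ≤ r) →
    M a s t ≠ 0 → |C.u φ a s - C.u φ a t| < ε

/-- equality on the good region -/
def Rel (M N : Seq B K) : Prop :=
  ∀ r < (1 : ℝ), ∀ᶠ a in C.l, ∀ s t, (C.u C.o a s ≤ r ∨ C.u C.o a t ≤ r) → M a s t = N a s t

variable {C}

lemma Rel.refl (M : Seq B K) : Rel C M M := fun r hr => Eventually.of_forall fun a s t h => rfl

lemma Rel.symm {M N : Seq B K} (h : Rel C M N) : Rel C N M := by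
  intro r hr
  filter_upwards [h r hr] with a h1 s t hst
  exact (h1 s t hst).symm

lemma Rel.trans {M N P : Seq B K} (h : Rel C M N) (h' : Rel C N P) : Rel C M P := by
  intro r hr
  filter_upwards [h r hr, h' r hr] with a h1 h2 s t hst
  exact (h1 s t hst).trans (h2 s t hst)

/-- it is enough to check equality for pairs of good points -/
lemma Rel.of_and {M N : Seq B K} (hM : IsLoc C M) (hN : IsLoc C N)
    (h : ∀ r < (1 : ℝ), ∀ᶠ a in C.l, ∀ s t, C.u C.o a s ≤ r → C.u C.o a t ≤ r →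
      M a s t = N a s t) : Rel C M N := by
  intro r hr
  filter_upwards [h ((r + 1) / 2) (by linarith), hM C.o r hr ((1 - r) / 2) (by linarith),
    hN C.o r hr ((1 - r) / 2) (by linarith)] with a h1 h2 h3 s t hst
  by_cases h0 : M a s t = 0
  · by_cases h0' : N a s t = 0
    · rw [h0, h0']
    · have h5 := abs_lt.1 (h3 s t hst h0')
      apply h1 s t
      · rcases hst with h | h <;> linarith
      · rcases hst with h | h <;> linarith
  · have h5 := abs_lt.1 (h2 s t hst h0)
    apply h1 s t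
    · rcases hst with h | h <;> linarith
    · rcases hst with h | h <;> linarith

lemma IsLoc.zero : IsLoc C (0 : Seq B K) :=
  fun φ r hr ε hε => Eventually.of_forall fun a s t h h' => absurd rfl h'

lemma IsLoc.of_diag {M : Seq B K} (hM : ∀ a s t, s ≠ t → M a s t = 0) :
    IsLoc C M := by
  intro φ r hr ε hε
  refine Eventually.of_forall fun a s t _ h => ?_
  have : s = t := by
    by_contra h'
    exact h (hM a s t h')
  subst this
  simpa using hε

lemma IsLoc.congr {M N : Seq B K} (hM : IsLoc C M) (h : Rel C M N) : IsLoc C N := by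
  intro φ r hr ε hε
  filter_upwards [hM φ r hr ε hε, h r hr] with a h1 h2 s t hst h3
  exact h1 s t hst (by rw [h2 s t hst]; exact h3)

end defs

section ring
variable {K : Type} [CommRing K]
variable {C}

lemma IsLoc.add {M N : Seq B K} (hM : IsLoc C M) (hN : IsLoc C N) : IsLoc C (M + N) := by
  intro φ r hr ε hε
  filter_upwards [hM φ r hr ε hε, hN φ r hr ε hε] with a h1 h2 s t hst h
  by_cases h0 : M a s t = 0
  · apply h2 s t hst
    intro h3
    apply h
    simp [h0, h3]
  · exact h1 s t hst h0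

lemma IsLoc.neg {M : Seq B K} (hM : IsLoc C M) : IsLoc C (-M) := by
  intro φ r hr ε hε
  filter_upwards [hM φ r hr ε hε] with a h1 s t hst h
  apply h1 s t hst
  intro h3
  apply h
  simp [h3]

lemma IsLoc.sub {M N : Seq B K} (hM : IsLoc C M) (hN : IsLoc C N) : IsLoc C (M - N) := by
  rw [sub_eq_add_neg]; exact hM.add hN.neg

lemma IsLoc.mul {M N : Seq B K} (hM : IsLoc C M) (hN : IsLoc C N) : IsLoc C (M * N) := by
  intro φ r hr ε hε
  filter_upwards [hM φ ((r + 1) / 2) (by linarith) (ε / 2) (half_pos hε),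
    hN φ ((r + 1) / 2) (by linarith) (ε / 2) (half_pos hε),
    hM C.o r hr ((1 - r) / 2) (by linarith),
    hN C.o r hr ((1 - r) / 2) (by linarith)] with a h1 h2 h3 h4 s t hst h
  rw [Pi.mul_apply, Matrix.mul_apply] at h
  obtain ⟨q, -, hq⟩ := Finset.exists_ne_zero_of_sum_ne_zero h
  have hq1 := left_ne_zero_of_mul hq
  have hq2 := right_ne_zero_of_mul hq
  have hq0 : C.u C.o a q ≤ (r + 1) / 2 := by
    rcases hst with h | h
    · have := abs_lt.1 (h3 s q (Or.inl h) hq1)
      linarith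
    · have := abs_lt.1 (h4 q t (Or.inr h) hq2)
      linarith
  have h5 := h1 s q (Or.inr hq0) hq1
  have h6 := h2 q t (Or.inl hq0) hq2
  calc |C.u φ a s - C.u φ a t| = |(C.u φ a s - C.u φ a q) + (C.u φ a q - C.u φ a t)| := by ring_nf
    _ ≤ |C.u φ a s - C.u φ a q| + |C.u φ a q - C.u φ a t| := abs_add_le _ _
    _ < ε := by linarith

lemma IsLoc.star [StarRing K] {M : Seq B K} (hM : IsLoc C M) : IsLoc C (star M) := by
  intro φ r hr ε hε
  filter_upwards [hM φ r hr ε hε] with a h1 s t hst h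
  rw [abs_sub_comm]
  apply h1 t s hst.symm
  intro h3
  apply h
  simp [Matrix.star_apply, h3]

lemma Rel.add {M M' N N' : Seq B K} (h : Rel C M M') (h' : Rel C N N') :
    Rel C (M + N) (M' + N') := by
  intro r hr
  filter_upwards [h r hr, h' r hr] with a h1 h2 s t hst
  change M a s t + N a s t = M' a s t + N' a s t
  rw [h1 s t hst, h2 s t hst]

lemma Rel.mul {M M' N N' : Seq B K} (hM : IsLoc C M) (hN : IsLoc C N)
    (h : Rel C M M') (h' : Rel C N N') : Rel C (M * N) (M' * N') := by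
  intro r hr
  have hM' := hM.congr h
  have hN' := hN.congr h'
  filter_upwards [h ((r + 1) / 2) (by linarith), h' ((r + 1) / 2) (by linarith),
    hM C.o r hr ((1 - r) / 2) (by linarith), hN C.o r hr ((1 - r) / 2) (by linarith),
    hM' C.o r hr ((1 - r) / 2) (by linarith), hN' C.o r hr ((1 - r) / 2) (by linarith)]
    with a h1 h2 h3 h4 h3' h4' s t hst
  rw [Pi.mul_apply, Pi.mul_apply, Matrix.mul_apply, Matrix.mul_apply]
  refine Finset.sum_congr rfl fun q _ => ?_
  rcases hst with hs | ht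
  · have hs' : C.u C.o a s ≤ (r + 1) / 2 := by linarith
    rw [h1 s q (Or.inl hs')]
    by_cases h0 : M' a s q = 0
    · rw [h0, zero_mul, zero_mul]
    · have := abs_lt.1 (h3' s q (Or.inl hs) h0)
      rw [h2 q t (Or.inl (by linarith))]
  · have ht' : C.u C.o a t ≤ (r + 1) / 2 := by linarith
    rw [h2 q t (Or.inr ht')]
    by_cases h0 : N' a q t = 0
    · rw [h0, mul_zero, mul_zero]
    · have := abs_lt.1 (h4' q t (Or.inr ht) h0)
      rw [h1 s q (Or.inr (by linarith))]

lemma Rel.star [StarRing K] {M M' : Seq B K} (h : Rel C M M') : Rel C (star M) (star M') := by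
  intro r hr
  filter_upwards [h r hr] with a h1 s t hst
  simp only [Pi.star_apply, Matrix.star_apply]
  rw [h1 t s hst.symm]

end ring

section algebra

variable (K : Type) [CommRing K] [StarRing K] [Algebra ℂ K] [StarModule ℂ K]

/-- the `*`-algebra of local sequences -/
def Loc : StarSubalgebra ℂ (Seq B K) where
  carrier := {M | IsLoc C M}
  mul_mem' h1 h2 := h1.mul h2
  add_mem' h1 h2 := h1.add h2
  algebraMap_mem' r := IsLoc.of_diag fun a s t h => by
    simp [Pi.algebraMap_apply, Matrix.algebraMap_matrix_apply, h]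
  star_mem' h := h.star

variable {K} in
lemma mem_loc {M : Seq B K} : M ∈ Loc C K ↔ IsLoc C M := Iff.rfl

/-- the congruence 'eventually equal on the good region' -/
def rc : RingCon (Loc C K) where
  r x y := Rel C x.1 y.1
  iseqv := ⟨fun x => Rel.refl _, fun h => h.symm, fun h h' => h.trans h'⟩
  mul' {w x y z} h h' := Rel.mul w.2 y.2 h h'
  add' h h' := Rel.add h h'

/-- the asymptotic algebra -/
def Asy : Type := (rc C K).Quotient

noncomputable instance : Ring (Asy C K) := inferInstanceAs (Ring (rc C K).Quotient)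
noncomputable instance : Algebra ℂ (Asy C K) := inferInstanceAs (Algebra ℂ (rc C K).Quotient)

/-- the class of a local sequence -/
def cl0 (x : Loc C K) : Asy C K := (Quotient.mk'' x : (rc C K).Quotient)

variable {C K} in
lemma cl0_eq {x y : Loc C K} : cl0 C K x = cl0 C K y ↔ Rel C x.1 y.1 := by
  unfold cl0
  exact Quotient.eq''

variable {C K} in
lemma cl0_surj (z : Asy C K) : ∃ x, cl0 C K x = z := Quotient.inductionOn' z fun x => ⟨x, rfl⟩

instance : Star (Asy C K) :=
  ⟨fun z => Quotient.map' (star : Loc C K → Loc C K) (fun _ _ h => Rel.star h) z⟩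

lemma cl0_add (x y : Loc C K) : cl0 C K (x + y) = cl0 C K x + cl0 C K y := rfl
lemma cl0_mul (x y : Loc C K) : cl0 C K (x * y) = cl0 C K x * cl0 C K y := rfl
lemma cl0_neg (x : Loc C K) : cl0 C K (-x) = - cl0 C K x := rfl
lemma cl0_sub (x y : Loc C K) : cl0 C K (x - y) = cl0 C K x - cl0 C K y := rfl
lemma cl0_star (x : Loc C K) : cl0 C K (star x) = star (cl0 C K x) := rfl
lemma cl0_one : cl0 C K 1 = 1 := rfl
lemma cl0_zero : cl0 C K 0 = 0 := rfl
lemma cl0_smul (c : ℂ) (x : Loc C K) : cl0 C K (c • x) = c • cl0 C K x := rfl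
lemma cl0_algebraMap (c : ℂ) : cl0 C K (algebraMap ℂ _ c) = algebraMap ℂ _ c := rfl

instance : StarRing (Asy C K) where
  star_involutive z := by
    obtain ⟨x, rfl⟩ := cl0_surj z
    rw [← cl0_star, ← cl0_star, star_star]
  star_mul z w := by
    obtain ⟨x, rfl⟩ := cl0_surj z
    obtain ⟨y, rfl⟩ := cl0_surj w
    rw [← cl0_mul, ← cl0_star, star_mul, ← cl0_star, ← cl0_star, ← cl0_mul]
  star_add z w := by
    obtain ⟨x, rfl⟩ := cl0_surj z
    obtain ⟨y, rfl⟩ := cl0_surj w
    rw [← cl0_add, ← cl0_star, star_add, ← cl0_star, ← cl0_star, ← cl0_add]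

instance : StarModule ℂ (Asy C K) where
  star_smul c z := by
    obtain ⟨x, rfl⟩ := cl0_surj z
    rw [← cl0_smul, ← cl0_star, star_smul, ← cl0_star, ← cl0_smul]

/-- the quotient map -/
def cls : Loc C K →⋆ₐ[ℂ] Asy C K where
  toFun := cl0 C K
  map_one' := cl0_one C K
  map_mul' := cl0_mul C K
  map_zero' := cl0_zero C K
  map_add' := cl0_add C K
  commutes' := cl0_algebraMap C K
  map_star' := cl0_star C K

variable {C K}

lemma cls_eq {x y : Loc C K} : cls C K x = cls C K y ↔ Rel C x.1 y.1 := cl0_eq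
lemma cls_surj (z : Asy C K) : ∃ x, cls C K x = z := cl0_surj z

end algebra

section hom

variable {C} {C' : Ctl B}
variable {K : Type} [CommRing K] [StarRing K] [Algebra ℂ K] [StarModule ℂ K]
variable {K' : Type} [CommRing K'] [StarRing K'] [Algebra ℂ K'] [StarModule ℂ K']

/-- maps of sequences respecting locality and the good regions induce `*`-homomorphisms -/
noncomputable def liftHom (ψ : Seq B K →⋆ₐ[ℂ] Seq B K') (h1 : ∀ M, IsLoc C M → IsLoc C' (ψ M))
    (h2 : ∀ M N, Rel C M N → Rel C' (ψ M) (ψ N)) : Asy C K →⋆ₐ[ℂ] Asy C' K' where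
  toFun z := Quotient.map' (fun x : Loc C K => (⟨ψ x.1, h1 x.1 x.2⟩ : Loc C' K'))
    (fun x y h => h2 x.1 y.1 h) z
  map_one' := by
    have : (⟨ψ (1 : Loc C K).1, h1 _ (1 : Loc C K).2⟩ : Loc C' K') = 1 :=
      Subtype.ext (map_one ψ)
    exact congrArg (cls C' K') this
  map_mul' z w := by
    obtain ⟨x, rfl⟩ := cls_surj z
    obtain ⟨y, rfl⟩ := cls_surj w
    have : (⟨ψ (x * y).1, h1 _ (x * y).2⟩ : Loc C' K') = ⟨ψ x.1, h1 _ x.2⟩ * ⟨ψ y.1, h1 _ y.2⟩ :=
      Subtype.ext (map_mul ψ x.1 y.1)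
    exact congrArg (cls C' K') this
  map_zero' := by
    have : (⟨ψ (0 : Loc C K).1, h1 _ (0 : Loc C K).2⟩ : Loc C' K') = 0 :=
      Subtype.ext (map_zero ψ)
    exact congrArg (cls C' K') this
  map_add' z w := by
    obtain ⟨x, rfl⟩ := cls_surj z
    obtain ⟨y, rfl⟩ := cls_surj w
    have : (⟨ψ (x + y).1, h1 _ (x + y).2⟩ : Loc C' K') = ⟨ψ x.1, h1 _ x.2⟩ + ⟨ψ y.1, h1 _ y.2⟩ :=
      Subtype.ext (map_add ψ x.1 y.1)
    exact congrArg (cls C' K') this
  commutes' c := by
    have : (⟨ψ (algebraMap ℂ (Loc C K) c).1, h1 _ (algebraMap ℂ (Loc C K) c).2⟩ : Loc C' K') =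
        algebraMap ℂ _ c :=
      Subtype.ext (AlgHomClass.commutes ψ c)
    exact congrArg (cls C' K') this
  map_star' z := by
    obtain ⟨x, rfl⟩ := cls_surj z
    have : (⟨ψ (star x).1, h1 _ (star x).2⟩ : Loc C' K') = star ⟨ψ x.1, h1 _ x.2⟩ :=
      Subtype.ext (map_star ψ x.1)
    exact congrArg (cls C' K') this

lemma liftHom_cls (ψ : Seq B K →⋆ₐ[ℂ] Seq B K') (h1 : ∀ M, IsLoc C M → IsLoc C' (ψ M))
    (h2 : ∀ M N, Rel C M N → Rel C' (ψ M) (ψ N)) (x : Loc C K) :
    liftHom ψ h1 h2 (cls C K x) = cls C' K' ⟨ψ x.1, h1 x.1 x.2⟩ := rfl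

/-- `C'` is a restriction of `C`: smaller filter, smaller region, weaker control -/
structure Ctl.Le (C C' : Ctl B) : Prop where
  le : C'.l ≤ C.l
  region : ∀ r' < (1 : ℝ), ∃ r < (1 : ℝ), ∀ᶠ a in C'.l, ∀ s, C'.u C'.o a s ≤ r' → C.u C.o a s ≤ r
  ctl : ∀ φ', ∀ r' < (1 : ℝ), ∀ ε > (0 : ℝ), ∃ (S : Finset C.Φ), ∃ δ > (0 : ℝ), ∀ᶠ a in C'.l,
    ∀ s t, C'.u C'.o a s ≤ r' → (∀ φ ∈ S, |C.u φ a s - C.u φ a t| < δ) →
      |C'.u φ' a s - C'.u φ' a t| < ε

omit [∀ a, Fintype (B a)] [∀ a, DecidableEq (B a)] in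
lemma Ctl.Le.isLoc (h : C.Le C') {K : Type} [Zero K] {M : Seq B K} (hM : IsLoc C M) :
    IsLoc C' M := by
  intro φ' r' hr' ε hε
  obtain ⟨r, hr, h1⟩ := h.region r' hr'
  obtain ⟨S, δ, hδ, h2⟩ := h.ctl φ' r' hr' ε hε
  have h3 : ∀ᶠ a in C'.l, ∀ φ ∈ S, ∀ s t, (C.u C.o a s ≤ r ∨ C.u C.o a t ≤ r) →
      M a s t ≠ 0 → |C.u φ a s - C.u φ a t| < δ := by
    rw [Filter.eventually_all_finset]
    intro φ _
    exact h.le (hM φ r hr δ hδ)
  filter_upwards [h1, h2, h3] with a h1 h2 h3 s t hst h0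
  rcases hst with hs | ht
  · exact h2 s t hs fun φ hφ => h3 φ hφ s t (Or.inl (h1 s hs)) h0
  · rw [abs_sub_comm]
    refine h2 t s ht fun φ hφ => ?_
    rw [abs_sub_comm]
    exact h3 φ hφ s t (Or.inr (h1 t ht)) h0

omit [∀ a, Fintype (B a)] [∀ a, DecidableEq (B a)] in
lemma Ctl.Le.rel (h : C.Le C') {K : Type} [Zero K] {M N : Seq B K} (hM : Rel C M N) :
    Rel C' M N := by
  intro r' hr'
  obtain ⟨r, hr, h1⟩ := h.region r' hr'
  filter_upwards [h1, h.le (hM r hr)] with a h1 h2 s t hst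
  exact h2 s t (hst.imp (h1 s) (h1 t))

omit [∀ a, Fintype (B a)] [∀ a, DecidableEq (B a)] in
lemma Ctl.Le.refl (C : Ctl B) : C.Le C where
  le := le_rfl
  region r hr := ⟨r, hr, Eventually.of_forall fun a s h => h⟩
  ctl φ r hr ε hε := ⟨{φ}, ε, hε, Eventually.of_forall fun a s t _ h => h φ (by simp)⟩

/-- the restriction homomorphism -/
noncomputable def chg (K : Type) [CommRing K] [StarRing K] [Algebra ℂ K] [StarModule ℂ K]
    (h : C.Le C') : Asy C K →⋆ₐ[ℂ] Asy C' K :=
  liftHom (StarAlgHom.id ℂ _) (fun _ hM => h.isLoc hM) (fun _ _ hM => h.rel hM)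

lemma chg_cls (h : C.Le C') (x : Loc C K) : chg K h (cls C K x) = cls C' K ⟨x.1, h.isLoc x.2⟩ :=
  rfl

/-- entrywise maps -/
def mapSeq (ρ : K →⋆ₐ[ℂ] K') : Seq B K →⋆ₐ[ℂ] Seq B K' where
  toFun M a := (M a).map ρ
  map_one' := by
    ext a s t
    by_cases h : s = t <;> simp [Matrix.one_apply, h]
  map_mul' M N := by ext a s t; simp [Matrix.mul_apply]
  map_zero' := by ext a s t; simp
  map_add' M N := by ext a s t; simp
  commutes' c := by
    ext a s t
    simp only [Pi.algebraMap_apply, Matrix.algebraMap_matrix_apply, Matrix.map_apply]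
    split_ifs
    · exact AlgHomClass.commutes ρ c
    · exact map_zero ρ
  map_star' M := by ext a s t; simp [Matrix.star_apply, map_star]

lemma isLoc_mapSeq (ρ : K →⋆ₐ[ℂ] K') {M : Seq B K} (hM : IsLoc C M) : IsLoc C (mapSeq ρ M) := by
  intro φ r hr ε hε
  filter_upwards [hM φ r hr ε hε] with a h1 s t hst h
  apply h1 s t hst
  intro h3
  apply h
  simp [mapSeq, h3]

lemma rel_mapSeq (ρ : K →⋆ₐ[ℂ] K') {M N : Seq B K} (hM : Rel C M N) :
    Rel C (mapSeq ρ M) (mapSeq ρ N) := by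
  intro r hr
  filter_upwards [hM r hr] with a h1 s t hst
  simp [mapSeq, h1 s t hst]

/-- change of coefficients -/
noncomputable def coef (C : Ctl B) (ρ : K →⋆ₐ[ℂ] K') : Asy C K →⋆ₐ[ℂ] Asy C K' :=
  liftHom (mapSeq ρ) (fun _ hM => isLoc_mapSeq ρ hM) (fun _ _ hM => rel_mapSeq ρ hM)

lemma coef_cls (ρ : K →⋆ₐ[ℂ] K') (x : Loc C K) :
    coef C ρ (cls C K x) = cls C K' ⟨mapSeq ρ x.1, isLoc_mapSeq ρ x.2⟩ := rfl

lemma coef_chg (h : C.Le C') (ρ : K →⋆ₐ[ℂ] K') (z : Asy C K) :
    coef C' ρ (chg K h z) = chg K' h (coef C ρ z) := by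
  obtain ⟨x, rfl⟩ := cls_surj z
  rfl

end hom

section diag

variable (K : Type) [CommRing K] [StarRing K] [Algebra ℂ K] [StarModule ℂ K]

/-- diagonal sequences -/
def dgLoc : (∀ a, B a → K) →⋆ₐ[ℂ] Loc C K where
  toFun f := ⟨fun a => Matrix.diagonal (f a), IsLoc.of_diag fun a s t h => by simp [h]⟩
  map_one' := by
    apply Subtype.ext
    funext a
    exact Matrix.diagonal_one
  map_mul' f g := by
    apply Subtype.ext
    funext a
    exact (Matrix.diagonal_mul_diagonal _ _).symm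
  map_zero' := by
    apply Subtype.ext
    funext a
    exact Matrix.diagonal_zero
  map_add' f g := by
    apply Subtype.ext
    funext a
    exact (Matrix.diagonal_add _ _).symm
  commutes' c := by
    apply Subtype.ext
    funext a
    rfl
  map_star' f := by
    apply Subtype.ext
    funext a
    exact (Matrix.diagonal_conjTranspose (f a)).symm

/-- diagonal elements -/
noncomputable def dg : (∀ a, B a → K) →⋆ₐ[ℂ] Asy C K := (cls C K).comp (dgLoc C K)

variable {C}
variable {K}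

lemma dg_comm (f g : ∀ a, B a → K) : dg C K f * dg C K g = dg C K g * dg C K f := by
  rw [← map_mul, ← map_mul, mul_comm]

lemma dg_apply (f : ∀ a, B a → K) : dg C K f = cls C K (dgLoc C K f) := rfl

lemma dg_congr {f g : ∀ a, B a → K} (h : ∀ r < (1 : ℝ), ∀ᶠ a in C.l, ∀ s, C.u C.o a s ≤ r →
    f a s = g a s) : dg C K f = dg C K g := by
  rw [dg_apply, dg_apply, cls_eq]
  refine Rel.of_and (dgLoc C K f).2 (dgLoc C K g).2 fun r hr => ?_
  filter_upwards [h r hr] with a h1 s t hs ht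
  change Matrix.diagonal (f a) s t = Matrix.diagonal (g a) s t
  by_cases hst : s = t
  · subst hst
    simp [h1 s hs]
  · simp [hst]

/-- **locality**: separated diagonal elements annihilate everything -/
lemma dg_mul_mul_dg_eq_zero {f g : ∀ a, B a → K} (φ : C.Φ)
    (h : ∀ r < (1 : ℝ), ∃ ε > (0 : ℝ), ∀ᶠ a in C.l, ∀ s t, C.u C.o a s ≤ r → C.u C.o a t ≤ r →
      f a s ≠ 0 → g a t ≠ 0 → ε ≤ |C.u φ a s - C.u φ a t|) (z : Asy C K) :
    dg C K f * z * dg C K g = 0 := by
  obtain ⟨x, rfl⟩ := cls_surj z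
  rw [dg_apply, dg_apply, ← map_mul, ← map_mul, ← map_zero (cls C K), cls_eq]
  refine Rel.of_and (dgLoc C K f * x * dgLoc C K g).2 (0 : Loc C K).2 fun r hr => ?_
  obtain ⟨ε, hε, h1⟩ := h r hr
  filter_upwards [h1, x.2 φ r hr ε hε] with a h1 h2 s t hs ht
  change (Matrix.diagonal (f a) * x.1 a * Matrix.diagonal (g a)) s t = 0
  rw [Matrix.mul_diagonal, Matrix.diagonal_mul]
  by_contra h0
  have h3 : f a s ≠ 0 := fun h => h0 (by rw [h, zero_mul, zero_mul])
  have h4 : x.1 a s t ≠ 0 := fun h => h0 (by rw [h, mul_zero, zero_mul])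
  have h5 : g a t ≠ 0 := fun h => h0 (by rw [h, mul_zero])
  exact absurd (h2 s t (Or.inl hs) h4) (not_lt.2 (h1 s t hs ht h3 h5))

open Classical in
/-- indicator functions as diagonal elements -/
noncomputable def ind (E : ∀ a, B a → Prop) : Asy C K :=
  dg C K (fun a s => if E a s then 1 else 0)

open Classical in
lemma ind_mul_self (E : ∀ a, B a → Prop) : (ind E : Asy C K) * ind E = ind E := by
  unfold ind
  rw [← map_mul]
  congr 1
  funext a s
  change (if E a s then (1 : K) else 0) * (if E a s then (1 : K) else 0) = _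
  split_ifs <;> simp

open Classical in
lemma ind_mul (E E' : ∀ a, B a → Prop) :
    (ind E : Asy C K) * ind E' = ind (fun a s => E a s ∧ E' a s) := by
  unfold ind
  rw [← map_mul]
  congr 1
  funext a s
  change (if E a s then (1 : K) else 0) * (if E' a s then (1 : K) else 0) = _
  by_cases h1 : E a s <;> by_cases h2 : E' a s <;> simp [h1, h2]

lemma ind_star (E : ∀ a, B a → Prop) : star (ind E : Asy C K) = ind E := by
  classical
  unfold ind
  rw [← map_star]
  congr 1
  funext a s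
  change star (if E a s then (1 : K) else 0) = _
  split_ifs <;> simp

lemma one_sub_ind (E : ∀ a, B a → Prop) : 1 - (ind E : Asy C K) = ind (fun a s => ¬ E a s) := by
  classical
  unfold ind
  rw [← map_one (dg C K), ← map_sub]
  congr 1
  funext a s
  change (1 : K) - (if E a s then (1 : K) else 0) = _
  by_cases h : E a s <;> simp [h]

lemma ind_comm (E E' : ∀ a, B a → Prop) : (ind E : Asy C K) * ind E' = ind E' * ind E :=
  dg_comm _ _

lemma ind_congr {E E' : ∀ a, B a → Prop} (h : ∀ r < (1 : ℝ), ∀ᶠ a in C.l, ∀ s,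
    C.u C.o a s ≤ r → (E a s ↔ E' a s)) : (ind E : Asy C K) = ind E' := by
  classical
  refine dg_congr fun r hr => ?_
  filter_upwards [h r hr] with a h1 s hs
  simp only [h1 s hs]

lemma ind_mul_ind_of_le {E E' : ∀ a, B a → Prop} (h : ∀ r < (1 : ℝ), ∀ᶠ a in C.l, ∀ s,
    C.u C.o a s ≤ r → (E a s → E' a s)) : (ind E : Asy C K) * ind E' = ind E := by
  rw [ind_mul]
  refine ind_congr fun r hr => ?_
  filter_upwards [h r hr] with a h1 s hs
  exact ⟨fun h => h.1, fun h => ⟨h, h1 s hs h⟩⟩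

/-- locality for indicators -/
lemma ind_mul_mul_ind_eq_zero {E E' : ∀ a, B a → Prop} (φ : C.Φ)
    (h : ∀ r < (1 : ℝ), ∃ ε > (0 : ℝ), ∀ᶠ a in C.l, ∀ s t, C.u C.o a s ≤ r → C.u C.o a t ≤ r →
      E a s → E' a t → ε ≤ |C.u φ a s - C.u φ a t|) (z : Asy C K) :
    ind E * z * ind E' = 0 := by
  classical
  refine dg_mul_mul_dg_eq_zero φ (fun r hr => ?_) z
  obtain ⟨ε, hε, h1⟩ := h r hr
  refine ⟨ε, hε, ?_⟩
  filter_upwards [h1] with a h1 s t hs ht h3 h4
  refine h1 s t hs ht ?_ ?_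
  · by_contra h
    exact h3 (by simp [h])
  · by_contra h
    exact h4 (by simp [h])

/-- the control projections -/
noncomputable def pu (C : Ctl B) (K : Type) [CommRing K] [StarRing K] [Algebra ℂ K]
    [StarModule ℂ K] (φ : C.Φ) (c : ℝ) : Asy C K := ind (fun a s => C.u φ a s ≤ c)

lemma pu_mul_self (φ : C.Φ) (c : ℝ) : pu C K φ c * pu C K φ c = pu C K φ c := ind_mul_self _

lemma pu_star (φ : C.Φ) (c : ℝ) : star (pu C K φ c) = pu C K φ c := ind_star _

lemma pu_mul_pu {φ : C.Φ} {c c' : ℝ} (h : c ≤ c') : pu C K φ c * pu C K φ c' = pu C K φ c :=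
  ind_mul_ind_of_le fun r hr => Eventually.of_forall fun a s _ h1 => h1.trans h

/-- **(L)** -/
lemma pu_mul_mul_one_sub_pu {φ : C.Φ} {c c' : ℝ} (h : c < c') (z : Asy C K) :
    pu C K φ c * z * (1 - pu C K φ c') = 0 := by
  unfold pu
  rw [one_sub_ind]
  refine ind_mul_mul_ind_eq_zero φ (fun r hr => ⟨c' - c, sub_pos.2 h, ?_⟩) z
  refine Eventually.of_forall fun a s t _ _ h1 h2 => ?_
  rw [abs_sub_comm]
  exact le_trans (by linarith [not_le.1 h2]) (le_abs_self _)

/-- **(L)** -/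
lemma one_sub_pu_mul_mul_pu {φ : C.Φ} {c c' : ℝ} (h : c < c') (z : Asy C K) :
    (1 - pu C K φ c') * z * pu C K φ c = 0 := by
  unfold pu
  rw [one_sub_ind]
  refine ind_mul_mul_ind_eq_zero φ (fun r hr => ⟨c' - c, sub_pos.2 h, ?_⟩) z
  refine Eventually.of_forall fun a s t _ _ h1 h2 => ?_
  exact le_trans (by linarith [not_le.1 h1]) (le_abs_self _)

variable {C' : Ctl B} {K' : Type} [CommRing K'] [StarRing K'] [Algebra ℂ K'] [StarModule ℂ K']

lemma chg_dg (h : C.Le C') (f : ∀ a, B a → K) : chg K h (dg C K f) = dg C' K f := rfl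

lemma chg_ind (h : C.Le C') (E : ∀ a, B a → Prop) : chg K h (ind E) = ind E := rfl

lemma coef_dg (ρ : K →⋆ₐ[ℂ] K') (f : ∀ a, B a → K) :
    coef C ρ (dg C K f) = dg C K' (fun a s => ρ (f a s)) := by
  rw [dg_apply, coef_cls, dg_apply]
  congr 1
  apply Subtype.ext
  funext a
  change (Matrix.diagonal (f a)).map ρ = Matrix.diagonal (fun s => ρ (f a s))
  exact Matrix.diagonal_map (map_zero ρ)

lemma coef_ind (ρ : K →⋆ₐ[ℂ] K') (E : ∀ a, B a → Prop) : coef C ρ (ind E) = ind E := by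
  classical
  unfold ind
  rw [coef_dg]
  congr 1
  funext a s
  split_ifs <;> simp

end diag

end Crest.Agent.R217.Asym476
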