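import Mathlib

/-!
Row 217, module M6 (twist locality), helper555.

* `Dl`, `fd_const` : finite differences; periodic + polynomial implies constant.
* `LemF.*` : the 2x2 identity ("Lemma F").
* `SgLaws` : abstract laws of a signature with values in an abelian group.
* `twist_const` : the twist locality theorem.
-/

namespace Crest.Agent.R217.LocF555

set_option linter.unusedSectionVars false

open Matrix

section FD
variable {G : Type*} [AddCommGroup G]

/-- difference operator -/
def Dl (f : ℤ → G) : ℤ → G := fun i => f i - f (i + 1)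

theorem fd_const (tf : ∀ (n : ℕ) (x : G), n ≠ 0 → n • x = 0 → x = 0)
    (q : ℕ) (hq : q ≠ 0) (m : ℕ) : ∀ (f : ℤ → G), (∀ i, f (i + q) = f i) →
    (∀ i, (Dl^[m]) f i = 0) → ∀ i, f (i + 1) = f i := by
  induction m with
  | zero =>
    intro f _ h i
    have h1 := h i
    have h2 := h (i + 1)
    simp only [Function.iterate_zero, id_eq] at h1 h2
    rw [h1, h2]
  | succ m ih =>
    intro f hper h i
    have hg : ∀ i, Dl f (i + 1) = Dl f i := by
      apply ih (Dl f)
      · intro i
        simp only [Dl]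
        have e1 : f (i + q + 1) = f (i + 1) := by
          have := hper (i + 1)
          rw [← this]; congr 1; ring
        rw [hper i, e1]
      · intro i
        have := h i
        rwa [Function.iterate_succ_apply] at this
    have hc : ∀ n : ℕ, Dl f (i + n) = Dl f i := by
      intro n
      induction n with
      | zero => simp
      | succ n ihn =>
        have := hg (i + n)
        rw [← ihn, ← this]; congr 1; push_cast; ring
    have hs : ∀ n : ℕ, f (i + n) = f i - n • Dl f i := by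
      intro n
      induction n with
      | zero => simp
      | succ n ihn =>
        have h1 : f (i + n) - f (i + n + 1) = Dl f i := hc n
        have h2 : f (i + ((n + 1 : ℕ) : ℤ)) = f (i + n + 1) := by congr 1; push_cast; ring
        rw [h2, succ_nsmul, ← sub_sub, ← ihn, ← h1]; abel
    have h3 := hs q
    rw [hper i] at h3
    have h4 : q • Dl f i = 0 := by
      have : f i - (f i - q • Dl f i) = 0 := by rw [← h3]; simp
      simpa using this
    have h5 := tf q _ hq h4
    have : f i - f (i + 1) = 0 := h5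
    exact (sub_eq_zero.mp this).symm

end FD

section LemF

variable {A : Type*} [Ring A]

/-- Hypotheses of Lemma F in a ring: `e` unit projection, `P ≤ e`, two invertible
elements `Q, Q'` of `eAe` agreeing on `P`, together with their inverses. -/
structure FData (e P Q R Q' R' : A) : Prop where
  ee : e * e = e
  PP : P * P = P
  eP : e * P = P
  Pe : P * e = P
  eQ : e * Q = Q
  Qe : Q * e = Q
  eR : e * R = R
  Re : R * e = R
  eQ' : e * Q' = Q'
  Qe' : Q' * e = Q'
  eR' : e * R' = R'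
  Re' : R' * e = R'
  QR : Q * R = e
  RQ : R * Q = e
  QR' : Q' * R' = e
  RQ' : R' * Q' = e
  PQ : P * Q = P * Q'
  QP : Q * P = Q' * P
  PR : P * R = P * R'
  RP : R * P = R' * P

namespace FData

variable {e P Q R Q' R' : A} (h : FData e P Q R Q' R')
include h

theorem NN : (e - P) * (e - P) = e - P := by
  rw [mul_sub, sub_mul, sub_mul, h.ee, h.Pe, h.eP, h.PP]; abel

theorem PN : P * (e - P) = 0 := by rw [mul_sub, h.Pe, h.PP, sub_self]

theorem NP : (e - P) * P = 0 := by rw [sub_mul, h.eP, h.PP, sub_self]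

theorem N_diff : (e - P) * (Q - Q') = Q - Q' := by
  rw [sub_mul, mul_sub, mul_sub, h.eQ, h.eQ', h.PQ, sub_self, sub_zero]

theorem diff_N : (Q - Q') * (e - P) = Q - Q' := by
  rw [mul_sub, sub_mul, sub_mul, h.Qe, h.Qe', h.QP, sub_self, sub_zero]

theorem PQR' : P * Q * R' = P := by rw [h.PQ, mul_assoc, h.QR', h.Pe]

theorem RQP' : R' * Q * P = P := by rw [mul_assoc, h.QP, ← mul_assoc, h.RQ', h.eP]

theorem b11 : (e - P) * (Q - Q') * (e - P) * -((e - P) * R' * (e - P))
    + (e - P) * ((e - P) * (Q * R') * (e - P)) = e - P := by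
  have h1 : (e - P) * (Q - Q') * (e - P) = Q - Q' := by rw [h.N_diff, h.diff_N]
  have h2 : (Q - Q') * ((e - P) * R' * (e - P)) = (Q - Q') * R' * (e - P) := by
    rw [mul_assoc (e - P), ← mul_assoc (Q - Q') (e - P), h.diff_N, mul_assoc]
  have h3 : (e - P) * ((e - P) * (Q * R') * (e - P)) = Q * R' * (e - P) - P * Q * R' * (e - P) := by
    rw [mul_assoc (e - P) (Q * R'), ← mul_assoc (e - P) (e - P), h.NN, sub_mul]
    rw [← mul_assoc e, ← mul_assoc e, h.eQ]
    simp only [mul_assoc]
  rw [h1, mul_neg, h2, h3, h.PQR', h.PN, sub_zero, sub_mul, h.QR', sub_mul]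
  rw [mul_sub e, h.ee, h.eP]; abel

theorem b12 : (e - P) * (Q - Q') * (e - P) * ((e - P) * (R' * Q) * (e - P))
    + (e - P) * ((e - P) * (Q - Q * R' * Q) * (e - P)) = 0 := by
  have h1 : (e - P) * (Q - Q') * (e - P) = Q - Q' := by rw [h.N_diff, h.diff_N]
  have h2 : (Q - Q') * ((e - P) * (R' * Q) * (e - P)) = (Q - Q') * (R' * Q) * (e - P) := by
    rw [mul_assoc (e - P), ← mul_assoc (Q - Q') (e - P), h.diff_N, ← mul_assoc (Q - Q')]
  have h3 : (e - P) * ((e - P) * (Q - Q * R' * Q) * (e - P))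
      = (Q - Q * R' * Q) * (e - P) - P * (Q - Q * R' * Q) * (e - P) := by
    rw [mul_assoc (e - P) (Q - Q * R' * Q), ← mul_assoc (e - P) (e - P), h.NN, sub_mul]
    rw [← mul_assoc e, mul_sub e, h.eQ, mul_assoc Q R' Q, ← mul_assoc e Q, h.eQ, ← mul_assoc P]
  have h4 : P * (Q - Q * R' * Q) = 0 := by
    rw [mul_sub, ← mul_assoc, ← mul_assoc, h.PQR', sub_self]
  have h5 : (Q - Q') * (R' * Q) = Q * R' * Q - Q := by
    rw [sub_mul, ← mul_assoc, ← mul_assoc, h.QR', h.eQ]
  rw [h1, h2, h3, h4, h5, zero_mul, sub_zero, ← add_mul]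
  simp

theorem RNQ : R * (e - P) * Q = e - R * P * Q := by
  rw [mul_sub, sub_mul, h.Re, h.RQ]

theorem b21 : (e - P) * -((e - P) * R' * (e - P))
    + (e - P) * R * (e - P) * ((e - P) * (Q * R') * (e - P)) = 0 := by
  have h1 : (e - P) * R * (e - P) * ((e - P) * (Q * R') * (e - P))
      = (e - P) * (R * (e - P) * Q) * R' * (e - P) := by
    have : (e - P) * R * (e - P) * ((e - P) * (Q * R') * (e - P))
      = (e - P) * R * ((e - P) * (e - P)) * (Q * R') * (e - P) := by
      simp only [mul_assoc]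
    rw [this, h.NN]; simp only [mul_assoc]
  have h2 : (e - P) * (R * P * Q) * R' * (e - P) = 0 := by
    have : (e - P) * (R * P * Q) * R' * (e - P) = (e - P) * R * (P * Q * R') * (e - P) := by
      simp only [mul_assoc]
    rw [this, h.PQR', mul_assoc, h.PN, mul_zero]
  have h3 : (e - P) * (e - R * P * Q) * R' * (e - P) = (e - P) * R' * (e - P) := by
    have : (e - P) * (e - R * P * Q) * R' * (e - P)
        = (e - P) * (e * R') * (e - P) - (e - P) * (R * P * Q) * R' * (e - P) := by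
      rw [mul_sub (e - P) e, sub_mul _ _ R', sub_mul _ _ (e - P), mul_assoc (e - P) e R']
    rw [this, h2, sub_zero, h.eR']
  have h4 : (e - P) * -((e - P) * R' * (e - P)) = -((e - P) * R' * (e - P)) := by
    rw [mul_neg, ← mul_assoc (e - P) ((e - P) * R'), ← mul_assoc (e - P) (e - P), h.NN]
  rw [h1, h.RNQ, h3, h4]; abel

theorem b22 : (e - P) * ((e - P) * (R' * Q) * (e - P))
    + (e - P) * R * (e - P) * ((e - P) * (Q - Q * R' * Q) * (e - P)) = e - P := by
  have h0 : (e - P) * e = e - P := by rw [sub_mul, h.ee, h.Pe]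
  have h1 : (e - P) * R * (e - P) * ((e - P) * (Q - Q * R' * Q) * (e - P))
      = (e - P) * (R * (e - P) * Q) * (e - R' * Q) * (e - P) := by
    have : (e - P) * R * (e - P) * ((e - P) * (Q - Q * R' * Q) * (e - P))
      = (e - P) * R * ((e - P) * (e - P)) * (Q - Q * R' * Q) * (e - P) := by
      simp only [mul_assoc]
    have h' : Q - Q * R' * Q = Q * (e - R' * Q) := by rw [mul_sub, h.Qe, mul_assoc]
    rw [this, h.NN, h']; simp only [mul_assoc]
  have h2 : (e - P) * (R * P * Q) * (e - R' * Q) = 0 := by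
    have : (e - P) * (R * P * Q) * (e - R' * Q)
        = (e - P) * R * (P * Q * e - P * Q * R' * Q) := by
      simp only [mul_assoc, mul_sub]
    rw [this, h.PQR', mul_assoc P Q e, h.Qe, sub_self, mul_zero]
  have h3 : (e - P) * (e - R * P * Q) * (e - R' * Q) * (e - P)
      = (e - P) * (e - R' * Q) * (e - P) := by
    have : (e - P) * (e - R * P * Q) * (e - R' * Q)
        = (e - P) * e * (e - R' * Q) - (e - P) * (R * P * Q) * (e - R' * Q) := by
      rw [mul_sub (e - P) e, sub_mul _ _ (e - R' * Q)]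
    rw [this, h2, sub_zero, h0]
  have h4 : (e - P) * ((e - P) * (R' * Q) * (e - P)) = (e - P) * (R' * Q) * (e - P) := by
    rw [← mul_assoc (e - P) ((e - P) * (R' * Q)), ← mul_assoc (e - P) (e - P), h.NN]
  rw [h1, h.RNQ, h3, h4, ← add_mul, ← mul_add]
  have h5 : R' * Q + (e - R' * Q) = e := by abel
  rw [h5, h0, h.NN]

end FData
end LemF


section Laws

variable (R : Type*) [Ring R] [StarRing R] (G : Type*) [AddCommGroup G]

/-- Abstract laws of a signature for "compactly supported" hermitian matrices over a star ring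
`R` (e.g. `R = ℂ`, `ok = True`, `G = ℤ`; or `R` the asymptotic algebra and `G` germs). -/
structure SgLaws where
  ok : ∀ {ι : Type} [Fintype ι] [DecidableEq ι], Matrix ι ι R → Prop
  sg : ∀ {ι : Type} [Fintype ι] [DecidableEq ι], Matrix ι ι R → G
  ok_sub : ∀ {ι : Type} [Fintype ι] [DecidableEq ι] (A B : Matrix ι ι R),
    ok A → ok B → ok (A - B)
  ok_mul_left : ∀ {ι : Type} [Fintype ι] [DecidableEq ι] (C A : Matrix ι ι R),
    ok A → ok (C * A)
  ok_mul_right : ∀ {ι : Type} [Fintype ι] [DecidableEq ι] (C A : Matrix ι ι R),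
    ok A → ok (A * C)
  ok_blocks : ∀ {ι : Type} [Fintype ι] [DecidableEq ι] (A B C D : Matrix ι ι R),
    ok A → ok B → ok C → ok D → ok (fromBlocks A B C D)
  sg_congr : ∀ {ι : Type} [Fintype ι] [DecidableEq ι] (C M : Matrix ι ι R),
    ok M → Mᴴ = M → IsUnit C → sg (Cᴴ * M * C) = sg M
  sg_blocks : ∀ {ι : Type} [Fintype ι] [DecidableEq ι] (A B : Matrix ι ι R),
    ok A → ok B → Aᴴ = A → Bᴴ = B → sg (fromBlocks A 0 0 B) = sg A + sg B
  sg_neg : ∀ {ι : Type} [Fintype ι] [DecidableEq ι] (A : Matrix ι ι R),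
    ok A → Aᴴ = A → sg (-A) = - sg A
  tf : ∀ (n : ℕ) (x : G), n ≠ 0 → n • x = 0 → x = 0
  half : R
  half_add : half + half = 1
  half_star : star half = half
  half_comm : ∀ a : R, half * a = a * half

end Laws

section LawsLemmas

variable {R : Type*} [Ring R] [StarRing R] {G : Type*} [AddCommGroup G] (L : SgLaws R G)
variable {ι : Type} [Fintype ι] [DecidableEq ι]

/-- the new form of Lemma F -/
def Qn (e P Q R' Q' : Matrix ι ι R) : Matrix (ι ⊕ ι) (ι ⊕ ι) R :=
  fromBlocks ((e - P) * (Q - Q') * (e - P)) (e - P) (e - P) ((e - P) * R' * (e - P))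

/-- its inverse -/
def Rn (e P Q R' : Matrix ι ι R) : Matrix (ι ⊕ ι) (ι ⊕ ι) R :=
  fromBlocks (-((e - P) * R' * (e - P))) ((e - P) * (R' * Q) * (e - P))
    ((e - P) * (Q * R') * (e - P)) ((e - P) * (Q - Q * R' * Q) * (e - P))

theorem FData.mul {e P Q S Q' S' : Matrix ι ι R} (h : FData e P Q S Q' S') :
    Qn e P Q S Q' * Rn e P Q S' = fromBlocks (e - P) 0 0 (e - P) := by
  rw [Qn, Rn, fromBlocks_multiply, h.b11, h.b12, h.b21, h.b22]


namespace SgLaws

theorem ok_zero {A : Matrix ι ι R} (h : L.ok A) : L.ok (0 : Matrix ι ι R) := by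
  have := L.ok_mul_left 0 A h
  simpa using this

theorem ok_neg {A : Matrix ι ι R} (h : L.ok A) : L.ok (-A) := by
  have := L.ok_mul_left (-1) A h
  simpa using this

theorem ok_add {A B : Matrix ι ι R} (hA : L.ok A) (hB : L.ok B) : L.ok (A + B) := by
  have := L.ok_sub A (-B) hA (L.ok_neg hB)
  simpa using this

theorem sg_zero {A : Matrix ι ι R} (h : L.ok A) : L.sg (0 : Matrix ι ι R) = 0 := by
  have h0 := L.ok_zero h
  have h1 := L.sg_neg (0 : Matrix ι ι R) h0 (by simp)
  rw [neg_zero] at h1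
  apply L.tf 2 _ (by norm_num)
  rw [two_nsmul]
  nth_rewrite 2 [h1]
  simp

theorem sg_eq_zero_of_neg {A C : Matrix ι ι R} (h : L.ok A) (hA : Aᴴ = A) (hC : IsUnit C)
    (he : Cᴴ * A * C = -A) : L.sg A = 0 := by
  have h1 := L.sg_congr C A h hA hC
  rw [he, L.sg_neg A h hA] at h1
  apply L.tf 2 _ (by norm_num)
  rw [two_nsmul]
  nth_rewrite 2 [← h1]
  simp

/-- orthogonal sums -/
theorem sg_orth {A B F : Matrix ι ι R} (hA : L.ok A) (hB : L.ok B) (hA' : Aᴴ = A)
    (hB' : Bᴴ = B) (hF : F * F = F) (hF' : Fᴴ = F) (h1 : F * A = 0) (h2 : A * F = 0)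
    (h3 : F * B = B) (h4 : B * F = B) : L.sg (A + B) = L.sg A + L.sg B := by
  have h0 := L.ok_zero hA
  have e1 : L.sg (fromBlocks (A + B) 0 0 (0 : Matrix ι ι R)) = L.sg (A + B) := by
    rw [L.sg_blocks _ _ (L.ok_add hA hB) h0 (by rw [conjTranspose_add, hA', hB']) (by simp),
      L.sg_zero hA, add_zero]
  have e2 : L.sg (fromBlocks A 0 0 B) = L.sg A + L.sg B := L.sg_blocks _ _ hA hB hA' hB'
  set W : Matrix (ι ⊕ ι) (ι ⊕ ι) R := fromBlocks (1 - F) F F (1 - F) with hW
  have hFF : (1 - F) * (1 - F) = 1 - F := by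
    rw [mul_sub, sub_mul, sub_mul, hF]; simp
  have hF1 : (1 - F) * F = 0 := by rw [sub_mul, hF]; simp
  have hF2 : F * (1 - F) = 0 := by rw [mul_sub, hF]; simp
  have hWW : W * W = 1 := by
    rw [hW, fromBlocks_multiply, hF, hFF, hF1, hF2, ← fromBlocks_one]
    simp
  have hWs : Wᴴ = W := by
    rw [hW, fromBlocks_conjTranspose, conjTranspose_sub, hF', conjTranspose_one]
  have hWu : IsUnit W := ⟨⟨W, W, hWW, hWW⟩, rfl⟩
  have e3 := L.sg_congr W (fromBlocks (A + B) 0 0 0)
    (L.ok_blocks _ _ _ _ (L.ok_add hA hB) h0 h0 h0)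
    (by rw [fromBlocks_conjTranspose, conjTranspose_add, hA', hB']; simp) hWu
  have e4 : Wᴴ * fromBlocks (A + B) 0 0 0 * W = fromBlocks A 0 0 B := by
    have a1 : (1 - F) * (A + B) = A := by
      rw [sub_mul, one_mul, mul_add, h1, h3]; abel
    have a2 : F * (A + B) = B := by rw [mul_add, h1, h3, zero_add]
    have a3 : A * (1 - F) = A := by rw [mul_sub, h2]; simp
    have a4 : B * (1 - F) = 0 := by rw [mul_sub, h4]; simp
    rw [hWs, hW, fromBlocks_multiply, fromBlocks_multiply]
    simp only [mul_zero, add_zero, a1, a2, zero_mul, a3, a4, h2, h4]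
  rw [e4] at e3
  rw [← e2, e3, e1]

end SgLaws

/-- the signature formula of Lemma F -/
theorem sg_Qn {e P Q S Q' S' : Matrix ι ι R} (h : FData e P Q S Q' S')
    (he : eᴴ = e) (hP : Pᴴ = P) (hQ : Qᴴ = Q) (hQ' : Q'ᴴ = Q') (hS : Sᴴ = S)
    (ok : L.ok e) : L.sg (Qn e P Q S Q') = L.sg Q - L.sg Q' := by
  have okP : L.ok P := by rw [← h.eP]; exact L.ok_mul_right _ _ ok
  have okQ : L.ok Q := by rw [← h.eQ]; exact L.ok_mul_right _ _ ok
  have okS : L.ok S := by rw [← h.eR]; exact L.ok_mul_right _ _ ok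
  have okQ' : L.ok Q' := by rw [← h.eQ']; exact L.ok_mul_right _ _ ok
  have ok0 : L.ok (0 : Matrix ι ι R) := L.ok_zero ok
  have okN : L.ok (e - P) := L.ok_sub _ _ ok okP
  have okD : L.ok (fromBlocks Q 0 0 (-Q')) := L.ok_blocks _ _ _ _ okQ ok0 ok0 (L.ok_neg okQ')
  have hD : (fromBlocks Q 0 0 (-Q'))ᴴ = fromBlocks Q 0 0 (-Q') := by
    rw [fromBlocks_conjTranspose, hQ, conjTranspose_neg, hQ']; simp
  have e0 : L.sg (fromBlocks Q 0 0 (-Q')) = L.sg Q - L.sg Q' := by
    rw [L.sg_blocks _ _ okQ (L.ok_neg okQ') hQ (by rw [conjTranspose_neg, hQ']),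
      L.sg_neg _ okQ' hQ', sub_eq_add_neg]
  -- first congruence
  set C : Matrix (ι ⊕ ι) (ι ⊕ ι) R := fromBlocks 1 S 1 (-(1 - e)) with hC
  set D : Matrix (ι ⊕ ι) (ι ⊕ ι) R := fromBlocks (1 - e) e (Q + (1 - e)) (-Q - (1 - e)) with hD'
  have he1 : (1 - e) * (1 - e) = 1 - e := by
    rw [mul_sub, sub_mul, sub_mul, h.ee]; simp
  have hee : e * (1 - e) = 0 := by rw [mul_sub, h.ee]; simp
  have hee' : (1 - e) * e = 0 := by rw [sub_mul, h.ee]; simp
  have hS1 : S * (1 - e) = 0 := by rw [mul_sub, h.Re]; simp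
  have hS2 : (1 - e) * S = 0 := by rw [sub_mul, h.eR]; simp
  have hQ1 : Q * (1 - e) = 0 := by rw [mul_sub, h.Qe]; simp
  have hQ2 : (1 - e) * Q = 0 := by rw [sub_mul, h.eQ]; simp
  have hQ1' : Q' * (1 - e) = 0 := by rw [mul_sub, h.Qe']; simp
  have hQ2' : (1 - e) * Q' = 0 := by rw [sub_mul, h.eQ']; simp
  have hCD : C * D = 1 := by
    rw [hC, hD', fromBlocks_multiply, ← fromBlocks_one]
    congr 1
    · rw [one_mul, mul_add, h.RQ, hS1]; abel
    · rw [one_mul, mul_sub, mul_neg, h.RQ, hS1]; abel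
    · rw [one_mul, neg_mul, mul_add, hQ2, he1]; abel
    · rw [one_mul, neg_mul, mul_sub, mul_neg, hQ2, he1]; abel
  have hDC : D * C = 1 := by
    rw [hC, hD', fromBlocks_multiply, ← fromBlocks_one]
    congr 1
    · simp
    · rw [hS2, mul_neg, hee]; simp
    · simp
    · rw [add_mul, h.QR, hS2, mul_neg, sub_mul, neg_mul, hQ1, he1]; abel
  have hCu : IsUnit C := ⟨⟨C, D, hCD, hDC⟩, rfl⟩
  have e1 := L.sg_congr C _ okD hD hCu
  have e1' : Cᴴ * fromBlocks Q 0 0 (-Q') * C = fromBlocks (Q - Q') e e S := by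
    have : Cᴴ = fromBlocks 1 1 S (-(1 - e)) := by
      rw [hC, fromBlocks_conjTranspose]
      simp [hS, he]
    have hB : fromBlocks Q 0 0 (-Q') * C = fromBlocks Q e (-Q') 0 := by
      rw [hC, fromBlocks_multiply]
      congr 1
      · simp
      · rw [h.QR, zero_mul, add_zero]
      · simp
      · rw [zero_mul, zero_add, neg_mul, mul_neg, hQ1', neg_zero, neg_zero]
    rw [mul_assoc, hB, this, fromBlocks_multiply]
    congr 1
    · rw [one_mul, one_mul, sub_eq_add_neg]
    · rw [one_mul, one_mul, add_zero]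
    · rw [h.RQ, neg_mul, mul_neg, hQ2', neg_zero, neg_zero, add_zero]
    · rw [h.Re, mul_zero, add_zero]
  rw [e1', e0] at e1
  -- second congruence
  set t : Matrix ι ι R := Matrix.diagonal (fun _ => L.half) with ht
  have htc : ∀ M : Matrix ι ι R, t * M = M * t := by
    intro M
    ext i j
    rw [ht, diagonal_mul, mul_diagonal, L.half_comm]
  have ht2 : t + t = 1 := by
    rw [ht, diagonal_add, ← diagonal_one]; congr 1; ext i; exact L.half_add
  have hts : tᴴ = t := by
    rw [ht, diagonal_conjTranspose]; congr 1; ext i; simp [L.half_star]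
  set X : Matrix ι ι R := t * (P * S * P) + P * S * (e - P) with hX
  have hXs : Xᴴ = t * (P * S * P) + (e - P) * S * P := by
    rw [hX, conjTranspose_add, conjTranspose_mul, conjTranspose_mul, conjTranspose_mul,
      conjTranspose_mul, conjTranspose_mul, conjTranspose_sub, he, hP, hS, hts, ← htc]
    simp only [mul_assoc]
  have hPX : P * X = X := by
    rw [hX, mul_add, ← mul_assoc P t, ← htc, mul_assoc t, ← mul_assoc P (P * S), ← mul_assoc P P,
      h.PP, ← mul_assoc P (P * S), ← mul_assoc P P, h.PP]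
  have hXP : Xᴴ * P = Xᴴ := by
    have := congrArg conjTranspose hPX
    rwa [conjTranspose_mul, hP] at this
  have hdP : (Q - Q') * P = 0 := by rw [sub_mul, h.QP, sub_self]
  have hPd : P * (Q - Q') = 0 := by rw [mul_sub, h.PQ, sub_self]
  have hdX : (Q - Q') * X = 0 := by rw [← hPX, ← mul_assoc, hdP, zero_mul]
  have hXd : Xᴴ * (Q - Q') = 0 := by rw [← hXP, mul_assoc, hPd, mul_zero]
  have heX : e * X = X := by rw [← hPX, ← mul_assoc, h.eP]
  have hXe : Xᴴ * e = Xᴴ := by rw [← hXP, mul_assoc, h.Pe]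
  have hXX : S - X - Xᴴ = (e - P) * S * (e - P) := by
    have h1 : t * (P * S * P) + t * (P * S * P) = P * S * P := by
      rw [← add_mul, ht2, one_mul]
    have h2 : S - X - Xᴴ = S - (t * (P * S * P) + t * (P * S * P)) - P * S * (e - P)
        - (e - P) * S * P := by rw [hXs, hX]; abel
    rw [h2, h1]
    have h3 : P * S * (e - P) = P * S - P * S * P := by
      rw [mul_sub, mul_assoc P S e, h.Re]
    have h4 : (e - P) * S * P = S * P - P * S * P := by rw [sub_mul, sub_mul, h.eR]
    have h5 : (e - P) * S * (e - P) = S - S * P - P * S + P * S * P := by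
      rw [mul_sub, sub_mul, h.eR, sub_mul S, sub_mul S, h.Re, mul_assoc P S e, h.Re]; abel
    rw [h3, h4, h5]; abel
  set K : Matrix (ι ⊕ ι) (ι ⊕ ι) R := fromBlocks 1 (-X) 0 1 with hK
  have hKu : IsUnit K := by
    refine ⟨⟨K, fromBlocks 1 X 0 1, ?_, ?_⟩, rfl⟩
    · rw [hK, fromBlocks_multiply, ← fromBlocks_one]; simp
    · rw [hK, fromBlocks_multiply, ← fromBlocks_one]; simp
  have okG0 : L.ok (fromBlocks (Q - Q') e e S) :=
    L.ok_blocks _ _ _ _ (L.ok_sub _ _ okQ okQ') ok ok okS
  have hG0 : (fromBlocks (Q - Q') e e S)ᴴ = fromBlocks (Q - Q') e e S := by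
    rw [fromBlocks_conjTranspose, conjTranspose_sub, hQ, hQ', he, hS]
  have e2 := L.sg_congr K _ okG0 hG0 hKu
  have e2' : Kᴴ * fromBlocks (Q - Q') e e S * K
      = fromBlocks (Q - Q') e e ((e - P) * S * (e - P)) := by
    have : Kᴴ = fromBlocks 1 0 (-Xᴴ) 1 := by
      rw [hK, fromBlocks_conjTranspose]; simp
    rw [this, hK, fromBlocks_multiply, fromBlocks_multiply, ← hXX]
    congr 1
    · simp
    · simp only [one_mul, zero_mul, add_zero, mul_one, mul_neg, hdX, neg_zero, zero_add]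
    · simp only [neg_mul, one_mul, mul_one, mul_zero, add_zero, hXd, neg_zero, zero_add]
    · simp only [neg_mul, one_mul, mul_one, hXd, hXe, mul_neg, neg_zero, zero_add, heX]
      abel
  rw [e2', e1] at e2
  -- splitting
  have hN1 : (e - P) * (Q - Q') * (e - P) = Q - Q' := by rw [h.N_diff, h.diff_N]
  have e3 : fromBlocks (Q - Q') e e ((e - P) * S * (e - P))
      = Qn e P Q S Q' + fromBlocks 0 P P 0 := by
    rw [Qn, hN1, fromBlocks_add]; simp
  have hNs : (e - P)ᴴ = e - P := by rw [conjTranspose_sub, he, hP]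
  have okQn : L.ok (Qn e P Q S Q') :=
    L.ok_blocks _ _ _ _ (L.ok_mul_left _ _ okN) okN okN (L.ok_mul_left _ _ okN)
  have hQns : (Qn e P Q S Q')ᴴ = Qn e P Q S Q' := by
    rw [Qn, hN1, fromBlocks_conjTranspose, conjTranspose_sub, hQ, hQ', hNs, conjTranspose_mul,
      conjTranspose_mul, hNs, hS, mul_assoc]
  have okH : L.ok (fromBlocks 0 P P (0 : Matrix ι ι R)) := L.ok_blocks _ _ _ _ ok0 okP okP ok0
  have hHs : (fromBlocks 0 P P (0 : Matrix ι ι R))ᴴ = fromBlocks 0 P P 0 := by
    rw [fromBlocks_conjTranspose, hP]; simp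
  have e4 := L.sg_orth (A := Qn e P Q S Q') (B := fromBlocks 0 P P 0)
    (F := fromBlocks P 0 0 P) okQn okH hQns hHs
    (by rw [fromBlocks_multiply]; simp [h.PP])
    (by rw [fromBlocks_conjTranspose, hP]; simp)
    (by
      rw [Qn, fromBlocks_multiply, hN1]
      simp only [hPd, zero_mul, add_zero, h.PN, ← mul_assoc, fromBlocks_zero])
    (by
      rw [Qn, fromBlocks_multiply, hN1]
      simp only [hdP, mul_zero, add_zero, h.NP, mul_assoc, fromBlocks_zero])
    (by rw [fromBlocks_multiply]; simp [h.PP])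
    (by rw [fromBlocks_multiply]; simp [h.PP])
  have e5 : L.sg (fromBlocks 0 P P (0 : Matrix ι ι R)) = 0 := by
    refine L.sg_eq_zero_of_neg (C := fromBlocks 1 0 0 (-1)) okH hHs ?_ ?_
    · refine ⟨⟨fromBlocks 1 0 0 (-1), fromBlocks 1 0 0 (-1), ?_, ?_⟩, rfl⟩ <;>
      · rw [fromBlocks_multiply, ← fromBlocks_one]; simp
    · rw [fromBlocks_conjTranspose, fromBlocks_multiply, fromBlocks_multiply, fromBlocks_neg]
      simp
  rw [e3, e4, e5, add_zero] at e2
  exact e2

end LawsLemmas

section Gauges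

variable {R : Type*} [Ring R] [StarRing R]

/-- a gauge chart: `P 0 ≤ P 1 ≤ ...` projections deep inside the chart, `u` the gauge unitary -/
structure Gauge (R : Type*) where
  P : ℕ → R
  u : R

structure IsGauge (g : Gauge R) : Prop where
  sP : ∀ k, star (g.P k) = g.P k
  PP : g.P 0 * g.P 0 = g.P 0
  loc : ∀ k (a : R), g.P k * a = g.P k * a * g.P (k + 1)
  uu : g.u * star g.u = 1
  uu' : star g.u * g.u = 1
  uP : ∀ k, g.u * g.P k = g.P k * g.u

/-- over the chart `g`, passing from `i` to `i+1` is conjugation by `u` -/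
def HomF (g : Gauge R) (q : ℤ → R) : Prop :=
  ∀ i k, g.P k * q (i + 1) = g.P k * (g.u * q i * star g.u)

namespace HomF

variable {g : Gauge R} {q r : ℤ → R}

theorem add (hq : HomF g q) (hr : HomF g r) : HomF g (fun i => q i + r i) := by
  intro i k
  simp only [mul_add, add_mul, hq i k, hr i k]

theorem neg (hq : HomF g q) : HomF g (fun i => - q i) := by
  intro i k
  simp only [mul_neg, neg_mul, hq i k]

theorem sub (hq : HomF g q) (hr : HomF g r) : HomF g (fun i => q i - r i) := by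
  simpa only [sub_eq_add_neg] using hq.add hr.neg

theorem zero : HomF g (fun _ => 0) := by
  intro i k; simp

theorem sum {κ : Type*} (s : Finset κ) (f : κ → ℤ → R) (h : ∀ x ∈ s, HomF g (f x)) :
    HomF g (fun i => ∑ x ∈ s, f x i) := by
  classical
  induction s using Finset.induction_on with
  | empty => simpa using (zero : HomF g (fun _ => 0))
  | insert a s ha ih =>
    simp only [Finset.sum_insert ha]
    exact (h a (Finset.mem_insert_self a s)).add
      (ih (fun x hx => h x (Finset.mem_insert_of_mem hx)))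

theorem mul (hg : IsGauge g) (hq : HomF g q) (hr : HomF g r) : HomF g (fun i => q i * r i) := by
  intro i k
  calc g.P k * (q (i + 1) * r (i + 1)) = g.P k * q (i + 1) * r (i + 1) := by rw [mul_assoc]
    _ = g.P k * (g.u * q i * star g.u) * r (i + 1) := by rw [hq]
    _ = g.P k * (g.u * q i * star g.u) * g.P (k + 1) * r (i + 1) := by
        rw [← hg.loc k (g.u * q i * star g.u)]
    _ = g.P k * (g.u * q i * star g.u) * (g.P (k + 1) * r (i + 1)) := by rw [mul_assoc]
    _ = g.P k * (g.u * q i * star g.u) * (g.P (k + 1) * (g.u * r i * star g.u)) := by rw [hr]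
    _ = g.P k * (g.u * q i * star g.u) * g.P (k + 1) * (g.u * r i * star g.u) := by
        rw [← mul_assoc]
    _ = g.P k * (g.u * q i * star g.u) * (g.u * r i * star g.u) := by
        rw [← hg.loc k (g.u * q i * star g.u)]
    _ = g.P k * (g.u * q i * (star g.u * g.u) * r i * star g.u) := by simp only [mul_assoc]
    _ = g.P k * (g.u * (q i * r i) * star g.u) := by rw [hg.uu', mul_one]; simp only [mul_assoc]

theorem const (hg : IsGauge g) {c : R} (hc : g.u * c = c * g.u) : HomF g (fun _ => c) := by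
  intro i k
  rw [hc, mul_assoc, hg.uu, mul_one]

theorem loc' (hg : IsGauge g) (k : ℕ) (a : R) : a * g.P k = g.P (k + 1) * a * g.P k := by
  have := congrArg star (hg.loc k (star a))
  rw [star_mul, star_mul, star_mul, star_star, hg.sP, hg.sP, ← mul_assoc] at this
  exact this

theorem right (hg : IsGauge g) (hq : HomF g q) (i : ℤ) (k : ℕ) :
    q (i + 1) * g.P k = g.u * q i * star g.u * g.P k := by
  rw [loc' hg k (q (i + 1)), hq i (k + 1), ← loc' hg k]

theorem su_comm (hg : IsGauge g) (k : ℕ) : star g.u * g.P k = g.P k * star g.u := by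
  have := congrArg star (hg.uP k)
  rw [star_mul, star_mul, hg.sP] at this
  exact this.symm

/-- conjugate shift -/
theorem shift {g' : Gauge R} (hg : IsGauge g) (hg' : IsGauge g') (h1 : g.u * g'.u = g'.u * g.u)
    (h2 : ∀ k, g'.u * g.P k = g.P k * g'.u)
    (hq : HomF g q) : HomF g (fun i => star g'.u * q (i + 1) * g'.u) := by
  have h3 : ∀ k, star g'.u * g.P k = g.P k * star g'.u := by
    intro k
    have := congrArg star (h2 k)
    rw [star_mul, star_mul, hg.sP] at this
    exact this.symm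
  have h4 : g.u * star g'.u = star g'.u * g.u := by
    calc g.u * star g'.u = star g'.u * g'.u * g.u * star g'.u := by rw [hg'.uu', one_mul]
      _ = star g'.u * (g.u * g'.u) * star g'.u := by rw [h1]; simp only [mul_assoc]
      _ = star g'.u * g.u := by rw [mul_assoc, mul_assoc, hg'.uu, mul_one]
  have h5 : star g.u * g'.u = g'.u * star g.u := by
    have := congrArg star h4
    rw [star_mul, star_mul, star_star] at this
    exact this.symm
  intro i k
  calc g.P k * (star g'.u * q (i + 1 + 1) * g'.u)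
      = star g'.u * (g.P k * q (i + 1 + 1)) * g'.u := by
        simp only [← mul_assoc]; rw [h3]
    _ = star g'.u * (g.P k * (g.u * q (i + 1) * star g.u)) * g'.u := by rw [hq (i + 1) k]
    _ = g.P k * (star g'.u * g.u) * q (i + 1) * (star g.u * g'.u) := by
        simp only [← mul_assoc]; rw [h3]
    _ = g.P k * (g.u * (star g'.u * q (i + 1) * g'.u) * star g.u) := by
        rw [← h4, h5]; simp only [mul_assoc]

end HomF

/-- compatible family of gauges -/
structure Amb (𝒢 : Set (Gauge R)) : Prop where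
  gg : ∀ g ∈ 𝒢, IsGauge g
  uu : ∀ g ∈ 𝒢, ∀ g' ∈ 𝒢, g.u * g'.u = g'.u * g.u
  uP : ∀ g ∈ 𝒢, ∀ g' ∈ 𝒢, ∀ k, g.u * g'.P k = g'.P k * g.u
  PP : ∀ g ∈ 𝒢, ∀ g' ∈ 𝒢, g.P 0 * g'.P 0 = g'.P 0 * g.P 0

end Gauges

section Main

variable {R : Type*} [Ring R] [StarRing R] {G : Type*} [AddCommGroup G] (L : SgLaws R G)

/-- input data for the twist theorem -/
structure Good (𝒢 : Set (Gauge R)) {ι : Type} [Fintype ι] [DecidableEq ι]
    (e : Matrix ι ι R) (Q S : ℤ → Matrix ι ι R) : Prop where
  ok : L.ok e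
  ee : e * e = e
  es : eᴴ = e
  eu : ∀ g ∈ 𝒢, ∀ a b, g.u * e a b = e a b * g.u
  eP : ∀ g ∈ 𝒢, ∀ a b, g.P 0 * e a b = e a b * g.P 0
  eQ : ∀ i, e * Q i = Q i
  Qe : ∀ i, Q i * e = Q i
  eS : ∀ i, e * S i = S i
  Se : ∀ i, S i * e = S i
  QS : ∀ i, Q i * S i = e
  SQ : ∀ i, S i * Q i = e
  Qs : ∀ i, (Q i)ᴴ = Q i
  Ss : ∀ i, (S i)ᴴ = S i
  homQ : ∀ g ∈ 𝒢, ∀ a b, HomF g (fun i => Q i a b)
  homS : ∀ g ∈ 𝒢, ∀ a b, HomF g (fun i => S i a b)

variable {L} {𝒢 : Set (Gauge R)} {ι : Type} [Fintype ι] [DecidableEq ι]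
  {e : Matrix ι ι R} {Q S : ℤ → Matrix ι ι R}

/-- scalar matrix -/
abbrev sc (ι : Type) [Fintype ι] [DecidableEq ι] (c : R) : Matrix ι ι R :=
  Matrix.diagonal (fun _ => c)

/-- the conjugated shift -/
def sh (g : Gauge R) (Q : ℤ → Matrix ι ι R) (i : ℤ) : Matrix ι ι R :=
  sc ι (star g.u) * Q (i + 1) * sc ι g.u

theorem sh_apply (g : Gauge R) (Q : ℤ → Matrix ι ι R) (i : ℤ) (a b : ι) :
    sh g Q i a b = star g.u * Q (i + 1) a b * g.u := by
  rw [sh, mul_diagonal, diagonal_mul]

theorem sc_mul (c d : R) : sc ι c * sc ι d = sc ι (c * d) := by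
  rw [sc, sc, diagonal_mul_diagonal]

theorem sc_one : sc ι (1 : R) = 1 := diagonal_one

theorem sc_star (c : R) : (sc ι c)ᴴ = sc ι (star c) := by
  rw [sc, diagonal_conjTranspose]; rfl

theorem Good.fdata (hA : Amb 𝒢) (h : Good L 𝒢 e Q S) {g : Gauge R} (hg : g ∈ 𝒢) (i : ℤ) :
    FData e (e * sc ι (g.P 0)) (Q i) (S i) (sh g Q i) (sh g S i) := by
  have gg := hA.gg g hg
  have hPe : sc ι (g.P 0) * e = e * sc ι (g.P 0) := by
    ext a b; rw [diagonal_mul, mul_diagonal, h.eP g hg]
  have hue : sc ι g.u * e = e * sc ι g.u := by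
    ext a b; rw [diagonal_mul, mul_diagonal, h.eu g hg]
  have hse : sc ι (star g.u) * e = e * sc ι (star g.u) := by
    have := congrArg conjTranspose hue
    rw [conjTranspose_mul, conjTranspose_mul, h.es, sc_star] at this
    exact this.symm
  have huu : sc ι g.u * sc ι (star g.u) = 1 := by rw [sc_mul, gg.uu, sc_one]
  have hPP : sc ι (g.P 0) * sc ι (g.P 0) = sc ι (g.P 0) := by rw [sc_mul, gg.PP]
  have hPQ : ∀ (M : ℤ → Matrix ι ι R), (∀ a b, HomF g (fun i => M i a b)) →
      sc ι (g.P 0) * M i = sc ι (g.P 0) * sh g M i := by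
    intro M hM
    ext a b
    rw [diagonal_mul, diagonal_mul, sh_apply]
    have h1 := hM a b i 0
    calc g.P 0 * M i a b = g.P 0 * (star g.u * g.u) * M i a b * (star g.u * g.u) := by
          rw [gg.uu', mul_one, mul_one]
      _ = star g.u * (g.P 0 * (g.u * M i a b * star g.u)) * g.u := by
          simp only [← mul_assoc]; rw [HomF.su_comm gg]
      _ = star g.u * (g.P 0 * M (i + 1) a b) * g.u := by rw [h1]
      _ = g.P 0 * (star g.u * M (i + 1) a b * g.u) := by
          simp only [← mul_assoc]; rw [HomF.su_comm gg]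
  have hQP : ∀ (M : ℤ → Matrix ι ι R), (∀ a b, HomF g (fun i => M i a b)) →
      M i * sc ι (g.P 0) = sh g M i * sc ι (g.P 0) := by
    intro M hM
    ext a b
    rw [mul_diagonal, mul_diagonal, sh_apply]
    have h1 := HomF.right gg (hM a b) i 0
    calc M i a b * g.P 0 = (star g.u * g.u) * M i a b * (star g.u * g.u) * g.P 0 := by
          rw [gg.uu', mul_one, one_mul]
      _ = star g.u * (g.u * M i a b * star g.u * g.P 0) * g.u := by
          simp only [mul_assoc]; rw [gg.uP]
      _ = star g.u * (M (i + 1) a b * g.P 0) * g.u := by rw [h1]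
      _ = star g.u * M (i + 1) a b * g.u * g.P 0 := by
          simp only [mul_assoc]; rw [gg.uP]
  have key1 : ∀ M : Matrix ι ι R, e * M = M → e * (sc ι (star g.u) * M * sc ι g.u)
      = sc ι (star g.u) * M * sc ι g.u := by
    intro M hM
    rw [← mul_assoc, ← mul_assoc, ← hse, mul_assoc _ e, hM]
  have key2 : ∀ M : Matrix ι ι R, M * e = M → (sc ι (star g.u) * M * sc ι g.u) * e
      = sc ι (star g.u) * M * sc ι g.u := by
    intro M hM
    rw [mul_assoc, hue, ← mul_assoc, mul_assoc _ M e, hM]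
  have key3 : ∀ M N : Matrix ι ι R, M * N = e →
      (sc ι (star g.u) * M * sc ι g.u) * (sc ι (star g.u) * N * sc ι g.u) = e := by
    intro M N hMN
    have : (sc ι (star g.u) * M * sc ι g.u) * (sc ι (star g.u) * N * sc ι g.u)
        = sc ι (star g.u) * (M * (sc ι g.u * sc ι (star g.u)) * N) * sc ι g.u := by
      simp only [mul_assoc]
    rw [this, huu, mul_one, hMN, hse, mul_assoc, sc_mul, gg.uu', sc_one, mul_one]
  exact {
    ee := h.ee
    PP := by rw [mul_assoc, ← mul_assoc _ e, hPe, mul_assoc e, hPP, ← mul_assoc, h.ee]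
    eP := by rw [← mul_assoc, h.ee]
    Pe := by rw [mul_assoc, hPe, ← mul_assoc, h.ee]
    eQ := h.eQ i
    Qe := h.Qe i
    eR := h.eS i
    Re := h.Se i
    eQ' := key1 _ (h.eQ _)
    Qe' := key2 _ (h.Qe _)
    eR' := key1 _ (h.eS _)
    Re' := key2 _ (h.Se _)
    QR := h.QS i
    RQ := h.SQ i
    QR' := key3 _ _ (h.QS _)
    RQ' := key3 _ _ (h.SQ _)
    PQ := by rw [mul_assoc, mul_assoc, hPQ Q (h.homQ g hg)]
    QP := by
      have : sh g Q i * e = sh g Q i := key2 _ (h.Qe _)
      rw [← mul_assoc, ← mul_assoc, h.Qe, this, hQP Q (h.homQ g hg)]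
    PR := by rw [mul_assoc, mul_assoc, hPQ S (h.homS g hg)]
    RP := by
      have : sh g S i * e = sh g S i := key2 _ (h.Se _)
      rw [← mul_assoc, ← mul_assoc, h.Se, this, hQP S (h.homS g hg)] }

theorem sh_star (g : Gauge R) {M : ℤ → Matrix ι ι R} (hM : ∀ i, (M i)ᴴ = M i) (i : ℤ) :
    (sh g M i)ᴴ = sh g M i := by
  rw [sh, conjTranspose_mul, conjTranspose_mul, sc_star, sc_star, star_star, hM, mul_assoc]

theorem sg_sh (hA : Amb 𝒢) (h : Good L 𝒢 e Q S) {g : Gauge R} (hg : g ∈ 𝒢) (i : ℤ) :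
    L.sg (sh g Q i) = L.sg (Q (i + 1)) := by
  have gg := hA.gg g hg
  have hu : IsUnit (sc ι g.u) := by
    refine ⟨⟨sc ι g.u, sc ι (star g.u), ?_, ?_⟩, rfl⟩
    · rw [sc_mul, gg.uu, sc_one]
    · rw [sc_mul, gg.uu', sc_one]
  have hok : L.ok (Q (i + 1)) := by rw [← h.eQ]; exact L.ok_mul_right _ _ h.ok
  have := L.sg_congr (sc ι g.u) (Q (i + 1)) hok (h.Qs _) hu
  rwa [sc_star] at this

/-- closure of `HomF` under matrix products -/
theorem hom_mul {g : Gauge R} (hg : IsGauge g) {M N : ℤ → Matrix ι ι R}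
    (hM : ∀ a b, HomF g (fun i => M i a b)) (hN : ∀ a b, HomF g (fun i => N i a b)) :
    ∀ a b, HomF g (fun i => (M i * N i) a b) := by
  intro a b
  simp only [mul_apply]
  exact HomF.sum Finset.univ (fun x i => M i a x * N i x b)
    (fun x _ => HomF.mul hg (hM a x) (hN x b))

theorem hom_sub {g : Gauge R} {M N : ℤ → Matrix ι ι R}
    (hM : ∀ a b, HomF g (fun i => M i a b)) (hN : ∀ a b, HomF g (fun i => N i a b)) :
    ∀ a b, HomF g (fun i => (M i - N i) a b) := by
  intro a b
  exact (hM a b).sub (hN a b)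

theorem hom_neg {g : Gauge R} {M : ℤ → Matrix ι ι R}
    (hM : ∀ a b, HomF g (fun i => M i a b)) :
    ∀ a b, HomF g (fun i => (-(M i)) a b) := by
  intro a b
  exact (hM a b).neg

theorem hom_blocks {g : Gauge R} {A B C D : ℤ → Matrix ι ι R}
    (hA : ∀ a b, HomF g (fun i => A i a b)) (hB : ∀ a b, HomF g (fun i => B i a b))
    (hC : ∀ a b, HomF g (fun i => C i a b)) (hD : ∀ a b, HomF g (fun i => D i a b)) :
    ∀ a b, HomF g (fun i => fromBlocks (A i) (B i) (C i) (D i) a b) := by
  rintro (a | a) (b | b)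
  · exact hA a b
  · exact hB a b
  · exact hC a b
  · exact hD a b

/-- one step of the excision -/
theorem Good.next (hA : Amb 𝒢) (h : Good L 𝒢 e Q S) {g : Gauge R} (hg : g ∈ 𝒢) :
    Good L 𝒢 (fromBlocks (e - e * sc ι (g.P 0)) 0 0 (e - e * sc ι (g.P 0)))
      (fun i => Qn e (e * sc ι (g.P 0)) (Q i) (S i) (sh g Q i))
      (fun i => Rn e (e * sc ι (g.P 0)) (Q i) (sh g S i)) := by
  have gg := hA.gg g hg
  set P : Matrix ι ι R := e * sc ι (g.P 0) with hP
  have hPe : sc ι (g.P 0) * e = e * sc ι (g.P 0) := by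
    ext a b; rw [diagonal_mul, mul_diagonal, h.eP g hg]
  have hPs : Pᴴ = P := by rw [hP, conjTranspose_mul, sc_star, gg.sP, h.es, hPe]
  have F := fun i => h.fdata hA hg i
  have okP : L.ok P := L.ok_mul_right _ _ h.ok
  have okN : L.ok (e - P) := L.ok_sub _ _ h.ok okP
  have ok0 : L.ok (0 : Matrix ι ι R) := L.ok_zero h.ok
  have hNs : (e - P)ᴴ = e - P := by rw [conjTranspose_sub, h.es, hPs]
  have hNN : (e - P) * (e - P) = e - P := (F 0).NN
  have hQs : ∀ i, (Qn e P (Q i) (S i) (sh g Q i))ᴴ = Qn e P (Q i) (S i) (sh g Q i) := by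
    intro i
    rw [Qn, fromBlocks_conjTranspose]
    simp only [conjTranspose_mul, hNs, conjTranspose_sub (Q i), h.Qs, h.Ss, sh_star g h.Qs,
      mul_assoc]
  have hRs : ∀ i, (Rn e P (Q i) (sh g S i))ᴴ = Rn e P (Q i) (sh g S i) := by
    intro i
    rw [Rn, fromBlocks_conjTranspose]
    simp only [conjTranspose_mul, hNs, conjTranspose_sub (Q i), h.Qs, sh_star g h.Ss,
      mul_assoc, conjTranspose_neg]
  have hes : (fromBlocks (e - P) 0 0 (e - P))ᴴ = fromBlocks (e - P) 0 0 (e - P) := by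
    rw [fromBlocks_conjTranspose, hNs, conjTranspose_zero]
  have homc : ∀ g' ∈ 𝒢, ∀ (M : Matrix ι ι R), (∀ a b, g'.u * M a b = M a b * g'.u) →
      ∀ a b, HomF g' (fun _ : ℤ => M a b) := by
    intro g' hg' M hM a b
    exact HomF.const (hA.gg g' hg') (hM a b)
  have Pu : ∀ g' ∈ 𝒢, ∀ a b, g'.u * P a b = P a b * g'.u := by
    intro g' hg' a b
    rw [hP, mul_diagonal, ← mul_assoc, h.eu g' hg', mul_assoc, hA.uP g' hg' g hg, ← mul_assoc]
  have Nu : ∀ g' ∈ 𝒢, ∀ a b, g'.u * (e - P) a b = (e - P) a b * g'.u := by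
    intro g' hg' a b
    rw [Matrix.sub_apply, mul_sub, sub_mul, h.eu g' hg', Pu g' hg']
  have homN : ∀ g' ∈ 𝒢, ∀ a b, HomF g' (fun _ : ℤ => (e - P) a b) :=
    fun g' hg' => homc g' hg' _ (Nu g' hg')
  have homSh : ∀ (M : ℤ → Matrix ι ι R), (∀ g' ∈ 𝒢, ∀ a b, HomF g' (fun i => M i a b)) →
      ∀ g' ∈ 𝒢, ∀ a b, HomF g' (fun i => sh g M i a b) := by
    intro M hM g' hg' a b
    simp only [sh_apply]
    exact HomF.shift (hA.gg g' hg') gg (hA.uu g' hg' g hg)
      (fun k => hA.uP g hg g' hg' k) (hM g' hg' a b)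
  exact {
    ok := L.ok_blocks _ _ _ _ okN ok0 ok0 okN
    ee := by
      rw [fromBlocks_multiply]
      simp only [hNN, mul_zero, zero_mul, add_zero, zero_add]
    es := hes
    eu := by
      rintro g' hg' (a | a) (b | b)
      · exact Nu g' hg' a b
      · simp
      · simp
      · exact Nu g' hg' a b
    eP := by
      have : ∀ g' ∈ 𝒢, ∀ a b, g'.P 0 * (e - P) a b = (e - P) a b * g'.P 0 := by
        intro g' hg' a b
        rw [Matrix.sub_apply, mul_sub, sub_mul, h.eP g' hg', hP, mul_diagonal, ← mul_assoc,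
          h.eP g' hg', mul_assoc, hA.PP g' hg' g hg, ← mul_assoc]
      rintro g' hg' (a | a) (b | b)
      · exact this g' hg' a b
      · simp
      · simp
      · exact this g' hg' a b
    eQ := by
      intro i
      rw [Qn, fromBlocks_multiply]
      simp only [← mul_assoc, hNN, zero_mul, add_zero, zero_add]
    Qe := by
      intro i
      rw [Qn, fromBlocks_multiply]
      simp only [mul_assoc, hNN, mul_zero, add_zero, zero_add]
    eS := by
      intro i
      rw [Rn, fromBlocks_multiply]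
      simp only [← mul_assoc, hNN, zero_mul, add_zero, zero_add, mul_neg, neg_zero]
    Se := by
      intro i
      rw [Rn, fromBlocks_multiply]
      simp only [mul_assoc, hNN, mul_zero, add_zero, zero_add, neg_mul]
    QS := fun i => (F i).mul
    SQ := by
      intro i
      have h1 := congrArg conjTranspose (F i).mul
      rw [conjTranspose_mul, hes] at h1
      have h2 := hQs i
      have h3 := hRs i
      rw [h2, h3] at h1
      exact h1
    Qs := hQs
    Ss := hRs
    homQ := by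
      intro g' hg'
      have gg' := hA.gg g' hg'
      exact hom_blocks
        (hom_mul gg' (hom_mul gg' (homN g' hg') (hom_sub (h.homQ g' hg')
          (homSh Q h.homQ g' hg'))) (homN g' hg'))
        (homN g' hg') (homN g' hg')
        (hom_mul gg' (hom_mul gg' (homN g' hg') (h.homS g' hg')) (homN g' hg'))
    homS := by
      intro g' hg'
      have gg' := hA.gg g' hg'
      exact hom_blocks
        (hom_neg (hom_mul gg' (hom_mul gg' (homN g' hg') (homSh S h.homS g' hg'))
          (homN g' hg')))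
        (hom_mul gg' (hom_mul gg' (homN g' hg') (hom_mul gg' (homSh S h.homS g' hg')
          (h.homQ g' hg'))) (homN g' hg'))
        (hom_mul gg' (hom_mul gg' (homN g' hg') (hom_mul gg' (h.homQ g' hg')
          (homSh S h.homS g' hg'))) (homN g' hg'))
        (hom_mul gg' (hom_mul gg' (homN g' hg') (hom_sub (h.homQ g' hg')
          (hom_mul gg' (hom_mul gg' (h.homQ g' hg') (homSh S h.homS g' hg'))
            (h.homQ g' hg')))) (homN g' hg')) }

/-- iterated differences vanish -/
theorem diff_eq_zero (hA : Amb 𝒢) : ∀ (gs : List (Gauge R)), (∀ g ∈ gs, g ∈ 𝒢) →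
    ∀ {ι : Type} [Fintype ι] [DecidableEq ι] (e : Matrix ι ι R) (Q S : ℤ → Matrix ι ι R),
    Good L 𝒢 e Q S → (∀ a b, e a b * (gs.map (fun g => 1 - g.P 0)).prod = 0) →
    ∀ i, (Dl^[gs.length]) (fun i => L.sg (Q i)) i = 0 := by
  intro gs
  induction gs with
  | nil =>
    intro _ ι _ _ e Q S h hc i
    have he : e = 0 := by
      ext a b
      have := hc a b
      simpa using this
    have hQ : Q i = 0 := by rw [← h.eQ, he, zero_mul]
    simp only [List.length_nil, Function.iterate_zero, id_eq, hQ]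
    exact L.sg_zero h.ok
  | cons g gs ih =>
    intro hgs ι _ _ e Q S h hc i
    have hg : g ∈ 𝒢 := hgs g (List.mem_cons_self)
    have gg := hA.gg g hg
    have hPe : sc ι (g.P 0) * e = e * sc ι (g.P 0) := by
      ext a b; rw [diagonal_mul, mul_diagonal, h.eP g hg]
    have hPs : (e * sc ι (g.P 0))ᴴ = e * sc ι (g.P 0) := by
      rw [conjTranspose_mul, sc_star, gg.sP, h.es, hPe]
    have h' := h.next hA hg
    have hcN : ∀ a b, (e - e * sc ι (g.P 0)) a b * (gs.map (fun g => 1 - g.P 0)).prod = 0 := by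
      intro a b
      have := hc a b
      rw [List.map_cons, List.prod_cons, ← mul_assoc] at this
      rw [Matrix.sub_apply, mul_diagonal]
      have h2 : e a b - e a b * g.P 0 = e a b * (1 - g.P 0) := by rw [mul_sub, mul_one]
      rw [h2, this]
    have hc' : ∀ a b, (fromBlocks (e - e * sc ι (g.P 0)) 0 0 (e - e * sc ι (g.P 0))) a b
        * (gs.map (fun g => 1 - g.P 0)).prod = 0 := by
      rintro (a | a) (b | b)
      · exact hcN a b
      · simp
      · simp
      · exact hcN a b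
    have h1 := ih (fun g' hg' => hgs g' (List.mem_cons_of_mem g hg')) _ _ _ h' hc' i
    have h2 : (fun i => L.sg (Qn e (e * sc ι (g.P 0)) (Q i) (S i) (sh g Q i)))
        = Dl (fun i => L.sg (Q i)) := by
      funext i
      rw [sg_Qn L (h.fdata hA hg i) h.es hPs (h.Qs i) (sh_star g h.Qs i) (h.Ss i) h.ok,
        sg_sh hA h hg i]
      rfl
    rw [h2] at h1
    rw [List.length_cons, Function.iterate_succ_apply]
    exact h1

/-- **Twist locality.**  If the gauges `gs` cover the support projection `e`, and the family is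
`q`-periodic, the signature does not depend on `i`. -/
theorem twist_const (hA : Amb 𝒢) (gs : List (Gauge R)) (hgs : ∀ g ∈ gs, g ∈ 𝒢)
    (h : Good L 𝒢 e Q S) (hc : ∀ a b, e a b * (gs.map (fun g => 1 - g.P 0)).prod = 0)
    (q : ℕ) (hq : q ≠ 0) (hper : ∀ i, Q (i + q) = Q i) (i : ℤ) :
    L.sg (Q (i + 1)) = L.sg (Q i) :=
  fd_const L.tf q hq gs.length (fun i => L.sg (Q i)) (fun i => by simp only [hper])
    (diff_eq_zero hA gs hgs e Q S h hc) i

end Main

end Crest.Agent.R217.LocF555
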