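import Mathlib

/-!
Row 217 (S0336), part C1: the signature toolkit.

* `pos M` = maximal dimension of a subspace on which `v ↦ Re (v* M v)` is positive definite;
* `sgn M = pos M - pos (-M)`;
* negation, congruence, reindexing, block sums, paths of hermitian matrices of constant rank.
* for a finite dimensional Poincare complex `(d, S, T, H)` in the normal form
  `d^2 = 0`, `S = S*`, `dS + Sd* = 0`, `T = T*`, `Td + d*T = 0`, `ST = p + dH + Hd`
  (`p` a selfadjoint idempotent) the hermitian matrix `d + d* + S` has the rank of `p`.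
-/

namespace Crest.Agent.R217.Sig330

open Matrix Module Topology

set_option linter.unusedSectionVars false

variable {ι κ : Type*}

/-- the real quadratic function of a matrix -/
noncomputable def qf [Fintype ι] (M : Matrix ι ι ℂ) (v : ι → ℂ) : ℝ := (star v ⬝ᵥ (M *ᵥ v)).re

/-- positive definite on a subspace -/
def PosOn [Fintype ι] (M : Matrix ι ι ℂ) (W : Submodule ℂ (ι → ℂ)) : Prop :=
  ∀ v ∈ W, v ≠ 0 → 0 < qf M v

/-- the positive index -/
noncomputable def pos [Fintype ι] (M : Matrix ι ι ℂ) : ℕ :=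
  sSup {k | ∃ W : Submodule ℂ (ι → ℂ), finrank ℂ W = k ∧ PosOn M W}

/-- the signature -/
noncomputable def sgn [Fintype ι] (M : Matrix ι ι ℂ) : ℤ := (pos M : ℤ) - (pos (-M) : ℤ)

section Basic

variable [Fintype ι] [Fintype κ]

theorem qf_neg (M : Matrix ι ι ℂ) (v : ι → ℂ) : qf (-M) v = - qf M v := by
  simp [qf, Matrix.neg_mulVec]

theorem qf_zero (M : Matrix ι ι ℂ) : qf M 0 = 0 := by simp [qf]

theorem qf_add (M N : Matrix ι ι ℂ) (v : ι → ℂ) : qf (M + N) v = qf M v + qf N v := by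
  simp [qf, Matrix.add_mulVec, dotProduct_add]

theorem qf_sub (M N : Matrix ι ι ℂ) (v : ι → ℂ) : qf (M - N) v = qf M v - qf N v := by
  rw [sub_eq_add_neg, qf_add, qf_neg]; ring

theorem qf_smul (M : Matrix ι ι ℂ) (c : ℝ) (v : ι → ℂ) :
    qf M ((c : ℂ) • v) = c ^ 2 * qf M v := by
  have h1 : star ((c : ℂ) • v) = (c : ℂ) • star v := by
    rw [star_smul]; simp
  rw [qf, h1, Matrix.mulVec_smul, smul_dotProduct, dotProduct_smul, smul_smul, qf, smul_eq_mul]
  have : ((c : ℂ) * c) = ((c ^ 2 : ℝ) : ℂ) := by push_cast; ring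
  rw [this, Complex.re_ofReal_mul]

theorem finrank_le_card (W : Submodule ℂ (ι → ℂ)) : finrank ℂ W ≤ Fintype.card ι := by
  have := Submodule.finrank_le W
  simpa using this

theorem bddAbove_set (M : Matrix ι ι ℂ) :
    BddAbove {k | ∃ W : Submodule ℂ (ι → ℂ), finrank ℂ W = k ∧ PosOn M W} := by
  refine ⟨Fintype.card ι, ?_⟩
  rintro k ⟨W, rfl, -⟩
  exact finrank_le_card W

theorem posOn_bot (M : Matrix ι ι ℂ) : PosOn M ⊥ := by
  intro v hv hv0
  exact absurd ((Submodule.mem_bot ℂ).1 hv) hv0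

theorem nonempty_set (M : Matrix ι ι ℂ) :
    {k | ∃ W : Submodule ℂ (ι → ℂ), finrank ℂ W = k ∧ PosOn M W}.Nonempty :=
  ⟨0, ⊥, by simp, posOn_bot M⟩

theorem exists_pos (M : Matrix ι ι ℂ) :
    ∃ W : Submodule ℂ (ι → ℂ), finrank ℂ W = pos M ∧ PosOn M W :=
  Nat.sSup_mem (nonempty_set M) (bddAbove_set M)

theorem le_pos {M : Matrix ι ι ℂ} {W : Submodule ℂ (ι → ℂ)} (h : PosOn M W) :
    finrank ℂ W ≤ pos M :=
  le_csSup (bddAbove_set M) ⟨W, rfl, h⟩

theorem pos_le_card (M : Matrix ι ι ℂ) : pos M ≤ Fintype.card ι := by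
  obtain ⟨W, hW, -⟩ := exists_pos M
  rw [← hW]; exact finrank_le_card W

theorem sgn_neg (M : Matrix ι ι ℂ) : sgn (-M) = - sgn M := by
  simp [sgn]

/-- pulling back along an injective linear map given by a matrix -/
theorem pos_le_of_pullback {M : Matrix ι ι ℂ} {N : Matrix κ κ ℂ} (A : Matrix κ ι ℂ)
    (hinj : Function.Injective (A.mulVec)) (h : ∀ v, qf N (A *ᵥ v) = qf M v) :
    pos M ≤ pos N := by
  obtain ⟨W, hW, hp⟩ := exists_pos M
  let f : (ι → ℂ) →ₗ[ℂ] (κ → ℂ) := Matrix.mulVecLin A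
  have hf : Function.Injective f := hinj
  have h1 : finrank ℂ (W.map f) = finrank ℂ W :=
    (LinearEquiv.finrank_eq (Submodule.equivMapOfInjective f hf W)).symm
  have h2 : PosOn N (W.map f) := by
    rintro _ ⟨v, hv, rfl⟩ h0
    have hv0 : v ≠ 0 := by
      rintro rfl; exact h0 (map_zero f)
    have := hp v hv hv0
    change 0 < qf N (A *ᵥ v)
    rwa [h v]
  rw [← hW, ← h1]
  exact le_pos h2

theorem qf_conj (A : Matrix κ ι ℂ) (N : Matrix κ κ ℂ) (v : ι → ℂ) :
    qf N (A *ᵥ v) = qf (Aᴴ * N * A) v := by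
  have h : star (A *ᵥ v) ⬝ᵥ (N *ᵥ (A *ᵥ v)) = star v ⬝ᵥ ((Aᴴ * N * A) *ᵥ v) := by
    rw [Matrix.star_mulVec, ← Matrix.dotProduct_mulVec, Matrix.mulVec_mulVec,
      Matrix.mulVec_mulVec, Matrix.mul_assoc]
  rw [qf, h, qf]

theorem pos_conj_le (A : Matrix κ ι ℂ) (N : Matrix κ κ ℂ)
    (hinj : Function.Injective (A.mulVec)) : pos (Aᴴ * N * A) ≤ pos N :=
  pos_le_of_pullback A hinj (qf_conj A N)

end Basic

section Congr

variable [Fintype ι] [Fintype κ] [DecidableEq ι] [DecidableEq κ]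

theorem injective_of_isUnit {U : Matrix ι ι ℂ} (hU : IsUnit U) :
    Function.Injective (U.mulVec) := by
  obtain ⟨u, rfl⟩ := hU
  intro v w h
  have := congrArg (fun x => (↑(u⁻¹) : Matrix ι ι ℂ) *ᵥ x) h
  simpa [Matrix.mulVec_mulVec] using this

theorem isUnit_conjTranspose {U : Matrix ι ι ℂ} (hU : IsUnit U) : IsUnit Uᴴ := by
  have := hU.star
  rwa [Matrix.star_eq_conjTranspose] at this

theorem pos_congr {U : Matrix ι ι ℂ} (hU : IsUnit U) (M : Matrix ι ι ℂ) :
    pos (U * M * Uᴴ) = pos M := by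
  apply le_antisymm
  · have h := pos_conj_le (Uᴴ) M (injective_of_isUnit (isUnit_conjTranspose hU))
    rwa [Matrix.conjTranspose_conjTranspose] at h
  · obtain ⟨V, hV1, hV2⟩ : ∃ V : Matrix ι ι ℂ, U * V = 1 ∧ V * U = 1 := by
      obtain ⟨u, rfl⟩ := hU
      exact ⟨(↑(u⁻¹) : Matrix ι ι ℂ), by simp, by simp⟩
    have hv : IsUnit V := IsUnit.of_mul_eq_one U hV2
    have h := pos_conj_le (Vᴴ) (U * M * Uᴴ) (injective_of_isUnit (isUnit_conjTranspose hv))
    have e1 : Uᴴ * Vᴴ = 1 := by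
      rw [← Matrix.conjTranspose_mul, hV2]; simp
    have e2 : V * (U * M * Uᴴ) * Vᴴ = M := by
      calc V * (U * M * Uᴴ) * Vᴴ = (V * U) * M * (Uᴴ * Vᴴ) := by
              simp only [Matrix.mul_assoc]
        _ = M := by rw [e1, hV2]; simp
    rw [Matrix.conjTranspose_conjTranspose, e2] at h
    exact h

/-- congruence invariance of the signature -/
theorem sgn_congr {U : Matrix ι ι ℂ} (hU : IsUnit U) (M : Matrix ι ι ℂ) :
    sgn (U * M * Uᴴ) = sgn M := by
  have h : -(U * M * Uᴴ) = U * (-M) * Uᴴ := by simp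
  rw [sgn, sgn, h, pos_congr hU, pos_congr hU]

theorem sgn_congr_det {U : Matrix ι ι ℂ} (hU : U.det ≠ 0) (M : Matrix ι ι ℂ) :
    sgn (U * M * Uᴴ) = sgn M :=
  sgn_congr ((Matrix.isUnit_iff_isUnit_det _).2 (isUnit_iff_ne_zero.2 hU)) M

theorem pos_submatrix_le (e : κ ≃ ι) (M : Matrix ι ι ℂ) : pos (M.submatrix e e) ≤ pos M := by
  have hA : ∀ v : κ → ℂ, ((1 : Matrix ι ι ℂ).submatrix id e) *ᵥ v = v ∘ e.symm := by
    intro v
    rw [Matrix.submatrix_mulVec_equiv]
    simp
  apply pos_le_of_pullback ((1 : Matrix ι ι ℂ).submatrix id e)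
  · intro v w h
    rw [hA, hA] at h
    ext k
    simpa using congrFun h (e k)
  · intro v
    rw [hA, qf, qf, Matrix.submatrix_mulVec_equiv]
    congr 1
    simp only [dotProduct]
    rw [← Equiv.sum_comp e]
    simp [Function.comp_def]

theorem pos_submatrix (e : κ ≃ ι) (M : Matrix ι ι ℂ) : pos (M.submatrix e e) = pos M := by
  apply le_antisymm (pos_submatrix_le e M)
  have := pos_submatrix_le e.symm (M.submatrix e e)
  simpa using this

/-- invariance under reindexing -/
theorem sgn_submatrix (e : κ ≃ ι) (M : Matrix ι ι ℂ) : sgn (M.submatrix e e) = sgn M := by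
  have h : -(M.submatrix e e) = (-M).submatrix e e := rfl
  rw [sgn, sgn, h, pos_submatrix, pos_submatrix]

theorem sgn_reindex (e : ι ≃ κ) (M : Matrix ι ι ℂ) : sgn (M.reindex e e) = sgn M :=
  sgn_submatrix e.symm M

end Congr

section Diag

variable [Fintype ι] [Fintype κ] [DecidableEq ι] [DecidableEq κ]

theorem qf_diagonal (w : ι → ℝ) (v : ι → ℂ) :
    qf (diagonal (fun i => (w i : ℂ))) v = ∑ i, w i * ‖v i‖ ^ 2 := by
  rw [qf, dotProduct, Complex.re_sum]
  apply Finset.sum_congr rfl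
  intro i _
  rw [Matrix.mulVec_diagonal, Pi.star_apply]
  have : star (v i) * ((w i : ℂ) * v i) = ((w i * ‖v i‖ ^ 2 : ℝ) : ℂ) := by
    have h := Complex.conj_mul' (v i)
    calc star (v i) * ((w i : ℂ) * v i) = (w i : ℂ) * (star (v i) * v i) := by ring
      _ = ((w i * ‖v i‖ ^ 2 : ℝ) : ℂ) := by
        rw [show star (v i) * v i = (‖v i‖ : ℂ) ^ 2 from h]; push_cast; ring
  rw [this, Complex.ofReal_re]

theorem pos_diagonal (w : ι → ℝ) :
    pos (diagonal (fun i => (w i : ℂ))) = Fintype.card {i // 0 < w i} := by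
  classical
  apply le_antisymm
  · obtain ⟨W, hW, hp⟩ := exists_pos (diagonal (fun i => (w i : ℂ)))
    let r : (ι → ℂ) →ₗ[ℂ] ({i // 0 < w i} → ℂ) :=
      LinearMap.funLeft ℂ ℂ (Subtype.val : {i // 0 < w i} → ι)
    have hr : Function.Injective (r.comp W.subtype) := by
      rw [← LinearMap.ker_eq_bot, LinearMap.ker_eq_bot']
      rintro ⟨v, hv⟩ h0
      have h0' : ∀ i, 0 < w i → v i = 0 := fun i hi => congrFun h0 ⟨i, hi⟩
      by_contra hne
      have hv0 : v ≠ 0 := fun h => hne (by ext1; exact h)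
      have h1 := hp v hv hv0
      rw [qf_diagonal] at h1
      have h2 : ∑ i, w i * ‖v i‖ ^ 2 ≤ 0 := by
        apply Finset.sum_nonpos
        intro i _
        by_cases hi : 0 < w i
        · simp [h0' i hi]
        · exact mul_nonpos_of_nonpos_of_nonneg (not_lt.1 hi) (by positivity)
      linarith
    have := LinearMap.finrank_le_finrank_of_injective hr
    rw [hW] at this
    simpa using this
  · let A : Matrix ι {i // 0 < w i} ℂ := (1 : Matrix ι ι ℂ).submatrix id Subtype.val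
    have hA : ∀ (v : {i // 0 < w i} → ℂ) (i : ι), (A *ᵥ v) i = if h : 0 < w i then v ⟨i, h⟩ else 0 := by
      intro v i
      simp only [A, Matrix.mulVec, dotProduct, Matrix.submatrix_apply, id_eq, Matrix.one_apply]
      by_cases h : 0 < w i
      · rw [dif_pos h, Finset.sum_eq_single ⟨i, h⟩]
        · simp
        · rintro ⟨j, hj⟩ _ hne
          have : i ≠ j := fun e => hne (by simp [e])
          simp [this]
        · simp
      · rw [dif_neg h]
        apply Finset.sum_eq_zero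
        rintro ⟨j, hj⟩ _
        have : i ≠ j := by rintro rfl; exact h hj
        simp [this]
    have hinj : Function.Injective A.mulVec := by
      intro v v' h
      ext ⟨i, hi⟩
      have := congrFun h i
      rw [hA, hA] at this
      simpa [hi] using this
    have h1 : pos (Aᴴ * diagonal (fun i => (w i : ℂ)) * A) ≤ pos (diagonal (fun i => (w i : ℂ))) :=
      pos_conj_le A _ hinj
    refine le_trans ?_ h1
    have h2 : PosOn (Aᴴ * diagonal (fun i => (w i : ℂ)) * A) ⊤ := by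
      intro v _ hv
      rw [← qf_conj, qf_diagonal]
      obtain ⟨⟨i, hi⟩, hvi⟩ : ∃ i, v i ≠ 0 := by
        by_contra hcon
        push Not at hcon
        exact hv (funext hcon)
      have hpos : 0 < w i * ‖(A *ᵥ v) i‖ ^ 2 := by
        rw [hA, dif_pos hi]
        have : 0 < ‖v ⟨i, hi⟩‖ := norm_pos_iff.2 hvi
        positivity
      apply lt_of_lt_of_le hpos
      apply Finset.single_le_sum (f := fun i => w i * ‖(A *ᵥ v) i‖ ^ 2) _ (Finset.mem_univ i)
      intro j _
      change 0 ≤ w j * ‖(A *ᵥ v) j‖ ^ 2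
      rw [hA]
      by_cases hj : 0 < w j
      · positivity
      · simp [hj]
    have h3 := le_pos h2
    simpa using h3

theorem diag_decomp {M : Matrix ι ι ℂ} (hM : M.IsHermitian) :
    ∃ U : Matrix ι ι ℂ, IsUnit U ∧
      M = U * diagonal (fun i => (hM.eigenvalues i : ℂ)) * Uᴴ := by
  refine ⟨(hM.eigenvectorUnitary : Matrix ι ι ℂ), ?_, ?_⟩
  · exact (Unitary.toUnits hM.eigenvectorUnitary).isUnit
  · have := hM.spectral_theorem
    rw [Unitary.conjStarAlgAut_apply] at this
    exact this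

/-- the positive index is the number of positive eigenvalues -/
theorem pos_eq_card {M : Matrix ι ι ℂ} (hM : M.IsHermitian) :
    pos M = Fintype.card {i // 0 < hM.eigenvalues i} := by
  obtain ⟨U, hU, h⟩ := diag_decomp hM
  calc pos M = pos (U * diagonal (fun i => (hM.eigenvalues i : ℂ)) * Uᴴ) := congrArg pos h
    _ = _ := by rw [pos_congr hU, pos_diagonal]

theorem pos_neg_eq_card {M : Matrix ι ι ℂ} (hM : M.IsHermitian) :
    pos (-M) = Fintype.card {i // hM.eigenvalues i < 0} := by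
  obtain ⟨U, hU, h⟩ := diag_decomp hM
  have e : -M = U * diagonal (fun i => ((-hM.eigenvalues i : ℝ) : ℂ)) * Uᴴ := by
    conv_lhs => rw [h]
    have this : diagonal (fun i => ((-hM.eigenvalues i : ℝ) : ℂ))
        = - diagonal (fun i => (hM.eigenvalues i : ℂ)) := by
      rw [Matrix.diagonal_neg]
      congr 1
      ext i
      push_cast
      rfl
    rw [this, Matrix.mul_neg, Matrix.neg_mul]
  calc pos (-M) = pos (U * diagonal (fun i => ((-hM.eigenvalues i : ℝ) : ℂ)) * Uᴴ) := congrArg pos e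
    _ = Fintype.card {i // 0 < - hM.eigenvalues i} := by rw [pos_congr hU, pos_diagonal]
    _ = _ := Fintype.card_congr (Equiv.subtypeEquivRight (fun i => by simp))

/-- the two indices add up to the rank -/
theorem pos_add_pos_neg {M : Matrix ι ι ℂ} (hM : M.IsHermitian) :
    pos M + pos (-M) = M.rank := by
  classical
  rw [pos_eq_card hM, pos_neg_eq_card hM, hM.rank_eq_card_non_zero_eigs]
  rw [Fintype.card_subtype, Fintype.card_subtype, Fintype.card_subtype,
    ← Finset.card_union_of_disjoint]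
  · congr 1
    ext i
    simp only [Finset.mem_union, Finset.mem_filter, Finset.mem_univ, true_and]
    constructor
    · rintro (h | h)
      · exact ne_of_gt h
      · exact ne_of_lt h
    · intro h
      rcases lt_or_gt_of_ne h with h | h
      · exact Or.inr h
      · exact Or.inl h
  · rw [Finset.disjoint_left]
    intro i hi hi'
    simp only [Finset.mem_filter, Finset.mem_univ, true_and] at hi hi'
    linarith

theorem pos_add_pos_neg_card {M : Matrix ι ι ℂ} (hM : M.IsHermitian) (hu : IsUnit M) :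
    pos M + pos (-M) = Fintype.card ι := by
  rw [pos_add_pos_neg hM, Matrix.rank_of_isUnit M hu]

theorem pos_fromBlocks {A : Matrix ι ι ℂ} {B : Matrix κ κ ℂ} (hA : A.IsHermitian)
    (hB : B.IsHermitian) : pos (fromBlocks A 0 0 B) = pos A + pos B := by
  classical
  obtain ⟨U, hU, h⟩ := diag_decomp hA
  obtain ⟨V, hV, h'⟩ := diag_decomp hB
  have e : fromBlocks A 0 0 B = fromBlocks U 0 0 V *
      diagonal (fun i => ((Sum.elim hA.eigenvalues hB.eigenvalues i : ℝ) : ℂ)) *
      (fromBlocks U 0 0 V)ᴴ := by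
    have e1 : diagonal (fun i => ((Sum.elim hA.eigenvalues hB.eigenvalues i : ℝ) : ℂ))
        = fromBlocks (diagonal (fun i => (hA.eigenvalues i : ℂ))) 0 0
          (diagonal (fun i => (hB.eigenvalues i : ℂ))) := by
      rw [Matrix.fromBlocks_diagonal]
      congr 1
      ext i
      rcases i with i | i <;> rfl
    rw [e1, Matrix.fromBlocks_conjTranspose, Matrix.fromBlocks_multiply,
      Matrix.fromBlocks_multiply]
    simp [← h, ← h']
  have hu : IsUnit (fromBlocks U 0 0 V) := by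
    rw [Matrix.isUnit_iff_isUnit_det] at hU hV ⊢
    rw [Matrix.det_fromBlocks_zero₂₁]
    exact hU.mul hV
  rw [pos_eq_card hA, pos_eq_card hB, e, pos_congr hu, pos_diagonal, ← Fintype.card_sum]
  apply Fintype.card_congr
  exact (Equiv.subtypeSum (p := fun i => 0 < Sum.elim hA.eigenvalues hB.eigenvalues i))

/-- additivity -/
theorem sgn_fromBlocks {A : Matrix ι ι ℂ} {B : Matrix κ κ ℂ} (hA : A.IsHermitian)
    (hB : B.IsHermitian) : sgn (fromBlocks A 0 0 B) = sgn A + sgn B := by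
  have h : -(fromBlocks A 0 0 B) = fromBlocks (-A) 0 0 (-B) := by
    rw [Matrix.fromBlocks_neg]; simp
  rw [sgn, sgn, sgn, h, pos_fromBlocks hA hB, pos_fromBlocks hA.neg hB.neg]
  push_cast
  ring

end Diag

section Path

variable [Fintype ι] [DecidableEq ι]

theorem continuous_qf : Continuous (fun x : Matrix ι ι ℂ × (ι → ℂ) => qf x.1 x.2) := by
  unfold qf
  apply Complex.continuous_re.comp
  exact Continuous.dotProduct (continuous_snd.star) (Continuous.matrix_mulVec continuous_fst continuous_snd)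

/-- openness of positive definiteness on a fixed subspace -/
theorem eventually_posOn {X : Type*} [TopologicalSpace X] {M : X → Matrix ι ι ℂ} {x : X}
    (hc : ContinuousAt M x) {W : Submodule ℂ (ι → ℂ)} (h : PosOn (M x) W) :
    ∀ᶠ y in 𝓝 x, PosOn (M y) W := by
  let K : Set (ι → ℂ) := (W : Set (ι → ℂ)) ∩ Metric.sphere 0 1
  have hK : IsCompact K := by
    apply (isCompact_sphere (0 : ι → ℂ) 1).inter_left
    exact Submodule.closed_of_finiteDimensional W
  have h1 : ∀ᶠ y in 𝓝 x, ∀ v ∈ K, 0 < qf (M y) v := by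
    apply hK.eventually_forall_of_forall_eventually
    rintro v ⟨hvW, hv1⟩
    have hv0 : v ≠ 0 := by
      rintro rfl
      simp at hv1
    have h2 : ContinuousAt (fun z : X × (ι → ℂ) => qf (M z.1) z.2) (x, v) := by
      have h3 : ContinuousAt (fun z : X × (ι → ℂ) => (M z.1, z.2)) (x, v) := by
        apply ContinuousAt.prodMk
        · exact ContinuousAt.comp (f := Prod.fst) (x := (x, v)) hc continuousAt_fst
        · exact continuousAt_snd
      exact ContinuousAt.comp (f := fun z : X × (ι → ℂ) => (M z.1, z.2)) (x := (x, v))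
        continuous_qf.continuousAt h3
    exact h2.eventually (lt_mem_nhds (h v hvW hv0))
  filter_upwards [h1] with y hy v hv hv0
  have hn : 0 < ‖v‖ := norm_pos_iff.2 hv0
  have hmem : ((‖v‖⁻¹ : ℝ) : ℂ) • v ∈ K := by
    refine ⟨W.smul_mem _ hv, ?_⟩
    simp [norm_smul, hn.ne']
  have h2 := hy _ hmem
  rw [qf_smul] at h2
  exact (pos_iff_pos_of_mul_pos h2).1 (by positivity)

theorem eventually_le_pos {X : Type*} [TopologicalSpace X] {M : X → Matrix ι ι ℂ} {x : X}
    (hc : ContinuousAt M x) : ∀ᶠ y in 𝓝 x, pos (M x) ≤ pos (M y) := by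
  obtain ⟨W, hW, hp⟩ := exists_pos (M x)
  filter_upwards [eventually_posOn hc hp] with y hy
  rw [← hW]
  exact le_pos hy

/-- the signature is locally constant along hermitian matrices of constant rank -/
theorem eventually_sgn_eq {X : Type*} [TopologicalSpace X] {M : X → Matrix ι ι ℂ} {x : X}
    (hc : ContinuousAt M x) (hM : ∀ y, (M y).IsHermitian) (hr : ∀ y, (M y).rank = (M x).rank) :
    ∀ᶠ y in 𝓝 x, sgn (M y) = sgn (M x) := by
  have h1 := eventually_le_pos hc
  have h2 := eventually_le_pos (M := fun y => - M y) hc.neg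
  filter_upwards [h1, h2] with y h1 h2
  have e1 := pos_add_pos_neg (hM y)
  have e2 := pos_add_pos_neg (hM x)
  rw [hr y] at e1
  rw [sgn, sgn]
  omega

/-- the signature is constant along a continuous family of hermitian matrices of constant rank
over a preconnected space -/
theorem sgn_const {X : Type*} [TopologicalSpace X] [PreconnectedSpace X] {M : X → Matrix ι ι ℂ}
    (hc : Continuous M) (hM : ∀ y, (M y).IsHermitian) (hr : ∀ x y, (M x).rank = (M y).rank)
    (x y : X) : sgn (M x) = sgn (M y) := by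
  have hl : IsLocallyConstant (fun x => sgn (M x)) := by
    rw [IsLocallyConstant.iff_eventually_eq]
    intro x
    exact eventually_sgn_eq hc.continuousAt hM (fun y => hr y x)
  exact hl.apply_eq_of_preconnectedSpace x y

theorem sgn_path_rank {M : ℝ → Matrix ι ι ℂ} {a b : ℝ} (hab : a ≤ b)
    (hc : ContinuousOn M (Set.Icc a b))
    (hM : ∀ t ∈ Set.Icc a b, (M t).IsHermitian) (r : ℕ)
    (hr : ∀ t ∈ Set.Icc a b, (M t).rank = r) : sgn (M a) = sgn (M b) := by
  have : PreconnectedSpace (Set.Icc a b) := Subtype.preconnectedSpace isPreconnected_Icc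
  exact sgn_const (X := Set.Icc a b) (M := fun t => M t) (continuousOn_iff_continuous_domRestrict.1 hc)
    (fun t => hM t t.2) (fun s t => by rw [hr s s.2, hr t t.2])
    ⟨a, Set.left_mem_Icc.2 hab⟩ ⟨b, Set.right_mem_Icc.2 hab⟩

/-- path invariance for nonsingular hermitian matrices -/
theorem sgn_path {M : ℝ → Matrix ι ι ℂ} (hc : ContinuousOn M (Set.Icc 0 1))
    (hM : ∀ t ∈ Set.Icc (0 : ℝ) 1, (M t).IsHermitian)
    (hu : ∀ t ∈ Set.Icc (0 : ℝ) 1, IsUnit (M t)) : sgn (M 0) = sgn (M 1) :=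
  sgn_path_rank zero_le_one hc hM (Fintype.card ι) (fun t ht => Matrix.rank_of_isUnit _ (hu t ht))

end Path

section More

variable [Fintype ι] [DecidableEq ι] [Fintype κ] [DecidableEq κ]

/-- positive definite matrices -/
theorem sgn_of_pos {M : Matrix ι ι ℂ} (h : ∀ v, v ≠ 0 → 0 < qf M v) :
    sgn M = Fintype.card ι := by
  have h1 : PosOn M ⊤ := fun v _ hv => h v hv
  have h2 := le_pos h1
  have h3 := pos_add_pos_neg_le_card M
  rw [finrank_top] at h2
  have h4 : finrank ℂ (ι → ℂ) = Fintype.card ι := by simp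
  rw [h4] at h2
  rw [sgn]
  omega
where
  pos_add_pos_neg_le_card (M : Matrix ι ι ℂ) : pos M + pos (-M) ≤ Fintype.card ι := by
    obtain ⟨W, hW, h⟩ := exists_pos M
    obtain ⟨W', hW', h'⟩ := exists_pos (-M)
    have hd : Disjoint W W' := by
      rw [Submodule.disjoint_def]
      intro v hv hv'
      by_contra h0
      have h1 := h v hv h0
      have h2 := h' v hv' h0
      rw [qf_neg] at h2
      linarith
    have := Submodule.finrank_add_finrank_le_of_disjoint hd
    rw [← hW, ← hW']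
    simpa using this

theorem sgn_one : sgn (1 : Matrix ι ι ℂ) = Fintype.card ι := by
  have h : (1 : Matrix ι ι ℂ) = diagonal (fun _ => ((1 : ℝ) : ℂ)) := by simp
  have h' : (-1 : Matrix ι ι ℂ) = diagonal (fun _ => ((-1 : ℝ) : ℂ)) := by
    ext i j
    by_cases hij : i = j
    · subst hij; simp
    · simp [Matrix.diagonal_apply_ne _ hij, Matrix.one_apply_ne hij]
  rw [sgn, h', h, pos_diagonal, pos_diagonal]
  simp [Fintype.card_subtype]

theorem sgn_eq_zero_of_congr_neg {U : Matrix ι ι ℂ} (hU : IsUnit U) {M : Matrix ι ι ℂ}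
    (h : U * M * Uᴴ = -M) : sgn M = 0 := by
  have h1 := sgn_congr hU M
  rw [h, sgn_neg] at h1
  omega

/-- hyperbolic matrices have signature zero -/
theorem sgn_hyperbolic (X : Matrix ι κ ℂ) : sgn (fromBlocks 0 X Xᴴ 0) = 0 := by
  have hu : IsUnit (fromBlocks (1 : Matrix ι ι ℂ) 0 0 (-1 : Matrix κ κ ℂ)) := by
    rw [Matrix.isUnit_iff_isUnit_det, Matrix.det_fromBlocks_zero₂₁]
    simp [Matrix.det_neg]
  apply sgn_eq_zero_of_congr_neg hu
  rw [Matrix.fromBlocks_conjTranspose, Matrix.fromBlocks_multiply, Matrix.fromBlocks_multiply,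
    Matrix.fromBlocks_neg]
  simp

end More

section Complex

variable [Fintype ι] [DecidableEq ι]

/-- a finite dimensional honest Poincare complex in 578's normal form, living on the range of the
selfadjoint idempotent `p` -/
structure PData (p d S T H : Matrix ι ι ℂ) : Prop where
  pp : p * p = p
  ps : pᴴ = p
  dl : p * d = d
  dr : d * p = d
  Sl : p * S = S
  Hl : p * H = H
  dd : d * d = 0
  Ss : Sᴴ = S
  Ts : Tᴴ = T
  dS : d * S + S * dᴴ = 0
  Td : T * d + dᴴ * T = 0
  ST : S * T = p + d * H + H * d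

namespace PData

variable {p d S T H : Matrix ι ι ℂ}

theorem Sr (h : PData p d S T H) : S * p = S := by
  have := congrArg Matrix.conjTranspose h.Sl
  rwa [Matrix.conjTranspose_mul, h.ps, h.Ss] at this

theorem dHl (h : PData p d S T H) : p * dᴴ = dᴴ := by
  have := congrArg Matrix.conjTranspose h.dr
  rwa [Matrix.conjTranspose_mul, h.ps] at this

theorem dHr (h : PData p d S T H) : dᴴ * p = dᴴ := by
  have := congrArg Matrix.conjTranspose h.dl
  rwa [Matrix.conjTranspose_mul, h.ps] at this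

theorem TS (h : PData p d S T H) : T * S = p + dᴴ * Hᴴ + Hᴴ * dᴴ := by
  have := congrArg Matrix.conjTranspose h.ST
  rw [Matrix.conjTranspose_mul, h.Ss, h.Ts] at this
  rw [this]
  simp only [Matrix.conjTranspose_add, Matrix.conjTranspose_mul, h.ps]
  abel

/-- the hermitian matrix of the complex -/
theorem isHermitian (h : PData p d S T H) : (d + dᴴ + S).IsHermitian := by
  rw [Matrix.IsHermitian]
  simp only [Matrix.conjTranspose_add, Matrix.conjTranspose_conjTranspose, h.Ss]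
  abel

theorem dot_star_self_eq_zero {v : ι → ℂ} (h : (star v ⬝ᵥ v).re = 0) : v = 0 := by
  have h1 : star v ⬝ᵥ v = ((∑ i, ‖v i‖ ^ 2 : ℝ) : ℂ) := by
    rw [dotProduct]
    push_cast
    apply Finset.sum_congr rfl
    intro i _
    exact Complex.conj_mul' (v i)
  rw [h1, Complex.ofReal_re] at h
  have h2 := (Finset.sum_eq_zero_iff_of_nonneg (fun i _ => by positivity)).1 h
  ext i
  have := h2 i (Finset.mem_univ i)
  simpa using this

theorem dot_adj (A : Matrix ι ι ℂ) (v w : ι → ℂ) :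
    star (A *ᵥ v) ⬝ᵥ w = star v ⬝ᵥ (Aᴴ *ᵥ w) := by
  rw [Matrix.star_mulVec, ← Matrix.dotProduct_mulVec]

theorem re_dot_comm (v w : ι → ℂ) : (star v ⬝ᵥ w).re = (star w ⬝ᵥ v).re := by
  have : star v ⬝ᵥ w = star (star w ⬝ᵥ v) := Matrix.star_dotProduct v w
  rw [this]
  simp

/-- KEY LEMMA: `d + d* + S` is injective on the range of `p`. -/
theorem eq_zero (h : PData p d S T H) {v : ι → ℂ} (hpv : p *ᵥ v = v)
    (hv : (d + dᴴ + S) *ᵥ v = 0) : v = 0 := by
  have hv' : d *ᵥ v + dᴴ *ᵥ v + S *ᵥ v = 0 := by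
    rw [← Matrix.add_mulVec, ← Matrix.add_mulVec]; exact hv
  set f := dᴴ *ᵥ v with hf
  -- step 1: f = 0
  have e1 : star f ⬝ᵥ (d *ᵥ v) = 0 := by
    rw [hf, dot_adj, Matrix.conjTranspose_conjTranspose, Matrix.mulVec_mulVec, h.dd]
    simp
  have e2 : star f ⬝ᵥ (S *ᵥ v) = - (star (S *ᵥ v) ⬝ᵥ f) := by
    rw [hf, dot_adj, Matrix.conjTranspose_conjTranspose, Matrix.mulVec_mulVec,
      eq_neg_of_add_eq_zero_left h.dS, dot_adj, h.Ss, Matrix.mulVec_mulVec, Matrix.neg_mulVec,
      dotProduct_neg]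
  have e3 : (star f ⬝ᵥ (S *ᵥ v)).re = 0 := by
    have := congrArg Complex.re e2
    rw [Complex.neg_re, re_dot_comm (S *ᵥ v) f] at this
    linarith
  have hf0 : f = 0 := by
    apply dot_star_self_eq_zero
    have e4 : f = -(d *ᵥ v) - S *ᵥ v := by
      have : f = (d *ᵥ v + f + S *ᵥ v) - d *ᵥ v - S *ᵥ v := by abel
      rw [this, hv']; abel
    have e5 : star f ⬝ᵥ f = -(star f ⬝ᵥ (d *ᵥ v)) - star f ⬝ᵥ (S *ᵥ v) := by
      have := congrArg (fun w => star f ⬝ᵥ w) e4
      simpa only [dotProduct_sub, dotProduct_neg] using this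
    rw [e5, e1, Complex.sub_re, e3]
    simp
  have hSv : S *ᵥ v = -(d *ᵥ v) := by
    rw [hf0, add_zero] at hv'
    exact eq_neg_of_add_eq_zero_right hv'
  -- step 2
  set k := Hᴴ *ᵥ v with hk
  have hTSv : T *ᵥ (S *ᵥ v) = v + dᴴ *ᵥ k := by
    rw [Matrix.mulVec_mulVec, h.TS, Matrix.add_mulVec, Matrix.add_mulVec, hpv,
      ← Matrix.mulVec_mulVec v dᴴ Hᴴ, ← Matrix.mulVec_mulVec v Hᴴ dᴴ, ← hf, hf0,
      Matrix.mulVec_zero, add_zero]
  set n := S *ᵥ k + H *ᵥ (S *ᵥ v) with hn
  have hdSv : d *ᵥ (S *ᵥ v) = 0 := by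
    rw [Matrix.mulVec_mulVec, eq_neg_of_add_eq_zero_left h.dS, Matrix.neg_mulVec,
      ← Matrix.mulVec_mulVec, ← hf, hf0]
    simp
  have hdn : d *ᵥ n = 0 := by
    have a1 : d *ᵥ (S *ᵥ k) = -(S *ᵥ (dᴴ *ᵥ k)) := by
      rw [Matrix.mulVec_mulVec, eq_neg_of_add_eq_zero_left h.dS, Matrix.neg_mulVec,
        ← Matrix.mulVec_mulVec]
    have a2 : d *ᵥ (H *ᵥ (S *ᵥ v)) = S *ᵥ (dᴴ *ᵥ k) := by
      have b1 : d * H = S * T - p - H * d := by rw [h.ST]; abel
      rw [Matrix.mulVec_mulVec _ d H, b1, Matrix.sub_mulVec, Matrix.sub_mulVec,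
        ← Matrix.mulVec_mulVec _ S T, hTSv, ← Matrix.mulVec_mulVec _ H d, hdSv,
        Matrix.mulVec_mulVec _ p S, h.Sl, Matrix.mulVec_add]
      simp
    rw [hn, Matrix.mulVec_add, a1, a2]
    abel
  have hpn : p *ᵥ n = n := by
    rw [hn, Matrix.mulVec_add, Matrix.mulVec_mulVec _ p S, h.Sl, Matrix.mulVec_mulVec _ p H, h.Hl]
  set y := T *ᵥ (v + n) - k with hy
  have hdy : dᴴ *ᵥ y = v := by
    have b1 : dᴴ * T = -(T * d) := eq_neg_of_add_eq_zero_right h.Td
    rw [hy, Matrix.mulVec_sub, Matrix.mulVec_mulVec _ dᴴ T, b1, Matrix.neg_mulVec,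
      ← Matrix.mulVec_mulVec, Matrix.mulVec_add, hdn, add_zero]
    have b2 : d *ᵥ v = -(S *ᵥ v) := by rw [hSv]; simp
    rw [b2, Matrix.mulVec_neg, hTSv]
    abel
  have hxy : -(d *ᵥ (H *ᵥ (v + n))) + S *ᵥ y = v := by
    rw [hy, Matrix.mulVec_sub, Matrix.mulVec_mulVec _ S T, h.ST, Matrix.add_mulVec,
      Matrix.add_mulVec, ← Matrix.mulVec_mulVec _ d H, ← Matrix.mulVec_mulVec _ H d,
      Matrix.mulVec_add p, hpv, hpn, Matrix.mulVec_add d v n, hdn, add_zero]
    have b2 : d *ᵥ v = -(S *ᵥ v) := by rw [hSv]; simp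
    rw [b2, Matrix.mulVec_neg]
    have b3 : v + n + -(H *ᵥ (S *ᵥ v)) - S *ᵥ k = v := by
      rw [hn]; abel
    calc _ = v + n + -(H *ᵥ (S *ᵥ v)) - S *ᵥ k := by abel
      _ = v := b3
  -- conclusion
  have c1 : star v ⬝ᵥ v = star (S *ᵥ v) ⬝ᵥ y := by
    have c2 : star v ⬝ᵥ (d *ᵥ (H *ᵥ (v + n))) = 0 := by
      have := dot_adj dᴴ v (H *ᵥ (v + n))
      rw [Matrix.conjTranspose_conjTranspose, ← hf, hf0] at this
      rw [← this]; simp
    have c3 := dot_adj S v y
    rw [h.Ss] at c3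
    have c5 := congrArg (fun w => star v ⬝ᵥ w) hxy
    simp only [dotProduct_add, dotProduct_neg, c2, neg_zero, zero_add] at c5
    rw [← c5, c3]
  have c4 : star v ⬝ᵥ v = star (d *ᵥ v) ⬝ᵥ y := by
    have c5 : star v ⬝ᵥ (dᴴ *ᵥ y) = star v ⬝ᵥ v := by rw [hdy]
    rw [← c5, dot_adj]
  have c6 : star v ⬝ᵥ v + star v ⬝ᵥ v = 0 := by
    nth_rewrite 1 [c1]
    rw [c4, hSv, star_neg, neg_dotProduct]
    ring
  have c7 : star v ⬝ᵥ v = 0 := by
    have : (2 : ℂ) * (star v ⬝ᵥ v) = 0 := by rw [two_mul]; exact c6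
    simpa using this
  apply dot_star_self_eq_zero
  rw [c7]; simp

theorem pM (h : PData p d S T H) : p * (d + dᴴ + S) = d + dᴴ + S := by
  rw [Matrix.mul_add, Matrix.mul_add, h.dl, h.dHl, h.Sl]

theorem Mp (h : PData p d S T H) : (d + dᴴ + S) * p = d + dᴴ + S := by
  rw [Matrix.add_mul, Matrix.add_mul, h.dr, h.dHr, h.Sr]

theorem isUnit_add (h : PData p d S T H) : IsUnit (d + dᴴ + S + (1 - p)) := by
  rw [← Matrix.mulVec_injective_iff_isUnit]
  intro v w hvw
  have h0 : (d + dᴴ + S + (1 - p)) *ᵥ (v - w) = 0 := by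
    rw [Matrix.mulVec_sub, sub_eq_zero]; exact hvw
  set u := v - w with hu
  have h1 : p *ᵥ ((d + dᴴ + S + (1 - p)) *ᵥ u) = (d + dᴴ + S) *ᵥ u := by
    rw [Matrix.mulVec_mulVec, Matrix.mul_add, h.pM, Matrix.mul_sub, h.pp]
    simp
  rw [h0, Matrix.mulVec_zero] at h1
  have h2 : u = p *ᵥ u := by
    rw [Matrix.add_mulVec, ← h1, zero_add, Matrix.sub_mulVec, Matrix.one_mulVec, sub_eq_zero] at h0
    exact h0
  have h3 := h.eq_zero h2.symm h1.symm
  rw [hu, sub_eq_zero] at h3
  exact h3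

/-- the hermitian matrix of an honest complex has the rank of `p` -/
theorem rank_eq (h : PData p d S T H) : (d + dᴴ + S).rank = p.rank := by
  have e : d + dᴴ + S = (d + dᴴ + S + (1 - p)) * p := by
    rw [Matrix.add_mul, h.Mp, Matrix.sub_mul, h.pp, Matrix.one_mul, sub_self, add_zero]
  rw [e, Matrix.rank_mul_eq_right_of_isUnit_det _ _
    ((Matrix.isUnit_iff_isUnit_det _).1 h.isUnit_add)]

end PData

/-- the signature of a finite complex -/
noncomputable def sg (d S : Matrix ι ι ℂ) : ℤ := sgn (d + dᴴ + S)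

/-- PATH INVARIANCE for complexes -/
theorem sg_path {p : Matrix ι ι ℂ} {d S : ℝ → Matrix ι ι ℂ}
    (hd : ContinuousOn d (Set.Icc 0 1)) (hS : ContinuousOn S (Set.Icc 0 1))
    (h : ∀ t ∈ Set.Icc (0 : ℝ) 1, ∃ T H, PData p (d t) (S t) T H) :
    sg (d 0) (S 0) = sg (d 1) (S 1) := by
  apply sgn_path_rank (M := fun t => d t + (d t)ᴴ + S t) zero_le_one _ _ p.rank
  · intro t ht
    obtain ⟨T, H, h⟩ := h t ht
    exact h.rank_eq
  · exact (hd.add (continuous_id.matrix_conjTranspose.comp_continuousOn hd)).add hS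
  · intro t ht
    obtain ⟨T, H, h⟩ := h t ht
    exact h.isHermitian

/-- partial isometries: if `u u* = p`, `u = p u p`, `M = p M p` then `sgn (u M u*) = sgn M` -/
theorem sgn_partial {p u M : Matrix ι ι ℂ} (hp : p * p = p) (hu : u * uᴴ = p)
    (pu : p * u = u) (up : u * p = u) (hM : p * M = M) (hM' : M * p = M) :
    sgn (u * M * uᴴ) = sgn M := by
  have hps : pᴴ = p := by rw [← hu]; simp
  have hup : uᴴ * p = uᴴ := by
    have := congrArg Matrix.conjTranspose pu
    rwa [Matrix.conjTranspose_mul, hps] at this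
  have hpu : p * uᴴ = uᴴ := by
    have := congrArg Matrix.conjTranspose up
    rwa [Matrix.conjTranspose_mul, hps] at this
  have e1 : (u + (1 - p)) * M * (u + (1 - p))ᴴ = u * M * uᴴ := by
    have a1 : (1 - p) * M = 0 := by rw [Matrix.sub_mul, hM, Matrix.one_mul, sub_self]
    have a2 : M * (1 - p) = 0 := by rw [Matrix.mul_sub, hM', Matrix.mul_one, sub_self]
    rw [Matrix.conjTranspose_add, Matrix.conjTranspose_sub, Matrix.conjTranspose_one, hps,
      Matrix.add_mul, a1, add_zero, Matrix.mul_add, Matrix.mul_assoc u M (1 - p), a2]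
    simp
  have e2 : IsUnit (u + (1 - p)) := by
    apply IsUnit.of_mul_eq_one (uᴴ + (1 - p))
    rw [Matrix.add_mul, Matrix.mul_add, Matrix.mul_add, hu, Matrix.mul_sub u, up,
      Matrix.sub_mul 1 p uᴴ, hpu, Matrix.sub_mul, Matrix.mul_sub, Matrix.mul_sub, hp]
    simp
  rw [← e1, sgn_congr e2]

/-- sign change -/
theorem sg_neg {p g d S : Matrix ι ι ℂ} (hp : p * p = p) (hgs : gᴴ = g) (hg : g * g = p)
    (pg : p * g = g) (gp : g * p = g) (pd : p * d = d) (dp : d * p = d) (pS : p * S = S)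
    (Sp : S * p = S) (gd : g * d = -(d * g)) (gS : g * S = S * g) :
    sg d (-S) = - sg d S := by
  have hps : pᴴ = p := by rw [← hg, Matrix.conjTranspose_mul, hgs]
  have pdH : p * dᴴ = dᴴ := by
    have := congrArg Matrix.conjTranspose dp
    rwa [Matrix.conjTranspose_mul, hps] at this
  have dHp : dᴴ * p = dᴴ := by
    have := congrArg Matrix.conjTranspose pd
    rwa [Matrix.conjTranspose_mul, hps] at this
  have gdH : g * dᴴ = -(dᴴ * g) := by
    have := congrArg Matrix.conjTranspose gd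
    rw [Matrix.conjTranspose_neg, Matrix.conjTranspose_mul, Matrix.conjTranspose_mul, hgs] at this
    rw [this, neg_neg]
  have e : g * (d + dᴴ + S) * gᴴ = -(d + dᴴ + -S) := by
    rw [hgs, Matrix.mul_add, Matrix.mul_add, gd, gdH, gS, Matrix.add_mul, Matrix.add_mul,
      Matrix.neg_mul, Matrix.neg_mul, Matrix.mul_assoc, Matrix.mul_assoc, Matrix.mul_assoc, hg,
      dp, dHp, Sp]
    abel
  have e2 := sgn_partial (u := g) (M := d + dᴴ + S) hp (by rw [hgs, hg]) pg gp
    (by rw [Matrix.mul_add, Matrix.mul_add, pd, pdH, pS])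
    (by rw [Matrix.add_mul, Matrix.add_mul, dp, dHp, Sp])
  rw [e, sgn_neg] at e2
  rw [sg, sg, ← e2, neg_neg]

/-- additivity for complexes -/
theorem sg_fromBlocks {κ : Type*} [Fintype κ] [DecidableEq κ] {d S : Matrix ι ι ℂ}
    {d' S' : Matrix κ κ ℂ} (hS : Sᴴ = S) (hS' : S'ᴴ = S') :
    sg (fromBlocks d 0 0 d') (fromBlocks S 0 0 S') = sg d S + sg d' S' := by
  have e : fromBlocks d 0 0 d' + (fromBlocks d 0 0 d')ᴴ + fromBlocks S 0 0 S'
      = fromBlocks (d + dᴴ + S) 0 0 (d' + d'ᴴ + S') := by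
    rw [Matrix.fromBlocks_conjTranspose, Matrix.fromBlocks_add, Matrix.fromBlocks_add]
    simp
  rw [sg, e, sgn_fromBlocks, sg, sg]
  · rw [Matrix.IsHermitian]
    simp only [Matrix.conjTranspose_add, Matrix.conjTranspose_conjTranspose, hS]
    abel
  · rw [Matrix.IsHermitian]
    simp only [Matrix.conjTranspose_add, Matrix.conjTranspose_conjTranspose, hS']
    abel

end Complex

end Crest.Agent.R217.Sig330
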