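import Mathlib
import Crest.Agent.R217.Asym_476
import Crest.Agent.R217.Sig_330
import Crest.Agent.R217.LocF_555

/-!
Row 217 (S0336), part C: signatures of compactly supported hermitian elements of
`Matrix J J (Asy C ℂ)`, with values in germs of integers.
-/

set_option autoImplicit false
set_option linter.unusedSectionVars false
set_option linter.unusedVariables false

open Filter Topology Matrix

namespace Crest.Agent.R217.Asym476

open Sig330

section finite

variable {ι κ : Type*} [Fintype ι] [Fintype κ]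

theorem pos_conj_le' (A : Matrix κ ι ℂ) (N : Matrix κ κ ℂ) : pos (Aᴴ * N * A) ≤ pos N := by
  obtain ⟨W, hW, hp⟩ := exists_pos (Aᴴ * N * A)
  let f : (ι → ℂ) →ₗ[ℂ] (κ → ℂ) := Matrix.mulVecLin A
  have hinj : Function.Injective (f.domRestrict W) := by
    rw [← LinearMap.ker_eq_bot, LinearMap.ker_eq_bot']
    rintro ⟨v, hv⟩ h0
    by_contra hne
    have hv0 : v ≠ 0 := fun h => hne (Subtype.ext h)
    have h1 := hp v hv hv0
    have h2 : A *ᵥ v = 0 := h0
    rw [← qf_conj, h2] at h1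
    simp [qf] at h1
  have h1 : Module.finrank ℂ (W.map f) = Module.finrank ℂ W := by
    rw [← LinearMap.range_domRestrict]
    exact LinearMap.finrank_range_of_inj hinj
  have h2 : PosOn N (W.map f) := by
    rintro _ ⟨v, hv, rfl⟩ h0
    have hv0 : v ≠ 0 := by
      rintro rfl; exact h0 (map_zero f)
    have := hp v hv hv0
    change 0 < qf N (A *ᵥ v)
    rwa [qf_conj]
  rw [← hW, ← h1]
  exact le_pos h2

theorem sgn_eq_of_congr {M : Matrix ι ι ℂ} {N : Matrix κ κ ℂ} (A : Matrix ι κ ℂ)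
    (D : Matrix κ ι ℂ) (h1 : N = Aᴴ * M * A) (h2 : M = Dᴴ * N * D) : sgn N = sgn M := by
  have e1 : pos N = pos M := by
    apply le_antisymm
    · rw [h1]; exact pos_conj_le' A M
    · rw [h2]; exact pos_conj_le' D N
  have h1' : -N = Aᴴ * (-M) * A := by rw [h1]; simp
  have h2' : -M = Dᴴ * (-N) * D := by rw [h2]; simp
  have e2 : pos (-N) = pos (-M) := by
    apply le_antisymm
    · rw [h1']; exact pos_conj_le' A (-M)
    · rw [h2']; exact pos_conj_le' D (-N)
  rw [sgn, sgn, e1, e2]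

end finite

variable {A : Type} {B : A → Type} [∀ a, Fintype (B a)] [∀ a, DecidableEq (B a)]
variable {C : Ctl B}
variable {K : Type} [CommRing K] [StarRing K] [Algebra ℂ K] [StarModule ℂ K]
variable {J J' J'' : Type} [Fintype J] [Fintype J'] [Fintype J''] [DecidableEq J]
  [DecidableEq J'] [DecidableEq J'']

/-- blocks -/
def blk (X : ∀ a, Matrix (J × B a) (J' × B a) K) (j : J) (j' : J') : Seq B K :=
  fun a s t => X a (j, s) (j', t)

/-- `X` represents `x` -/
def RepM (x : Matrix J J' (Asy C K)) (X : ∀ a, Matrix (J × B a) (J' × B a) K) : Prop :=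
  ∀ j j', ∃ h : IsLoc C (blk X j j'), x j j' = cls C K ⟨blk X j j', h⟩

lemma RepM.exists (x : Matrix J J' (Asy C K)) : ∃ X, RepM x X := by
  choose X hX using fun j j' => cls_surj (x j j')
  exact ⟨fun a p q => (X p.1 q.1).1 a p.2 q.2, fun j j' => ⟨(X j j').2, (hX j j').symm⟩⟩

lemma RepM.zero : RepM (0 : Matrix J J' (Asy C K)) 0 := fun j j' => ⟨IsLoc.zero, rfl⟩

lemma RepM.add {x y : Matrix J J' (Asy C K)} {X Y : ∀ a, Matrix (J × B a) (J' × B a) K}
    (hx : RepM x X) (hy : RepM y Y) : RepM (x + y) (X + Y) := by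
  intro j j'
  obtain ⟨h1, e1⟩ := hx j j'
  obtain ⟨h2, e2⟩ := hy j j'
  refine ⟨h1.add h2, ?_⟩
  rw [Matrix.add_apply, e1, e2, ← map_add]
  rfl

lemma RepM.neg {x : Matrix J J' (Asy C K)} {X : ∀ a, Matrix (J × B a) (J' × B a) K}
    (hx : RepM x X) : RepM (-x) (-X) := by
  intro j j'
  obtain ⟨h1, e1⟩ := hx j j'
  refine ⟨h1.neg, ?_⟩
  rw [Matrix.neg_apply, e1, ← map_neg]
  rfl

lemma RepM.sub {x y : Matrix J J' (Asy C K)} {X Y : ∀ a, Matrix (J × B a) (J' × B a) K}
    (hx : RepM x X) (hy : RepM y Y) : RepM (x - y) (X - Y) := by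
  rw [sub_eq_add_neg, sub_eq_add_neg]
  exact hx.add hy.neg

lemma RepM.star {x : Matrix J J' (Asy C K)} {X : ∀ a, Matrix (J × B a) (J' × B a) K}
    (hx : RepM x X) : RepM xᴴ (fun a => (X a)ᴴ) := by
  intro j j'
  obtain ⟨h1, e1⟩ := hx j' j
  refine ⟨h1.star, ?_⟩
  rw [Matrix.conjTranspose_apply, e1, ← map_star]
  rfl

lemma sum_loc {ι : Type} (S : Finset ι) (f : ι → Loc C K) :
    (∑ i ∈ S, f i : Loc C K).1 = ∑ i ∈ S, (f i).1 :=
  map_sum (StarSubalgebra.subtype (Loc C K)) f S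

lemma RepM.mul {x : Matrix J J' (Asy C K)} {y : Matrix J' J'' (Asy C K)}
    {X : ∀ a, Matrix (J × B a) (J' × B a) K} {Y : ∀ a, Matrix (J' × B a) (J'' × B a) K}
    (hx : RepM x X) (hy : RepM y Y) : RepM (x * y) (fun a => X a * Y a) := by
  intro j j''
  choose h1 e1 using hx
  choose h2 e2 using hy
  let f : J' → Loc C K := fun i => ⟨blk X j i, h1 j i⟩
  let g : J' → Loc C K := fun i => ⟨blk Y i j'', h2 i j''⟩
  have key : blk (fun a => X a * Y a) j j'' = (∑ i, f i * g i).1 := by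
    rw [sum_loc]
    funext a
    ext s t
    rw [Finset.sum_apply, Matrix.sum_apply]
    change (X a * Y a) (j, s) (j'', t) = _
    rw [Matrix.mul_apply, Fintype.sum_prod_type]
    refine Finset.sum_congr rfl fun i _ => ?_
    change _ = (blk X j i a * blk Y i j'' a) s t
    rw [Matrix.mul_apply]
    rfl
  have hl : IsLoc C (blk (fun a => X a * Y a) j j'') := by
    rw [key]
    exact (∑ i, f i * g i).2
  refine ⟨hl, ?_⟩
  have h3 : (⟨blk (fun a => X a * Y a) j j'', hl⟩ : Loc C K) = ∑ i, f i * g i :=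
    Subtype.ext key
  rw [h3, map_sum, Matrix.mul_apply]
  refine Finset.sum_congr rfl fun i _ => ?_
  rw [map_mul, e1, e2]

lemma RepM.rel {x : Matrix J J' (Asy C K)} {X Y : ∀ a, Matrix (J × B a) (J' × B a) K}
    (hx : RepM x X) (hy : RepM x Y) : ∀ r < (1 : ℝ), ∀ᶠ a in C.l, ∀ p q,
      (C.u C.o a p.2 ≤ r ∨ C.u C.o a q.2 ≤ r) → X a p q = Y a p q := by
  intro r hr
  have h : ∀ j j', ∀ᶠ a in C.l, ∀ s t, (C.u C.o a s ≤ r ∨ C.u C.o a t ≤ r) →
      X a (j, s) (j', t) = Y a (j, s) (j', t) := by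
    intro j j'
    obtain ⟨h1, e1⟩ := hx j j'
    obtain ⟨h2, e2⟩ := hy j j'
    exact (cls_eq.1 (e1.symm.trans e2)) r hr
  have h' := Filter.eventually_all.2 fun j => Filter.eventually_all.2 fun j' => h j j'
  filter_upwards [h'] with a h1 p q hpq
  exact h1 p.1 q.1 p.2 q.2 hpq

lemma RepM.loc {x : Matrix J J' (Asy C K)} {X : ∀ a, Matrix (J × B a) (J' × B a) K}
    (hx : RepM x X) (φ : C.Φ) : ∀ r < (1 : ℝ), ∀ ε > (0 : ℝ), ∀ᶠ a in C.l, ∀ p q,
      (C.u C.o a p.2 ≤ r ∨ C.u C.o a q.2 ≤ r) → X a p q ≠ 0 →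
        |C.u φ a p.2 - C.u φ a q.2| < ε := by
  intro r hr ε hε
  have h' := Filter.eventually_all.2 fun j => Filter.eventually_all.2 fun j' =>
    (hx j j').choose φ r hr ε hε
  filter_upwards [h'] with a h1 p q hpq h0
  exact h1 p.1 q.1 p.2 q.2 hpq h0

/-- compactly supported sequences -/
def Sup (C : Ctl B) (X : ∀ a, Matrix (J × B a) (J' × B a) K) : Prop :=
  ∃ r < (1 : ℝ), ∀ᶠ a in C.l, ∀ p q, X a p q ≠ 0 → C.u C.o a p.2 ≤ r ∧ C.u C.o a q.2 ≤ r

/-- compactly supported representatives -/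
structure CRep (x : Matrix J J' (Asy C K)) (X : ∀ a, Matrix (J × B a) (J' × B a) K) : Prop where
  rep : RepM x X
  sup : Sup C X

lemma CRep.eq {x : Matrix J J' (Asy C K)} {X Y : ∀ a, Matrix (J × B a) (J' × B a) K}
    (hx : CRep x X) (hy : CRep x Y) : ∀ᶠ a in C.l, X a = Y a := by
  obtain ⟨r, hr, h1⟩ := hx.sup
  obtain ⟨r', hr', h2⟩ := hy.sup
  filter_upwards [h1, h2, hx.rep.rel hy.rep (max r r') (max_lt hr hr')] with a h1 h2 h3
  ext p q
  by_cases h4 : X a p q = 0
  · by_cases h5 : Y a p q = 0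
    · rw [h4, h5]
    · exact h3 p q (Or.inl ((h2 p q h5).1.trans (le_max_right _ _)))
  · exact h3 p q (Or.inl ((h1 p q h4).1.trans (le_max_left _ _)))

lemma CRep.neg {x : Matrix J J' (Asy C K)} {X : ∀ a, Matrix (J × B a) (J' × B a) K}
    (hx : CRep x X) : CRep (-x) (-X) := by
  obtain ⟨r, hr, h1⟩ := hx.sup
  refine ⟨hx.rep.neg, r, hr, ?_⟩
  filter_upwards [h1] with a h1 p q h
  exact h1 p q fun h' => h (by simp [h'])

lemma CRep.zero : CRep (0 : Matrix J J' (Asy C K)) 0 :=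
  ⟨RepM.zero, 0, one_pos, Eventually.of_forall fun a p q h => absurd rfl h⟩

lemma CRep.add {x y : Matrix J J' (Asy C K)} {X Y : ∀ a, Matrix (J × B a) (J' × B a) K}
    (hx : CRep x X) (hy : CRep y Y) : CRep (x + y) (X + Y) := by
  obtain ⟨r, hr, h1⟩ := hx.sup
  obtain ⟨r', hr', h2⟩ := hy.sup
  refine ⟨hx.rep.add hy.rep, max r r', max_lt hr hr', ?_⟩
  filter_upwards [h1, h2] with a h1 h2 p q h
  by_cases h4 : X a p q = 0
  · by_cases h5 : Y a p q = 0
    · exact absurd (by simp [h4, h5]) h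
    · exact ⟨(h2 p q h5).1.trans (le_max_right _ _), (h2 p q h5).2.trans (le_max_right _ _)⟩
  · exact ⟨(h1 p q h4).1.trans (le_max_left _ _), (h1 p q h4).2.trans (le_max_left _ _)⟩

lemma CRep.sub {x y : Matrix J J' (Asy C K)} {X Y : ∀ a, Matrix (J × B a) (J' × B a) K}
    (hx : CRep x X) (hy : CRep y Y) : CRep (x - y) (X - Y) := by
  rw [sub_eq_add_neg, sub_eq_add_neg]
  exact hx.add hy.neg

lemma CRep.star {x : Matrix J J' (Asy C K)} {X : ∀ a, Matrix (J × B a) (J' × B a) K}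
    (hx : CRep x X) : CRep xᴴ (fun a => (X a)ᴴ) := by
  obtain ⟨r, hr, h1⟩ := hx.sup
  refine ⟨hx.rep.star, r, hr, ?_⟩
  filter_upwards [h1] with a h1 p q h
  exact (h1 q p fun h' => h (by simp [Matrix.conjTranspose_apply, h'])).symm

lemma CRep.mul_left {x : Matrix J J' (Asy C K)} {y : Matrix J' J'' (Asy C K)}
    {X : ∀ a, Matrix (J × B a) (J' × B a) K} {Y : ∀ a, Matrix (J' × B a) (J'' × B a) K}
    (hx : RepM x X) (hy : CRep y Y) : CRep (x * y) (fun a => X a * Y a) := by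
  obtain ⟨r, hr, h1⟩ := hy.sup
  refine ⟨hx.mul hy.rep, (r + 1) / 2, by linarith, ?_⟩
  filter_upwards [h1, hx.loc C.o r hr ((1 - r) / 2) (by linarith)] with a h1 h2 p q h
  rw [Matrix.mul_apply] at h
  obtain ⟨i, -, hi⟩ := Finset.exists_ne_zero_of_sum_ne_zero h
  have h3 := h1 i q (right_ne_zero_of_mul hi)
  have h4 := abs_lt.1 (h2 p i (Or.inr h3.1) (left_ne_zero_of_mul hi))
  exact ⟨by linarith, by linarith⟩

lemma CRep.mul_right {x : Matrix J J' (Asy C K)} {y : Matrix J' J'' (Asy C K)}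
    {X : ∀ a, Matrix (J × B a) (J' × B a) K} {Y : ∀ a, Matrix (J' × B a) (J'' × B a) K}
    (hx : CRep x X) (hy : RepM y Y) : CRep (x * y) (fun a => X a * Y a) := by
  obtain ⟨r, hr, h1⟩ := hx.sup
  refine ⟨hx.rep.mul hy, (r + 1) / 2, by linarith, ?_⟩
  filter_upwards [h1, hy.loc C.o r hr ((1 - r) / 2) (by linarith)] with a h1 h2 p q h
  rw [Matrix.mul_apply] at h
  obtain ⟨i, -, hi⟩ := Finset.exists_ne_zero_of_sum_ne_zero h
  have h3 := h1 p i (left_ne_zero_of_mul hi)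
  have h4 := abs_lt.1 (h2 i q (Or.inl h3.2) (right_ne_zero_of_mul hi))
  exact ⟨by linarith, by linarith⟩

/-- compactly supported elements -/
def ok (x : Matrix J J' (Asy C K)) : Prop := ∃ X, CRep x X

lemma RepM.submatrix {x : Matrix J J' (Asy C K)} {X : ∀ a, Matrix (J × B a) (J' × B a) K}
    (hx : RepM x X) {I I' : Type} (f : I → J) (g : I' → J') :
    RepM (x.submatrix f g) (fun a => (X a).submatrix (Prod.map f id) (Prod.map g id)) :=
  fun i i' => hx (f i) (g i')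

lemma CRep.submatrix {x : Matrix J J' (Asy C K)} {X : ∀ a, Matrix (J × B a) (J' × B a) K}
    (hx : CRep x X) {I I' : Type} (f : I → J) (g : I' → J') :
    CRep (x.submatrix f g) (fun a => (X a).submatrix (Prod.map f id) (Prod.map g id)) := by
  obtain ⟨r, hr, h1⟩ := hx.sup
  refine ⟨hx.rep.submatrix f g, r, hr, ?_⟩
  filter_upwards [h1] with a h1 p q h
  exact h1 _ _ h

/-- block matrices of sequences -/
def fb (X : ∀ a, Matrix (J × B a) (J × B a) K) (Y : ∀ a, Matrix (J × B a) (J' × B a) K)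
    (Z : ∀ a, Matrix (J' × B a) (J × B a) K) (W : ∀ a, Matrix (J' × B a) (J' × B a) K) :
    ∀ a, Matrix ((J ⊕ J') × B a) ((J ⊕ J') × B a) K :=
  fun a => (Matrix.fromBlocks (X a) (Y a) (Z a) (W a)).submatrix
    (Equiv.sumProdDistrib J J' (B a)) (Equiv.sumProdDistrib J J' (B a))

lemma RepM.fromBlocks {x : Matrix J J (Asy C K)} {y : Matrix J J' (Asy C K)}
    {z : Matrix J' J (Asy C K)} {w : Matrix J' J' (Asy C K)}
    {X : ∀ a, Matrix (J × B a) (J × B a) K} {Y : ∀ a, Matrix (J × B a) (J' × B a) K}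
    {Z : ∀ a, Matrix (J' × B a) (J × B a) K} {W : ∀ a, Matrix (J' × B a) (J' × B a) K}
    (hx : RepM x X) (hy : RepM y Y) (hz : RepM z Z) (hw : RepM w W) :
    RepM (Matrix.fromBlocks x y z w) (fb X Y Z W) := by
  rintro (j | j) (j' | j')
  · exact hx j j'
  · exact hy j j'
  · exact hz j j'
  · exact hw j j'

lemma Sup.fb {X : ∀ a, Matrix (J × B a) (J × B a) K} {Y : ∀ a, Matrix (J × B a) (J' × B a) K}
    {Z : ∀ a, Matrix (J' × B a) (J × B a) K} {W : ∀ a, Matrix (J' × B a) (J' × B a) K}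
    (hx : Sup C X) (hy : Sup C Y) (hz : Sup C Z) (hw : Sup C W) : Sup C (fb X Y Z W) := by
  obtain ⟨r1, hr1, h1⟩ := hx
  obtain ⟨r2, hr2, h2⟩ := hy
  obtain ⟨r3, hr3, h3⟩ := hz
  obtain ⟨r4, hr4, h4⟩ := hw
  refine ⟨max (max r1 r2) (max r3 r4), max_lt (max_lt hr1 hr2) (max_lt hr3 hr4), ?_⟩
  filter_upwards [h1, h2, h3, h4] with a h1 h2 h3 h4
  rintro ⟨j | j, s⟩ ⟨j' | j', t⟩ h
  · have := h1 _ _ h
    exact ⟨this.1.trans (by simp), this.2.trans (by simp)⟩
  · have := h2 _ _ h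
    exact ⟨this.1.trans (by simp), this.2.trans (by simp)⟩
  · have := h3 _ _ h
    exact ⟨this.1.trans (by simp), this.2.trans (by simp)⟩
  · have := h4 _ _ h
    exact ⟨this.1.trans (by simp), this.2.trans (by simp)⟩

lemma CRep.fromBlocks {x : Matrix J J (Asy C K)} {y : Matrix J J' (Asy C K)}
    {z : Matrix J' J (Asy C K)} {w : Matrix J' J' (Asy C K)}
    {X : ∀ a, Matrix (J × B a) (J × B a) K} {Y : ∀ a, Matrix (J × B a) (J' × B a) K}
    {Z : ∀ a, Matrix (J' × B a) (J × B a) K} {W : ∀ a, Matrix (J' × B a) (J' × B a) K}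
    (hx : CRep x X) (hy : CRep y Y) (hz : CRep z Z) (hw : CRep w W) :
    CRep (Matrix.fromBlocks x y z w) (fb X Y Z W) :=
  ⟨hx.rep.fromBlocks hy.rep hz.rep hw.rep, Sup.fb hx.sup hy.sup hz.sup hw.sup⟩

lemma RepM.diagonal (f : J → ∀ a, B a → K) :
    RepM (Matrix.diagonal fun j => dg C K (f j))
      (fun a => Matrix.diagonal fun p : J × B a => f p.1 a p.2) := by
  intro j j'
  by_cases h : j = j'
  · subst h
    have e : blk (fun a => Matrix.diagonal fun p : J × B a => f p.1 a p.2) j j =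
        (dgLoc C K (f j)).1 := by
      funext a
      ext s t
      change Matrix.diagonal (fun p : J × B a => f p.1 a p.2) (j, s) (j, t) =
        Matrix.diagonal (f j a) s t
      by_cases hst : s = t
      · subst hst; simp
      · rw [Matrix.diagonal_apply_ne _ hst, Matrix.diagonal_apply_ne]
        intro h; exact hst (Prod.ext_iff.1 h).2
    have hl : IsLoc C (blk (fun a => Matrix.diagonal fun p : J × B a => f p.1 a p.2) j j) := by
      rw [e]; exact (dgLoc C K (f j)).2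
    refine ⟨hl, ?_⟩
    rw [Matrix.diagonal_apply_eq, dg_apply]
    congr 1
    exact Subtype.ext e.symm
  · have e : blk (fun a => Matrix.diagonal fun p : J × B a => f p.1 a p.2) j j' =
        (0 : Seq B K) := by
      funext a
      ext s t
      change Matrix.diagonal (fun p : J × B a => f p.1 a p.2) (j, s) (j', t) = 0
      rw [Matrix.diagonal_apply_ne]
      intro h'; exact h (Prod.ext_iff.1 h').1
    have hl : IsLoc C (blk (fun a => Matrix.diagonal fun p : J × B a => f p.1 a p.2) j j') := by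
      rw [e]; exact IsLoc.zero
    refine ⟨hl, ?_⟩
    rw [Matrix.diagonal_apply_ne _ h, ← map_zero (cls C K)]
    congr 1
    exact Subtype.ext e.symm

lemma CRep.diagonal_ind (E : J → ∀ a, B a → Prop) {r : ℝ} (hr : r < 1)
    (h : ∀ j, ∀ᶠ a in C.l, ∀ s, E j a s → C.u C.o a s ≤ r) :
    ok (Matrix.diagonal fun j => (ind (E j) : Asy C K)) := by
  classical
  refine ⟨_, RepM.diagonal (C := C) (K := K) fun j a s => if E j a s then 1 else 0, r, hr, ?_⟩
  have h' := Filter.eventually_all.2 h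
  filter_upwards [h'] with a h1 p q h2
  by_cases hpq : p = q
  · subst hpq
    rw [Matrix.diagonal_apply_eq] at h2
    have h3 : E p.1 a p.2 := by
      by_contra h3
      exact h2 (by simp [h3])
    exact ⟨h1 _ _ h3, h1 _ _ h3⟩
  · exact absurd (Matrix.diagonal_apply_ne _ hpq) h2

lemma ok.mul_left {x : Matrix J' J'' (Asy C K)} (hx : ok x) (c : Matrix J J' (Asy C K)) :
    ok (c * x) := by
  obtain ⟨X, hX⟩ := hx
  obtain ⟨Y, hY⟩ := RepM.exists c
  exact ⟨_, CRep.mul_left hY hX⟩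

lemma ok.mul_right {x : Matrix J J' (Asy C K)} (hx : ok x) (c : Matrix J' J'' (Asy C K)) :
    ok (x * c) := by
  obtain ⟨X, hX⟩ := hx
  obtain ⟨Y, hY⟩ := RepM.exists c
  exact ⟨_, CRep.mul_right hX hY⟩

lemma ok.add {x y : Matrix J J' (Asy C K)} (hx : ok x) (hy : ok y) : ok (x + y) := by
  obtain ⟨X, hX⟩ := hx
  obtain ⟨Y, hY⟩ := hy
  exact ⟨_, hX.add hY⟩

lemma ok.sub {x y : Matrix J J' (Asy C K)} (hx : ok x) (hy : ok y) : ok (x - y) := by
  obtain ⟨X, hX⟩ := hx
  obtain ⟨Y, hY⟩ := hy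
  exact ⟨_, hX.sub hY⟩

lemma ok.neg {x : Matrix J J' (Asy C K)} (hx : ok x) : ok (-x) := by
  obtain ⟨X, hX⟩ := hx
  exact ⟨_, hX.neg⟩

lemma ok.star {x : Matrix J J' (Asy C K)} (hx : ok x) : ok xᴴ := by
  obtain ⟨X, hX⟩ := hx
  exact ⟨_, hX.star⟩

lemma ok.zero : ok (0 : Matrix J J' (Asy C K)) := ⟨_, CRep.zero⟩

lemma ok.submatrix {x : Matrix J J' (Asy C K)} (hx : ok x) {I I' : Type} (f : I → J)
    (g : I' → J') : ok (x.submatrix f g) := by
  obtain ⟨X, hX⟩ := hx
  exact ⟨_, hX.submatrix f g⟩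

lemma ok.fromBlocks {x : Matrix J J (Asy C K)} {y : Matrix J J' (Asy C K)}
    {z : Matrix J' J (Asy C K)} {w : Matrix J' J' (Asy C K)} (hx : ok x) (hy : ok y)
    (hz : ok z) (hw : ok w) : ok (Matrix.fromBlocks x y z w) := by
  obtain ⟨X, hX⟩ := hx
  obtain ⟨Y, hY⟩ := hy
  obtain ⟨Z, hZ⟩ := hz
  obtain ⟨W, hW⟩ := hw
  exact ⟨_, hX.fromBlocks hY hZ hW⟩

/-! ### change of coefficients and restriction -/

variable {K' : Type} [CommRing K'] [StarRing K'] [Algebra ℂ K'] [StarModule ℂ K']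

lemma RepM.coef {x : Matrix J J' (Asy C K)} {X : ∀ a, Matrix (J × B a) (J' × B a) K}
    (hx : RepM x X) (ρ : K →⋆ₐ[ℂ] K') :
    RepM (x.map (coef C ρ)) (fun a => (X a).map ρ) := by
  intro j j'
  obtain ⟨h1, e1⟩ := hx j j'
  refine ⟨isLoc_mapSeq ρ h1, ?_⟩
  rw [Matrix.map_apply, e1, coef_cls]
  rfl

lemma CRep.coef {x : Matrix J J' (Asy C K)} {X : ∀ a, Matrix (J × B a) (J' × B a) K}
    (hx : CRep x X) (ρ : K →⋆ₐ[ℂ] K') :
    CRep (x.map (coef C ρ)) (fun a => (X a).map ρ) := by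
  obtain ⟨r, hr, h1⟩ := hx.sup
  refine ⟨hx.rep.coef ρ, r, hr, ?_⟩
  filter_upwards [h1] with a h1 p q h
  exact h1 p q fun h' => h (by simp [h'])

lemma ok.coef {x : Matrix J J' (Asy C K)} (hx : ok x) (ρ : K →⋆ₐ[ℂ] K') :
    ok (x.map (coef C ρ)) := by
  obtain ⟨X, hX⟩ := hx
  exact ⟨_, hX.coef ρ⟩

lemma RepM.chg {C' : Ctl B} (h : C.Le C') {x : Matrix J J' (Asy C K)}
    {X : ∀ a, Matrix (J × B a) (J' × B a) K} (hx : RepM x X) :
    RepM (x.map (chg K h)) X := by
  intro j j'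
  obtain ⟨h1, e1⟩ := hx j j'
  refine ⟨h.isLoc h1, ?_⟩
  rw [Matrix.map_apply, e1, chg_cls]

/-! ### the signature -/

open Classical in
/-- signature of a compactly supported hermitian element -/
noncomputable def sg (x : Matrix J J (Asy C ℂ)) : Germ C.l ℤ :=
  if h : ok x then ((fun a => sgn (h.choose a) : A → ℤ) : Germ C.l ℤ) else 0

lemma sg_eq {x : Matrix J J (Asy C ℂ)} {X : ∀ a, Matrix (J × B a) (J × B a) ℂ}
    (hx : CRep x X) : sg x = ((fun a => sgn (X a) : A → ℤ) : Germ C.l ℤ) := by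
  have h : ok x := ⟨X, hx⟩
  rw [sg, dif_pos h, Germ.coe_eq]
  filter_upwards [h.choose_spec.eq hx] with a h1
  rw [h1]

lemma sg_zero : sg (0 : Matrix J J (Asy C ℂ)) = 0 := by
  rw [sg_eq CRep.zero]
  change _ = ((fun _ => (0 : ℤ) : A → ℤ) : Germ C.l ℤ)
  congr 1
  funext a
  have h := sgn_neg (0 : Matrix (J × B a) (J × B a) ℂ)
  rw [neg_zero] at h
  change sgn (0 : Matrix (J × B a) (J × B a) ℂ) = 0
  omega

lemma sg_neg {x : Matrix J J (Asy C ℂ)} (hx : ok x) : sg (-x) = - sg x := by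
  obtain ⟨X, hX⟩ := hx
  rw [sg_eq hX, sg_eq hX.neg]
  change _ = ((fun a => - sgn (X a) : A → ℤ) : Germ C.l ℤ)
  congr 1
  funext a
  exact sgn_neg _

lemma sg_fromBlocks {x : Matrix J J (Asy C ℂ)} {y : Matrix J' J' (Asy C ℂ)} (hx : ok x)
    (hy : ok y) (hx' : xᴴ = x) (hy' : yᴴ = y) : sg (Matrix.fromBlocks x 0 0 y) = sg x + sg y := by
  obtain ⟨X, hX⟩ := hx
  obtain ⟨Y, hY⟩ := hy
  have h1 : ∀ᶠ a in C.l, (X a)ᴴ = X a := by
    have := hX.star
    rw [hx'] at this
    exact this.eq hX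
  have h2 : ∀ᶠ a in C.l, (Y a)ᴴ = Y a := by
    have := hY.star
    rw [hy'] at this
    exact this.eq hY
  rw [sg_eq hX, sg_eq hY, sg_eq (hX.fromBlocks CRep.zero CRep.zero hY)]
  change _ = ((fun a => sgn (X a) + sgn (Y a) : A → ℤ) : Germ C.l ℤ)
  rw [Germ.coe_eq]
  filter_upwards [h1, h2] with a h1 h2
  rw [← sgn_fromBlocks h1 h2]
  exact sgn_submatrix _ _

/-- congruence, rectangular -/
lemma sg_congr {x : Matrix J J (Asy C ℂ)} {y : Matrix J' J' (Asy C ℂ)} (hx : ok x)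
    (u : Matrix J J' (Asy C ℂ)) (v : Matrix J' J (Asy C ℂ)) (h1 : y = uᴴ * x * u)
    (h2 : x = vᴴ * y * v) : sg y = sg x := by
  obtain ⟨X, hX⟩ := hx
  obtain ⟨U, hU⟩ := RepM.exists u
  obtain ⟨V, hV⟩ := RepM.exists v
  have hY : CRep y (fun a => (U a)ᴴ * X a * U a) := by
    rw [h1]
    exact (CRep.mul_left hU.star hX).mul_right hU
  have hX' : CRep x (fun a => (V a)ᴴ * ((U a)ᴴ * X a * U a) * V a) := by
    have h3 : CRep (vᴴ * y * v) (fun a => (V a)ᴴ * ((U a)ᴴ * X a * U a) * V a) :=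
      (CRep.mul_left hV.star hY).mul_right hV
    rwa [← h2] at h3
  rw [sg_eq hY, sg_eq hX, Germ.coe_eq]
  filter_upwards [hX.eq hX'] with a h3
  exact sgn_eq_of_congr (U a) (V a) rfl h3

lemma sg_congr_unit {x : Matrix J J (Asy C ℂ)} (hx : ok x) (u : Matrix J J (Asy C ℂ))
    (hu : IsUnit u) : sg (uᴴ * x * u) = sg x := by
  obtain ⟨w, rfl⟩ := hu
  refine sg_congr hx (w : Matrix J J (Asy C ℂ)) (↑(w⁻¹) : Matrix J J (Asy C ℂ)) rfl ?_
  have e1 : (↑(w⁻¹) : Matrix J J (Asy C ℂ))ᴴ * (w : Matrix J J (Asy C ℂ))ᴴ = 1 := by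
    rw [← Matrix.conjTranspose_mul, Units.mul_inv, Matrix.conjTranspose_one]
  have e2 : (w : Matrix J J (Asy C ℂ)) * (↑(w⁻¹) : Matrix J J (Asy C ℂ)) = 1 := Units.mul_inv w
  calc x = ((↑(w⁻¹) : Matrix J J (Asy C ℂ))ᴴ * (w : Matrix J J (Asy C ℂ))ᴴ) * x *
        ((w : Matrix J J (Asy C ℂ)) * (↑(w⁻¹) : Matrix J J (Asy C ℂ))) := by
        rw [e1, e2, one_mul, mul_one]
    _ = _ := by simp only [Matrix.mul_assoc]

lemma sg_submatrix {x : Matrix J J (Asy C ℂ)} (hx : ok x) (e : J' ≃ J) :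
    sg (x.submatrix e e) = sg x := by
  obtain ⟨X, hX⟩ := hx
  rw [sg_eq hX, sg_eq (hX.submatrix e e)]
  congr 1
  funext a
  exact sgn_submatrix (e.prodCongr (Equiv.refl (B a))) (X a)

lemma germ_torsion_free (l : Filter A) (n : ℕ) (x : Germ l ℤ) (hn : n ≠ 0) (h : n • x = 0) :
    x = 0 := by
  induction x using Germ.inductionOn with
  | _ f =>
    have h1 : ((n • f : A → ℤ) : Germ l ℤ) = ((0 : A → ℤ) : Germ l ℤ) := h
    rw [Germ.coe_eq] at h1
    change (f : Germ l ℤ) = ((0 : A → ℤ) : Germ l ℤ)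
    rw [Germ.coe_eq]
    filter_upwards [h1] with a h2
    have h3 : n • f a = 0 := h2
    rcases smul_eq_zero.1 h3 with h4 | h4
    · exact absurd h4 hn
    · exact h4

/-- the instance of helper555's laws -/
noncomputable def sgLaws (C : Ctl B) : LocF555.SgLaws (Asy C ℂ) (Germ C.l ℤ) where
  ok x := ok x
  sg x := sg x
  ok_sub _ _ h h' := h.sub h'
  ok_mul_left c _ h := h.mul_left c
  ok_mul_right c _ h := h.mul_right c
  ok_blocks _ _ _ _ h1 h2 h3 h4 := h1.fromBlocks h2 h3 h4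
  sg_congr u x hx _ hu := sg_congr_unit hx u hu
  sg_blocks _ _ h1 h2 h3 h4 := sg_fromBlocks h1 h2 h3 h4
  sg_neg _ h _ := sg_neg h
  tf n x hn h := germ_torsion_free C.l n x hn h
  half := algebraMap ℂ _ (1 / 2)
  half_add := by rw [← map_add]; norm_num
  half_star := by
    rw [← algebraMap_star_comm]
    congr 1
    simp
  half_comm a := Algebra.commutes _ a

/-! ### restriction -/

lemma exists_CRep_of_ind {E : ∀ a, B a → Prop} {r : ℝ} (hr : r < 1)
    (hE : ∀ᶠ a in C.l, ∀ s, E a s → C.u C.o a s ≤ r) {x : Matrix J J' (Asy C K)}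
    (h1 : (Matrix.diagonal fun _ => ind E) * x = x)
    (h2 : x * (Matrix.diagonal fun _ => ind E) = x) :
    ∃ X, CRep x X ∧ ∀ a p q, X a p q ≠ 0 → E a p.2 ∧ E a q.2 := by
  classical
  obtain ⟨X, hX⟩ := RepM.exists x
  have hd := RepM.diagonal (C := C) (K := K) (fun (_ : J) a s => if E a s then (1 : K) else 0)
  have hd' := RepM.diagonal (C := C) (K := K) (fun (_ : J') a s => if E a s then (1 : K) else 0)
  have h3 := (hd.mul hX).mul hd'
  have h4 : (Matrix.diagonal fun _ : J => dg C K (fun a s => if E a s then (1 : K) else 0)) * x *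
      (Matrix.diagonal fun _ : J' => dg C K (fun a s => if E a s then (1 : K) else 0)) = x := by
    exact (congrArg (· * (Matrix.diagonal fun _ : J' => (ind E : Asy C K))) h1).trans h2
  rw [h4] at h3
  have h5 : ∀ a p q, ((Matrix.diagonal fun p : J × B a => if E a p.2 then (1 : K) else 0) *
      X a * (Matrix.diagonal fun p : J' × B a => if E a p.2 then (1 : K) else 0)) p q ≠ 0 →
      E a p.2 ∧ E a q.2 := by
    intro a p q h
    rw [Matrix.mul_diagonal, Matrix.diagonal_mul] at h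
    constructor
    · by_contra h'
      exact h (by simp [h'])
    · by_contra h'
      exact h (by simp [h'])
  refine ⟨_, ⟨h3, r, hr, ?_⟩, h5⟩
  filter_upwards [hE] with a h6 p q h7
  have h8 := h5 a p q h7
  exact ⟨h6 _ h8.1, h6 _ h8.2⟩

lemma ok_of_ind {E : ∀ a, B a → Prop} {r : ℝ} (hr : r < 1)
    (hE : ∀ᶠ a in C.l, ∀ s, E a s → C.u C.o a s ≤ r) {x : Matrix J J' (Asy C K)}
    (h1 : (Matrix.diagonal fun _ => ind E) * x = x) : ok x := by
  rw [← h1]
  exact (CRep.diagonal_ind (fun _ => E) hr fun _ => hE).mul_right x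

/-- signature and restriction -/
theorem sg_chg {C' : Ctl B} (h : C.Le C') {E : ∀ a, B a → Prop} {r r' : ℝ} (hr : r < 1)
    (hr' : r' < 1) (hE : ∀ᶠ a in C.l, ∀ s, E a s → C.u C.o a s ≤ r)
    (hE' : ∀ᶠ a in C'.l, ∀ s, E a s → C'.u C'.o a s ≤ r') {x : Matrix J J (Asy C ℂ)}
    (h1 : (Matrix.diagonal fun _ => ind E) * x = x)
    (h2 : x * (Matrix.diagonal fun _ => ind E) = x) (v : A → ℤ)
    (hv : sg x = (v : Germ C.l ℤ)) : sg (x.map (chg ℂ h)) = (v : Germ C'.l ℤ) := by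
  obtain ⟨X, hX, h3⟩ := exists_CRep_of_ind hr hE h1 h2
  have h4 : CRep (x.map (chg ℂ h)) X := by
    refine ⟨hX.rep.chg h, r', hr', ?_⟩
    filter_upwards [hE'] with a h5 p q h6
    have := h3 a p q h6
    exact ⟨h5 _ this.1, h5 _ this.2⟩
  rw [sg_eq h4, Germ.coe_eq]
  rw [sg_eq hX, Germ.coe_eq] at hv
  exact hv.filter_mono h.le

/-! ### path invariance -/

section path

variable {P : Type} [TopologicalSpace P] [PreconnectedSpace P]

theorem rank_eq_trace {ι : Type} [Fintype ι] [DecidableEq ι] {E : Matrix ι ι ℂ}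
    (hE : E * E = E) : (E.rank : ℂ) = E.trace := by
  have h1 : IsIdempotentElem (Matrix.toLin' E) := by
    change Matrix.toLin' E * Matrix.toLin' E = Matrix.toLin' E
    rw [Module.End.mul_eq_comp, ← Matrix.toLin'_mul, hE]
  have h2 := (LinearMap.IsIdempotentElem.isProj_range _ h1).trace
  rw [Matrix.trace_toLin'_eq] at h2
  rw [h2]
  rfl

theorem sgn_path_const {ι : Type} [Fintype ι] [DecidableEq ι] {M N : Matrix ι ι C(P, ℂ)}
    (hM : Mᴴ = M) (h1 : M * N = N * M) (h2 : M * N * M = M) (p q : P) :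
    sgn (M.map fun f => f p) = sgn (M.map fun f => f q) := by
  let ev : P → (C(P, ℂ) →+* ℂ) := fun p => (ContinuousMap.evalStarAlgHom ℂ ℂ p : C(P, ℂ) →+* ℂ)
  have hev : ∀ p (X : Matrix ι ι C(P, ℂ)), X.map (fun f => f p) = X.map (ev p) :=
    fun p X => rfl
  have hmul : ∀ p (X Y : Matrix ι ι C(P, ℂ)), (X * Y).map (fun f => f p) =
      X.map (fun f => f p) * Y.map (fun f => f p) := by
    intro p X Y
    rw [hev, hev, hev, Matrix.map_mul]
  have hc : Continuous fun p => M.map (fun f => f p) := by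
    refine continuous_matrix fun i j => ?_
    exact (M i j).continuous
  have hcE : Continuous fun p => ((M * N).map (fun f => f p)).trace := by
    refine Continuous.matrix_trace ?_
    refine continuous_matrix fun i j => ?_
    exact ((M * N) i j).continuous
  have hherm : ∀ p, (M.map (fun f => f p)).IsHermitian := by
    intro p
    ext i j
    rw [Matrix.conjTranspose_apply, Matrix.map_apply, Matrix.map_apply]
    have := congrFun (congrFun hM i) j
    rw [Matrix.conjTranspose_apply] at this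
    rw [← this]
    rfl
  have hidem : (M * N) * (M * N) = M * N := by
    calc (M * N) * (M * N) = (M * N * M) * N := by simp only [Matrix.mul_assoc]
      _ = M * N := by rw [h2]
  have hrk : ∀ p, (((M.map (fun f => f p)).rank : ℕ) : ℂ) =
      ((M * N).map (fun f => f p)).trace := by
    intro p
    have e1 : ((M * N).map (fun f => f p)) * ((M * N).map (fun f => f p)) =
        (M * N).map (fun f => f p) := by rw [← hmul, hidem]
    rw [← rank_eq_trace e1]
    congr 1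
    apply le_antisymm
    · have : M.map (fun f => f p) = ((M * N).map (fun f => f p)) * M.map (fun f => f p) := by
        rw [← hmul, h2]
      rw [this]
      exact Matrix.rank_mul_le_left _ _
    · rw [hmul]
      exact Matrix.rank_mul_le_left _ _
  have hconst : ∀ x y : P, (M.map (fun f => f x)).rank = (M.map (fun f => f y)).rank := by
    have hl : IsLocallyConstant fun p => (M.map (fun f => f p)).rank := by
      rw [IsLocallyConstant.iff_continuous, Nat.isClosedEmbedding_coe_real.isEmbedding.continuous_iff]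
      have : (fun p => (((M.map (fun f => f p)).rank : ℕ) : ℝ)) =
          fun p => (((M * N).map (fun f => f p)).trace).re := by
        funext p
        rw [← hrk p]
        simp
      change Continuous fun p => (((M.map (fun f => f p)).rank : ℕ) : ℝ)
      rw [this]
      exact Complex.continuous_re.comp hcE
    exact fun x y => hl.apply_eq_of_preconnectedSpace x y
  exact sgn_const hc hherm hconst p q

/-- evaluation of coefficients -/
noncomputable def ev (C : Ctl B) (p : P) : Asy C C(P, ℂ) →⋆ₐ[ℂ] Asy C ℂ :=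
  coef C (ContinuousMap.evalStarAlgHom ℂ ℂ p)

/-- **path invariance** -/
theorem sg_path {x y : Matrix J J (Asy C C(P, ℂ))} (hx : ok x) (hy : ok y) (h0 : xᴴ = x)
    (h1 : x * y = y * x) (h2 : x * y * x = x) (p q : P) :
    sg (x.map (ev C p)) = sg (x.map (ev C q)) := by
  obtain ⟨X, hX⟩ := hx
  obtain ⟨Y, hY⟩ := hy
  have e0 : ∀ᶠ a in C.l, (X a)ᴴ = X a := by
    have := hX.star
    rw [h0] at this
    exact this.eq hX
  have e1 : ∀ᶠ a in C.l, X a * Y a = Y a * X a := by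
    have h3 := CRep.mul_left hX.rep hY
    have h4 := CRep.mul_left hY.rep hX
    rw [h1] at h3
    exact h3.eq h4
  have e2 : ∀ᶠ a in C.l, X a * Y a * X a = X a := by
    have h3 := CRep.mul_left (hX.rep.mul hY.rep) hX
    rw [h2] at h3
    exact h3.eq hX
  rw [ev, ev, sg_eq (hX.coef _), sg_eq (hX.coef _), Germ.coe_eq]
  filter_upwards [e0, e1, e2] with a e0 e1 e2
  exact sgn_path_const e0 e1 e2 p q

end path

end Crest.Agent.R217.Asym476
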