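import Mathlib
import Crest.Agent.R217.Carrier_834

/-!
# Row 217 (S0336), piece C2: acyclic carriers, sup-norm balls

Centers `c : Cell n → (Fin n → ℝ)` (grid units), radii growing with the dimension of the cell.
-/

set_option autoImplicit false
set_option linter.dupNamespace false

namespace Crest.Agent.R217.Carrier834

open Finsupp

variable {R : Type*} [CommRing R] {n : ℕ}

/-- the closed cell `s` lies in the sup-norm ball -/
def InBall (c : Fin n → ℝ) (r : ℝ) (s : Cell n) : Prop :=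
  ∀ i, c i - r ≤ ((s i).1 : ℝ) ∧ ((s i).1 : ℝ) + (if (s i).2 then 1 else 0) ≤ c i + r

/-- chains in the sup-norm ball -/
def Bl (R : Type*) [CommRing R] (c : Fin n → ℝ) (r : ℝ) : Submodule R (Ch R n) :=
  Finsupp.supported R R {s | InBall c r s}

theorem mem_Bl {c : Fin n → ℝ} {r : ℝ} {x : Ch R n} :
    x ∈ Bl R c r ↔ ∀ s ∈ x.support, InBall c r s :=
  Finsupp.mem_supported R x

theorem inBall_iff {c : Fin n → ℝ} {r : ℝ} {s : Cell n} :
    InBall c r s ↔ InBox (fun i => ⌈c i - r⌉) (fun i => ⌊c i + r⌋) s := by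
  unfold InBall InBox
  refine forall_congr' fun i => and_congr Int.ceil_le.symm ?_
  rw [Int.le_floor]
  by_cases hb : (s i).2 = true <;> simp [hb]

theorem Bl_eq (c : Fin n → ℝ) (r : ℝ) :
    Bl R c r = Bx R (fun i => ⌈c i - r⌉) (fun i => ⌊c i + r⌋) := by
  unfold Bl Bx
  congr 1
  ext s
  exact inBall_iff

theorem InBall.mono {c c' : Fin n → ℝ} {r r' : ℝ} (h : ∀ i, |c i - c' i| + r ≤ r') {s : Cell n}
    (hs : InBall c r s) : InBall c' r' s := by
  intro i
  have h1 := h i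
  have h2 := hs i
  have h3 := abs_le.1 (le_refl |c i - c' i|)
  constructor <;> linarith

theorem Bl_mono {c c' : Fin n → ℝ} {r r' : ℝ} (h : ∀ i, |c i - c' i| + r ≤ r') :
    Bl R c r ≤ Bl R c' r' := by
  apply Finsupp.supported_mono
  intro s hs
  exact hs.mono h

theorem Bl_mono' {c : Fin n → ℝ} {r r' : ℝ} (h : r ≤ r') : Bl R c r ≤ Bl R c r' :=
  Bl_mono fun i => by simpa using h

/-- composition of supports -/
theorem map_mem_Bl {φ : Ch R n →ₗ[R] Ch R n} {c : Fin n → ℝ} {r : ℝ} {x : Ch R n}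
    (h : ∀ s ∈ x.support, φ (single s 1) ∈ Bl R c r) : φ x ∈ Bl R c r := by
  rw [map_eq_sum φ]
  exact lc_mem _ _ _ h

theorem map_mem_Dg {φ : Ch R n →ₗ[R] Ch R n} {k l : ℕ} {x : Ch R n} (hx : x ∈ Dg R n k)
    (h : ∀ s ∈ x.support, φ (single s 1) ∈ Dg R n (dim s + l)) : φ x ∈ Dg R n (k + l) := by
  rw [map_eq_sum φ]
  refine lc_mem _ _ _ fun s hs => ?_
  have := h s hs
  rwa [show dim s = k from (Finsupp.mem_supported R x).1 hx hs] at this

theorem ceil_le_floor {x r : ℝ} (hr : 1 / 2 ≤ r) : ⌈x - r⌉ ≤ ⌊x + r⌋ := by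
  have h1 : ⌈x - r⌉ ≤ round x := by
    rw [Int.ceil_le]
    have := abs_le.1 (abs_sub_round x)
    linarith
  have h2 : round x ≤ ⌊x + r⌋ := by
    rw [Int.le_floor]
    have := abs_le.1 (abs_sub_round x)
    linarith
  exact h1.trans h2

theorem ball_carrier {KK : Set (Cell n)} {c : Cell n → Fin n → ℝ} {ρ R0 : ℝ}
    (hc : ∀ s ∈ KK, ∀ t, IsFace t s → ∀ i, |c t i - c s i| ≤ ρ) :
    ∀ s ∈ KK, ∀ t, IsFace t s →
      (∀ i, ⌈c s i - (R0 + dim s * ρ)⌉ ≤ ⌈c t i - (R0 + dim t * ρ)⌉) ∧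
      (∀ i, ⌊c t i + (R0 + dim t * ρ)⌋ ≤ ⌊c s i + (R0 + dim s * ρ)⌋) := by
  intro s hs t ht
  have h1 := hc s hs t ht
  have h2 : (dim s : ℝ) = dim t + 1 := by exact_mod_cast (dim_face ht).symm
  rw [h2]
  refine ⟨fun i => Int.ceil_le_ceil ?_, fun i => Int.floor_le_floor ?_⟩
  · have := abs_le.1 (h1 i); linarith
  · have := abs_le.1 (h1 i); linarith

/-- **existence of a carried chain map**, balls -/
theorem exists_map_ball (KK : Set (Cell n)) (hface : ∀ s ∈ KK, ∀ t, IsFace t s → t ∈ KK)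
    (c : Cell n → Fin n → ℝ) {ρ : ℝ} (hρ : 0 ≤ ρ)
    (hc : ∀ s ∈ KK, ∀ t, IsFace t s → ∀ i, |c t i - c s i| ≤ ρ) :
    ∃ φ : Ch R n →ₗ[R] Ch R n, (∀ s ∈ KK, dim s = 0 → aug R n (φ (single s 1)) = 1) ∧
      ∀ s ∈ KK, φ (single s 1) ∈ Dg R n (dim s) ∧ φ (single s 1) ∈ Bl R (c s) (1 + dim s * ρ) ∧
        d R n (φ (single s 1)) = φ (bd R n s) := by
  have hr : ∀ s : Cell n, (1 : ℝ) ≤ 1 + dim s * ρ := fun s => by
    have : (0 : ℝ) ≤ dim s * ρ := by positivity
    linarith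
  obtain ⟨φ, h1, h2⟩ := exists_map (R := R) KK (fun s i => ⌈c s i - (1 + dim s * ρ)⌉)
    (fun s i => ⌊c s i + (1 + dim s * ρ)⌋) hface
    (fun s _ i => ceil_le_floor (by have := hr s; linarith))
    (ball_carrier hc) (fun s => single (vx (fun i => round (c s i))) 1)
    (fun s hs h0 => by
      refine ⟨?_, ?_, ?_⟩
      · have := single_mem_Dg (vx (fun i => round (c s i))) (1 : R)
        rwa [dim_vx] at this
      · rw [← Bl_eq (c s) (1 + dim s * ρ)]
        refine Finsupp.single_mem_supported R _ ?_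
        intro i
        have h3 := abs_le.1 (abs_sub_round (c s i))
        have h4 := hr s
        simp only [vx]
        constructor
        · linarith
        · simp; linarith
      · rw [aug_single, dim_vx, if_pos rfl])
  refine ⟨φ, fun s hs h0 => ?_, fun s hs => ?_⟩
  · rw [h1 s h0, aug_single, dim_vx, if_pos rfl]
  · rw [Bl_eq]
    exact h2 s hs

/-- **homotopy lemma**, balls -/
theorem exists_homotopy_ball (KK : Set (Cell n)) (hface : ∀ s ∈ KK, ∀ t, IsFace t s → t ∈ KK)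
    (c : Cell n → Fin n → ℝ) {ρ R0 : ℝ} (hρ : 0 ≤ ρ) (hR0 : 1 / 2 ≤ R0)
    (hc : ∀ s ∈ KK, ∀ t, IsFace t s → ∀ i, |c t i - c s i| ≤ ρ)
    (F : Ch R n →ₗ[R] Ch R n)
    (hF : ∀ s ∈ KK, F (single s 1) ∈ Dg R n (dim s) ∧ F (single s 1) ∈ Bl R (c s) R0 ∧
        d R n (F (single s 1)) = F (bd R n s))
    (hF0 : ∀ s ∈ KK, dim s = 0 → aug R n (F (single s 1)) = 0) :
    ∃ h : Ch R n →ₗ[R] Ch R n, ∀ s ∈ KK, h (single s 1) ∈ Dg R n (dim s + 1) ∧
      h (single s 1) ∈ Bl R (c s) (R0 + dim s * ρ) ∧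
        d R n (h (single s 1)) + h (bd R n s) = F (single s 1) := by
  have hr : ∀ s : Cell n, R0 ≤ R0 + dim s * ρ := fun s => by
    have : (0 : ℝ) ≤ dim s * ρ := by positivity
    linarith
  obtain ⟨h, hh⟩ := exists_homotopy (R := R) KK (fun s i => ⌈c s i - (R0 + dim s * ρ)⌉)
    (fun s i => ⌊c s i + (R0 + dim s * ρ)⌋) hface
    (fun s _ i => ceil_le_floor (by have := hr s; linarith))
    (ball_carrier hc) F
    (fun s hs => by
      obtain ⟨h1, h2, h3⟩ := hF s hs
      refine ⟨h1, ?_, h3⟩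
      rw [← Bl_eq (c s) (R0 + dim s * ρ)]
      exact Bl_mono' (hr s) h2) hF0
  refine ⟨h, fun s hs => ?_⟩
  rw [Bl_eq]
  exact hh s hs

/-- two carried chain maps with the same augmentation are carried homotopic -/
theorem exists_homotopy_ball₂ (KK : Set (Cell n)) (hface : ∀ s ∈ KK, ∀ t, IsFace t s → t ∈ KK)
    (c : Cell n → Fin n → ℝ) {ρ R0 : ℝ} (hρ : 0 ≤ ρ) (hR0 : 1 / 2 ≤ R0)
    (hc : ∀ s ∈ KK, ∀ t, IsFace t s → ∀ i, |c t i - c s i| ≤ ρ)
    (F G : Ch R n →ₗ[R] Ch R n)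
    (hF : ∀ s ∈ KK, F (single s 1) ∈ Dg R n (dim s) ∧ F (single s 1) ∈ Bl R (c s) R0 ∧
        d R n (F (single s 1)) = F (bd R n s))
    (hG : ∀ s ∈ KK, G (single s 1) ∈ Dg R n (dim s) ∧ G (single s 1) ∈ Bl R (c s) R0 ∧
        d R n (G (single s 1)) = G (bd R n s))
    (h0 : ∀ s ∈ KK, dim s = 0 → aug R n (F (single s 1)) = aug R n (G (single s 1))) :
    ∃ h : Ch R n →ₗ[R] Ch R n, ∀ s ∈ KK, h (single s 1) ∈ Dg R n (dim s + 1) ∧
      h (single s 1) ∈ Bl R (c s) (R0 + dim s * ρ) ∧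
        d R n (h (single s 1)) + h (bd R n s) = F (single s 1) - G (single s 1) := by
  obtain ⟨h, hh⟩ := exists_homotopy_ball KK hface c hρ hR0 hc (F - G)
    (fun s hs => by
      obtain ⟨h1, h2, h3⟩ := hF s hs
      obtain ⟨h4, h5, h6⟩ := hG s hs
      simp only [LinearMap.sub_apply]
      exact ⟨sub_mem h1 h4, sub_mem h2 h5, by rw [map_sub, h3, h6]⟩)
    (fun s hs hd => by
      simp only [LinearMap.sub_apply]
      rw [map_sub, h0 s hs hd, sub_self])
  exact ⟨h, fun s hs => by simpa only [LinearMap.sub_apply] using hh s hs⟩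

/-- the centre of a cell -/
noncomputable def pos (s : Cell n) : Fin n → ℝ :=
  fun i => ((s i).1 : ℝ) + (if (s i).2 then 1 / 2 else 0)

theorem inBall_pos (s : Cell n) : InBall (pos s) (1 / 2) s := by
  intro i
  unfold pos
  split_ifs <;> constructor <;> linarith

theorem pos_face {s t : Cell n} (h : IsFace t s) (i : Fin n) : |pos t i - pos s i| ≤ 1 / 2 := by
  obtain ⟨j, hj, h⟩ := h
  by_cases hij : i = j
  · subst hij
    unfold pos
    rw [hj, if_pos rfl]
    rcases h with rfl | rfl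
    · simp only [Function.update_self]
      rw [abs_le]
      constructor <;> simp
    · simp only [Function.update_self]
      rw [abs_le]
      push_cast
      constructor <;> simp <;> linarith
  · have : pos t i = pos s i := by
      unfold pos
      rcases h with rfl | rfl
      · rw [Function.update_of_ne hij]
      · rw [Function.update_of_ne hij]
    rw [this, sub_self, abs_zero]
    norm_num

/-- **near-diagonal chain maps** of constant augmentation `κ` are homotopic to `κ` -/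
theorem exists_homotopy_near (KK : Set (Cell n)) (hface : ∀ s ∈ KK, ∀ t, IsFace t s → t ∈ KK)
    {R0 : ℝ} (hR0 : 1 / 2 ≤ R0) (κ : R)
    (F : Ch R n →ₗ[R] Ch R n)
    (hF : ∀ s ∈ KK, F (single s 1) ∈ Dg R n (dim s) ∧ F (single s 1) ∈ Bl R (pos s) R0 ∧
        d R n (F (single s 1)) = F (bd R n s))
    (hF0 : ∀ s ∈ KK, dim s = 0 → aug R n (F (single s 1)) = κ) :
    ∃ h : Ch R n →ₗ[R] Ch R n, ∀ s ∈ KK, h (single s 1) ∈ Dg R n (dim s + 1) ∧
      h (single s 1) ∈ Bl R (pos s) (R0 + dim s * (1 / 2)) ∧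
        d R n (h (single s 1)) + h (bd R n s) = F (single s 1) - single s κ := by
  obtain ⟨h, hh⟩ := exists_homotopy_ball₂ KK hface pos (by norm_num) hR0
    (fun s _ t ht i => pos_face ht i) F (κ • LinearMap.id) hF
    (fun s hs => by
      simp only [LinearMap.smul_apply, LinearMap.id_apply, smul_single, smul_eq_mul, mul_one]
      refine ⟨single_mem_Dg s κ, ?_, ?_⟩
      · refine Bl_mono' hR0 ?_
        exact Finsupp.single_mem_supported R _ (inBall_pos s)
      · rw [d_single])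
    (fun s hs hd => by
      rw [hF0 s hs hd]
      simp [aug_single, hd])
  refine ⟨h, fun s hs => ?_⟩
  have := hh s hs
  simpa only [LinearMap.smul_apply, LinearMap.id_apply, smul_single, smul_eq_mul, mul_one]
    using this

end Crest.Agent.R217.Carrier834
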