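import Mathlib
import Crest.Agent.R217.CarrierBall_834

/-!
# Row 217 (S0336), piece C2: acyclic carriers, matrix version on the torus index type

`CellZ n N = Fin n → ZMod N × Bool`; everything happens in the non-wrapping window.  The boundary
matrix `dd` is abstract, its only property used is that its columns in the window are the boundaries of
the integral cells.
-/

set_option autoImplicit false
set_option linter.dupNamespace false

namespace Crest.Agent.R217.Carrier834

open Finsupp

/-- cells of the torus grid -/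
abbrev CellZ (n N : ℕ) := Fin n → ZMod N × Bool

variable {n N : ℕ}

/-- the integral representative of a cell -/
def lift (s : CellZ n N) : Cell n := fun i => ((s i).1.valMinAbs, (s i).2)

/-- reduction of an integral cell -/
def proj (N : ℕ) (s : Cell n) : CellZ n N := fun i => (((s i).1 : ZMod N), (s i).2)

/-- the non-wrapping window (integral cells) -/
def Win (N : ℕ) (s : Cell n) : Prop := ∀ i, 2 * |(s i).1| + 4 ≤ (N : ℤ)

section
variable [NeZero N]

omit [NeZero N] in
theorem proj_lift (s : CellZ n N) : proj N (lift s) = s := by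
  funext i
  simp [proj, lift, ZMod.coe_valMinAbs]

omit [NeZero N] in
theorem lift_injective : Function.Injective (lift (n := n) (N := N)) := fun s t h => by
  rw [← proj_lift s, ← proj_lift t, h]

theorem lift_proj {s : Cell n} (h : ∀ i, 2 * |(s i).1| < (N : ℤ)) : lift (proj N s) = s := by
  funext i
  have h1 := h i
  have h2 := abs_lt.1 (show |(s i).1| < |(s i).1| + 1 by omega)
  have h3 := le_abs_self (s i).1
  have h4 := neg_abs_le (s i).1
  have : ((s i).1 : ZMod N).valMinAbs = (s i).1 := by
    rw [ZMod.valMinAbs_spec]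
    exact ⟨rfl, by constructor <;> omega⟩
  simp only [lift, proj, this]

theorem lift_proj_win {s : Cell n} (h : Win N s) : lift (proj N s) = s :=
  lift_proj fun i => by have := h i; omega

/-- sums over chains supported in the range of `lift` -/
theorem lc_lift {M : Type*} [AddCommGroup M] [Module ℂ M] (f : Cell n → M) (x : Ch ℂ n)
    (hx : ∀ v ∈ x.support, ∃ t : CellZ n N, lift t = v) :
    Finsupp.linearCombination ℂ f x = ∑ t : CellZ n N, x (lift t) • f (lift t) := by
  classical
  rw [Finsupp.linearCombination_apply, Finsupp.sum]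
  have e : ∑ t : CellZ n N, x (lift t) • f (lift t) =
      ∑ v ∈ (Finset.univ : Finset (CellZ n N)).image lift, x v • f v := by
    rw [Finset.sum_image]
    intro a _ b _ h
    exact lift_injective h
  rw [e]
  refine Finset.sum_subset ?_ ?_
  · intro v hv
    obtain ⟨t, ht⟩ := hx v hv
    exact Finset.mem_image.2 ⟨t, Finset.mem_univ t, ht⟩
  · intro v _ hv
    rw [Finsupp.notMem_support_iff.1 hv, zero_smul]

theorem map_apply_lift (φ : Ch ℂ n →ₗ[ℂ] Ch ℂ n) (x : Ch ℂ n)
    (hx : ∀ v ∈ x.support, ∃ t : CellZ n N, lift t = v) (w : Cell n) :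
    (φ x) w = ∑ t : CellZ n N, x (lift t) * (φ (single (lift t) 1)) w := by
  rw [map_eq_sum φ, lc_lift _ x hx]
  simp only [Finsupp.finsetSum_apply, Finsupp.smul_apply, smul_eq_mul]

/-- facets stay in the range of `lift` -/
theorem face_range {s : CellZ n N} (hs : Win N (lift s)) {v : Cell n} (hv : IsFace v (lift s)) :
    lift (proj N v) = v := by
  apply lift_proj
  intro i
  obtain ⟨j, hj, hv⟩ := hv
  have h1 := hs i
  have h2 := hs j
  by_cases hij : i = j
  · subst hij
    rcases hv with rfl | rfl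
    · simp only [Function.update_self]; omega
    · simp only [Function.update_self]
      have := abs_add_le (lift s i).1 1
      rw [abs_one] at this
      omega
  · rcases hv with rfl | rfl
    · rw [Function.update_of_ne hij]; omega
    · rw [Function.update_of_ne hij]; omega

omit [NeZero N] in
theorem ball_win {c : Fin n → ℝ} {r : ℝ} (h : ∀ i, |c i| + r + 2 ≤ (N : ℝ) / 2) {v : Cell n}
    (hv : InBall c r v) : Win N v := by
  intro i
  have h1 := h i
  have h2 := hv i
  have h3 : |((v i).1 : ℝ)| ≤ |c i| + r := by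
    have h4 := le_abs_self (c i)
    have h5 := neg_abs_le (c i)
    rw [abs_le]
    have h6 : (0 : ℝ) ≤ (if (v i).2 = true then 1 else 0) := by split_ifs <;> norm_num
    constructor <;> linarith
  have h4 : (2 : ℝ) * |((v i).1 : ℝ)| + 4 ≤ N := by linarith
  exact_mod_cast h4

variable (dd : Matrix (CellZ n N) (CellZ n N) ℂ)

/-- the property of the boundary matrix -/
def IsBd (dd : Matrix (CellZ n N) (CellZ n N) ℂ) : Prop :=
  ∀ s t : CellZ n N, Win N (lift s) → dd t s = (bd ℂ n (lift s)) (lift t)

variable {dd}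

theorem dd_mul_eq (hdd : IsBd dd) (E : Matrix (CellZ n N) (CellZ n N) ℂ) (s : CellZ n N)
    (x : Ch ℂ n) (hx : ∀ v ∈ x.support, Win N v) (hE : ∀ t, E t s = x (lift t)) (t : CellZ n N) :
    (dd * E) t s = (d ℂ n x) (lift t) := by
  rw [map_apply_lift (N := N) (d ℂ n) x (fun v hv => ⟨proj N v, lift_proj_win (hx v hv)⟩),
    Matrix.mul_apply]
  refine Finset.sum_congr rfl fun u _ => ?_
  rw [hE, d_single, one_smul]
  by_cases hu : x (lift u) = 0
  · rw [hu, mul_zero, zero_mul]
  · rw [hdd u t (hx _ (Finsupp.mem_support_iff.2 hu)), mul_comm]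

theorem mul_dd_eq (hdd : IsBd dd) (E : Matrix (CellZ n N) (CellZ n N) ℂ) {s : CellZ n N}
    (hs : Win N (lift s)) (φ : Ch ℂ n →ₗ[ℂ] Ch ℂ n)
    (hE : ∀ u : CellZ n N, IsFace (lift u) (lift s) → ∀ t, E t u = (φ (single (lift u) 1)) (lift t))
    (t : CellZ n N) : (E * dd) t s = (φ (bd ℂ n (lift s))) (lift t) := by
  rw [map_apply_lift (N := N) φ _ (fun v hv => ⟨proj N v, face_range hs (isFace_of_mem_bd hv)⟩),
    Matrix.mul_apply]
  refine Finset.sum_congr rfl fun u _ => ?_
  rw [hdd s u hs]
  by_cases hu : (bd ℂ n (lift s)) (lift u) = 0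
  · rw [hu, mul_zero, zero_mul]
  · rw [hE u (isFace_of_mem_bd (Finsupp.mem_support_iff.2 hu)), mul_comm]

/-- **(MB2)** existence of a carried chain map, matrix form -/
theorem matrix_map (hdd : IsBd dd) (KK : Set (CellZ n N))
    (hface : ∀ s ∈ KK, ∀ t : CellZ n N, IsFace (lift t) (lift s) → t ∈ KK)
    (ctr : CellZ n N → Fin n → ℝ) {ρ : ℝ} (hρ : 0 ≤ ρ)
    (hc : ∀ s ∈ KK, ∀ t : CellZ n N, IsFace (lift t) (lift s) → ∀ i, |ctr t i - ctr s i| ≤ ρ)
    (hw : ∀ s ∈ KK, Win N (lift s))
    (hw' : ∀ s ∈ KK, ∀ i, |ctr s i| + (1 + n * ρ) + 2 ≤ (N : ℝ) / 2) :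
    ∃ η : Matrix (CellZ n N) (CellZ n N) ℂ, (∀ s ∉ KK, ∀ t, η t s = 0) ∧
      ∀ s ∈ KK, (∀ t, η t s ≠ 0 → dim (lift t) = dim (lift s) ∧
          InBall (ctr s) (1 + n * ρ) (lift t)) ∧
        (∀ t, (dd * η) t s = (η * dd) t s) ∧
        (dim (lift s) = 0 → ∑ t, (if dim (lift t) = 0 then η t s else 0) = 1) := by
  classical
  obtain ⟨φ, h1, h2⟩ := exists_map_ball (R := ℂ) (lift '' KK)
    (by
      rintro _ ⟨s, hs, rfl⟩ v hv
      have e := face_range (hw s hs) hv
      exact ⟨proj N v, hface s hs _ (by rw [e]; exact hv), e⟩)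
    (fun v => ctr (proj N v)) hρ
    (by
      rintro _ ⟨s, hs, rfl⟩ v hv i
      have e := face_range (hw s hs) hv
      have := hc s hs (proj N v) (by rw [e]; exact hv) i
      rwa [proj_lift])
  have hsupp : ∀ s ∈ KK, ∀ v ∈ (φ (single (lift s) 1)).support,
      dim v = dim (lift s) ∧ InBall (ctr s) (1 + n * ρ) v := by
    intro s hs v hv
    obtain ⟨h3, h4, -⟩ := h2 _ ⟨s, hs, rfl⟩
    refine ⟨(Finsupp.mem_supported ℂ _).1 h3 hv, ?_⟩
    have h5 := mem_Bl.1 h4 v hv
    rw [proj_lift] at h5
    refine h5.mono fun i => ?_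
    rw [sub_self, abs_zero, zero_add]
    have h6 : (dim (lift s) : ℝ) ≤ n := by exact_mod_cast dim_le (lift s)
    have := mul_le_mul_of_nonneg_right h6 hρ
    linarith
  refine ⟨Matrix.of fun t s => if s ∈ KK then (φ (single (lift s) 1)) (lift t) else 0,
    fun s hs t => by simp [hs], fun s hs => ⟨fun t ht => ?_, fun t => ?_, fun h0 => ?_⟩⟩
  · simp only [Matrix.of_apply, if_pos hs] at ht
    exact hsupp s hs _ (Finsupp.mem_support_iff.2 ht)
  · have e1 := dd_mul_eq hdd (Matrix.of fun t s => if s ∈ KK then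
      (φ (single (lift s) 1)) (lift t) else 0) s (φ (single (lift s) 1))
      (fun v hv => ball_win (hw' s hs) (hsupp s hs v hv).2) (fun t => by simp [hs]) t
    have e2 := mul_dd_eq hdd (Matrix.of fun t s => if s ∈ KK then
      (φ (single (lift s) 1)) (lift t) else 0) (hw s hs) φ
      (fun u hu t => by simp [hface s hs u hu]) t
    rw [e1, e2, (h2 _ ⟨s, hs, rfl⟩).2.2]
  · have e1 := h1 _ ⟨s, hs, rfl⟩ h0
    unfold aug at e1
    rw [lc_lift (N := N) _ _ (fun v hv => ⟨proj N v, lift_proj_win
      (ball_win (hw' s hs) (hsupp s hs v hv).2)⟩)] at e1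
    refine Eq.trans (Finset.sum_congr rfl fun t _ => ?_) e1
    simp only [Matrix.of_apply, if_pos hs, smul_eq_mul]
    split_ifs <;> simp

/-- **(MB3)** homotopy lemma, matrix form -/
theorem matrix_homotopy (hdd : IsBd dd) (KK : Set (CellZ n N))
    (hface : ∀ s ∈ KK, ∀ t : CellZ n N, IsFace (lift t) (lift s) → t ∈ KK)
    (ctr : CellZ n N → Fin n → ℝ) {ρ R0 : ℝ} (hρ : 0 ≤ ρ) (hR0 : 1 / 2 ≤ R0)
    (hc : ∀ s ∈ KK, ∀ t : CellZ n N, IsFace (lift t) (lift s) → ∀ i, |ctr t i - ctr s i| ≤ ρ)
    (hw : ∀ s ∈ KK, Win N (lift s))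
    (hw' : ∀ s ∈ KK, ∀ i, |ctr s i| + (R0 + n * ρ) + 2 ≤ (N : ℝ) / 2)
    (F : Matrix (CellZ n N) (CellZ n N) ℂ)
    (hF : ∀ s ∈ KK, (∀ t, F t s ≠ 0 → dim (lift t) = dim (lift s) ∧
        InBall (ctr s) R0 (lift t)) ∧ (∀ t, (dd * F) t s = (F * dd) t s) ∧
        (dim (lift s) = 0 → ∑ t, (if dim (lift t) = 0 then F t s else 0) = 0)) :
    ∃ h : Matrix (CellZ n N) (CellZ n N) ℂ, (∀ s ∉ KK, ∀ t, h t s = 0) ∧
      ∀ s ∈ KK, (∀ t, h t s ≠ 0 → dim (lift t) = dim (lift s) + 1 ∧
          InBall (ctr s) (R0 + n * ρ) (lift t)) ∧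
        (∀ t, (dd * h + h * dd) t s = F t s) := by
  classical
  have hnρ : (0 : ℝ) ≤ n * ρ := by positivity
  -- the columns of `F` as chains
  let x : CellZ n N → Ch ℂ n := fun s => ∑ t, single (lift t) (F t s)
  have hx : ∀ s t, x s (lift t) = F t s := by
    intro s t
    simp only [x, Finsupp.finsetSum_apply, Finsupp.single_apply]
    rw [Finset.sum_eq_single t]
    · simp
    · intro u _ hu
      rw [if_neg]
      intro h
      exact hu (lift_injective h)
    · intro hh; exact absurd (Finset.mem_univ t) hh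
  have hxs : ∀ s v, v ∈ (x s).support → ∃ t : CellZ n N, lift t = v ∧ F t s ≠ 0 := by
    intro s v hv
    by_contra hcon
    push Not at hcon
    apply Finsupp.mem_support_iff.1 hv
    simp only [x, Finsupp.finsetSum_apply, Finsupp.single_apply]
    refine Finset.sum_eq_zero fun t _ => ?_
    by_cases ht : lift t = v
    · rw [if_pos ht, hcon t ht]
    · rw [if_neg ht]
  let F' : Ch ℂ n →ₗ[ℂ] Ch ℂ n := Finsupp.linearCombination ℂ (fun v => x (proj N v))
  have hF'1 : ∀ s : CellZ n N, F' (single (lift s) 1) = x s := by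
    intro s
    simp only [F', Finsupp.linearCombination_single, one_smul, proj_lift]
  have hxw : ∀ s ∈ KK, ∀ v ∈ (x s).support, dim v = dim (lift s) ∧ InBall (ctr s) R0 v := by
    intro s hs v hv
    obtain ⟨t, rfl, ht⟩ := hxs s v hv
    exact (hF s hs).1 t ht
  have hxW : ∀ s ∈ KK, ∀ v ∈ (x s).support, Win N v := by
    intro s hs v hv
    refine ball_win (c := ctr s) (r := R0) (fun i => ?_) (hxw s hs v hv).2
    have := hw' s hs i
    linarith
  obtain ⟨h', hh⟩ := exists_homotopy_ball (R := ℂ) (lift '' KK)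
    (by
      rintro _ ⟨s, hs, rfl⟩ v hv
      have e := face_range (hw s hs) hv
      exact ⟨proj N v, hface s hs _ (by rw [e]; exact hv), e⟩)
    (fun v => ctr (proj N v)) hρ hR0
    (by
      rintro _ ⟨s, hs, rfl⟩ v hv i
      have e := face_range (hw s hs) hv
      have := hc s hs (proj N v) (by rw [e]; exact hv) i
      rwa [proj_lift]) F'
    (by
      rintro _ ⟨s, hs, rfl⟩
      rw [hF'1, proj_lift]
      refine ⟨?_, ?_, ?_⟩
      · exact (Finsupp.mem_supported ℂ _).2 fun v hv => (hxw s hs v hv).1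
      · exact mem_Bl.2 fun v hv => (hxw s hs v hv).2
      · -- compare at the points of the range of lift, the rest vanishes
        have hdsup : ∀ v ∈ (d ℂ n (x s)).support, Win N v := by
          intro v hv
          have h1 : x s ∈ Bl ℂ (ctr s) R0 := mem_Bl.2 fun v hv => (hxw s hs v hv).2
          rw [Bl_eq] at h1
          have h2 := d_mem_Bx h1
          rw [← Bl_eq] at h2
          refine ball_win (c := ctr s) (r := R0) (fun i => ?_) (mem_Bl.1 h2 v hv)
          have := hw' s hs i
          linarith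
        have hbsup : ∀ v ∈ (F' (bd ℂ n (lift s))).support, Win N v := by
          intro v hv
          have h1 : F' (bd ℂ n (lift s)) ∈ Finsupp.supported ℂ ℂ {v : Cell n | Win N v} := by
            rw [map_eq_sum F']
            refine lc_mem _ _ _ fun w hw1 => ?_
            have e := face_range (hw s hs) (isFace_of_mem_bd hw1)
            have hw2 : proj N w ∈ KK := hface s hs _ (by rw [e]; exact isFace_of_mem_bd hw1)
            rw [← e, hF'1]
            exact (Finsupp.mem_supported ℂ _).2 fun v hv => hxW _ hw2 v hv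
          exact (Finsupp.mem_supported ℂ _).1 h1 hv
        ext v
        by_cases hv : Win N v
        · have e := lift_proj_win hv
          rw [← e]
          have e1 := dd_mul_eq hdd F s (x s) (hxW s hs) (fun t => (hx s t).symm) (proj N v)
          have e2 := mul_dd_eq hdd F (hw s hs) F'
            (fun u hu t => by rw [hF'1, hx]) (proj N v)
          rw [← e1, ← e2]
          exact (hF s hs).2.1 _
        · rw [Finsupp.notMem_support_iff.1 fun h => hv (hdsup v h),
            Finsupp.notMem_support_iff.1 fun h => hv (hbsup v h)])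
    (by
      rintro _ ⟨s, hs, rfl⟩ h0
      rw [hF'1]
      unfold aug
      rw [lc_lift (N := N) _ _ (fun v hv => ⟨proj N v, lift_proj_win (hxW s hs v hv)⟩)]
      refine Eq.trans (Finset.sum_congr rfl fun t _ => ?_) ((hF s hs).2.2 h0)
      rw [hx]
      simp only [smul_eq_mul]
      split_ifs <;> simp)
  have hsupp : ∀ s ∈ KK, ∀ v ∈ (h' (single (lift s) 1)).support,
      dim v = dim (lift s) + 1 ∧ InBall (ctr s) (R0 + n * ρ) v := by
    intro s hs v hv
    obtain ⟨h3, h4, -⟩ := hh _ ⟨s, hs, rfl⟩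
    refine ⟨(Finsupp.mem_supported ℂ _).1 h3 hv, ?_⟩
    have h5 := mem_Bl.1 h4 v hv
    rw [proj_lift] at h5
    refine h5.mono fun i => ?_
    rw [sub_self, abs_zero, zero_add]
    have h6 : (dim (lift s) : ℝ) ≤ n := by exact_mod_cast dim_le (lift s)
    have := mul_le_mul_of_nonneg_right h6 hρ
    linarith
  refine ⟨Matrix.of fun t s => if s ∈ KK then (h' (single (lift s) 1)) (lift t) else 0,
    fun s hs t => by simp [hs], fun s hs => ⟨fun t ht => ?_, fun t => ?_⟩⟩
  · simp only [Matrix.of_apply, if_pos hs] at ht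
    exact hsupp s hs _ (Finsupp.mem_support_iff.2 ht)
  · have e1 := dd_mul_eq hdd (Matrix.of fun t s => if s ∈ KK then
      (h' (single (lift s) 1)) (lift t) else 0) s (h' (single (lift s) 1))
      (fun v hv => ball_win (hw' s hs) (hsupp s hs v hv).2) (fun t => by simp [hs]) t
    have e2 := mul_dd_eq hdd (Matrix.of fun t s => if s ∈ KK then
      (h' (single (lift s) 1)) (lift t) else 0) (hw s hs) h'
      (fun u hu t => by simp [hface s hs u hu]) t
    rw [Matrix.add_apply, e1, e2, ← Finsupp.add_apply, (hh _ ⟨s, hs, rfl⟩).2.2, hF'1, hx]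

end

/-- **(MB4)** the augmentation of a chain map is constant on the vertices of an integral box -/
theorem matrix_aug [NeZero N] {dd : Matrix (CellZ n N) (CellZ n N) ℂ} (hdd : IsBd dd)
    (haug : ∀ u : CellZ n N, ∑ t, (if dim (lift t) = 0 then dd t u else 0) = 0)
    (lo hi : Fin n → ℤ) (hwin : ∀ i, 2 * |lo i| + 4 ≤ (N : ℤ) ∧ 2 * |hi i| + 4 ≤ (N : ℤ))
    (F : Matrix (CellZ n N) (CellZ n N) ℂ)
    (hF : ∀ e : CellZ n N, InBox lo hi (lift e) → dim (lift e) = 1 →
      ∀ t, (dd * F) t e = (F * dd) t e)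
    {u v : CellZ n N} (hu : InBox lo hi (lift u)) (hu0 : dim (lift u) = 0)
    (hv : InBox lo hi (lift v)) (hv0 : dim (lift v) = 0) :
    ∑ t, (if dim (lift t) = 0 then F t u else 0) = ∑ t, (if dim (lift t) = 0 then F t v else 0) := by
  classical
  let α : Ch ℂ n →ₗ[ℂ] ℂ := Finsupp.linearCombination ℂ
    (fun w => ∑ t, (if dim (lift t) = 0 then F t (proj N w) else 0))
  have hα : ∀ s : CellZ n N, α (single (lift s) 1) =
      ∑ t, (if dim (lift t) = 0 then F t s else 0) := by
    intro s
    simp only [α, Finsupp.linearCombination_single, one_smul, proj_lift]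
  have hW : ∀ e : Cell n, InBox lo hi e → Win N e := by
    intro e he i
    have h1 := he i
    have h2 := hwin i
    have h3 : (0 : ℤ) ≤ (if (e i).2 = true then 1 else 0) := by split_ifs <;> omega
    rcases abs_cases (e i).1 with h4 | h4 <;> rcases abs_cases (lo i) with h5 | h5 <;>
      rcases abs_cases (hi i) with h6 | h6 <;> omega
  have hvx : ∀ s : CellZ n N, dim (lift s) = 0 → lift s = vx (fun i => (lift s i).1) := by
    intro s h0
    funext i
    have : (lift s i).2 = false := by
      by_contra hcon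
      have h1 : (1 : ℕ) ≤ dim (lift s) := by
        unfold dim
        calc (1 : ℕ) = if (lift s i).2 = true then 1 else 0 := by simp [hcon]
          _ ≤ _ := Finset.single_le_sum (f := fun i => if (lift s i).2 = true then 1 else 0)
            (fun _ _ => Nat.zero_le _) (Finset.mem_univ i)
      omega
    exact Prod.ext rfl this
  have key : ∀ e, InBox lo hi e → dim e = 1 → α (bd ℂ n e) = 0 := by
    intro e he hd
    obtain ⟨E, rfl⟩ : ∃ E : CellZ n N, lift E = e := ⟨_, lift_proj_win (hW e he)⟩
    have hwe : Win N (lift E) := hW _ he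
    have h1 : α (bd ℂ n (lift E)) = ∑ u : CellZ n N, dd u E *
        ∑ t, (if dim (lift t) = 0 then F t u else 0) := by
      change Finsupp.linearCombination ℂ _ (bd ℂ n (lift E)) = _
      rw [lc_lift (N := N) _ _ (fun v hv => ⟨proj N v, face_range hwe
        (isFace_of_mem_bd hv)⟩)]
      refine Finset.sum_congr rfl fun u _ => ?_
      rw [smul_eq_mul, proj_lift, hdd E u hwe]
    rw [h1]
    have h2 : ∀ t, (F * dd) t E = ∑ u, F t u * dd u E := fun t => Matrix.mul_apply
    have h3 : ∑ u : CellZ n N, dd u E * ∑ t, (if dim (lift t) = 0 then F t u else 0) =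
        ∑ t, (if dim (lift t) = 0 then (F * dd) t E else 0) := by
      simp only [h2, Finset.mul_sum]
      rw [Finset.sum_comm]
      refine Finset.sum_congr rfl fun t _ => ?_
      split_ifs
      · exact Finset.sum_congr rfl fun u _ => mul_comm _ _
      · simp
    rw [h3]
    have h4 : ∀ t, (F * dd) t E = (dd * F) t E := fun t => (hF E he hd t).symm
    simp only [h4, Matrix.mul_apply]
    have h5 : ∑ t : CellZ n N, (if dim (lift t) = 0 then ∑ u, dd t u * F u E else 0) =
        ∑ u, (∑ t, (if dim (lift t) = 0 then dd t u else 0)) * F u E := by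
      simp only [Finset.sum_mul]
      rw [Finset.sum_comm]
      refine Finset.sum_congr rfl fun t _ => ?_
      split_ifs
      · rfl
      · simp
    rw [h5]
    exact Finset.sum_eq_zero fun u _ => by rw [haug, zero_mul]
  have e1 := hvx u hu0
  have e2 := hvx v hv0
  have := const_box (α := α) key (a := fun i => (lift u i).1) (b := fun i => (lift v i).1)
    (by rw [← e1]; exact hu) (by rw [← e2]; exact hv)
  rw [← e1, ← e2, hα, hα] at this
  exact this

end Crest.Agent.R217.Carrier834
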