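import Mathlib

/-! Row 217: the cubical grid complex on a finite torus index type, with an exact strictly
self-dual structure.  Everything is an explicit tensor product of 1-dimensional matrices. -/

set_option autoImplicit false
set_option linter.unusedSectionVars false

open Matrix Finset
open scoped BigOperators

namespace Crest.Agent.R217.Grid897

noncomputable section

/-! ### tensor products of matrices -/

section Tens

variable {n : ℕ} {I : Type*} [Fintype I] [DecidableEq I]

/-- tensor product of `n` matrices -/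
def tens (a : Fin n → Matrix I I ℂ) : Matrix (Fin n → I) (Fin n → I) ℂ :=
  Matrix.of fun x y => ∏ k, a k (x k) (y k)

theorem tens_apply (a : Fin n → Matrix I I ℂ) (x y : Fin n → I) :
    tens a x y = ∏ k, a k (x k) (y k) := rfl

theorem tens_mul (a b : Fin n → Matrix I I ℂ) :
    tens a * tens b = tens (fun k => a k * b k) := by
  ext x y
  simp only [Matrix.mul_apply, tens_apply]
  rw [Finset.prod_univ_sum]
  simp [Finset.prod_mul_distrib, Fintype.piFinset_univ]

theorem tens_one : tens (fun _ : Fin n => (1 : Matrix I I ℂ)) = 1 := by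
  ext x y
  rw [tens_apply]
  by_cases h : x = y
  · subst h; simp
  · rw [Matrix.one_apply_ne h]
    obtain ⟨k, hk⟩ := Function.ne_iff.mp h
    exact Finset.prod_eq_zero (Finset.mem_univ k) (Matrix.one_apply_ne hk)

theorem star_tens (a : Fin n → Matrix I I ℂ) :
    star (tens a) = tens (fun k => star (a k)) := by
  ext x y
  simp only [Matrix.star_apply, tens_apply, star_prod]

theorem tens_smul (c : Fin n → ℂ) (a : Fin n → Matrix I I ℂ) :
    tens (fun k => c k • a k) = (∏ k, c k) • tens a := by
  ext x y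
  simp only [tens_apply, Matrix.smul_apply, smul_eq_mul, Finset.prod_mul_distrib]

theorem tens_congr {a b : Fin n → Matrix I I ℂ} (h : ∀ k, a k = b k) : tens a = tens b := by
  rw [funext h]

/-- changing the sign of one factor -/
theorem tens_anti (a b : Fin n → Matrix I I ℂ) (k : Fin n) (hk : b k = -a k)
    (h : ∀ l, l ≠ k → b l = a l) : tens b = -tens a := by
  have : tens b = tens (fun l => (if l = k then (-1 : ℂ) else 1) • a l) := by
    apply tens_congr
    intro l
    by_cases hl : l = k
    · subst hl; simp [hk]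
    · simp [hl, h l hl]
  rw [this, tens_smul]
  simp

/-- additivity in one factor -/
theorem tens_add (a b c : Fin n → Matrix I I ℂ) (k : Fin n) (hk : c k = a k + b k)
    (ha : ∀ l, l ≠ k → a l = c l) (hb : ∀ l, l ≠ k → b l = c l) :
    tens c = tens a + tens b := by
  ext x y
  simp only [tens_apply, Matrix.add_apply]
  rw [← Finset.mul_prod_erase _ _ (Finset.mem_univ k), ← Finset.mul_prod_erase _ _ (Finset.mem_univ k),
    ← Finset.mul_prod_erase _ _ (Finset.mem_univ k), hk]
  have h1 : ∏ l ∈ Finset.univ.erase k, a l (x l) (y l) = ∏ l ∈ Finset.univ.erase k, c l (x l) (y l) :=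
    Finset.prod_congr rfl fun l hl => by rw [ha l (Finset.ne_of_mem_erase hl)]
  have h2 : ∏ l ∈ Finset.univ.erase k, b l (x l) (y l) = ∏ l ∈ Finset.univ.erase k, c l (x l) (y l) :=
    Finset.prod_congr rfl fun l hl => by rw [hb l (Finset.ne_of_mem_erase hl)]
  rw [h1, h2, Matrix.add_apply]
  ring

theorem prod_sign (k : Fin n) (b : ℂ) :
    (∏ l : Fin n, (if l < k then (-1 : ℂ) else if l = k then b else 1)) = (-1) ^ (k : ℕ) * b := by
  have h1 : (∏ l : Fin n, (if l < k then (-1 : ℂ) else if l = k then b else 1)) =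
      (∏ l : Fin n, (if l < k then (-1 : ℂ) else 1)) * ∏ l : Fin n, (if l = k then b else 1) := by
    rw [← Finset.prod_mul_distrib]
    refine Finset.prod_congr rfl fun l _ => ?_
    by_cases h : l < k
    · simp [h, h.ne]
    · simp [h]
  rw [h1, Finset.prod_ite_eq' Finset.univ k (fun _ => b)]
  simp only [Finset.mem_univ, if_true]
  congr 1
  rw [Finset.prod_ite]
  have h2 : (Finset.univ.filter fun l : Fin n => l < k) = Finset.Iio k := by
    ext l; simp
  simp [h2]

end Tens

/-! ### the one-dimensional grid -/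

section One

variable (N : ℕ) [NeZero N]

/-- cells of the circle grid: `(k,false)` = vertex `k`, `(k,true)` = edge `[k,k+1]` -/
abbrev C1 := ZMod N × Bool

/-- grading sign -/
def g1 : Matrix (C1 N) (C1 N) ℂ := Matrix.diagonal fun x => if x.2 then -1 else 1

/-- edge `k` to its lower vertex `k` -/
def jj : Matrix (C1 N) (C1 N) ℂ := Matrix.of fun x y =>
  if x.2 = false ∧ y.2 = true ∧ x.1 = y.1 then 1 else 0

/-- edge `k` to its upper vertex `k+1` -/
def rr : Matrix (C1 N) (C1 N) ℂ := Matrix.of fun x y =>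
  if x.2 = false ∧ y.2 = true ∧ x.1 = y.1 + 1 then 1 else 0

/-- boundary -/
def d1 : Matrix (C1 N) (C1 N) ℂ := rr N - jj N

/-- duality -/
def s1 : Matrix (C1 N) (C1 N) ℂ := (1 / 2 : ℂ) • ((rr N + jj N) + (star (rr N) + star (jj N)))

theorem g1_sq : g1 N * g1 N = 1 := by
  rw [g1, Matrix.diagonal_mul_diagonal, ← Matrix.diagonal_one]
  congr 1
  funext x
  by_cases h : x.2 <;> simp [h]

theorem star_g1 : star (g1 N) = g1 N := by
  rw [g1, Matrix.star_eq_conjTranspose, Matrix.diagonal_conjTranspose]
  congr 1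
  funext x
  by_cases h : x.2 <;> simp [h]

theorem g1_jj : g1 N * jj N = -(jj N * g1 N) := by
  ext ⟨i, a⟩ ⟨j, b⟩
  rw [g1, Matrix.diagonal_mul, Matrix.neg_apply, Matrix.mul_diagonal]
  cases a <;> cases b <;> simp [jj]

theorem g1_rr : g1 N * rr N = -(rr N * g1 N) := by
  ext ⟨i, a⟩ ⟨j, b⟩
  rw [g1, Matrix.diagonal_mul, Matrix.neg_apply, Matrix.mul_diagonal]
  cases a <;> cases b <;> simp [rr]

theorem jj_jj : jj N * jj N = 0 := by
  ext x y
  rw [Matrix.mul_apply]
  refine Finset.sum_eq_zero fun z _ => ?_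
  rcases z with ⟨z, _ | _⟩ <;> simp [jj]

theorem rr_rr : rr N * rr N = 0 := by
  ext x y
  rw [Matrix.mul_apply]
  refine Finset.sum_eq_zero fun z _ => ?_
  rcases z with ⟨z, _ | _⟩ <;> simp [rr]

theorem jj_rr : jj N * rr N = 0 := by
  ext x y
  rw [Matrix.mul_apply]
  refine Finset.sum_eq_zero fun z _ => ?_
  rcases z with ⟨z, _ | _⟩ <;> simp [rr, jj]

theorem rr_jj : rr N * jj N = 0 := by
  ext x y
  rw [Matrix.mul_apply]
  refine Finset.sum_eq_zero fun z _ => ?_
  rcases z with ⟨z, _ | _⟩ <;> simp [rr, jj]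

/-- projection to the vertices -/
def pv : Matrix (C1 N) (C1 N) ℂ := Matrix.diagonal fun x => if x.2 then 0 else 1

/-- projection to the edges -/
def pe : Matrix (C1 N) (C1 N) ℂ := Matrix.diagonal fun x => if x.2 then 1 else 0

theorem pv_add_pe : pv N + pe N = 1 := by
  rw [pv, pe, Matrix.diagonal_add, ← Matrix.diagonal_one]
  congr 1
  funext x
  by_cases h : x.2 <;> simp [h]

theorem jj_star : jj N * star (jj N) = pv N := by
  ext ⟨i, a⟩ ⟨j, b⟩
  rw [Matrix.mul_apply, pv, Matrix.diagonal_apply]
  simp only [Matrix.star_apply, Fintype.sum_prod_type, Fintype.sum_bool]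
  cases a <;> cases b <;> simp [jj]

theorem rr_star : rr N * star (rr N) = pv N := by
  ext ⟨i, a⟩ ⟨j, b⟩
  rw [Matrix.mul_apply, pv, Matrix.diagonal_apply]
  simp only [Matrix.star_apply, Fintype.sum_prod_type, Fintype.sum_bool]
  cases a <;> cases b <;> simp [rr]
  have h : ∀ x : ZMod N, (j = x + 1) ↔ (x = j - 1) := fun x =>
    ⟨fun h => by rw [h]; ring, fun h => by rw [h]; ring⟩
  simp only [h]
  rw [Finset.sum_ite_eq']
  simp

theorem star_jj_jj : star (jj N) * jj N = pe N := by
  ext ⟨i, a⟩ ⟨j, b⟩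
  rw [Matrix.mul_apply, pe, Matrix.diagonal_apply]
  simp only [Matrix.star_apply, Fintype.sum_prod_type, Fintype.sum_bool]
  cases a <;> cases b <;> simp [jj]
  simp only [eq_comm]

theorem star_rr_rr : star (rr N) * rr N = pe N := by
  ext ⟨i, a⟩ ⟨j, b⟩
  rw [Matrix.mul_apply, pe, Matrix.diagonal_apply]
  simp only [Matrix.star_apply, Fintype.sum_prod_type, Fintype.sum_bool]
  cases a <;> cases b <;> simp [rr]
  simp only [eq_comm]

/-- the Laplacian of the circle grid -/
def lap1 : Matrix (C1 N) (C1 N) ℂ := d1 N * star (d1 N) + star (d1 N) * d1 N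

theorem star_jj_sj : star (jj N) * star (jj N) = 0 := by
  rw [← star_mul, jj_jj, star_zero]

theorem star_rr_sr : star (rr N) * star (rr N) = 0 := by
  rw [← star_mul, rr_rr, star_zero]

theorem star_jj_sr : star (jj N) * star (rr N) = 0 := by
  rw [← star_mul, rr_jj, star_zero]

theorem star_rr_sj : star (rr N) * star (jj N) = 0 := by
  rw [← star_mul, jj_rr, star_zero]

theorem d1_sq : d1 N * d1 N = 0 := by
  simp only [d1, mul_sub, sub_mul, jj_jj, rr_rr, jj_rr, rr_jj, sub_zero]

theorem star_s1 : star (s1 N) = s1 N := by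
  simp only [s1, star_smul, star_add, star_star]
  congr 1
  · simp
  · abel

theorem g1_d1 : g1 N * d1 N = -(d1 N * g1 N) := by
  simp only [d1, mul_sub, sub_mul, g1_jj, g1_rr]
  abel

theorem star_jj_g1 : g1 N * star (jj N) = -(star (jj N) * g1 N) := by
  have := congrArg star (g1_jj N)
  rw [star_mul, star_neg, star_mul, star_g1] at this
  rw [this, neg_neg]

theorem star_rr_g1 : g1 N * star (rr N) = -(star (rr N) * g1 N) := by
  have := congrArg star (g1_rr N)
  rw [star_mul, star_neg, star_mul, star_g1] at this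
  rw [this, neg_neg]

theorem g1_s1 : g1 N * s1 N = -(s1 N * g1 N) := by
  simp only [s1, Matrix.mul_smul, Matrix.smul_mul, mul_add, add_mul, g1_jj, g1_rr, star_jj_g1,
    star_rr_g1]
  rw [← smul_neg]
  congr 1
  abel

theorem d1_s1 : d1 N * s1 N + s1 N * star (d1 N) = 0 := by
  simp only [d1, s1, star_sub, Matrix.mul_smul, Matrix.smul_mul, mul_add, add_mul, mul_sub,
    sub_mul, jj_jj, rr_rr, jj_rr, rr_jj, star_jj_sj, star_rr_sr, star_jj_sr, star_rr_sj,
    jj_star, rr_star]
  module

theorem s1_d1 : s1 N * d1 N + star (d1 N) * s1 N = 0 := by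
  simp only [d1, s1, star_sub, Matrix.mul_smul, Matrix.smul_mul, mul_add, add_mul, mul_sub,
    sub_mul, jj_jj, rr_rr, jj_rr, rr_jj, star_jj_sj, star_rr_sr, star_jj_sr, star_rr_sj,
    star_jj_jj, star_rr_rr]
  module

theorem s1_sq : s1 N * s1 N = 1 - (1 / 4 : ℂ) • lap1 N := by
  have h : (1 : Matrix (C1 N) (C1 N) ℂ) = pv N + pe N := (pv_add_pe N).symm
  rw [h]
  simp only [lap1, d1, s1, star_sub, Matrix.mul_smul, Matrix.smul_mul, mul_add, add_mul, mul_sub,
    sub_mul, jj_jj, rr_rr, jj_rr, rr_jj, star_jj_sj, star_rr_sr, star_jj_sr, star_rr_sj,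
    jj_star, rr_star, star_jj_jj, star_rr_rr, smul_smul, smul_add, smul_sub]
  module

theorem d1_lap1 : d1 N * lap1 N = lap1 N * d1 N := by
  simp only [lap1, mul_add, add_mul]
  rw [← mul_assoc, d1_sq, zero_mul, zero_add, mul_assoc (star (d1 N)), d1_sq, mul_zero, add_zero,
    mul_assoc]

theorem g1_lap1 : g1 N * lap1 N = lap1 N * g1 N := by
  have h2 : g1 N * star (d1 N) = -(star (d1 N) * g1 N) := by
    have := congrArg star (g1_d1 N)
    rw [star_mul, star_neg, star_mul, star_g1] at this
    rw [this, neg_neg]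
  simp only [lap1, mul_add, add_mul]
  rw [← mul_assoc, g1_d1, neg_mul, mul_assoc, h2, mul_neg, neg_neg, ← mul_assoc (g1 N), h2,
    neg_mul, mul_assoc (star (d1 N)), g1_d1, mul_neg, neg_neg, mul_assoc, mul_assoc]

theorem star_lap1 : star (lap1 N) = lap1 N := by
  simp only [lap1, star_add, star_mul, star_star]

end One

/-! ### the n-dimensional grid -/

section Grid

open Complex (I)

variable (n N : ℕ) [NeZero N]

/-- cells of the torus grid -/
abbrev Cell := Fin n → C1 N

theorem star_d1_g1 : g1 N * star (d1 N) = -(star (d1 N) * g1 N) := by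
  have := congrArg star (g1_d1 N)
  rw [star_mul, star_neg, star_mul, star_g1] at this
  rw [this, neg_neg]

theorem g1_pow_comm (x : Matrix (C1 N) (C1 N) ℂ) (h : g1 N * x = -(x * g1 N)) (l : ℕ) :
    g1 N ^ l * x = (-1 : ℂ) ^ l • (x * g1 N ^ l) := by
  induction l with
  | zero => simp
  | succ l ih =>
    rw [pow_succ, mul_assoc, h, mul_neg, ← mul_assoc, ih, pow_succ, Matrix.smul_mul, mul_assoc x,
      ← neg_smul, mul_neg_one]

theorem g1_pow_sq (l : ℕ) : g1 N ^ l * g1 N ^ l = 1 := by
  rw [← pow_add, ← two_mul, pow_mul, pow_two, g1_sq, one_pow]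

/-- the grading sign -/
def gam : Matrix (Cell n N) (Cell n N) ℂ := tens fun _ => g1 N

/-- factors of the k-th partial boundary -/
def uu (k : Fin n) : Fin n → Matrix (C1 N) (C1 N) ℂ :=
  fun l => if l < k then g1 N else if l = k then d1 N else 1

/-- k-th partial boundary -/
def dk (k : Fin n) : Matrix (Cell n N) (Cell n N) ℂ := tens (uu n N k)

/-- boundary of the torus grid -/
def dd : Matrix (Cell n N) (Cell n N) ℂ := ∑ k, dk n N k

/-- factors of the duality -/
def ff (l : Fin n) : Matrix (C1 N) (C1 N) ℂ := (I ^ (l : ℕ)) • (s1 N * g1 N ^ (l : ℕ))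

/-- duality -/
def SS : Matrix (Cell n N) (Cell n N) ℂ := tens (ff n N)

/-- partial products of the squares -/
def qq (k : ℕ) : Matrix (Cell n N) (Cell n N) ℂ :=
  tens fun l => if (l : ℕ) < k then s1 N * s1 N else 1

/-- homotopy `S² ~ 1` -/
def HH : Matrix (Cell n N) (Cell n N) ℂ :=
  (-(1 / 4) : ℂ) • ∑ k : Fin n, star (dk n N k) * qq n N k

theorem star_g1_pow (l : ℕ) : star (g1 N ^ l) = g1 N ^ l := by
  rw [star_pow, star_g1]

theorem star_ff (l : Fin n) : star (ff n N l) = ff n N l := by
  rw [ff, star_smul, star_mul, star_g1_pow, star_s1, g1_pow_comm N _ (g1_s1 N), smul_smul]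
  congr 1
  rw [star_pow]
  simp only [RCLike.star_def, Complex.conj_I]
  rw [← mul_pow]
  congr 1
  simp

theorem ff_sq (l : Fin n) : ff n N l * ff n N l = s1 N * s1 N := by
  rw [ff, Matrix.smul_mul, Matrix.mul_smul, smul_smul, mul_assoc, ← mul_assoc (g1 N ^ (l : ℕ)),
    g1_pow_comm N _ (g1_s1 N), Matrix.smul_mul, Matrix.mul_smul, mul_assoc (s1 N) (g1 N ^ (l : ℕ)),
    g1_pow_sq, mul_one, smul_smul]
  convert one_smul ℂ _
  rw [← mul_pow, ← mul_pow]
  simp

theorem g1_ff (l : Fin n) : g1 N * ff n N l = -(ff n N l * g1 N) := by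
  rw [ff, Matrix.mul_smul, Matrix.smul_mul, ← smul_neg]
  congr 1
  rw [← mul_assoc, g1_s1, neg_mul, mul_assoc, mul_assoc, ← pow_succ, ← pow_succ']

theorem ff_d1 (l : Fin n) :
    ff n N l * star (d1 N) = (-(-1 : ℂ) ^ (l : ℕ)) • (d1 N * ff n N l) := by
  have h := d1_s1 N
  have h' : s1 N * star (d1 N) = -(d1 N * s1 N) := eq_neg_of_add_eq_zero_right h
  rw [ff, Matrix.smul_mul, mul_assoc, g1_pow_comm N _ (star_d1_g1 N), Matrix.mul_smul,
    ← mul_assoc, h', Matrix.mul_smul, neg_mul, mul_assoc]
  module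

theorem ff_d1' (l : Fin n) :
    ff n N l * d1 N = (-(-1 : ℂ) ^ (l : ℕ)) • (star (d1 N) * ff n N l) := by
  have h := s1_d1 N
  have h' : s1 N * d1 N = -(star (d1 N) * s1 N) := eq_neg_of_add_eq_zero_left h
  rw [ff, Matrix.smul_mul, mul_assoc, g1_pow_comm N _ (g1_d1 N), Matrix.mul_smul,
    ← mul_assoc, h', Matrix.mul_smul, neg_mul, mul_assoc]
  module

theorem gam_sq : gam n N * gam n N = 1 := by
  rw [gam, tens_mul, ← tens_one]
  exact tens_congr fun k => g1_sq N

theorem star_gam : star (gam n N) = gam n N := by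
  rw [gam, star_tens]
  exact tens_congr fun k => star_g1 N

theorem star_SS : star (SS n N) = SS n N := by
  rw [SS, star_tens]
  exact tens_congr fun k => star_ff n N k

theorem gam_dk (k : Fin n) : gam n N * dk n N k = -(dk n N k * gam n N) := by
  rw [gam, dk, tens_mul, tens_mul]
  apply tens_anti _ _ k
  · simp only [uu, lt_irrefl, if_false, if_true]
    exact g1_d1 N
  · intro l hl
    by_cases h : l < k
    · simp [uu, h]
    · simp [uu, h, hl]

theorem gam_dd : gam n N * dd n N = -(dd n N * gam n N) := by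
  rw [dd, Finset.mul_sum, Finset.sum_mul, ← Finset.sum_neg_distrib]
  exact Finset.sum_congr rfl fun k _ => gam_dk n N k

theorem gam_SS : gam n N * SS n N = (-1 : ℂ) ^ n • (SS n N * gam n N) := by
  rw [gam, SS, tens_mul, tens_mul]
  have : (fun k => g1 N * ff n N k) = fun k => (-1 : ℂ) • (ff n N k * g1 N) := by
    funext k
    rw [g1_ff, neg_one_smul]
  rw [this, tens_smul (fun _ => (-1 : ℂ))]
  simp

theorem dk_dk_self (k : Fin n) : dk n N k * dk n N k = 0 := by
  rw [dk, tens_mul]
  ext x y
  rw [tens_apply]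
  apply Finset.prod_eq_zero (Finset.mem_univ k)
  simp [uu, d1_sq]

theorem dk_dk_lt {k l : Fin n} (h : k < l) : dk n N l * dk n N k = -(dk n N k * dk n N l) := by
  rw [dk, dk, tens_mul, tens_mul]
  apply tens_anti _ _ k
  · simp only [uu, lt_irrefl, if_false, if_true, h]
    exact g1_d1 N
  · intro j hj
    by_cases h1 : j < k
    · simp [uu, h1, h1.trans h]
    · by_cases h2 : j < l
      · simp [uu, h1, h2, hj]
      · simp [uu, h1, h2, hj]

theorem dk_dk (k l : Fin n) : dk n N l * dk n N k = -(dk n N k * dk n N l) := by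
  rcases lt_trichotomy k l with h | h | h
  · exact dk_dk_lt n N h
  · subst h; rw [dk_dk_self, neg_zero]
  · rw [dk_dk_lt n N h, neg_neg]

theorem dd_sq : dd n N * dd n N = 0 := by
  have h : dd n N * dd n N = -(dd n N * dd n N) := by
    conv_lhs => rw [dd, Finset.sum_mul_sum]
    rw [Finset.sum_comm]
    conv_rhs => rw [dd, Finset.sum_mul_sum]
    rw [← Finset.sum_neg_distrib]
    refine Finset.sum_congr rfl fun k _ => ?_
    rw [← Finset.sum_neg_distrib]
    exact Finset.sum_congr rfl fun l _ => dk_dk n N k l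
  ext x y
  have h2 := congrFun (congrFun h x) y
  rw [Matrix.neg_apply] at h2
  rw [Matrix.zero_apply]
  exact self_eq_neg.mp h2

theorem dk_SS (k : Fin n) : SS n N * star (dk n N k) = -(dk n N k * SS n N) := by
  rw [dk, SS, star_tens, tens_mul, tens_mul]
  have : (fun l => ff n N l * star (uu n N k l)) = fun l =>
      (if l < k then (-1 : ℂ) else if l = k then (-(-1) ^ (k : ℕ)) else 1) •
        (uu n N k l * ff n N l) := by
    funext l
    by_cases h1 : l < k
    · simp only [uu, h1, if_true, star_g1, g1_ff]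
      simp
    · by_cases h2 : l = k
      · subst h2
        simp only [uu, lt_irrefl, if_false, if_true]
        exact ff_d1 n N l
      · simp [uu, h1, h2]
  rw [this, tens_smul, prod_sign]
  have h3 : (-1 : ℂ) ^ (k : ℕ) * (-(-1) ^ (k : ℕ)) = -1 := by
    rw [mul_neg, ← mul_pow]; simp
  rw [h3, neg_one_smul]

theorem dd_SS : dd n N * SS n N + SS n N * star (dd n N) = 0 := by
  rw [dd, star_sum, Finset.sum_mul, Finset.mul_sum, ← Finset.sum_add_distrib]
  exact Finset.sum_eq_zero fun k _ => by rw [dk_SS, add_neg_cancel]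

theorem dk_star {k l : Fin n} (h : l ≠ k) :
    dk n N l * star (dk n N k) = -(star (dk n N k) * dk n N l) := by
  rw [dk, dk, star_tens, tens_mul, tens_mul]
  rcases lt_or_gt_of_ne h with h1 | h1
  · apply tens_anti _ _ l
    · simp only [uu, lt_irrefl, if_false, if_true, h1, star_g1]
      rw [g1_d1, neg_neg]
    · intro j hj
      by_cases h2 : j < l
      · simp [uu, h2, h2.trans h1, star_g1]
      · by_cases h3 : j < k
        · simp [uu, h2, h3, hj]
        · simp [uu, h2, h3, hj]
  · apply tens_anti _ _ k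
    · simp only [uu, lt_irrefl, if_false, if_true, h1]
      exact star_d1_g1 N
    · intro j hj
      by_cases h2 : j < k
      · simp [uu, h2, h2.trans h1, star_g1]
      · by_cases h3 : j < l
        · simp [uu, h2, h3, hj]
        · simp [uu, h2, h3, hj]

theorem s1s1_comm_g1 : g1 N * (s1 N * s1 N) = s1 N * s1 N * g1 N := by
  rw [s1_sq, mul_sub, sub_mul, Matrix.mul_smul, Matrix.smul_mul, g1_lap1, mul_one, one_mul]

theorem s1s1_comm_d1 : d1 N * (s1 N * s1 N) = s1 N * s1 N * d1 N := by
  rw [s1_sq, mul_sub, sub_mul, Matrix.mul_smul, Matrix.smul_mul, d1_lap1, mul_one, one_mul]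

theorem dk_qq (k : Fin n) (m : ℕ) : dk n N k * qq n N m = qq n N m * dk n N k := by
  rw [dk, qq, tens_mul, tens_mul]
  apply tens_congr
  intro j
  by_cases h : (j : ℕ) < m
  · by_cases h2 : j < k
    · simp [uu, h, h2, s1s1_comm_g1]
    · by_cases h3 : j = k
      · simp [uu, h3, s1s1_comm_d1]
      · simp [uu, h, h2, h3]
  · simp [h]

theorem gam_qq (m : ℕ) : gam n N * qq n N m = qq n N m * gam n N := by
  rw [gam, qq, tens_mul, tens_mul]
  apply tens_congr
  intro j
  by_cases h : (j : ℕ) < m
  · simp [h, s1s1_comm_g1]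
  · simp [h]

/-- the k-th summand of the Laplacian times the partial product -/
theorem lap_qq (k : Fin n) :
    (dk n N k * star (dk n N k) + star (dk n N k) * dk n N k) * qq n N k =
      tens fun l => if l < k then s1 N * s1 N else if l = k then lap1 N else 1 := by
  have h : dk n N k * star (dk n N k) + star (dk n N k) * dk n N k =
      tens fun l => if l = k then lap1 N else 1 := by
    rw [dk, star_tens, tens_mul, tens_mul]
    symm
    apply tens_add _ _ _ k
    · simp [uu, lap1]
    · intro l hl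
      by_cases h1 : l < k
      · simp [uu, h1, hl, star_g1, g1_sq]
      · simp [uu, h1, hl]
    · intro l hl
      by_cases h1 : l < k
      · simp [uu, h1, hl, star_g1, g1_sq]
      · simp [uu, h1, hl]
  rw [h, qq, tens_mul]
  apply tens_congr
  intro l
  by_cases h1 : l < k
  · have h2 : (l : ℕ) < k := h1
    simp [h1, h1.ne]
  · have h2 : ¬ (l : ℕ) < k := h1
    by_cases h3 : l = k
    · simp [h3]
    · simp [h1, h3]

theorem qq_succ (k : Fin n) :
    qq n N (k + 1) - qq n N k = (-(1 / 4) : ℂ) •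
      tens fun l => if l < k then s1 N * s1 N else if l = k then lap1 N else 1 := by
  rw [sub_eq_iff_eq_add']
  have h : ((-(1 / 4) : ℂ) •
      tens fun l : Fin n => if l < k then s1 N * s1 N else if l = k then lap1 N else 1) =
      tens fun l : Fin n => if l < k then s1 N * s1 N else
        if l = k then (-(1 / 4) : ℂ) • lap1 N else 1 := by
    have h2 : (fun l : Fin n => if l < k then s1 N * s1 N else
        if l = k then (-(1 / 4) : ℂ) • lap1 N else 1) = fun l =>
        (if l = k then (-(1 / 4) : ℂ) else 1) •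
          (if l < k then s1 N * s1 N else if l = k then lap1 N else 1) := by
      funext l
      by_cases h1 : l < k
      · simp [h1, h1.ne]
      · by_cases h3 : l = k
        · simp [h3]
        · simp [h1, h3]
    rw [h2, tens_smul]
    simp
  rw [h]
  apply tens_add _ _ _ k
  · simp [s1_sq]
    module
  · intro l hl
    by_cases h1 : l < k
    · have h2 : (l : ℕ) < k := h1
      have h3 : (l : ℕ) < k + 1 := by omega
      simp [h1, h3]
    · have h2 : ¬ (l : ℕ) < k := h1
      have h3 : ¬ (l : ℕ) < k + 1 := by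
        have : (l : ℕ) ≠ k := fun h => hl (Fin.ext h)
        omega
      simp [h1, h3]
  · intro l hl
    by_cases h1 : l < k
    · have h2 : (l : ℕ) < k := h1
      have h3 : (l : ℕ) < k + 1 := by omega
      simp [h1, h3]
    · have h2 : ¬ (l : ℕ) < k := h1
      have h3 : ¬ (l : ℕ) < k + 1 := by
        have : (l : ℕ) ≠ k := fun h => hl (Fin.ext h)
        omega
      simp [h1, h3, hl]

theorem qq_zero : qq n N 0 = 1 := by
  rw [qq, ← tens_one]
  exact tens_congr fun l => by simp

theorem qq_n : qq n N n = SS n N * SS n N := by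
  rw [qq, SS, tens_mul]
  exact tens_congr fun l => by rw [ff_sq]; simp

theorem dd_HH : dd n N * HH n N + HH n N * dd n N = ∑ k : Fin n, (qq n N (k + 1) - qq n N k) := by
  rw [HH, Matrix.mul_smul, Matrix.smul_mul, ← smul_add, dd, Finset.sum_mul_sum, Finset.sum_mul_sum,
    Finset.sum_comm, ← Finset.sum_add_distrib, Finset.smul_sum]
  refine Finset.sum_congr rfl fun k _ => ?_
  rw [qq_succ, ← lap_qq]
  congr 1
  rw [← Finset.sum_add_distrib, add_mul]
  rw [Finset.sum_eq_single k]
  · rw [mul_assoc, mul_assoc, mul_assoc, dk_qq]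
  · intro l _ hl
    rw [mul_assoc, ← dk_qq, ← mul_assoc, ← mul_assoc, dk_star n N hl]
    rw [neg_mul, neg_add_cancel]
  · intro h; exact absurd (Finset.mem_univ k) h

theorem SS_sq : SS n N * SS n N = 1 + dd n N * HH n N + HH n N * dd n N := by
  rw [add_assoc, dd_HH, Fin.sum_univ_eq_sum_range (fun k => qq n N (k + 1) - qq n N k) n,
    Finset.sum_range_sub, qq_zero, qq_n]
  abel

theorem gam_star_dk (k : Fin n) : gam n N * star (dk n N k) = -(star (dk n N k) * gam n N) := by
  have := congrArg star (gam_dk n N k)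
  rw [star_mul, star_neg, star_mul, star_gam] at this
  rw [this, neg_neg]

theorem gam_HH : gam n N * HH n N = -(HH n N * gam n N) := by
  rw [HH, Matrix.mul_smul, Matrix.smul_mul, Finset.mul_sum, Finset.sum_mul, ← smul_neg,
    ← Finset.sum_neg_distrib]
  congr 1
  refine Finset.sum_congr rfl fun k _ => ?_
  rw [← mul_assoc, gam_star_dk, neg_mul, mul_assoc, gam_qq, mul_assoc]

theorem SS_dk (k : Fin n) : SS n N * dk n N k = -(star (dk n N k) * SS n N) := by
  rw [dk, SS, star_tens, tens_mul, tens_mul]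
  have : (fun l => ff n N l * uu n N k l) = fun l =>
      (if l < k then (-1 : ℂ) else if l = k then (-(-1) ^ (k : ℕ)) else 1) •
        (star (uu n N k l) * ff n N l) := by
    funext l
    by_cases h1 : l < k
    · simp only [uu, h1, if_true, star_g1, g1_ff]
      simp
    · by_cases h2 : l = k
      · subst h2
        simp only [uu, lt_irrefl, if_false, if_true]
        exact ff_d1' n N l
      · simp [uu, h1, h2]
  rw [this, tens_smul, prod_sign]
  have h3 : (-1 : ℂ) ^ (k : ℕ) * (-(-1) ^ (k : ℕ)) = -1 := by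
    rw [mul_neg, ← mul_pow]; simp
  rw [h3, neg_one_smul]

theorem SS_dd : SS n N * dd n N + star (dd n N) * SS n N = 0 := by
  rw [dd, star_sum, Finset.sum_mul, Finset.mul_sum, ← Finset.sum_add_distrib]
  exact Finset.sum_eq_zero fun k _ => by rw [SS_dk, neg_add_cancel]

end Grid

end

end Crest.Agent.R217.Grid897
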