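import Mathlib
import Crest.Agent.R217.CarrierZ_834
import Crest.Agent.R217.Grid_897

/-!
# Row 217 (S0336), piece C2: the torus boundary matrices are boundaries in the window

`Grid897.dd`, and every family of matrices with the cons recursion, satisfies `IsBd` and the
augmentation identity.
-/

set_option autoImplicit false
set_option linter.dupNamespace false
set_option linter.unusedSectionVars false

namespace Crest.Agent.R217.Carrier834

open Finsupp Grid897

theorem ins_apply {n : ℕ} (c : ℤ × Bool) (x : Ch ℂ n) (t : Cell (n + 1)) :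
    (ins c x) t = if t 0 = c then x (Fin.tail t) else 0 := by
  classical
  induction x using Finsupp.induction_linear with
  | zero => simp
  | add x y hx hy => simp only [map_add, Finsupp.add_apply, hx, hy]; split_ifs <;> simp
  | single s r =>
    rw [ins_single, Finsupp.single_apply, Finsupp.single_apply]
    by_cases h : t 0 = c
    · rw [if_pos h]
      have : (Fin.cons c s : Cell (n + 1)) = t ↔ s = Fin.tail t := by
        constructor
        · rintro rfl; rw [Fin.tail_cons]
        · rintro rfl; rw [← h]; exact Fin.cons_self_tail t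
      simp only [this]
    · rw [if_neg h, if_neg]
      rintro rfl
      exact h rfl

theorem sum_cons {A M : Type*} [Fintype A] [AddCommMonoid M] {n : ℕ} (f : (Fin (n + 1) → A) → M) :
    ∑ t, f t = ∑ a : A, ∑ t : Fin n → A, f (Fin.cons a t) := by
  rw [← Fintype.sum_prod_type' (f := fun a t => f (Fin.cons a t))]
  exact (Equiv.sum_comp (Fin.consEquiv (fun _ : Fin (n + 1) => A)) f).symm

variable {N : ℕ} [NeZero N]

theorem succ_iff {a b : ZMod N} (hb : 2 * |b.valMinAbs| + 4 ≤ (N : ℤ)) :
    a = b + 1 ↔ a.valMinAbs = b.valMinAbs + 1 := by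
  constructor
  · rintro rfl
    rw [ZMod.valMinAbs_spec]
    have h3 := le_abs_self b.valMinAbs
    have h4 := neg_abs_le b.valMinAbs
    refine ⟨?_, ?_⟩
    · push_cast
      rfl
    · constructor <;> omega
  · intro h
    have := congrArg (fun z : ℤ => (z : ZMod N)) h
    simpa [ZMod.coe_valMinAbs] using this

/-- the recursion of the boundary matrices -/
def BdRec (D : (n : ℕ) → Matrix (CellZ n N) (CellZ n N) ℂ) : Prop :=
  (∀ t s, D 0 t s = 0) ∧
  ∀ (n : ℕ) (t s : CellZ (n + 1) N), D (n + 1) t s =
    d1 N (t 0) (s 0) * (if Fin.tail t = Fin.tail s then 1 else 0) +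
      g1 N (t 0) (s 0) * D n (Fin.tail t) (Fin.tail s)

theorem tail_lift {n : ℕ} (s : CellZ (n + 1) N) : Fin.tail (lift s) = lift (Fin.tail s) := rfl

theorem lift_zero {n : ℕ} (s : CellZ (n + 1) N) : lift s 0 = ((s 0).1.valMinAbs, (s 0).2) := rfl

theorem lift_zero_eq {n : ℕ} (s t : CellZ (n + 1) N) : lift t 0 = lift s 0 ↔ t 0 = s 0 := by
  rw [lift_zero, lift_zero]
  constructor
  · intro h
    have h1 := congrArg (fun p : ℤ × Bool => (p.1 : ZMod N)) h
    have h2 := congrArg Prod.snd h
    simp only [ZMod.coe_valMinAbs] at h1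
    exact Prod.ext h1 h2
  · intro h; rw [h]

theorem isBd_of_rec {D : (n : ℕ) → Matrix (CellZ n N) (CellZ n N) ℂ} (hD : BdRec D) (n : ℕ) :
    IsBd (D n) := by
  classical
  induction n with
  | zero =>
    intro s t _
    rw [hD.1]
    rfl
  | succ n ih =>
    intro s t hs
    have hs0 := hs 0
    have hst : Win N (lift (Fin.tail s)) := fun i => hs i.succ
    have ih' := ih (Fin.tail s) (Fin.tail t) hst
    rw [hD.2]
    have hcons : ∀ (z : ℤ), (Fin.cons (z, false) (Fin.tail (lift s)) : Cell (n + 1)) = lift t ↔
        ((t 0).1.valMinAbs = z ∧ (t 0).2 = false) ∧ Fin.tail t = Fin.tail s := by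
      intro z
      constructor
      · intro h
        have h1 := congrFun h 0
        have h2 := congrArg Fin.tail h
        rw [Fin.tail_cons, tail_lift, tail_lift] at h2
        rw [Fin.cons_zero, lift_zero] at h1
        exact ⟨⟨(congrArg Prod.fst h1).symm, (congrArg Prod.snd h1).symm⟩, (lift_injective h2).symm⟩
      · rintro ⟨⟨h1, h2⟩, h3⟩
        rw [tail_lift, ← h3, ← tail_lift, ← Fin.cons_self_tail (lift t)]
        congr 1
        rw [lift_zero, h1, h2]
    have hg : (ins (lift s 0) (bd ℂ n (Fin.tail (lift s)))) (lift t) =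
        if t 0 = s 0 then D n (Fin.tail t) (Fin.tail s) else 0 := by
      rw [ins_apply, tail_lift, tail_lift, ← ih']
      simp only [lift_zero_eq]
    have hd1 : d1 N (t 0) (s 0) = (if (t 0).2 = false ∧ (s 0).2 = true ∧ (t 0).1 = (s 0).1 + 1
        then 1 else 0) - (if (t 0).2 = false ∧ (s 0).2 = true ∧ (t 0).1 = (s 0).1 then 1 else 0) := rfl
    have hg1 : g1 N (t 0) (s 0) = if t 0 = s 0 then (if (s 0).2 = true then -1 else 1) else 0 := by
      unfold g1
      rw [Matrix.diagonal_apply]
      by_cases h : t 0 = s 0
      · rw [if_pos h, if_pos h, h]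
      · rw [if_neg h, if_neg h]
    have hv : (t 0).1 = (s 0).1 ↔ (t 0).1.valMinAbs = (s 0).1.valMinAbs :=
      ⟨fun h => by rw [h], fun h => by
        have := congrArg (fun z : ℤ => (z : ZMod N)) h
        simpa [ZMod.coe_valMinAbs] using this⟩
    have hv1 := succ_iff (a := (t 0).1) (b := (s 0).1) hs0
    rw [hd1, hg1]
    by_cases hb : (s 0).2 = true
    · have e : bd ℂ (n + 1) (lift s) =
          single (Fin.cons ((lift s 0).1 + 1, false) (Fin.tail (lift s)) : Cell (n + 1)) 1 -
          single (Fin.cons ((lift s 0).1, false) (Fin.tail (lift s)) : Cell (n + 1)) 1 -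
          ins (lift s 0) (bd ℂ n (Fin.tail (lift s))) := if_pos hb
      rw [e, Finsupp.sub_apply, Finsupp.sub_apply, Finsupp.single_apply, Finsupp.single_apply, hg]
      simp only [hcons, hv, hv1, hb, lift_zero]
      by_cases hT : Fin.tail t = Fin.tail s
      · simp only [hT, and_true, if_true, true_and, mul_one]
        by_cases h0 : t 0 = s 0
        · simp only [h0, if_true, hb]
          simp
        · simp only [h0, if_false, zero_mul, sub_zero, add_zero]
          congr 1
          · by_cases ha : (t 0).2 = false <;>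
              by_cases hb : (t 0).1.valMinAbs = (s 0).1.valMinAbs + 1 <;> simp [ha, hb]
          · by_cases ha : (t 0).2 = false <;>
              by_cases hb : (t 0).1.valMinAbs = (s 0).1.valMinAbs <;> simp [ha, hb]
      · simp only [hT, and_false, if_false, mul_zero, sub_zero, zero_add, zero_sub]
        by_cases h0 : t 0 = s 0
        · simp [h0]
        · simp [h0]
    · have e : bd ℂ (n + 1) (lift s) = ins (lift s 0) (bd ℂ n (Fin.tail (lift s))) := if_neg hb
      rw [e, hg]
      simp only [hb]
      by_cases h0 : t 0 = s 0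
      · simp [h0]
      · simp [h0]

theorem dim_cons_lift {n : ℕ} (a : ZMod N × Bool) (t : CellZ n N) :
    dim (lift (Fin.cons a t : CellZ (n + 1) N)) = (if a.2 then 1 else 0) + dim (lift t) := by
  unfold dim
  rw [Fin.sum_univ_succ]
  rfl

theorem haug_of_rec {D : (n : ℕ) → Matrix (CellZ n N) (CellZ n N) ℂ} (hD : BdRec D) (n : ℕ)
    (u : CellZ n N) : ∑ t, (if dim (lift t) = 0 then D n t u else 0) = 0 := by
  classical
  induction n with
  | zero => exact Finset.sum_eq_zero fun t _ => by rw [hD.1]; simp
  | succ n ih =>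
    rw [sum_cons]
    have hterm : ∀ (a : ZMod N × Bool) (t : CellZ n N),
        (if dim (lift (Fin.cons a t : CellZ (n + 1) N)) = 0 then
          D (n + 1) (Fin.cons a t : CellZ (n + 1) N) u else 0) =
        (if a.2 = false then d1 N a (u 0) else 0) *
          (if t = Fin.tail u then (if dim (lift t) = 0 then 1 else 0) else 0) +
        (if a.2 = false then g1 N a (u 0) else 0) *
          (if dim (lift t) = 0 then D n t (Fin.tail u) else 0) := by
      intro a t
      rw [dim_cons_lift, hD.2, Fin.cons_zero, Fin.tail_cons]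
      obtain ⟨a1, a2⟩ := a
      cases a2 with
      | true => simp
      | false =>
        by_cases h : dim (lift t) = 0
        · simp [h]
        · simp [h]
    simp only [hterm, Finset.sum_add_distrib, ← Finset.mul_sum, ih, mul_zero, add_zero,
      Finset.sum_ite_eq', Finset.mem_univ, if_true, ← Finset.sum_mul]
    have hd : ∑ a : ZMod N × Bool, (if a.2 = false then d1 N a (u 0) else 0) = 0 := by
      have hd1 : ∀ a : ZMod N × Bool, (if a.2 = false then d1 N a (u 0) else 0) =
          (if a = ((u 0).1 + 1, false) then (if (u 0).2 = true then 1 else 0) else 0) -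
          (if a = ((u 0).1, false) then (if (u 0).2 = true then 1 else 0) else (0 : ℂ)) := by
        rintro ⟨a1, a2⟩
        have : d1 N (a1, a2) (u 0) = (if a2 = false ∧ (u 0).2 = true ∧ a1 = (u 0).1 + 1
          then 1 else 0) - (if a2 = false ∧ (u 0).2 = true ∧ a1 = (u 0).1 then 1 else 0) := rfl
        rw [this]
        cases a2 with
        | true => simp
        | false =>
          by_cases h1 : (u 0).2 = true <;> by_cases h2 : a1 = (u 0).1 + 1 <;>
            by_cases h3 : a1 = (u 0).1 <;> simp [h1, h2, h3]
      simp only [hd1, Finset.sum_sub_distrib, Finset.sum_ite_eq', Finset.mem_univ, if_true,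
        sub_self]
    rw [hd, zero_mul]

theorem dd_rec : BdRec (N := N) (fun n => Grid897.dd n N) := by
  classical
  refine ⟨fun t s => ?_, fun n t s => ?_⟩
  · simp only [Grid897.dd, Finset.univ_eq_empty, Finset.sum_empty, Matrix.zero_apply]
  · simp only [Grid897.dd]
    rw [Fin.sum_univ_succ, Matrix.add_apply, Matrix.sum_apply, Matrix.sum_apply, Finset.mul_sum]
    congr 1
    · simp only [dk, tens_apply]
      rw [Fin.prod_univ_succ]
      have h1 : uu (n + 1) N 0 0 = d1 N := by simp [uu]
      have h2 : ∀ l : Fin n, uu (n + 1) N 0 l.succ = 1 := by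
        intro l; simp [uu, Fin.succ_ne_zero]
      rw [h1]
      congr 1
      simp only [h2]
      have h3 := congrFun (congrFun (tens_one (n := n) (I := C1 N)) (Fin.tail t)) (Fin.tail s)
      rw [tens_apply, Matrix.one_apply] at h3
      exact h3
    · refine Finset.sum_congr rfl fun k _ => ?_
      simp only [dk, tens_apply]
      rw [Fin.prod_univ_succ]
      have h1 : uu (n + 1) N k.succ 0 = g1 N := by simp [uu]
      have h2 : ∀ l : Fin n, uu (n + 1) N k.succ l.succ = uu n N k l := by
        intro l; simp [uu]
      rw [h1]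
      simp only [h2]
      rfl

theorem isBd_dd (n : ℕ) : IsBd (Grid897.dd n N) := isBd_of_rec (dd_rec (N := N)) n

theorem haug_dd (n : ℕ) (u : CellZ n N) :
    ∑ t, (if dim (lift t) = 0 then Grid897.dd n N t u else 0) = 0 :=
  haug_of_rec (dd_rec (N := N)) n u

end Crest.Agent.R217.Carrier834
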