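import Mathlib

/-! Row 217, M7a: uniform continuity near compact subsets of an open set. -/

set_option autoImplicit false

open Filter Topology Metric Set

namespace Crest.Agent.R217.Unif373

/-- uniform continuity at a compact set, for points near it -/
theorem unif_one {X Y : Type*} [PseudoMetricSpace X] [PseudoMetricSpace Y]
    {V K : Set X} (hV : IsOpen V) (hK : IsCompact K) (hKV : K ⊆ V)
    {T : X → Y} (hT : ContinuousOn T V) {ε : ℝ} (hε : 0 < ε) :
    ∃ δ > 0, ∀ v ∈ K, ∀ v', dist v' v < δ → v' ∈ V ∧ dist (T v') (T v) < ε := by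
  classical
  -- local statement at each point of K
  have hloc : ∀ v ∈ K, ∃ δ > 0, ∀ v', dist v' v < δ → v' ∈ V ∧ dist (T v') (T v) < ε / 2 := by
    intro v hv
    have h1 : ContinuousAt T v := hT.continuousAt (hV.mem_nhds (hKV hv))
    have h2 : ∀ᶠ v' in 𝓝 v, v' ∈ V ∧ dist (T v') (T v) < ε / 2 :=
      Filter.Eventually.and (hV.mem_nhds (hKV hv)) (Metric.tendsto_nhds.1 h1 (ε / 2) (by linarith))
    obtain ⟨δ, hδ, h3⟩ := Metric.eventually_nhds_iff.1 h2
    exact ⟨δ, hδ, fun v' hv' => h3 hv'⟩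
  choose! δ hδ hδ' using hloc
  obtain ⟨t, htK, htcov⟩ := hK.elim_nhds_subcover (fun v => ball v (δ v / 2))
    (fun v hv => ball_mem_nhds v (by have := hδ v hv; linarith))
  by_cases hne : t.Nonempty
  · obtain ⟨v0, hv0, hmin⟩ := t.exists_min_image (fun v => δ v / 2) hne
    refine ⟨δ v0 / 2, by have := hδ v0 (htK v0 hv0); linarith, fun v hv v' hv' => ?_⟩
    obtain ⟨u, hut, hvu⟩ : ∃ u ∈ t, v ∈ ball u (δ u / 2) := by
      have := htcov hv
      simpa using this
    have hm := hmin u hut
    have h1 : dist v u < δ u / 2 := hvu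
    have h2 : dist v' u < δ u := by
      have := dist_triangle v' v u
      linarith
    have h3 : dist v u < δ u := by
      have := hδ u (htK u hut)
      linarith
    have ha := hδ' u (htK u hut) v' h2
    have hb := hδ' u (htK u hut) v h3
    refine ⟨ha.1, ?_⟩
    have := dist_triangle_right (T v') (T v) (T u)
    linarith [ha.2, hb.2]
  · refine ⟨1, one_pos, fun v hv => ?_⟩
    have := htcov hv
    rw [Finset.not_nonempty_iff_eq_empty] at hne
    subst hne
    simp at this

/-- the same for finitely many maps -/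
theorem unif_fin {X Y : Type*} [PseudoMetricSpace X] [PseudoMetricSpace Y]
    {V K : Set X} (hV : IsOpen V) (hK : IsCompact K) (hKV : K ⊆ V)
    {ι : Type*} (I : Finset ι) {T : ι → X → Y} (hT : ∀ i ∈ I, ContinuousOn (T i) V)
    {ε : ℝ} (hε : 0 < ε) :
    ∃ δ > 0, ∀ v ∈ K, ∀ v', dist v' v < δ → v' ∈ V ∧ ∀ i ∈ I, dist (T i v') (T i v) < ε := by
  classical
  induction I using Finset.induction_on with
  | empty =>
    obtain ⟨δ, hδ, h⟩ := unif_one hV hK hKV (T := fun x : X => (0 : ℝ)) continuousOn_const one_pos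
    exact ⟨δ, hδ, fun v hv v' hv' => ⟨(h v hv v' hv').1, by simp⟩⟩
  | insert i I hi ih =>
    obtain ⟨δ1, h1, H1⟩ := ih (fun j hj => hT j (Finset.mem_insert_of_mem hj))
    obtain ⟨δ2, h2, H2⟩ := unif_one hV hK hKV (hT i (Finset.mem_insert_self i I)) hε
    refine ⟨min δ1 δ2, lt_min h1 h2, fun v hv v' hv' => ?_⟩
    have A := H1 v hv v' (lt_of_lt_of_le hv' (min_le_left _ _))
    have B := H2 v hv v' (lt_of_lt_of_le hv' (min_le_right _ _))
    refine ⟨A.1, fun j hj => ?_⟩
    rcases Finset.mem_insert.1 hj with rfl | hj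
    · exact B.2
    · exact A.2 j hj

end Crest.Agent.R217.Unif373
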