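import Mathlib
import Crest.Agent.R217.Unif_373

/-! Row 217, M7a: the topological data (`Flow`) used by the chain-level package, invariant
compact towers, connected compact sets. Everything in `Fin n → ℝ` with the sup norm. -/

set_option autoImplicit false

open Filter Topology Metric Set

namespace Crest.Agent.R217.Flow373

open Unif373

/-- powers `T i` (`i : ℤ`) of one homeomorphism of the open connected set `V`, and a proper
invariant map `f : V → Ω`; displacements in the closed unit ball are `≤ c`. -/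
structure Flow (n : ℕ) where
  V : Set (Fin n → ℝ)
  Om : Set (Fin n → ℝ)
  T : ℤ → (Fin n → ℝ) → (Fin n → ℝ)
  f : (Fin n → ℝ) → (Fin n → ℝ)
  c : ℝ
  isOpen_V : IsOpen V
  preconn_V : IsPreconnected V
  isOpen_Om : IsOpen Om
  T_mem : ∀ i, ∀ v ∈ V, T i v ∈ V
  T_zero : ∀ v ∈ V, T 0 v = v
  T_add : ∀ i j, ∀ v ∈ V, T (i + j) v = T i (T j v)
  T_cont : ∀ i, ContinuousOn (T i) V
  f_cont : ContinuousOn f V
  f_T : ∀ i, ∀ v ∈ V, f (T i v) = f v
  f_mem : ∀ v ∈ V, f v ∈ Om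
  proper : ∀ K ⊆ Om, IsCompact K → IsCompact {v | v ∈ V ∧ f v ∈ K}
  ball_V : closedBall (0 : Fin n → ℝ) 1 ⊆ V
  disp : ∀ i, ∀ v ∈ closedBall (0 : Fin n → ℝ) 1, dist (T i v) v ≤ c

namespace Flow

variable {n : ℕ} (D : Flow n)

/-- the invariant compact set over `K` -/
def ovr (K : Set (Fin n → ℝ)) : Set (Fin n → ℝ) := {v | v ∈ D.V ∧ D.f v ∈ K}

theorem ovr_sub (K : Set (Fin n → ℝ)) : D.ovr K ⊆ D.V := fun _ h => h.1

theorem ovr_mono {K L : Set (Fin n → ℝ)} (h : K ⊆ L) : D.ovr K ⊆ D.ovr L :=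
  fun _ hv => ⟨hv.1, h hv.2⟩

theorem T_ovr {K : Set (Fin n → ℝ)} (i : ℤ) {v : Fin n → ℝ} (hv : v ∈ D.ovr K) :
    D.T i v ∈ D.ovr K := ⟨D.T_mem i v hv.1, by rw [D.f_T i v hv.1]; exact hv.2⟩

theorem T_neg_T (i : ℤ) {v : Fin n → ℝ} (hv : v ∈ D.V) : D.T (-i) (D.T i v) = v := by
  rw [← D.T_add _ _ _ hv, neg_add_cancel, D.T_zero _ hv]

theorem T_T_neg (i : ℤ) {v : Fin n → ℝ} (hv : v ∈ D.V) : D.T i (D.T (-i) v) = v := by
  rw [← D.T_add _ _ _ hv, add_neg_cancel, D.T_zero _ hv]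

/-- tower of invariant compact sets -/
theorem exists_tower {K : Set (Fin n → ℝ)} (hK : IsCompact K) (hKO : K ⊆ D.Om) (m : ℕ) :
    ∃ (L : ℕ → Set (Fin n → ℝ)) (κ : ℝ), 0 < κ ∧ L 0 = K ∧ (∀ j, j ≤ m → IsCompact (L j)) ∧
      (∀ j, j ≤ m → L j ⊆ D.Om) ∧ (∀ j, L j ⊆ L (j + 1)) ∧
      ∀ j < m, ∀ v ∈ D.ovr (L j), ∀ v', dist v' v < κ → v' ∈ D.ovr (L (j + 1)) := by
  obtain ⟨δ, hδ, hthick⟩ := hK.exists_cthickening_subset_open D.isOpen_Om hKO
  set η : ℝ := δ / (m + 1) with hη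
  have hm1 : (0 : ℝ) < m + 1 := by positivity
  have hηpos : 0 < η := div_pos hδ hm1
  let L : ℕ → Set (Fin n → ℝ) := fun j => cthickening (j * η) K
  have hL0 : L 0 = K := by
    simp only [L, Nat.cast_zero, zero_mul, cthickening_zero]
    exact hK.isClosed.closure_eq
  have hLsub : ∀ j, j ≤ m → L j ⊆ D.Om := fun j hj => by
    refine (cthickening_mono ?_ _).trans hthick
    have hj' : (j : ℝ) ≤ m := by exact_mod_cast hj
    calc (j : ℝ) * η ≤ (m + 1) * η := by
          apply mul_le_mul_of_nonneg_right _ hηpos.le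
          linarith
      _ = δ := by rw [hη]; field_simp
  have hLc : ∀ j, j ≤ m → IsCompact (L j) := fun j _ => hK.cthickening
  have hLmono : ∀ j, L j ⊆ L (j + 1) := fun j => cthickening_mono (by
    push_cast
    nlinarith) _
  obtain ⟨κ, hκ, H⟩ := unif_one (T := D.f) D.isOpen_V (D.proper (L m) (hLsub m le_rfl) (hLc m le_rfl))
    (fun v hv => hv.1) D.f_cont hηpos
  refine ⟨L, κ, hκ, hL0, hLc, hLsub, hLmono, fun j hj v hv v' hv' => ?_⟩
  have hLm : L j ⊆ L m := by
    have : ∀ k, j ≤ k → L j ⊆ L k := by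
      intro k hk
      induction k, hk using Nat.le_induction with
      | base => exact subset_rfl
      | succ k _ ih => exact ih.trans (hLmono k)
    exact this m hj.le
  have h1 := H v (D.ovr_mono hLm hv) v' hv'
  refine ⟨h1.1, ?_⟩
  have h2 : D.f v ∈ cthickening (j * η) K := hv.2
  show D.f v' ∈ cthickening ((j + 1 : ℕ) * η) K
  rw [mem_cthickening_iff] at h2 ⊢
  have h3 : Metric.infEDist (D.f v') K ≤ Metric.infEDist (D.f v) K + edist (D.f v') (D.f v) :=
    Metric.infEDist_le_infEDist_add_edist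
  refine h3.trans ?_
  rw [edist_dist]
  have h4 : ENNReal.ofReal (dist (D.f v') (D.f v)) ≤ ENNReal.ofReal η :=
    ENNReal.ofReal_le_ofReal h1.2.le
  calc _ ≤ ENNReal.ofReal (j * η) + ENNReal.ofReal η := add_le_add h2 h4
    _ = ENNReal.ofReal ((j + 1 : ℕ) * η) := by
      rw [← ENNReal.ofReal_add (by positivity) hηpos.le]
      congr 1
      push_cast
      ring

/-- compact connected set in `V` containing a given compact set and the unit ball -/
theorem exists_conn {C : Set (Fin n → ℝ)} (hC : IsCompact C) (hCV : C ⊆ D.V) :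
    ∃ K, IsCompact K ∧ IsPreconnected K ∧ K ⊆ D.V ∧ C ⊆ K ∧
      closedBall (0 : Fin n → ℝ) 1 ⊆ K := by
  classical
  have h0V : (0 : Fin n → ℝ) ∈ D.V := D.ball_V (mem_closedBall_self zero_le_one)
  have hpc : IsPathConnected D.V :=
    (IsOpen.isConnected_iff_isPathConnected D.isOpen_V).1 ⟨⟨0, h0V⟩, D.preconn_V⟩
  -- small closed balls
  have hr : ∀ v ∈ C, ∃ r > 0, closedBall v r ⊆ D.V := fun v hv =>
    Metric.nhds_basis_closedBall.mem_iff.1 (D.isOpen_V.mem_nhds (hCV hv))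
  choose! r hr hrV using hr
  obtain ⟨t, htC, htcov⟩ := hC.elim_nhds_subcover (fun v => closedBall v (r v))
    (fun v hv => closedBall_mem_nhds v (hr v hv))
  -- paths
  have hp : ∀ v ∈ C, ∃ P : Set (Fin n → ℝ), IsCompact P ∧ IsPreconnected P ∧ P ⊆ D.V ∧
      v ∈ P ∧ (0 : Fin n → ℝ) ∈ P := fun v hv => by
    obtain ⟨γ, hγ⟩ := hpc.joinedIn 0 h0V v (hCV hv)
    refine ⟨range γ, isCompact_range γ.continuous, isPreconnected_range γ.continuous, ?_, ?_, ?_⟩
    · rintro _ ⟨s, rfl⟩; exact hγ s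
    · exact ⟨1, γ.target⟩
    · exact ⟨0, γ.source⟩
  choose! P hP1 hP2 hP3 hP4 hP5 using hp
  set K : Set (Fin n → ℝ) := closedBall 0 1 ∪ ⋃ v ∈ t, (P v ∪ closedBall v (r v)) with hKdef
  refine ⟨K, ?_, ?_, ?_, ?_, ?_⟩
  · refine (isCompact_closedBall 0 1).union (t.isCompact_biUnion fun v hv => ?_)
    exact (hP1 v (htC v hv)).union (isCompact_closedBall _ _)
  · -- every piece contains 0
    have hEq : K = ⋃₀ (insert (closedBall 0 1) ((fun v => P v ∪ closedBall v (r v)) '' (t : Set _))) := by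
      rw [sUnion_insert, sUnion_image]
      rfl
    rw [hEq]
    refine isPreconnected_sUnion 0 _ ?_ ?_
    · rintro S (rfl | ⟨v, hv, rfl⟩)
      · exact mem_closedBall_self zero_le_one
      · exact Or.inl (hP5 v (htC v hv))
    · rintro S (rfl | ⟨v, hv, rfl⟩)
      · exact (convex_closedBall _ _).isPreconnected
      · exact IsPreconnected.union v (hP4 v (htC v hv))
          (mem_closedBall_self (hr v (htC v hv)).le) (hP2 v (htC v hv))
          (convex_closedBall _ _).isPreconnected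
  · refine union_subset D.ball_V (iUnion₂_subset fun v hv => union_subset (hP3 v (htC v hv)) ?_)
    exact hrV v (htC v hv)
  · intro x hx
    obtain ⟨v, hv, hxv⟩ := mem_iUnion₂.1 (htcov hx)
    exact Or.inr (mem_iUnion₂.2 ⟨v, hv, Or.inr hxv⟩)
  · exact subset_union_left

end Flow

end Crest.Agent.R217.Flow373
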