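import Mathlib

/-!
Row 217 (S0336), part C1: Poincaré tuples and regular pairs over an abstract `*`-algebra.

* `Tup A` : raw data `(p, g, d, S, T, H)`; `Tup.IsPC m x` : `x` is an honest `m`-dimensional
  (strictly symmetric) Poincaré complex living in the corner `p A p`, graded by the sign `g`.
* `RPr A` : raw data `(p, g, d, f, q, h)`; `RPr.IsRP m x` : regular pair `f q f ≃ f`.
* `dbl m r` : the doubling of a regular pair: `IsRP m r → IsPC m (dbl m r)`.
* `bdry m x P` : the boundary (cone of `P S P`) : dimension `m + 1 → m`.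
* `compr m x G B` : compression `K S K*`, `B T B`, `K = p - dG - Gd`.
-/

set_option autoImplicit false
set_option linter.unusedSectionVars false

namespace Crest.Agent.R217.PC473

open Matrix

/-- raw data of a Poincaré tuple -/
@[ext] structure Tup (A : Type*) where
  p : A
  g : A
  d : A
  S : A
  T : A
  H : A

/-- raw data of a regular pair -/
@[ext] structure RPr (A : Type*) where
  p : A
  g : A
  d : A
  f : A
  q : A
  h : A

/-- `m`-dimensional strictly symmetric Poincaré complex in the corner `p A p` -/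
structure Tup.IsPC {A : Type*} [Ring A] [StarRing A] (m : ℕ) (x : Tup A) : Prop where
  pp : x.p * x.p = x.p
  sp : star x.p = x.p
  gg : x.g * x.g = x.p
  sg : star x.g = x.g
  pg : x.p * x.g = x.g
  pd : x.p * x.d = x.d
  dp : x.d * x.p = x.d
  pS : x.p * x.S = x.S
  pT : x.p * x.T = x.T
  pH : x.p * x.H = x.H
  Hp : x.H * x.p = x.H
  dd : x.d * x.d = 0
  sS : star x.S = x.S
  sT : star x.T = x.T
  dS : x.d * x.S + x.S * star x.d = 0
  Td : x.T * x.d + star x.d * x.T = 0
  ST : x.S * x.T = x.p + x.d * x.H + x.H * x.d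
  gd : x.g * x.d = -(x.d * x.g)
  gS : x.g * x.S = (-1 : A) ^ m * (x.S * x.g)
  gT : x.g * x.T = (-1 : A) ^ m * (x.T * x.g)
  gH : x.g * x.H = -(x.H * x.g)

/-- regular pair of dimension `m`: `f : D* → D`, `q : D → D*`, `f q f = f + d h - h d*` -/
structure RPr.IsRP {A : Type*} [Ring A] [StarRing A] (m : ℕ) (x : RPr A) : Prop where
  pp : x.p * x.p = x.p
  sp : star x.p = x.p
  gg : x.g * x.g = x.p
  sg : star x.g = x.g
  pg : x.p * x.g = x.g
  pd : x.p * x.d = x.d
  dp : x.d * x.p = x.d
  pf : x.p * x.f = x.f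
  pq : x.p * x.q = x.q
  ph : x.p * x.h = x.h
  hp : x.h * x.p = x.h
  dd : x.d * x.d = 0
  sf : star x.f = x.f
  sq : star x.q = x.q
  df : x.d * x.f + x.f * star x.d = 0
  qd : x.q * x.d + star x.d * x.q = 0
  fqf : x.f * x.q * x.f = x.f + x.d * x.h - x.h * star x.d
  gd : x.g * x.d = -(x.d * x.g)
  gf : x.g * x.f = (-1 : A) ^ m * (x.f * x.g)
  gq : x.g * x.q = (-1 : A) ^ m * (x.q * x.g)
  gh : x.g * x.h = -((-1 : A) ^ m * (x.h * x.g))

section map

variable {A B : Type*}

/-- image of a tuple under a map -/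
def Tup.map (f : A → B) (x : Tup A) : Tup B := ⟨f x.p, f x.g, f x.d, f x.S, f x.T, f x.H⟩

/-- image of a regular pair under a map -/
def RPr.map (f : A → B) (x : RPr A) : RPr B := ⟨f x.p, f x.g, f x.d, f x.f, f x.q, f x.h⟩

variable [Ring A] [StarRing A] [Ring B] [StarRing B]

theorem Tup.IsPC.map {m : ℕ} {x : Tup A} (hx : x.IsPC m) (f : A →+* B)
    (hf : ∀ a, f (star a) = star (f a)) : (x.map f).IsPC m where
  pp := by simp only [Tup.map]; rw [← map_mul, hx.pp]
  sp := by simp only [Tup.map]; rw [← hf, hx.sp]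
  gg := by simp only [Tup.map]; rw [← map_mul, hx.gg]
  sg := by simp only [Tup.map]; rw [← hf, hx.sg]
  pg := by simp only [Tup.map]; rw [← map_mul, hx.pg]
  pd := by simp only [Tup.map]; rw [← map_mul, hx.pd]
  dp := by simp only [Tup.map]; rw [← map_mul, hx.dp]
  pS := by simp only [Tup.map]; rw [← map_mul, hx.pS]
  pT := by simp only [Tup.map]; rw [← map_mul, hx.pT]
  pH := by simp only [Tup.map]; rw [← map_mul, hx.pH]
  Hp := by simp only [Tup.map]; rw [← map_mul, hx.Hp]
  dd := by simp only [Tup.map]; rw [← map_mul, hx.dd, map_zero]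
  sS := by simp only [Tup.map]; rw [← hf, hx.sS]
  sT := by simp only [Tup.map]; rw [← hf, hx.sT]
  dS := by simp only [Tup.map]; rw [← hf, ← map_mul, ← map_mul, ← map_add, hx.dS, map_zero]
  Td := by simp only [Tup.map]; rw [← hf, ← map_mul, ← map_mul, ← map_add, hx.Td, map_zero]
  ST := by simp only [Tup.map]; rw [← map_mul, ← map_mul, ← map_mul, ← map_add, ← map_add, hx.ST]
  gd := by simp only [Tup.map]; rw [← map_mul, ← map_mul, ← map_neg, hx.gd]
  gS := by simp only [Tup.map]; rw [← map_mul, hx.gS]; simp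
  gT := by simp only [Tup.map]; rw [← map_mul, hx.gT]; simp
  gH := by simp only [Tup.map]; rw [← map_mul, ← map_mul, ← map_neg, hx.gH]

theorem RPr.IsRP.map {m : ℕ} {x : RPr A} (hx : x.IsRP m) (f : A →+* B)
    (hf : ∀ a, f (star a) = star (f a)) : (x.map f).IsRP m where
  pp := by simp only [RPr.map]; rw [← map_mul, hx.pp]
  sp := by simp only [RPr.map]; rw [← hf, hx.sp]
  gg := by simp only [RPr.map]; rw [← map_mul, hx.gg]
  sg := by simp only [RPr.map]; rw [← hf, hx.sg]
  pg := by simp only [RPr.map]; rw [← map_mul, hx.pg]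
  pd := by simp only [RPr.map]; rw [← map_mul, hx.pd]
  dp := by simp only [RPr.map]; rw [← map_mul, hx.dp]
  pf := by simp only [RPr.map]; rw [← map_mul, hx.pf]
  pq := by simp only [RPr.map]; rw [← map_mul, hx.pq]
  ph := by simp only [RPr.map]; rw [← map_mul, hx.ph]
  hp := by simp only [RPr.map]; rw [← map_mul, hx.hp]
  dd := by simp only [RPr.map]; rw [← map_mul, hx.dd, map_zero]
  sf := by simp only [RPr.map]; rw [← hf, hx.sf]
  sq := by simp only [RPr.map]; rw [← hf, hx.sq]
  df := by simp only [RPr.map]; rw [← hf, ← map_mul, ← map_mul, ← map_add, hx.df, map_zero]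
  qd := by simp only [RPr.map]; rw [← hf, ← map_mul, ← map_mul, ← map_add, hx.qd, map_zero]
  fqf := by
    simp only [RPr.map]; rw [← hf, ← map_mul, ← map_mul, ← map_mul, ← map_mul, ← map_add,
      ← map_sub, hx.fqf]
  gd := by simp only [RPr.map]; rw [← map_mul, ← map_mul, ← map_neg, hx.gd]
  gf := by simp only [RPr.map]; rw [← map_mul, hx.gf]; simp
  gq := by simp only [RPr.map]; rw [← map_mul, hx.gq]; simp
  gh := by simp only [RPr.map]; rw [← map_mul, hx.gh]; simp

end map

section scal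

/-- the scalar `1` (`m` even) or `i` (`m` odd) -/
noncomputable def cc (m : ℕ) : ℂ := if Even m then 1 else Complex.I

variable {A : Type*} [Ring A] [StarRing A] [Algebra ℂ A] [StarModule ℂ A]

theorem cc_mul_self (m : ℕ) : cc m * cc m = (-1) ^ m := by
  unfold cc
  split_ifs with h
  · simp [h.neg_one_pow]
  · rw [Nat.not_even_iff_odd] at h
    simp [h.neg_one_pow]

theorem star_cc (m : ℕ) : star (cc m) = (-1) ^ m * cc m := by
  unfold cc
  split_ifs with h
  · simp [h.neg_one_pow]
  · rw [Nat.not_even_iff_odd] at h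
    simp [h.neg_one_pow]

/-- the twisted sign `a = c g` -/
noncomputable def aa (m : ℕ) (g : A) : A := cc m • g

theorem neg_one_pow_cases (m : ℕ) :
    ((-1 : A) ^ m = 1 ∧ (-1 : ℂ) ^ m = 1) ∨ ((-1 : A) ^ m = -1 ∧ (-1 : ℂ) ^ m = -1) := by
  rcases Nat.even_or_odd m with h | h
  · left; exact ⟨h.neg_one_pow, h.neg_one_pow⟩
  · right; exact ⟨h.neg_one_pow, h.neg_one_pow⟩

theorem star_aa (m : ℕ) {g : A} (hg : star g = g) : star (aa m g) = (-1 : A) ^ m * aa m g := by
  unfold aa
  rw [star_smul, hg, star_cc]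
  rcases neg_one_pow_cases (A := A) m with ⟨h1, h2⟩ | ⟨h1, h2⟩ <;> rw [h1, h2] <;> simp

theorem aa_mul_self (m : ℕ) {g p : A} (hg : g * g = p) :
    aa m g * aa m g = (-1 : A) ^ m * p := by
  unfold aa
  rw [smul_mul_smul_comm, hg, cc_mul_self]
  rcases neg_one_pow_cases (A := A) m with ⟨h1, h2⟩ | ⟨h1, h2⟩ <;> rw [h1, h2] <;> simp

theorem aa_mul (m : ℕ) (g x : A) : aa m g * x = cc m • (g * x) := by
  unfold aa; rw [smul_mul_assoc]

theorem mul_aa (m : ℕ) (g x : A) : x * aa m g = cc m • (x * g) := by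
  unfold aa; rw [mul_smul_comm]

end scal

end Crest.Agent.R217.PC473
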