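import Mathlib
import Crest.Agent.R217.Flow_373
import Crest.Agent.R217.PC_473
import Crest.Agent.R217.CarrierGrid_834

/-!
# Row 217, M7a: SPECIFICATION of the finite chain package

* `pos μ s` : position (lower corner) of a torus cell at mesh `μ`.
* `IsGrid x` : the properties of the standard self-dual torus grid which are used.
* `Near D C μ i ε A` : all entries `(t, s)` of `A` satisfy `pos s, pos t ∈ C`,
  `dist (pos t) (T i (pos s)) < ε`.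
* `Van μ C A` : all entries of `A` with row or column over `C` vanish.
* `ChainPkg` : the homotopy action `η i` of the powers `T i`, `|i| ≤ M`.
* `ChainExists` : the existence statement proved in `Chain_373`.
* `avg`, `AvgPkg` : averages `e = (1/L) ∑_{i<L} τ^(-i) η i`, and what holds for them.
-/

set_option autoImplicit false

open Metric Set
open Crest.Agent.R217.PC473 Crest.Agent.R217.Flow373 Crest.Agent.R217.Carrier834

namespace Crest.Agent.R217.Chain373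

variable {n N : ℕ}

/-- position (lower corner) of a torus cell at mesh `μ` -/
noncomputable def pos (μ : ℝ) (s : CellZ n N) : Fin n → ℝ :=
  fun i => μ * ((s i).1.valMinAbs : ℝ)

/-- every coordinate differs by at most one (mod `N`) -/
def Adj (t s : CellZ n N) : Prop :=
  ∀ i, (t i).1 = (s i).1 ∨ (t i).1 = (s i).1 + 1 ∨ (s i).1 = (t i).1 + 1

/-- dimension of a torus cell -/
noncomputable def dimZ (s : CellZ n N) : ℕ := dim (lift s)

/-- what is used about the standard self-dual torus grid `(1, g, d, S, T, H)` -/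
structure IsGrid [NeZero N] (x : Tup (Matrix (CellZ n N) (CellZ n N) ℂ)) : Prop where
  pc : x.IsPC n
  p_one : x.p = 1
  isBd : IsBd x.d
  haug : ∀ u : CellZ n N, ∑ t, (if dim (lift t) = 0 then x.d t u else 0) = 0
  adj_d : ∀ t s, x.d t s ≠ 0 → Adj t s
  adj_S : ∀ t s, x.S t s ≠ 0 → Adj t s
  adj_T : ∀ t s, x.T t s ≠ 0 → Adj t s
  adj_H : ∀ t s, x.H t s ≠ 0 → Adj t s
  deg_d : ∀ t s, x.d t s ≠ 0 → dimZ t + 1 = dimZ s
  deg_S : ∀ t s, x.S t s ≠ 0 → dimZ t + dimZ s = n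
  deg_T : ∀ t s, x.T t s ≠ 0 → dimZ t + dimZ s = n
  deg_H : ∀ t s, x.H t s ≠ 0 → dimZ t = dimZ s + 1

/-- entries near the graph of `T i`, inside `C` -/
def Near (D : Flow n) (C : Set (Fin n → ℝ)) (μ : ℝ) (i : ℤ) (ε : ℝ)
    (A : Matrix (CellZ n N) (CellZ n N) ℂ) : Prop :=
  ∀ t s, A t s ≠ 0 → pos μ s ∈ C ∧ pos μ t ∈ C ∧ dist (pos μ t) (D.T i (pos μ s)) < ε

/-- entries near the graph of some `T i`, `|i| ≤ M`, inside `C` -/
def NearX (D : Flow n) (C : Set (Fin n → ℝ)) (μ : ℝ) (M : ℕ) (ε : ℝ)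
    (A : Matrix (CellZ n N) (CellZ n N) ℂ) : Prop :=
  ∀ t s, A t s ≠ 0 → pos μ s ∈ C ∧ pos μ t ∈ C ∧
    ∃ i : ℤ, |i| ≤ M ∧ dist (pos μ t) (D.T i (pos μ s)) < ε

/-- all entries with row or column over `C` vanish -/
def Van (μ : ℝ) (C : Set (Fin n → ℝ)) (A : Matrix (CellZ n N) (CellZ n N) ℂ) : Prop :=
  ∀ t s, (pos μ t ∈ C ∨ pos μ s ∈ C) → A t s = 0

/-- the chain package: homotopy action of the powers `T i`, `|i| ≤ M`, of the flow -/
structure ChainPkg [NeZero N] (D : Flow n) (C C' : Set (Fin n → ℝ)) (M : ℕ) (ε δ μ : ℝ)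
    (x : Tup (Matrix (CellZ n N) (CellZ n N) ℂ))
    (η : ℤ → Matrix (CellZ n N) (CellZ n N) ℂ) : Prop where
  near : ∀ i : ℤ, |i| ≤ M → Near D C' μ i ε (η i)
  deg : ∀ i : ℤ, |i| ≤ M → ∀ t s, η i t s ≠ 0 → dimZ t = dimZ s
  zero : Van μ C (η 0 - 1)
  comm : ∀ i : ℤ, |i| ≤ M → Van μ C (x.d * η i - η i * x.d)
  mul : ∀ i j l : ℤ, |i| ≤ M → |j| ≤ M → |l| ≤ M →
    (∀ v ∈ C', dist (D.T (i + j) v) (D.T l v) < δ) →
    ∃ k, Near D C' μ l ε k ∧ (∀ t s, k t s ≠ 0 → dimZ t = dimZ s + 1) ∧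
      Van μ C (η i * η j - η l - (x.d * k + k * x.d))
  dual : ∀ i : ℤ, |i| ≤ M →
    ∃ U, Near D C' μ 0 ε U ∧ (∀ t s, U t s ≠ 0 → dimZ t + dimZ s = n + 1) ∧
      Van μ C (η i * x.S * star (η i) - x.S - (x.d * U - U * star x.d))
  commS : ∀ i j : ℤ, |i| ≤ M → |j| ≤ M → (∀ v ∈ C', dist (D.T (i + j) v) v < δ) →
    ∃ Y, Near D C' μ i ε Y ∧ (∀ t s, Y t s ≠ 0 → dimZ t + dimZ s = n + 1) ∧
      Van μ C (η i * x.S - x.S * star (η j) - (x.d * Y - Y * star x.d))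
  coarse : ∀ i : ℤ, |i| ≤ M →
    ∃ k, (∀ t s, k t s ≠ 0 → pos μ s ∈ closedBall (0 : Fin n → ℝ) 1 ∧
        dist (pos μ t) (pos μ s) < D.c + ε) ∧
      (∀ t s, k t s ≠ 0 → dimZ t = dimZ s + 1) ∧
      Van μ (closedBall 0 (1 / 2)) (η i - 1 - (x.d * k + k * x.d))

/-- equicontinuity of the powers near compact sets (true for the generator of a compact group) -/
def Equi {n : ℕ} (D : Flow n) : Prop :=
  ∀ K ⊆ D.Om, IsCompact K → ∀ ε > 0, ∃ δ > 0, ∀ v ∈ D.ovr K, ∀ v', dist v' v < δ →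
    v' ∈ D.V ∧ ∀ i : ℤ, dist (D.T i v') (D.T i v) < ε

/-- THE EXISTENCE STATEMENT of M7a (for one flow with `Equi D`, `D.c ≤ 1/100`): `C = D.ovr K`
given, a bigger `C' = D.ovr K'` and `ε0`, `R0` (independent of `M`, `ε`), then for all `ε ≤ ε0` an
accuracy `δ` for the return times, then for all `M`, all small meshes and all large enough tori. -/
def ChainExists {n : ℕ} (D : Flow n) : Prop :=
  ∀ K : Set (Fin n → ℝ), IsCompact K → K ⊆ D.Om → ∃ K' : Set (Fin n → ℝ), IsCompact K' ∧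
    K' ⊆ D.Om ∧ K ⊆ K' ∧ ∃ ε0 > 0, ∃ R0 : ℝ, ∀ ε : ℝ, 0 < ε → ε ≤ ε0 → ∃ δ > 0, ∀ M : ℕ,
      ∃ μ0 > 0, ∀ μ : ℝ, 0 < μ → μ < μ0 → ∀ (N : ℕ) [NeZero N], R0 ≤ μ * N →
        ∀ x : Tup (Matrix (CellZ n N) (CellZ n N) ℂ), IsGrid x →
          ∃ η, ChainPkg D (D.ovr K) (D.ovr K') M ε δ μ x η

/-- the average `(1/L) ∑_{i<L} τ^(-i) η i` -/
noncomputable def avg (L : ℕ) (τ : ℂ) (η : ℤ → Matrix (CellZ n N) (CellZ n N) ℂ) :
    Matrix (CellZ n N) (CellZ n N) ℂ :=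
  (L : ℂ)⁻¹ • ∑ i ∈ Finset.range L, τ⁻¹ ^ i • η (i : ℤ)

/-- what holds for the averages -/
structure AvgPkg [NeZero N] (D : Flow n) (C C' : Set (Fin n → ℝ)) (M : ℕ) (ε μ : ℝ)
    (x : Tup (Matrix (CellZ n N) (CellZ n N) ℂ)) (τ : ℂ)
    (e : Matrix (CellZ n N) (CellZ n N) ℂ) : Prop where
  near : NearX D C' μ M ε e
  deg : ∀ t s, e t s ≠ 0 → dimZ t = dimZ s
  comm : Van μ C (x.d * e - e * x.d)
  idem : ∃ h, NearX D C' μ M ε h ∧ (∀ t s, h t s ≠ 0 → dimZ t = dimZ s + 1) ∧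
    Van μ C (e * e - e - (x.d * h + h * x.d))
  commS : ∃ Y, NearX D C' μ M ε Y ∧ (∀ t s, Y t s ≠ 0 → dimZ t + dimZ s = n + 1) ∧
    Van μ C (e * x.S - x.S * star e - (x.d * Y - Y * star x.d))
  coarse : ∃ k, (∀ t s, k t s ≠ 0 → pos μ s ∈ closedBall (0 : Fin n → ℝ) 1 ∧
        dist (pos μ t) (pos μ s) < D.c + ε) ∧
      (∀ t s, k t s ≠ 0 → dimZ t = dimZ s + 1) ∧
      Van μ (closedBall 0 (1 / 2)) (e - (if τ = 1 then 1 else 0) - (x.d * k + k * x.d))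

/-- averages of a chain package (`τ` an `L`-th root of unity, `T L` close to the identity) -/
def AvgOfChain : Prop :=
  ∀ (n N : ℕ) [NeZero N] (D : Flow n) (C C' : Set (Fin n → ℝ)) (M L : ℕ) (ε δ μ : ℝ)
    (x : Tup (Matrix (CellZ n N) (CellZ n N) ℂ)) (η : ℤ → Matrix (CellZ n N) (CellZ n N) ℂ) (τ : ℂ),
    C' ⊆ D.V → IsGrid x → ChainPkg D C C' M ε δ μ x η → 0 < L → L ≤ M → τ ^ L = 1 → ‖τ‖ = 1 →
    (∀ v ∈ C', ∀ i : ℤ, dist (D.T (L + i) v) (D.T i v) < δ) →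
    AvgPkg D C C' M ε μ x τ (avg L τ η)

end Crest.Agent.R217.Chain373
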