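import Mathlib
import Crest.Agent.R217.ChainSpec_373

/-!
# Row 217, M7a: averages of a chain package

`avgOfChain : AvgOfChain`.
-/

set_option autoImplicit false
set_option linter.unusedSectionVars false

open Metric Set Finset
open Crest.Agent.R217.PC473 Crest.Agent.R217.Flow373 Crest.Agent.R217.Carrier834
open Crest.Agent.R217.Chain373

namespace Crest.Agent.R217.AvgChain834

variable {n N : ℕ}

theorem van_sum {ι : Type*} {μ : ℝ} {C : Set (Fin n → ℝ)} (s : Finset ι)
    (A : ι → Matrix (CellZ n N) (CellZ n N) ℂ) (h : ∀ i ∈ s, Van μ C (A i)) :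
    Van μ C (∑ i ∈ s, A i) := by
  intro t u h'
  rw [Matrix.sum_apply]
  exact Finset.sum_eq_zero fun i hi => h i hi t u h'

theorem van_smul {μ : ℝ} {C : Set (Fin n → ℝ)} (c : ℂ)
    {A : Matrix (CellZ n N) (CellZ n N) ℂ} (h : Van μ C A) : Van μ C (c • A) := by
  intro t u h'
  rw [Matrix.smul_apply, h t u h', smul_zero]

theorem supp_sum {ι : Type*} {P : CellZ n N → CellZ n N → Prop} (s : Finset ι) (c : ι → ℂ)
    (A : ι → Matrix (CellZ n N) (CellZ n N) ℂ) (h : ∀ i ∈ s, ∀ t u, A i t u ≠ 0 → P t u) :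
    ∀ t u, (∑ i ∈ s, c i • A i) t u ≠ 0 → P t u := by
  intro t u hne
  rw [Matrix.sum_apply] at hne
  obtain ⟨i, hi, h2⟩ := Finset.exists_ne_zero_of_sum_ne_zero hne
  exact h i hi t u fun h0 => h2 (by rw [Matrix.smul_apply, h0, smul_zero])

/-- linear combination of relations -/
theorem van_comb [NeZero N] {ι : Type*} {μ : ℝ} {C : Set (Fin n → ℝ)} (s : Finset ι) (c : ι → ℂ)
    (A k : ι → Matrix (CellZ n N) (CellZ n N) ℂ) (a b : Matrix (CellZ n N) (CellZ n N) ℂ)
    (h : ∀ i ∈ s, Van μ C (A i - (a * k i + k i * b))) :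
    Van μ C ((∑ i ∈ s, c i • A i) - (a * (∑ i ∈ s, c i • k i) + (∑ i ∈ s, c i • k i) * b)) := by
  have e : (∑ i ∈ s, c i • A i) - (a * (∑ i ∈ s, c i • k i) + (∑ i ∈ s, c i • k i) * b) =
      ∑ i ∈ s, c i • (A i - (a * k i + k i * b)) := by
    simp only [Finset.mul_sum, Finset.sum_mul, smul_sub, smul_add, Finset.sum_sub_distrib,
      Finset.sum_add_distrib, mul_smul_comm, smul_mul_assoc]
  rw [e]
  exact van_sum s _ fun i hi => van_smul _ (h i hi)

theorem pow_mod {τ : ℂ} {L : ℕ} (h : τ ^ L = 1) (m : ℕ) : τ ^ (m % L) = τ ^ m := by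
  conv_rhs => rw [← Nat.div_add_mod m L, pow_add, pow_mul, h, one_pow, one_mul]

theorem avgOfChain : AvgOfChain := by
  intro n N _ D C C' M L ε δ μ x η τ hCV hx hp hL hLM hτ hτ1 hT
  -- the coefficients
  set a : ℕ → ℂ := fun i => (L : ℂ)⁻¹ * τ⁻¹ ^ i with ha
  have hL0 : (L : ℂ) ≠ 0 := by exact_mod_cast hL.ne'
  have hτi : τ⁻¹ ^ L = 1 := by rw [inv_pow, hτ, inv_one]
  have he : avg L τ η = ∑ i ∈ Finset.range L, a i • η (i : ℤ) := by
    simp only [avg, ha, Finset.smul_sum, smul_smul]
  have hM : ∀ i : ℕ, i < L → |(i : ℤ)| ≤ M := by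
    intro i hi
    rw [abs_of_nonneg (by positivity)]
    exact_mod_cast (hi.le.trans hLM)
  have hpos : ∀ v ∈ C', 0 < δ := fun v hv => lt_of_le_of_lt dist_nonneg (hT v hv 0)
  rw [he]
  refine ⟨?_, ?_, ?_, ?_, ?_, ?_⟩
  · -- near
    refine supp_sum _ _ _ fun i hi t s hne => ?_
    have h1 := hp.near i (hM i (Finset.mem_range.1 hi)) t s hne
    exact ⟨h1.1, h1.2.1, i, hM i (Finset.mem_range.1 hi), h1.2.2⟩
  · -- deg
    exact supp_sum _ _ _ fun i hi => hp.deg i (hM i (Finset.mem_range.1 hi))
  · -- comm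
    have e : x.d * (∑ i ∈ Finset.range L, a i • η (i : ℤ)) -
        (∑ i ∈ Finset.range L, a i • η (i : ℤ)) * x.d =
        ∑ i ∈ Finset.range L, a i • (x.d * η i - η i * x.d) := by
      simp only [Finset.mul_sum, Finset.sum_mul, smul_sub, Finset.sum_sub_distrib,
        mul_smul_comm, smul_mul_assoc]
    rw [e]
    exact van_sum _ _ fun i hi => van_smul _ (hp.comm i (hM i (Finset.mem_range.1 hi)))
  · -- idem
    have hcl : ∀ i j : ℕ, i < L → j < L → ∀ v ∈ C',
        dist (D.T ((i : ℤ) + j) v) (D.T (((i + j) % L : ℕ) : ℤ) v) < δ := by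
      intro i j hi hj v hv
      by_cases hij : i + j < L
      · rw [Nat.mod_eq_of_lt hij]
        push_cast
        rw [dist_self]
        exact hpos v hv
      · have h1 : (i + j) % L = i + j - L := by
          rw [Nat.mod_eq_sub_mod (by omega), Nat.mod_eq_of_lt (by omega)]
        have h2 : ((i : ℤ) + j) = L + (((i + j) % L : ℕ) : ℤ) := by
          rw [h1]; omega
        rw [h2]
        exact hT v hv _
    have hex : ∀ p ∈ Finset.range L ×ˢ Finset.range L,
        ∃ k, Near D C' μ (((p.1 + p.2) % L : ℕ) : ℤ) ε k ∧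
          (∀ t s, k t s ≠ 0 → dimZ t = dimZ s + 1) ∧
          Van μ C (η p.1 * η p.2 - η (((p.1 + p.2) % L : ℕ) : ℤ) - (x.d * k + k * x.d)) := by
      rintro ⟨i, j⟩ hij
      rw [Finset.mem_product, Finset.mem_range, Finset.mem_range] at hij
      exact hp.mul i j _ (hM i hij.1) (hM j hij.2) (hM _ (Nat.mod_lt _ hL))
        (hcl i j hij.1 hij.2)
    choose! k hk1 hk2 hk3 using hex
    refine ⟨∑ p ∈ Finset.range L ×ˢ Finset.range L, (a p.1 * a p.2) • k p, ?_, ?_, ?_⟩
    · refine supp_sum _ _ _ fun p hpp t s hne => ?_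
      have h1 := hk1 p hpp t s hne
      exact ⟨h1.1, h1.2.1, _, hM _ (Nat.mod_lt _ hL), h1.2.2⟩
    · exact supp_sum _ _ _ hk2
    · have e1 : (∑ i ∈ Finset.range L, a i • η (i : ℤ)) * (∑ i ∈ Finset.range L, a i • η (i : ℤ)) =
          ∑ p ∈ Finset.range L ×ˢ Finset.range L, (a p.1 * a p.2) • (η p.1 * η p.2) := by
        rw [Finset.sum_mul_sum, Finset.sum_product]
        refine Finset.sum_congr rfl fun i _ => Finset.sum_congr rfl fun j _ => ?_
        rw [smul_mul_smul_comm]
      have e2 : (∑ i ∈ Finset.range L, a i • η (i : ℤ)) =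
          ∑ p ∈ Finset.range L ×ˢ Finset.range L,
            (a p.1 * a p.2) • η (((p.1 + p.2) % L : ℕ) : ℤ) := by
        rw [Finset.sum_product]
        have h3 : ∀ i ∈ Finset.range L, ∑ j ∈ Finset.range L,
            (a i * a j) • η (((i + j) % L : ℕ) : ℤ) =
            (L : ℂ)⁻¹ • ∑ l ∈ Finset.range L, a l • η (l : ℤ) := by
          intro i _
          rw [Finset.smul_sum]
          refine Finset.sum_nbij (fun j => (i + j) % L) ?_ ?_ ?_ ?_
          · intro j _
            exact Finset.mem_range.2 (Nat.mod_lt _ hL)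
          · intro j hj j' hj' h
            have h4 : i + j ≡ i + j' [MOD L] := h
            exact (Nat.ModEq.add_left_cancel' i h4).eq_of_lt_of_lt (by simpa using hj)
              (by simpa using hj')
          · refine Finset.surjOn_of_injOn_of_card_le _ ?_ ?_ le_rfl
            · intro j _
              exact Finset.mem_coe.2 (Finset.mem_range.2 (Nat.mod_lt _ hL))
            · intro j hj j' hj' h
              have h4 : i + j ≡ i + j' [MOD L] := h
              exact (Nat.ModEq.add_left_cancel' i h4).eq_of_lt_of_lt (by simpa using hj)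
                (by simpa using hj')
          · intro j _
            rw [smul_smul]
            congr 1
            simp only [ha]
            rw [pow_mod hτi, pow_add]
            ring
        rw [Finset.sum_congr rfl h3, Finset.sum_const, Finset.card_range, ← Nat.cast_smul_eq_nsmul ℂ,
          smul_smul, mul_inv_cancel₀ hL0, one_smul]
      have e3 : (∑ i ∈ Finset.range L, a i • η (i : ℤ)) * (∑ i ∈ Finset.range L, a i • η (i : ℤ)) -
          (∑ i ∈ Finset.range L, a i • η (i : ℤ)) =
          ∑ p ∈ Finset.range L ×ˢ Finset.range L,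
            (a p.1 * a p.2) • (η p.1 * η p.2 - η (((p.1 + p.2) % L : ℕ) : ℤ)) := by
        rw [e1]
        conv_lhs => rw [e2]
        rw [← Finset.sum_sub_distrib]
        exact Finset.sum_congr rfl fun p _ => (smul_sub _ _ _).symm
      rw [e3]
      exact van_comb _ _ _ _ _ _ hk3
  · -- commS
    have hcl : ∀ i : ℕ, i < L → ∀ v ∈ C',
        dist (D.T ((i : ℤ) + (((L - i) % L : ℕ) : ℤ)) v) v < δ := by
      intro i hi v hv
      by_cases h0 : i = 0
      · subst h0
        simp only [Nat.sub_zero, Nat.mod_self, Nat.cast_zero, add_zero]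
        rw [D.T_zero v (hCV hv), dist_self]
        exact hpos v hv
      · have h1 : (L - i) % L = L - i := Nat.mod_eq_of_lt (by omega)
        have h2 : (i : ℤ) + (((L - i) % L : ℕ) : ℤ) = L + 0 := by rw [h1]; omega
        rw [h2]
        have := hT v hv 0
        rwa [D.T_zero v (hCV hv)] at this
    have hex : ∀ i ∈ Finset.range L,
        ∃ Y, Near D C' μ (i : ℤ) ε Y ∧ (∀ t s, Y t s ≠ 0 → dimZ t + dimZ s = n + 1) ∧
          Van μ C (η i * x.S - x.S * star (η (((L - i) % L : ℕ) : ℤ)) -
            (x.d * Y - Y * star x.d)) := by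
      intro i hi
      rw [Finset.mem_range] at hi
      exact hp.commS i _ (hM i hi) (hM _ (Nat.mod_lt _ hL)) (hcl i hi)
    choose! Y hY1 hY2 hY3 using hex
    refine ⟨∑ i ∈ Finset.range L, a i • Y i, ?_, ?_, ?_⟩
    · refine supp_sum _ _ _ fun i hi t s hne => ?_
      have h1 := hY1 i hi t s hne
      exact ⟨h1.1, h1.2.1, _, hM _ (Finset.mem_range.1 hi), h1.2.2⟩
    · exact supp_sum _ _ _ hY2
    · have hconj : ∀ i : ℕ, i < L → star (a ((L - i) % L)) = a i := by
        intro i hi
        have hc : star (τ⁻¹) = τ := by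
          rw [star_inv₀]
          have h5 : star τ * τ = 1 := by
            rw [Complex.star_def, ← Complex.normSq_eq_conj_mul_self, Complex.normSq_eq_norm_sq, hτ1]
            norm_num
          exact inv_eq_of_mul_eq_one_right h5
        have hτ0 : τ ≠ 0 := by
          intro h; rw [h, norm_zero] at hτ1; norm_num at hτ1
        simp only [ha]
        rw [star_mul', star_inv₀, star_natCast, star_pow, hc]
        congr 1
        rw [pow_mod hτ, inv_pow]
        refine eq_inv_of_mul_eq_one_left ?_
        rw [← pow_add, Nat.sub_add_cancel hi.le, hτ]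
      have hsum : ∑ i ∈ Finset.range L, star (a i) • (x.S * star (η (i : ℤ))) =
          ∑ i ∈ Finset.range L, a i • (x.S * star (η (((L - i) % L : ℕ) : ℤ))) := by
        symm
        have hself : ∀ i : ℕ, i < L → (L - (L - i) % L) % L = i := by
          intro i hi
          by_cases h0 : i = 0
          · subst h0
            rw [Nat.sub_zero, Nat.mod_self, Nat.sub_zero, Nat.mod_self]
          · rw [Nat.mod_eq_of_lt (show L - i < L by omega)]
            rw [Nat.mod_eq_of_lt (show L - (L - i) < L by omega)]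
            omega
        refine Finset.sum_nbij' (fun i => (L - i) % L) (fun i => (L - i) % L) ?_ ?_ ?_ ?_ ?_
        · intro i _; exact Finset.mem_range.2 (Nat.mod_lt _ hL)
        · intro i _; exact Finset.mem_range.2 (Nat.mod_lt _ hL)
        · intro i hi; exact hself i (Finset.mem_range.1 hi)
        · intro i hi; exact hself i (Finset.mem_range.1 hi)
        · intro i hi
          rw [hconj i (Finset.mem_range.1 hi)]
      have e : (∑ i ∈ Finset.range L, a i • η (i : ℤ)) * x.S -
          x.S * star (∑ i ∈ Finset.range L, a i • η (i : ℤ)) =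
          ∑ i ∈ Finset.range L, a i • (η i * x.S - x.S * star (η (((L - i) % L : ℕ) : ℤ))) := by
        rw [star_sum, Finset.mul_sum, Finset.sum_mul]
        simp only [star_smul, mul_smul_comm, smul_mul_assoc, smul_sub, Finset.sum_sub_distrib]
        rw [hsum]
      have e2 : ∀ A : Matrix (CellZ n N) (CellZ n N) ℂ,
          x.d * A - A * star x.d = x.d * A + A * (-star x.d) := by
        intro A; rw [mul_neg, sub_eq_add_neg]
      rw [e, e2]
      refine van_comb _ _ _ _ _ _ fun i hi => ?_
      rw [← e2]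
      exact hY3 i hi
  · -- coarse
    have hex : ∀ i ∈ Finset.range L, ∃ k : Matrix (CellZ n N) (CellZ n N) ℂ,
        (∀ t s, k t s ≠ 0 → pos μ s ∈ closedBall (0 : Fin n → ℝ) 1 ∧
          dist (pos μ t) (pos μ s) < D.c + ε) ∧
        (∀ t s, k t s ≠ 0 → dimZ t = dimZ s + 1) ∧
        Van μ (closedBall 0 (1 / 2)) (η i - 1 - (x.d * k + k * x.d)) := by
      intro i hi
      exact hp.coarse i (hM i (Finset.mem_range.1 hi))
    choose! k hk1 hk2 hk3 using hex
    refine ⟨∑ i ∈ Finset.range L, a i • k i, supp_sum _ _ _ hk1, supp_sum _ _ _ hk2, ?_⟩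
    have hs : ∑ i ∈ Finset.range L, a i = if τ = 1 then 1 else 0 := by
      simp only [ha, ← Finset.mul_sum]
      by_cases h1 : τ = 1
      · rw [if_pos h1, h1]
        simp [hL0]
      · rw [if_neg h1]
        have h2 := geom_sum_mul τ⁻¹ L
        rw [hτi, sub_self] at h2
        have h3 : τ⁻¹ - 1 ≠ 0 := by
          intro h4
          apply h1
          have h5 : τ⁻¹ = 1 := by linear_combination h4
          rw [← inv_inv τ, h5, inv_one]
        rcases mul_eq_zero.1 h2 with h4 | h4
        · rw [h4, mul_zero]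
        · exact absurd h4 h3
    have e : (∑ i ∈ Finset.range L, a i • η (i : ℤ)) -
        (if τ = 1 then 1 else 0 : Matrix (CellZ n N) (CellZ n N) ℂ) =
        ∑ i ∈ Finset.range L, a i • (η i - 1) := by
      simp only [smul_sub, Finset.sum_sub_distrib, ← Finset.sum_smul, hs]
      split_ifs <;> simp
    rw [e]
    exact van_comb _ _ _ _ _ _ hk3

end Crest.Agent.R217.AvgChain834
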