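import Mathlib

/-!
Row 217 (S0336), part B, piece B1 (helper889).

Characters of compact commutative groups via the spectral theorem for compact self-adjoint
operators on `L²` (Haar measure), and the minimal compact monothetic subgroup with a character
of prime order.
-/

set_option autoImplicit false
set_option linter.unusedSectionVars false
set_option linter.overlappingInstances false

open MeasureTheory Module Module.End
open scoped InnerProductSpace ENNReal BoundedContinuousFunction Topology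

namespace Crest.Agent.R217.B1_889

section Hilbert

variable {E : Type*} [NormedAddCommGroup E] [InnerProductSpace ℂ E] [CompleteSpace E]
variable {A : Type*} [CommGroup A]

/-- A commuting family of operators on a nonzero finite-dimensional invariant subspace has a
common eigenvector. -/
theorem exists_common_eigenvector (T : A → (E →L[ℂ] E)) (hTc : ∀ a b, Commute (T a) (T b))
    (W₀ : Submodule ℂ E) [FiniteDimensional ℂ W₀] (hW₀ : W₀ ≠ ⊥)
    (hinv : ∀ a, ∀ w ∈ W₀, T a w ∈ W₀) :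
    ∃ w ∈ W₀, w ≠ 0 ∧ ∃ c : A → ℂ, ∀ a, T a w = c a • w := by
  classical
  -- choose a nonzero invariant subspace of minimal dimension
  let P : ℕ → Prop := fun n => ∃ W : Submodule ℂ E, W ≤ W₀ ∧ W ≠ ⊥ ∧
    (∀ a, ∀ w ∈ W, T a w ∈ W) ∧ finrank ℂ W = n
  have hP : ∃ n, P n := ⟨_, W₀, le_rfl, hW₀, hinv, rfl⟩
  obtain ⟨W, hWW₀, hWne, hWinv, hWn⟩ := Nat.find_spec hP
  have hmin : ∀ W' : Submodule ℂ E, W' ≤ W → W' ≠ ⊥ → (∀ a, ∀ w ∈ W', T a w ∈ W') → W' = W := by
    intro W' hle hne hinv'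
    have : FiniteDimensional ℂ W := Submodule.finiteDimensional_of_le hWW₀
    refine Submodule.eq_of_le_of_finrank_le hle ?_
    rw [hWn]
    exact Nat.find_min' hP ⟨W', hle.trans hWW₀, hne, hinv', rfl⟩
  have : FiniteDimensional ℂ W := Submodule.finiteDimensional_of_le hWW₀
  have : Nontrivial W := Submodule.nontrivial_iff_ne_bot.mpr hWne
  have hscal : ∀ a, ∃ c : ℂ, ∀ w ∈ W, T a w = c • w := by
    intro a
    let Ta : W →ₗ[ℂ] W := (T a : E →ₗ[ℂ] E).restrict (hWinv a)
    obtain ⟨c, hc⟩ := Module.End.exists_eigenvalue Ta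
    obtain ⟨v, hv⟩ := hc.exists_hasEigenvector
    refine ⟨c, ?_⟩
    let W' : Submodule ℂ E := W ⊓ Module.End.eigenspace (T a : E →ₗ[ℂ] E) c
    have hvW' : (v : E) ∈ W' := by
      refine Submodule.mem_inf.mpr ⟨v.2, ?_⟩
      rw [Module.End.mem_eigenspace_iff]
      have := hv.apply_eq_smul
      have h2 := congrArg (Subtype.val) this
      simpa [Ta] using h2
    have hW'ne : W' ≠ ⊥ := by
      intro h
      have : (v : E) ∈ (⊥ : Submodule ℂ E) := h ▸ hvW'
      rw [Submodule.mem_bot] at this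
      exact hv.2 (Subtype.ext this)
    have hW'inv : ∀ b, ∀ w ∈ W', T b w ∈ W' := by
      intro b w hw
      refine Submodule.mem_inf.mpr ⟨hWinv b w (Submodule.mem_inf.mp hw).1, ?_⟩
      have hw2 := (Submodule.mem_inf.mp hw).2
      rw [Module.End.mem_eigenspace_iff] at hw2 ⊢
      have hcomm : T a (T b w) = T b (T a w) := by
        have := hTc a b
        exact congrArg (fun L : E →L[ℂ] E => L w) this.eq
      have hw2' : T a w = c • w := hw2
      change T a (T b w) = c • (T b w)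
      rw [hcomm, hw2', map_smul]
    have hEq : W' = W := hmin W' inf_le_left hW'ne hW'inv
    intro w hw
    have : w ∈ W' := hEq ▸ hw
    have := (Submodule.mem_inf.mp this).2
    rw [Module.End.mem_eigenspace_iff] at this
    exact this
  choose c hc using hscal
  obtain ⟨w, hw, hw0⟩ := Submodule.exists_mem_ne_zero_of_ne_bot hWne
  exact ⟨w, hWW₀ hw, hw0, c, fun a => hc a w hw⟩

/-- Abstract existence of a common eigenvector on which `T x` is not trivial. -/
theorem exists_eigenvector_ne (T : A → (E →L[ℂ] E))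
    (hT1 : T 1 = ContinuousLinearMap.id ℂ E)
    (hTmul : ∀ a b, T (a * b) = (T a).comp (T b))
    (hTi : ∀ a v, ‖T a v‖ = ‖v‖)
    (x : A) (J : E →L[ℂ] E) (hJ : IsCompactOperator J)
    (hJT : ∀ a v, J (T a v) = T a (J v))
    (f : E) (hf : ∀ u, T x u = u → ⟪u, f⟫_ℂ = 0) (hJf : J f ≠ 0) :
    ∃ w : E, w ≠ 0 ∧ ∃ c : A → ℂ, (∀ a, T a w = c a • w) ∧ c x ≠ 1 := by
  classical
  have hTinner : ∀ a u v, ⟪T a u, T a v⟫_ℂ = ⟪u, v⟫_ℂ := by
    intro a u v
    let L : E →ₗᵢ[ℂ] E := ⟨(T a : E →ₗ[ℂ] E), hTi a⟩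
    exact L.inner_map_map u v
  have hTinv : ∀ a v, T a (T a⁻¹ v) = v := by
    intro a v
    have := hTmul a a⁻¹
    rw [mul_inv_cancel, hT1] at this
    exact (congrArg (fun L : E →L[ℂ] E => L v) this).symm
  have hTcomm : ∀ a b, Commute (T a) (T b) := by
    intro a b
    change T a * T b = T b * T a
    have h1 := hTmul a b
    have h2 := hTmul b a
    rw [mul_comm] at h1
    exact h1.symm.trans h2
  have hTadj : ∀ a u v, ⟪u, T a v⟫_ℂ = ⟪T a⁻¹ u, v⟫_ℂ := by
    intro a u v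
    calc ⟪u, T a v⟫_ℂ = ⟪T a (T a⁻¹ u), T a v⟫_ℂ := by rw [hTinv]
      _ = _ := hTinner _ _ _
  -- S = J† J
  let S : E →L[ℂ] E := (ContinuousLinearMap.adjoint J).comp J
  have hScomp : IsCompactOperator S := hJ.clm_comp (ContinuousLinearMap.adjoint J)
  have hSsymm : (S : E →L[ℂ] E).IsSymmetric := by
    intro u v
    change ⟪ContinuousLinearMap.adjoint J (J u), v⟫_ℂ = ⟪u, ContinuousLinearMap.adjoint J (J v)⟫_ℂ
    rw [ContinuousLinearMap.adjoint_inner_left, ContinuousLinearMap.adjoint_inner_right]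
  have hST : ∀ a v, S (T a v) = T a (S v) := by
    intro a v
    refine ext_inner_left ℂ fun u => ?_
    change ⟪u, ContinuousLinearMap.adjoint J (J (T a v))⟫_ℂ =
      ⟪u, T a (ContinuousLinearMap.adjoint J (J v))⟫_ℂ
    rw [ContinuousLinearMap.adjoint_inner_right, hTadj, ContinuousLinearMap.adjoint_inner_right,
      hJT, hJT, hTadj]
  let K : Submodule ℂ E := LinearMap.ker ((T x : E →ₗ[ℂ] E) - LinearMap.id)
  have hK : ∀ u, u ∈ K ↔ T x u = u := by
    intro u
    simp only [K, LinearMap.mem_ker, LinearMap.sub_apply, LinearMap.id_apply, sub_eq_zero]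
    rfl
  let F : Submodule ℂ E := Kᗮ
  have hF : ∀ v, v ∈ F ↔ ∀ u, T x u = u → ⟪u, v⟫_ℂ = 0 := by
    intro v
    rw [Submodule.mem_orthogonal]
    exact forall_congr' fun u => by rw [hK]
  have hfF : f ∈ F := (hF f).mpr hf
  have hSF : ∀ v ∈ F, S v ∈ F := by
    intro v hv
    rw [hF] at hv ⊢
    intro u hu
    have : ⟪u, S v⟫_ℂ = ⟪S u, v⟫_ℂ := (hSsymm u v).symm
    rw [this]
    apply hv
    rw [← hST, hu]
  have hTF : ∀ a, ∀ v ∈ F, T a v ∈ F := by
    intro a v hv
    rw [hF] at hv ⊢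
    intro u hu
    rw [hTadj]
    apply hv
    have hc : T x (T a⁻¹ u) = T a⁻¹ (T x u) :=
      congrArg (fun L : E →L[ℂ] E => L u) (hTcomm x a⁻¹).eq
    rw [hc, hu]
  have : CompleteSpace F := (Submodule.isClosed_orthogonal K).completeSpace_coe
  let SF : F →L[ℂ] F := S.restrict hSF
  have hSFcomp : IsCompactOperator SF := hScomp.restrict' hSF
  have hSFsymm : SF.IsSymmetric := by
    intro u v
    exact hSsymm u v
  have hSFne : SF ≠ 0 := by
    intro h
    have h1 : SF ⟨f, hfF⟩ = 0 := by rw [h]; rfl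
    have h2 : S f = 0 := congrArg Subtype.val h1
    have h3 : ⟪f, S f⟫_ℂ = ⟪J f, J f⟫_ℂ := by
      change ⟪f, ContinuousLinearMap.adjoint J (J f)⟫_ℂ = _
      rw [ContinuousLinearMap.adjoint_inner_right]
    rw [h2, inner_zero_right] at h3
    exact hJf (inner_self_eq_zero.mp h3.symm)
  have hex : ∃ μ : ℂ, HasEigenvalue (SF : End ℂ F) μ ∧ μ ≠ 0 := by
    by_contra hcon
    push Not at hcon
    exact hSFne
      ((ContinuousLinearMap.eq_zero_of_forall_hasEigenvalue_eq_zero hSFcomp hSFsymm).mp hcon)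
  obtain ⟨μ, hμ, hμ0⟩ := hex
  have hfd : FiniteDimensional ℂ (eigenspace (S : End ℂ E) μ) :=
    ContinuousLinearMap.finite_dimensional_eigenspace hScomp μ hμ0
  let W₀ : Submodule ℂ E := eigenspace (S : End ℂ E) μ ⊓ F
  have : FiniteDimensional ℂ W₀ := Submodule.finiteDimensional_of_le inf_le_left
  have hW₀ne : W₀ ≠ ⊥ := by
    obtain ⟨v, hv⟩ := hμ.exists_hasEigenvector
    intro h
    have hvW : (v : E) ∈ W₀ := by
      refine Submodule.mem_inf.mpr ⟨?_, v.2⟩
      rw [Module.End.mem_eigenspace_iff]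
      exact congrArg Subtype.val hv.apply_eq_smul
    rw [h, Submodule.mem_bot] at hvW
    exact hv.2 (Subtype.ext hvW)
  have hW₀inv : ∀ a, ∀ w ∈ W₀, T a w ∈ W₀ := by
    intro a w hw
    have hw' := Submodule.mem_inf.mp hw
    refine Submodule.mem_inf.mpr ⟨?_, hTF a w hw'.2⟩
    have hw1 := hw'.1
    rw [Module.End.mem_eigenspace_iff] at hw1 ⊢
    have hw1' : S w = μ • w := hw1
    change S (T a w) = μ • T a w
    rw [hST, hw1', map_smul]
  obtain ⟨w, hwW, hw0, c, hc⟩ := exists_common_eigenvector T hTcomm W₀ hW₀ne hW₀inv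
  refine ⟨w, hw0, c, hc, ?_⟩
  intro hcx
  have hwx : T x w = w := by rw [hc, hcx, one_smul]
  have := (hF w).mp (Submodule.mem_inf.mp hwW).2 w hwx
  exact hw0 (inner_self_eq_zero.mp this)

end Hilbert

section Haar

variable {A : Type*} [CommGroup A] [TopologicalSpace A] [IsTopologicalGroup A] [CompactSpace A]
  [T2Space A] [MeasurableSpace A] [BorelSpace A]
  (μ : Measure A) [μ.IsHaarMeasure] [μ.Regular]

/-- Translation operator on `L²`. -/
noncomputable def TT (a : A) : Lp ℂ 2 μ →L[ℂ] Lp ℂ 2 μ :=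
  (Lp.compMeasurePreservingₗᵢ ℂ (fun x => a * x)
    (measurePreserving_mul_left μ a)).toContinuousLinearMap

theorem TT_apply (a : A) (v : Lp ℂ 2 μ) :
    TT μ a v = Lp.compMeasurePreserving (fun x => a * x) (measurePreserving_mul_left μ a) v := rfl

theorem TT_norm (a : A) (v : Lp ℂ 2 μ) : ‖TT μ a v‖ = ‖v‖ :=
  Lp.norm_compMeasurePreserving v _

theorem TT_toLp (a : A) (g : C(A, ℂ)) :
    TT μ a (ContinuousMap.toLp 2 μ ℂ g) =
      ContinuousMap.toLp 2 μ ℂ (g.comp ⟨fun x => a * x, continuous_const_mul a⟩) := by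
  refine Lp.ext ?_
  rw [TT_apply]
  have h1 := Lp.coeFn_compMeasurePreserving (ContinuousMap.toLp 2 μ ℂ g)
    (measurePreserving_mul_left μ a)
  have h2 := ContinuousMap.coeFn_toLp (p := 2) μ (𝕜 := ℂ) g
  have h3 := ContinuousMap.coeFn_toLp (p := 2) μ (𝕜 := ℂ)
    (g.comp ⟨fun x => a * x, continuous_const_mul a⟩)
  have h4 := (measurePreserving_mul_left μ a).quasiMeasurePreserving.ae_eq_comp h2
  exact h1.trans (h4.trans h3.symm)

theorem TT_one : TT μ 1 = ContinuousLinearMap.id ℂ (Lp ℂ 2 μ) := by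
  refine ContinuousLinearMap.ext fun v => ?_
  refine Lp.ext ?_
  have h1 := Lp.coeFn_compMeasurePreserving v (measurePreserving_mul_left μ (1 : A))
  refine h1.trans ?_
  refine Filter.Eventually.of_forall fun x => ?_
  simp

theorem TT_mul (a b : A) : TT μ (a * b) = (TT μ a).comp (TT μ b) := by
  refine ContinuousLinearMap.ext fun v => ?_
  refine Lp.ext ?_
  have h1 := Lp.coeFn_compMeasurePreserving v (measurePreserving_mul_left μ (a * b))
  have h2 := Lp.coeFn_compMeasurePreserving (TT μ b v) (measurePreserving_mul_left μ a)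
  have h3 := Lp.coeFn_compMeasurePreserving v (measurePreserving_mul_left μ b)
  have h4 := (measurePreserving_mul_left μ a).quasiMeasurePreserving.ae_eq_comp h3
  refine h1.trans ?_
  refine Filter.EventuallyEq.trans ?_ (h2.trans h4).symm
  refine Filter.Eventually.of_forall fun x => ?_
  simp only [Function.comp_apply]
  congr 1
  rw [← mul_assoc, mul_comm b a]

/-- The curried kernel `y ↦ (z ↦ φ (y * z⁻¹))`. -/
noncomputable def Phi (φ : C(A, ℂ)) : C(A, C(A, ℂ)) :=
  ContinuousMap.curry (φ.comp ⟨fun p : A × A => p.1 * p.2⁻¹, by fun_prop⟩)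

theorem Phi_apply (φ : C(A, ℂ)) (y z : A) : Phi φ y z = φ (y * z⁻¹) := rfl

/-- The kernel with values in `L²`. -/
noncomputable def Psi (φ : C(A, ℂ)) (y : A) : Lp ℂ 2 μ := ContinuousMap.toLp 2 μ ℂ (Phi φ y)

theorem continuous_Psi (φ : C(A, ℂ)) : Continuous (Psi μ φ) :=
  (ContinuousMap.toLp 2 μ ℂ).continuous.comp (Phi φ).continuous

theorem TT_Psi (φ : C(A, ℂ)) (a y : A) : TT μ a⁻¹ (Psi μ φ y) = Psi μ φ (a * y) := by
  rw [Psi, TT_toLp, Psi]
  congr 1
  refine ContinuousMap.ext fun z => ?_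
  change φ (y * (a⁻¹ * z)⁻¹) = φ (a * y * z⁻¹)
  congr 1
  rw [mul_inv_rev, inv_inv, ← mul_assoc, mul_comm (y * z⁻¹) a, mul_assoc]

theorem norm_Psi_le (φ : C(A, ℂ)) (y : A) :
    ‖Psi μ φ y‖ ≤ ‖(ContinuousMap.toLp 2 μ ℂ : C(A, ℂ) →L[ℂ] Lp ℂ 2 μ)‖ * ‖φ‖ := by
  refine (ContinuousLinearMap.le_opNorm _ _).trans ?_
  refine mul_le_mul_of_nonneg_left ?_ (norm_nonneg _)
  refine (ContinuousMap.norm_le _ (norm_nonneg _)).mpr fun z => ?_
  exact φ.norm_coe_le_norm _

/-- The integral operator with values in continuous functions. -/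
noncomputable def J₀ (φ : C(A, ℂ)) : Lp ℂ 2 μ →L[ℂ] (A →ᵇ ℂ) :=
  LinearMap.mkContinuous
    { toFun := fun f => BoundedContinuousFunction.mkOfCompact
        ⟨fun y => ⟪Psi μ φ y, f⟫_ℂ, (continuous_Psi μ φ).inner continuous_const⟩
      map_add' := fun f g => by
        ext y
        exact inner_add_right (𝕜 := ℂ) (Psi μ φ y) f g
      map_smul' := fun c f => by
        ext y
        exact inner_smul_right (𝕜 := ℂ) (Psi μ φ y) f c }
    (‖(ContinuousMap.toLp 2 μ ℂ : C(A, ℂ) →L[ℂ] Lp ℂ 2 μ)‖ * ‖φ‖)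
    (fun f => by
      refine (BoundedContinuousFunction.norm_le (by positivity)).mpr fun y => ?_
      exact (norm_inner_le_norm _ _).trans
        (mul_le_mul_of_nonneg_right (norm_Psi_le μ φ y) (norm_nonneg _)))

theorem J₀_apply (φ : C(A, ℂ)) (f : Lp ℂ 2 μ) (y : A) : J₀ μ φ f y = ⟪Psi μ φ y, f⟫_ℂ := rfl

theorem J₀_compact (φ : C(A, ℂ)) : IsCompactOperator (J₀ μ φ) := by
  let M := ‖(ContinuousMap.toLp 2 μ ℂ : C(A, ℂ) →L[ℂ] Lp ℂ 2 μ)‖ * ‖φ‖
  let S : Set (A →ᵇ ℂ) := J₀ μ φ '' Metric.closedBall 0 1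
  refine ⟨closure S, ?_, ?_⟩
  · refine BoundedContinuousFunction.arzela_ascoli (Metric.closedBall (0 : ℂ) M)
      (isCompact_closedBall _ _) S ?_ ?_
    · rintro _ y ⟨f, hf, rfl⟩
      rw [mem_closedBall_zero_iff] at hf ⊢
      rw [J₀_apply]
      refine (norm_inner_le_norm _ _).trans ?_
      calc ‖Psi μ φ y‖ * ‖f‖ ≤ M * 1 :=
            mul_le_mul (norm_Psi_le μ φ y) hf (norm_nonneg _) (by positivity)
        _ = M := mul_one _
    · intro y₀
      rw [Metric.equicontinuousAt_iff_right]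
      intro ε hε
      have hc := (continuous_Psi μ φ).continuousAt (x := y₀)
      filter_upwards [hc (Metric.ball_mem_nhds _ hε)] with y hy
      rintro ⟨_, f, hf, rfl⟩
      rw [mem_closedBall_zero_iff] at hf
      rw [dist_comm, dist_eq_norm]
      change ‖⟪Psi μ φ y, f⟫_ℂ - ⟪Psi μ φ y₀, f⟫_ℂ‖ < ε
      rw [← inner_sub_left]
      have hy' : ‖Psi μ φ y - Psi μ φ y₀‖ < ε := by
        rw [← dist_eq_norm]
        exact hy
      calc ‖⟪Psi μ φ y - Psi μ φ y₀, f⟫_ℂ‖ ≤ ‖Psi μ φ y - Psi μ φ y₀‖ * ‖f‖ :=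
            norm_inner_le_norm _ _
        _ ≤ ‖Psi μ φ y - Psi μ φ y₀‖ * 1 := mul_le_mul_of_nonneg_left hf (norm_nonneg _)
        _ < ε := by rw [mul_one]; exact hy'
  · refine Filter.mem_of_superset (Metric.closedBall_mem_nhds 0 one_pos) ?_
    intro f hf
    exact subset_closure ⟨f, hf, rfl⟩

/-- The compact integral operator on `L²`. -/
noncomputable def JJ (φ : C(A, ℂ)) : Lp ℂ 2 μ →L[ℂ] Lp ℂ 2 μ :=
  (BoundedContinuousFunction.toLp 2 μ ℂ).comp (J₀ μ φ)

theorem JJ_compact (φ : C(A, ℂ)) : IsCompactOperator (JJ μ φ) :=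
  (J₀_compact μ φ).clm_comp (BoundedContinuousFunction.toLp 2 μ ℂ)

theorem TT_inner (a : A) (u v : Lp ℂ 2 μ) : ⟪TT μ a u, TT μ a v⟫_ℂ = ⟪u, v⟫_ℂ :=
  (Lp.compMeasurePreservingₗᵢ ℂ (fun x => a * x)
    (measurePreserving_mul_left μ a) : Lp ℂ 2 μ →ₗᵢ[ℂ] Lp ℂ 2 μ).inner_map_map u v

theorem TT_adj (a : A) (u v : Lp ℂ 2 μ) : ⟪u, TT μ a v⟫_ℂ = ⟪TT μ a⁻¹ u, v⟫_ℂ := by
  have h : TT μ a (TT μ a⁻¹ u) = u := by
    have := TT_mul μ a a⁻¹
    rw [mul_inv_cancel, TT_one] at this
    exact (congrArg (fun L : Lp ℂ 2 μ →L[ℂ] Lp ℂ 2 μ => L u) this).symm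
  calc ⟪u, TT μ a v⟫_ℂ = ⟪TT μ a (TT μ a⁻¹ u), TT μ a v⟫_ℂ := by rw [h]
    _ = _ := TT_inner μ _ _ _

theorem JJ_TT (φ : C(A, ℂ)) (a : A) (v : Lp ℂ 2 μ) : JJ μ φ (TT μ a v) = TT μ a (JJ μ φ v) := by
  change BoundedContinuousFunction.toLp 2 μ ℂ (J₀ μ φ (TT μ a v)) =
    TT μ a (BoundedContinuousFunction.toLp 2 μ ℂ (J₀ μ φ v))
  rw [← ContinuousMap.toLp_comp_toContinuousMap, ← ContinuousMap.toLp_comp_toContinuousMap,
    TT_toLp]
  congr 1
  refine ContinuousMap.ext fun y => ?_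
  change ⟪Psi μ φ y, TT μ a v⟫_ℂ = ⟪Psi μ φ (a * y), v⟫_ℂ
  rw [TT_adj, TT_Psi]

theorem continuous_TT (v : Lp ℂ 2 μ) : Continuous fun a => TT μ a v := by
  let g : A → C(A, A) := fun a => ⟨fun x => a * x, continuous_const_mul a⟩
  have hg : Continuous g :=
    (ContinuousMap.curry (⟨fun p : A × A => p.1 * p.2, continuous_mul⟩ : C(A × A, A))).continuous
  exact Continuous.compMeasurePreservingLp (f := fun _ : A => v) (g := g) continuous_const hg
    (fun a => measurePreserving_mul_left μ a) (by norm_num)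

include μ in
theorem exists_character_aux (x : A) (hx : x ≠ 1) :
    ∃ χ : A →* Circle, Continuous χ ∧ χ x ≠ 1 := by
  classical
  -- a continuous function separating `1` and `x`
  obtain ⟨g, hg0, hg1, -⟩ := exists_continuous_zero_one_of_isClosed (isClosed_singleton (x := x))
    (isClosed_singleton (x := (1 : A))) (by simpa using hx)
  let gc : C(A, ℂ) := ⟨fun z => (g z : ℂ), Complex.continuous_ofReal.comp g.continuous⟩
  let h : C(A, ℂ) := gc.comp ⟨fun z => x * z, continuous_const_mul x⟩ - gc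
  let f : Lp ℂ 2 μ := ContinuousMap.toLp 2 μ ℂ h
  have hh : h 1 = -1 := by
    have e1 : g x = 0 := hg0 rfl
    have e2 : g 1 = 1 := hg1 rfl
    change ((g (x * 1) : ℝ) : ℂ) - ((g 1 : ℝ) : ℂ) = -1
    rw [mul_one, e1, e2]
    norm_num
  have hf0 : f ≠ 0 := by
    intro hf
    have h2 : h = 0 := ContinuousMap.toLp_injective (p := 2) (𝕜 := ℂ) μ
      (show ContinuousMap.toLp 2 μ ℂ h = ContinuousMap.toLp 2 μ ℂ 0 by rw [map_zero]; exact hf)
    rw [h2] at hh
    norm_num at hh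
  have hfT : f = TT μ x (ContinuousMap.toLp 2 μ ℂ gc) - ContinuousMap.toLp 2 μ ℂ gc := by
    rw [TT_toLp, ← map_sub]
  have hforth : ∀ u, TT μ x u = u → ⟪u, f⟫_ℂ = 0 := by
    intro u hu
    have hu' : TT μ x⁻¹ u = u := by
      have h3 := TT_mul μ x⁻¹ x
      rw [inv_mul_cancel, TT_one] at h3
      have h4 : u = TT μ x⁻¹ (TT μ x u) := congrArg (fun L : Lp ℂ 2 μ →L[ℂ] Lp ℂ 2 μ => L u) h3
      rw [hu] at h4
      exact h4.symm
    rw [hfT, inner_sub_right, TT_adj, hu', sub_self]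
  -- the function `φ`
  let φ : C(A, ℂ) := h.comp ⟨fun z => z⁻¹, continuous_inv⟩
  have hJf : JJ μ φ f ≠ 0 := by
    intro hJ
    have h3 : J₀ μ φ f = 0 := by
      have := BoundedContinuousFunction.toLp_injective (p := 2) (𝕜 := ℂ) μ
        (show BoundedContinuousFunction.toLp 2 μ ℂ (J₀ μ φ f) =
          BoundedContinuousFunction.toLp 2 μ ℂ 0 by rw [map_zero]; exact hJ)
      exact this
    have h4 : ⟪Psi μ φ 1, f⟫_ℂ = 0 := by
      rw [← J₀_apply, h3]
      rfl
    have h5 : Psi μ φ 1 = f := by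
      change ContinuousMap.toLp 2 μ ℂ (Phi φ 1) = ContinuousMap.toLp 2 μ ℂ h
      congr 1
      refine ContinuousMap.ext fun z => ?_
      change h ((1 * z⁻¹)⁻¹) = h z
      rw [one_mul, inv_inv]
    rw [h5] at h4
    exact hf0 (inner_self_eq_zero.mp h4)
  obtain ⟨w, hw0, c, hc, hcx⟩ := exists_eigenvector_ne (TT μ) (TT_one μ) (TT_mul μ) (TT_norm μ) x
    (JJ μ φ) (JJ_compact μ φ) (JJ_TT μ φ) f hforth hJf
  have hcmul : ∀ a b, c (a * b) = c a * c b := by
    intro a b
    have h1 : c (a * b) • w = (c a * c b) • w := by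
      rw [← hc, TT_mul]
      change TT μ a (TT μ b w) = _
      rw [hc b, map_smul, hc a, smul_smul, mul_comm]
    exact smul_left_injective ℂ hw0 h1
  have hc1 : c 1 = 1 := by
    have h1 : c 1 • w = (1 : ℂ) • w := by
      rw [← hc, TT_one, one_smul]
      rfl
    exact smul_left_injective ℂ hw0 h1
  have hcn : ∀ a, ‖c a‖ = 1 := by
    intro a
    have h1 := TT_norm μ a w
    rw [hc, norm_smul] at h1
    exact (mul_eq_right₀ (norm_ne_zero_iff.mpr hw0)).mp h1
  have hww : (⟪w, w⟫_ℂ : ℂ) ≠ 0 := fun h => hw0 (inner_self_eq_zero.mp h)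
  have hcc : Continuous c := by
    have h1 : c = fun a => ⟪w, TT μ a w⟫_ℂ / ⟪w, w⟫_ℂ := by
      funext a
      rw [hc, inner_smul_right, mul_div_assoc, div_self hww, mul_one]
    rw [h1]
    exact (continuous_const.inner (continuous_TT μ w)).div_const _
  refine ⟨{ toFun := fun a => ⟨c a, by simpa [Submonoid.unitSphere] using hcn a⟩
            map_one' := by
              ext
              exact hc1
            map_mul' := fun a b => by
              ext
              exact hcmul a b }, ?_, ?_⟩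
  · exact Continuous.subtype_mk hcc _
  · intro h
    exact hcx (congrArg Subtype.val h)

end Haar

/-- **Characters separate points** of a compact Hausdorff commutative group. -/
theorem exists_character {A : Type*} [CommGroup A] [TopologicalSpace A] [IsTopologicalGroup A]
    [CompactSpace A] [T2Space A] (x : A) (hx : x ≠ 1) :
    ∃ χ : A →* Circle, Continuous χ ∧ χ x ≠ 1 := by
  let : MeasurableSpace A := borel A
  have : BorelSpace A := ⟨rfl⟩
  exact exists_character_aux (Measure.haarMeasure (⊤ : TopologicalSpace.PositiveCompacts A)) x hx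

end Crest.Agent.R217.B1_889
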