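import Crest.Agent.R217.B1_889

/-!
Row 217 (S0336), part B, piece B1b (helper889).

Every nontrivial compact Hausdorff group contains a compact monothetic subgroup `A` with
topological generator `x`, and a continuous character `χ` of prime order `q` of `A` such that
every closed subgroup of `A` on which `χ` is not trivial is all of `A`; and recurrence.
-/

set_option autoImplicit false
set_option linter.unusedSectionVars false

open scoped Topology

namespace Crest.Agent.R217.B1b_889

open Crest.Agent.R217.B1_889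

/-- A closed subgroup of the circle containing an element of infinite order contains `-1`. -/
theorem circle_closed_subgroup (K : Subgroup Circle) (hK : IsClosed (K : Set Circle)) (z : Circle)
    (hz : z ∈ K) : (∃ n : ℕ, 0 < n ∧ z ^ n = 1) ∨ (Circle.exp Real.pi ∈ K) := by
  let S : AddSubgroup ℝ :=
    { carrier := {t | Circle.exp t ∈ K}
      zero_mem' := by
        change Circle.exp 0 ∈ K
        rw [Circle.exp_zero]
        exact K.one_mem
      add_mem' := by
        intro a b ha hb
        change Circle.exp (a + b) ∈ K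
        rw [Circle.exp_add]
        exact K.mul_mem ha hb
      neg_mem' := by
        intro a ha
        change Circle.exp (-a) ∈ K
        rw [Circle.exp_neg]
        exact K.inv_mem ha }
  have hSc : IsClosed (S : Set ℝ) := hK.preimage Circle.exp.continuous
  rcases S.dense_or_cyclic with hd | ⟨a, ha⟩
  · right
    have : (S : Set ℝ) = Set.univ := by rw [← hSc.closure_eq]; exact hd.closure_eq
    have h2 : Real.pi ∈ (S : Set ℝ) := by rw [this]; trivial
    exact h2
  · left
    have h2pi : (2 * Real.pi) ∈ S := by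
      change Circle.exp (2 * Real.pi) ∈ K
      rw [Circle.exp_two_pi]
      exact K.one_mem
    rw [ha, AddSubgroup.mem_closure_singleton] at h2pi
    obtain ⟨n, hn⟩ := h2pi
    have hn0 : n ≠ 0 := by
      rintro rfl
      rw [zero_smul] at hn
      have := Real.pi_pos
      linarith
    obtain ⟨t, ht⟩ : ∃ t : ℝ, Circle.exp t = z := ⟨Complex.arg z, Circle.exp_arg z⟩
    have htS : t ∈ S := by
      change Circle.exp t ∈ K
      rw [ht]; exact hz
    rw [ha, AddSubgroup.mem_closure_singleton] at htS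
    obtain ⟨k, hk⟩ := htS
    have hzn : z ^ n = 1 := by
      have h1 : z ^ n = Circle.exp (n * t) := by
        rw [← ht, ← Circle.exp_zsmul, zsmul_eq_mul]
      rw [h1]
      have h2 : (n : ℝ) * t = (k : ℝ) * (2 * Real.pi) := by
        rw [← hk, ← hn]
        simp only [zsmul_eq_mul]
        ring
      rw [h2, ← zsmul_eq_mul, Circle.exp_zsmul, Circle.exp_two_pi, one_zpow]
    refine ⟨n.natAbs, Int.natAbs_pos.mpr hn0, ?_⟩
    rcases Int.natAbs_eq n with h | h
    · rw [h, zpow_natCast] at hzn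
      exact hzn
    · rw [h, zpow_neg, zpow_natCast, inv_eq_one] at hzn
      exact hzn

/-- A closed nontrivial subgroup of the circle contains an element of prime order. -/
theorem circle_exists_prime (K : Subgroup Circle) (hK : IsClosed (K : Set Circle)) (z : Circle)
    (hz : z ∈ K) (hz1 : z ≠ 1) : ∃ q : ℕ, q.Prime ∧ ∃ ζ ∈ K, IsPrimitiveRoot ζ q := by
  rcases circle_closed_subgroup K hK z hz with ⟨n, hn, hzn⟩ | h
  · have hfin : IsOfFinOrder z := isOfFinOrder_iff_pow_eq_one.mpr ⟨n, hn, hzn⟩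
    have hord : orderOf z ≠ 1 := fun h => hz1 (orderOf_eq_one_iff.mp h)
    obtain ⟨q, hq, hqd⟩ := Nat.exists_prime_and_dvd hord
    refine ⟨q, hq, z ^ (orderOf z / q), K.pow_mem hz _, ?_⟩
    have hpos : 0 < orderOf z := hfin.orderOf_pos
    exact (IsPrimitiveRoot.orderOf z).pow hpos (Nat.div_mul_cancel hqd).symm
  · refine ⟨2, Nat.prime_two, Circle.exp Real.pi, h, ?_⟩
    have hne : Circle.exp Real.pi ≠ 1 := by
      intro h1
      have h2 := congrArg (fun z : Circle => (z : ℂ)) h1
      simp only [Circle.coe_exp, Complex.exp_pi_mul_I, Circle.coe_one] at h2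
      norm_num at h2
    refine IsPrimitiveRoot.iff_def _ _ |>.mpr ⟨?_, ?_⟩
    · rw [← Circle.exp_nsmul, nsmul_eq_mul, Nat.cast_ofNat, Circle.exp_two_pi]
    · intro l hl
      by_contra hcon
      have hodd : l % 2 = 1 := by omega
      obtain ⟨m, hm⟩ : ∃ m, l = 2 * m + 1 := ⟨l / 2, by omega⟩
      rw [hm, pow_add, pow_mul, ← Circle.exp_nsmul, nsmul_eq_mul, Nat.cast_ofNat,
        Circle.exp_two_pi, one_pow, one_mul, pow_one] at hl
      exact hne hl

/-- If the value of a character is a nontrivial `q`-th root of unity with `q` prime then some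
power of it is any given primitive `q`-th root. -/
theorem exists_pow_eq {q : ℕ} (hq : q.Prime) {ζ z : Circle} (hζ : IsPrimitiveRoot ζ q)
    (hz : z ^ q = 1) (hz1 : z ≠ 1) : ∃ n : ℕ, z ^ n = ζ := by
  have hzord : orderOf z = q := by
    rcases (Nat.dvd_prime hq).mp (orderOf_dvd_of_pow_eq_one hz) with h | h
    · exact absurd (orderOf_eq_one_iff.mp h) hz1
    · exact h
  have hzp : IsPrimitiveRoot z q := hzord ▸ IsPrimitiveRoot.orderOf z
  have hzc : IsPrimitiveRoot (z : ℂ) q := hzp.map_of_injective (f := Circle.coeHom)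
    (fun a b h => Circle.ext h)
  have : NeZero q := ⟨hq.ne_zero⟩
  have h1 : ((ζ : Circle) : ℂ) ^ q = 1 := by
    rw [← Circle.coe_pow, hζ.pow_eq_one, Circle.coe_one]
  obtain ⟨n, -, hn⟩ := hzc.eq_pow_of_pow_eq_one h1
  exact ⟨n, Circle.ext (by rw [Circle.coe_pow]; exact hn)⟩

section Zorn

variable {A : Type*} [CommGroup A] [TopologicalSpace A] [IsTopologicalGroup A] [CompactSpace A]
  [T2Space A]

/-- A minimal closed subgroup on which `χ` is nontrivial. -/
theorem exists_minimal (χ : A →* Circle) (hχ : Continuous χ) {q : ℕ} (hq : q.Prime)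
    (hpow : ∀ a, χ a ^ q = 1) (x : A) (hx : χ x ≠ 1) :
    ∃ B : Subgroup A, IsClosed (B : Set A) ∧ (∃ b ∈ B, χ b ≠ 1) ∧
      ∀ B' : Subgroup A, B' ≤ B → IsClosed (B' : Set A) → (∃ b ∈ B', χ b ≠ 1) → B' = B := by
  classical
  set ζ := χ x with hζdef
  have hζ : IsPrimitiveRoot ζ q := by
    have h1 : orderOf ζ = q := by
      rcases (Nat.dvd_prime hq).mp (orderOf_dvd_of_pow_eq_one (hpow x)) with h | h
      · exact absurd (orderOf_eq_one_iff.mp h) hx
      · exact h
    exact h1 ▸ IsPrimitiveRoot.orderOf ζ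
  have hkey : ∀ B : Subgroup A, (∃ b ∈ B, χ b ≠ 1) → ∃ b ∈ B, χ b = ζ := by
    rintro B ⟨b, hb, hb1⟩
    obtain ⟨n, hn⟩ := exists_pow_eq hq hζ (hpow b) hb1
    exact ⟨b ^ n, B.pow_mem hb n, by rw [map_pow, hn]⟩
  let 𝒮 : Set (Subgroup A) := {B | IsClosed (B : Set A) ∧ ∃ b ∈ B, χ b ≠ 1}
  have hzorn : ∃ B, Minimal (· ∈ 𝒮) B := by
    refine zorn_le₀ (α := (Subgroup A)ᵒᵈ) (OrderDual.ofDual ⁻¹' 𝒮) ?_
    intro C hC hchain
    by_cases hne : C.Nonempty
    · refine ⟨OrderDual.toDual (sInf (OrderDual.toDual ⁻¹' C)), ⟨?_, ?_⟩, ?_⟩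
      · change IsClosed ((sInf (OrderDual.toDual ⁻¹' C) : Subgroup A) : Set A)
        rw [Subgroup.coe_sInf]
        refine isClosed_biInter fun B hB => ?_
        exact (hC hB).1
      · have hne' : Nonempty C := hne.to_subtype
        have hdir : ∀ B B' : C, ∃ B'' : C,
            (OrderDual.ofDual B''.1 : Subgroup A) ≤ OrderDual.ofDual B.1 ∧
            (OrderDual.ofDual B''.1 : Subgroup A) ≤ OrderDual.ofDual B'.1 := by
          intro B B'
          rcases hchain.total B.2 B'.2 with h | h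
          · exact ⟨B', h, le_rfl⟩
          · exact ⟨B, le_rfl, h⟩
        have hcomp := IsCompact.nonempty_iInter_of_directed_nonempty_isCompact_isClosed
          (fun B : C => ((OrderDual.ofDual B.1 : Subgroup A) : Set A) ∩ χ ⁻¹' {ζ})
          (by
            intro B B'
            obtain ⟨B'', h1, h2⟩ := hdir B B'
            exact ⟨B'', Set.inter_subset_inter_left _ h1, Set.inter_subset_inter_left _ h2⟩)
          (by
            intro B
            obtain ⟨b, hb, hb1⟩ := hkey _ (hC B.2).2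
            exact ⟨b, hb, hb1⟩)
          (by
            intro B
            exact (((hC B.2).1).inter ((isClosed_singleton).preimage hχ)).isCompact)
          (by
            intro B
            exact ((hC B.2).1).inter ((isClosed_singleton).preimage hχ))
        obtain ⟨b, hb⟩ := hcomp
        rw [Set.mem_iInter] at hb
        refine ⟨b, ?_, ?_⟩
        · change b ∈ sInf (OrderDual.toDual ⁻¹' C)
          rw [Subgroup.mem_sInf]
          intro B hB
          exact (hb ⟨OrderDual.toDual B, hB⟩).1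
        · obtain ⟨B₀, hB₀⟩ := hne
          have := (hb ⟨B₀, hB₀⟩).2
          rw [Set.mem_preimage, Set.mem_singleton_iff] at this
          rw [this]
          exact hx
      · intro B hB
        change sInf (OrderDual.toDual ⁻¹' C) ≤ OrderDual.ofDual B
        exact sInf_le hB
    · refine ⟨OrderDual.toDual ⊤, ⟨isClosed_univ, x, trivial, hx⟩, ?_⟩
      intro B hB
      exact absurd ⟨B, hB⟩ hne
  obtain ⟨B, hB, hmin⟩ := hzorn
  refine ⟨B, hB.1, hB.2, ?_⟩
  intro B' hle hcl hex
  exact le_antisymm hle (hmin ⟨hcl, hex⟩ hle)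

end Zorn

/-- The data delivered by B1b on a compact commutative group: a topological generator `x`, a prime
`q`, a continuous character `χ` of order `q`, with `χ x` a primitive `q`-th root of unity and such
that every closed subgroup on which `χ` is nontrivial is everything. -/
structure MinData (A : Type*) [Group A] [TopologicalSpace A] (x : A) (q : ℕ)
    (χ : A →* Circle) : Prop where
  prime : q.Prime
  cont : Continuous χ
  prim : IsPrimitiveRoot (χ x) q
  pow : ∀ a, χ a ^ q = 1
  dense : Dense ((Subgroup.zpowers x : Subgroup A) : Set A)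
  min : ∀ B : Subgroup A, IsClosed (B : Set A) → (∃ b ∈ B, χ b ≠ 1) → B = ⊤

/-- **B1b, type-level form.** A compact Hausdorff group with an element `x₀ ≠ 1` receives an
injective continuous homomorphism from a compact Hausdorff commutative group with `MinData`. -/
theorem exists_minData {H : Type*} [Group H] [TopologicalSpace H] [IsTopologicalGroup H]
    [CompactSpace H] [T2Space H] (x₀ : H) (hx₀ : x₀ ≠ 1) :
    ∃ A : Subgroup H, IsClosed (A : Set H) ∧ (∀ a b : A, a * b = b * a) ∧
      ∃ (x : A) (q : ℕ) (χ : A →* Circle), MinData A x q χ := by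
  classical
  -- the closed commutative subgroup generated by `x₀`
  let A₀ : Subgroup H := (Subgroup.zpowers x₀).topologicalClosure
  have hcomm : ∀ a b : Subgroup.zpowers x₀, a * b = b * a := by
    rintro ⟨_, m, rfl⟩ ⟨_, n, rfl⟩
    refine Subtype.ext ?_
    change x₀ ^ m * x₀ ^ n = x₀ ^ n * x₀ ^ m
    rw [← zpow_add, ← zpow_add, add_comm]
  let cg₀ : CommGroup A₀ := Subgroup.commGroupTopologicalClosure (Subgroup.zpowers x₀) hcomm
  have hA₀c : IsClosed (A₀ : Set H) := Subgroup.isClosed_topologicalClosure _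
  have : CompactSpace A₀ := isCompact_iff_compactSpace.mp hA₀c.isCompact
  have htg : IsTopologicalGroup A₀ := inferInstance
  have hx₀A : x₀ ∈ A₀ := Subgroup.le_topologicalClosure _ (Subgroup.mem_zpowers x₀)
  have hx₀1 : (⟨x₀, hx₀A⟩ : A₀) ≠ 1 := fun h => hx₀ (congrArg Subtype.val h)
  obtain ⟨χ₀, hχ₀, hχx₀⟩ := exists_character (⟨x₀, hx₀A⟩ : A₀) hx₀1
  -- an element of prime order in the image
  have hK : IsClosed ((χ₀.range : Subgroup Circle) : Set Circle) := by
    rw [MonoidHom.coe_range]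
    exact (isCompact_range hχ₀).isClosed
  obtain ⟨q, hq, ζ, ⟨x₁, hx₁⟩, hζ⟩ := circle_exists_prime χ₀.range hK (χ₀ ⟨x₀, hx₀A⟩)
    ⟨_, rfl⟩ hχx₀
  -- the closed subgroup where `χ₀ ^ q = 1`
  let A₁ : Subgroup A₀ :=
    { carrier := {a | χ₀ a ^ q = 1}
      one_mem' := by
        change χ₀ 1 ^ q = 1
        rw [map_one, one_pow]
      mul_mem' := by
        intro a b ha hb
        change χ₀ (a * b) ^ q = 1
        change χ₀ a ^ q = 1 at ha
        change χ₀ b ^ q = 1 at hb
        rw [map_mul, mul_pow, ha, hb, one_mul]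
      inv_mem' := by
        intro a ha
        change χ₀ a⁻¹ ^ q = 1
        change χ₀ a ^ q = 1 at ha
        rw [map_inv, inv_pow, ha, inv_one] }
  have hA₁c : IsClosed (A₁ : Set A₀) :=
    isClosed_singleton.preimage (hχ₀.pow q)
  have : CompactSpace A₁ := isCompact_iff_compactSpace.mp hA₁c.isCompact
  let χ₁ : A₁ →* Circle := χ₀.comp A₁.subtype
  have hχ₁ : Continuous χ₁ := hχ₀.comp continuous_subtype_val
  have hpow₁ : ∀ a : A₁, χ₁ a ^ q = 1 := fun a => a.2
  have hx₁A : x₁ ∈ A₁ := by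
    change χ₀ x₁ ^ q = 1
    rw [hx₁, hζ.pow_eq_one]
  have hζ1 : ζ ≠ 1 := hζ.ne_one hq.one_lt
  obtain ⟨B, hBc, ⟨b, hbB, hb1⟩, hBmin⟩ := exists_minimal χ₁ hχ₁ hq hpow₁ ⟨x₁, hx₁A⟩
    (by change χ₀ x₁ ≠ 1; rw [hx₁]; exact hζ1)
  -- transport to `H`
  let j₁ : A₁ →* H := A₀.subtype.comp A₁.subtype
  have hj₁c : Continuous j₁ := continuous_subtype_val.comp continuous_subtype_val
  have hj₁i : Function.Injective j₁ := fun a b h => Subtype.ext (Subtype.ext h)
  have hj₁e : Topology.IsClosedEmbedding j₁ :=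
    hj₁c.isClosedEmbedding hj₁i
  let A : Subgroup H := B.map j₁
  have hAc : IsClosed (A : Set H) := by
    rw [Subgroup.coe_map]
    exact hj₁e.isClosedMap _ hBc
  -- the inverse map
  let e : B ≃* A := Subgroup.equivMapOfInjective B j₁ hj₁i
  have he : ∀ b : B, ((e b : A) : H) = j₁ b := fun b => Subgroup.coe_equivMapOfInjective_apply ..
  have hecont : Continuous e := by
    rw [continuous_induced_rng]
    exact hj₁c.comp continuous_subtype_val
  have : CompactSpace B := isCompact_iff_compactSpace.mp hBc.isCompact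
  let eh : B ≃ₜ A := Continuous.homeoOfEquivCompactToT2 (f := e.toEquiv) hecont
  have hesymm : Continuous e.symm := eh.symm.continuous
  let χ : A →* Circle := (χ₁.comp B.subtype).comp e.symm.toMonoidHom
  have hχc : Continuous χ := (hχ₁.comp continuous_subtype_val).comp hesymm
  have hχe : ∀ b : B, χ (e b) = χ₁ b := by
    intro b
    change χ₁ (e.symm (e b) : A₁) = χ₁ b
    rw [MulEquiv.symm_apply_apply]
  -- the generator
  have hminA : ∀ B' : Subgroup A, IsClosed (B' : Set A) → (∃ b ∈ B', χ b ≠ 1) → B' = ⊤ := by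
    rintro B' hB'c ⟨b', hb'B, hb'1⟩
    let B₂ : Subgroup A₁ := (B'.comap e.toMonoidHom).map B.subtype
    have hle : B₂ ≤ B := by
      rintro _ ⟨c, -, rfl⟩
      exact c.2
    have hB₂c : IsClosed (B₂ : Set A₁) := by
      rw [Subgroup.coe_map]
      refine (hBc.isClosedEmbedding_subtypeVal).isClosedMap _ ?_
      exact hB'c.preimage hecont
    have hB₂ex : ∃ b ∈ B₂, χ₁ b ≠ 1 := by
      refine ⟨e.symm b', ⟨e.symm b', ?_, rfl⟩, hb'1⟩
      change e (e.symm b') ∈ B'
      rw [MulEquiv.apply_symm_apply]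
      exact hb'B
    have hEq := hBmin B₂ hle hB₂c hB₂ex
    rw [eq_top_iff]
    intro a _
    have h1 : ((e.symm a : B) : A₁) ∈ B₂ := by
      rw [hEq]
      exact (e.symm a).2
    obtain ⟨c, hc, hca⟩ := h1
    have hc2 : c = e.symm a := Subtype.ext hca
    have hc3 : e c ∈ B' := hc
    rw [hc2, MulEquiv.apply_symm_apply] at hc3
    exact hc3
  have hpowA : ∀ a : A, χ a ^ q = 1 := fun a => hpow₁ _
  let x : A := e ⟨b, hbB⟩
  have hx1 : χ x ≠ 1 := by
    change χ (e ⟨b, hbB⟩) ≠ 1
    rw [hχe]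
    exact hb1
  refine ⟨A, hAc, ?_, x, q, χ, ?_⟩
  · intro a a'
    apply e.symm.injective
    rw [map_mul, map_mul]
    exact mul_comm _ _
  · refine ⟨hq, hχc, ?_, hpowA, ?_, hminA⟩
    · have hord : orderOf (χ x) = q := by
        rcases (Nat.dvd_prime hq).mp (orderOf_dvd_of_pow_eq_one (hpowA x)) with h | h
        · exact absurd (orderOf_eq_one_iff.mp h) hx1
        · exact h
      exact hord ▸ IsPrimitiveRoot.orderOf _
    · have htop := hminA (Subgroup.zpowers x).topologicalClosure
        (Subgroup.isClosed_topologicalClosure _)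
        ⟨x, Subgroup.le_topologicalClosure _ (Subgroup.mem_zpowers x), hx1⟩
      rw [dense_iff_closure_eq]
      have h2 := congrArg (fun S : Subgroup A => (S : Set A)) htop
      simpa [Subgroup.topologicalClosure_coe] using h2

/-- **Recurrence**: in a compact group the powers of an element return to every neighbourhood of
`1`, along exponents as large as we wish. -/
theorem exists_pow_mem_nhds {A : Type*} [Group A] [TopologicalSpace A] [IsTopologicalGroup A]
    [CompactSpace A] (x : A) (U : Set A) (hU : U ∈ 𝓝 (1 : A)) (N : ℕ) :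
    ∃ m : ℕ, 0 < m ∧ N ≤ m ∧ x ^ m ∈ U := by
  obtain ⟨V, hV1, hVo, hVsub⟩ : ∃ V : Set A, V ∈ 𝓝 (1 : A) ∧ IsOpen V ∧
      ∀ v ∈ V, ∀ w ∈ V, v * w⁻¹ ∈ U := by
    have hcont : Filter.Tendsto (fun p : A × A => p.1 * p.2⁻¹) (𝓝 (1, 1)) (𝓝 (1 * 1⁻¹)) :=
      (continuous_fst.mul continuous_snd.inv).tendsto _
    rw [inv_one, mul_one] at hcont
    have h1 := hcont hU
    rw [nhds_prod_eq, Filter.mem_map, Filter.mem_prod_same_iff] at h1
    obtain ⟨V, hV, hVU⟩ := h1
    obtain ⟨W, hWV, hWo, h1W⟩ := mem_nhds_iff.mp hV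
    exact ⟨W, hWo.mem_nhds h1W, hWo, fun v hv w hw => hVU (Set.mk_mem_prod (hWV hv) (hWV hw))⟩
  have h1V : (1 : A) ∈ V := mem_of_mem_nhds hV1
  -- pigeonhole on the sequence `x ^ (k (N+1))`
  obtain ⟨t, ht⟩ := isCompact_univ.elim_finite_subcover (fun a : A => (fun z => z * a⁻¹) ⁻¹' V)
    (fun a => hVo.preimage (continuous_id.mul continuous_const))
    (fun a _ => Set.mem_iUnion.mpr ⟨a, by simpa using h1V⟩)
  have hex : ∀ k : ℕ, ∃ a ∈ t, x ^ (k * (N + 1)) * a⁻¹ ∈ V := by
    intro k
    have := ht (Set.mem_univ (x ^ (k * (N + 1))))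
    simpa using this
  choose a hat haV using hex
  obtain ⟨k, l, hkl, hakl⟩ : ∃ k l : ℕ, k < l ∧ a k = a l := by
    obtain ⟨k, -, l, -, hne, heq⟩ := Set.infinite_univ.exists_ne_map_eq_of_mapsTo
      (f := a) (t := (t : Set A)) (fun k _ => hat k) t.finite_toSet
    rcases lt_or_gt_of_ne hne with h | h
    · exact ⟨k, l, h, heq⟩
    · exact ⟨l, k, h, heq.symm⟩
  refine ⟨(l - k) * (N + 1), by
    have : 0 < l - k := Nat.sub_pos_of_lt hkl
    positivity, ?_, ?_⟩
  · have : 1 ≤ l - k := Nat.sub_pos_of_lt hkl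
    calc N ≤ 1 * (N + 1) := by omega
      _ ≤ (l - k) * (N + 1) := Nat.mul_le_mul_right _ this
  · have h1 := hVsub _ (haV l) _ (haV k)
    rw [hakl] at h1
    have h2 : x ^ (l * (N + 1)) * (a l)⁻¹ * (x ^ (k * (N + 1)) * (a l)⁻¹)⁻¹ =
        x ^ ((l - k) * (N + 1)) := by
      rw [mul_inv_rev, inv_inv, Nat.sub_mul, pow_sub _ (Nat.mul_le_mul_right _ hkl.le)]
      group
    rw [h2] at h1
    exact h1

/-- Recurrence exponents are divisible by `q` when the neighbourhood is small. -/
theorem exists_pow_mem_nhds_dvd {A : Type*} [Group A] [TopologicalSpace A] [IsTopologicalGroup A]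
    [CompactSpace A] {x : A} {q : ℕ} {χ : A →* Circle} (h : MinData A x q χ) (U : Set A)
    (hU : U ∈ 𝓝 (1 : A)) (N : ℕ) : ∃ m : ℕ, 0 < m ∧ N ≤ m ∧ q ∣ m ∧ x ^ m ∈ U := by
  obtain ⟨m, hm, hNm, hmU⟩ := exists_pow_mem_nhds (x ^ q) U hU N
  refine ⟨q * m, Nat.mul_pos h.prime.pos hm, ?_, dvd_mul_right _ _, by rw [pow_mul]; exact hmU⟩
  calc N ≤ m := hNm
    _ = 1 * m := (one_mul m).symm
    _ ≤ q * m := Nat.mul_le_mul_right _ h.prime.pos

/-- The kernel of `χ` is open. -/
theorem isOpen_ker {A : Type*} [Group A] [TopologicalSpace A] {x : A} {q : ℕ} {χ : A →* Circle}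
    (h : MinData A x q χ) : IsOpen ((χ.ker : Subgroup A) : Set A) := by
  have hfin : Set.Finite {z : Circle | z ^ q = 1 ∧ z ≠ 1} := by
    have h1 : Set.Finite {z : ℂ | z ^ q = 1} := by
      have h2 : {z : ℂ | z ^ q = 1} = ((Polynomial.nthRootsFinset q (1 : ℂ) : Finset ℂ) : Set ℂ) := by
        ext z
        rw [Set.mem_ofPred_eq, Finset.mem_coe, Polynomial.mem_nthRootsFinset h.prime.pos]
      rw [h2]
      exact Finset.finite_toSet _
    refine Set.Finite.of_finite_image (f := fun z : Circle => (z : ℂ)) (h1.subset ?_)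
      (fun a _ b _ hab => Circle.ext hab)
    rintro _ ⟨z, ⟨hz, -⟩, rfl⟩
    change (z : ℂ) ^ q = 1
    rw [← Circle.coe_pow, hz, Circle.coe_one]
  have hset : ((χ.ker : Subgroup A) : Set A) = (χ ⁻¹' {z : Circle | z ^ q = 1 ∧ z ≠ 1})ᶜ := by
    ext a
    rw [SetLike.mem_coe, MonoidHom.mem_ker, Set.mem_compl_iff, Set.mem_preimage, Set.mem_ofPred_eq]
    constructor
    · intro ha hb
      exact hb.2 ha
    · intro ha
      by_contra hcon
      exact ha ⟨h.pow a, hcon⟩
  rw [hset, isOpen_compl_iff]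
  exact hfin.isClosed.preimage h.cont

end Crest.Agent.R217.B1b_889
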