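import Mathlib

/-!
Row 217 (S0336), PART A: a locally compact Hausdorff group without small subgroups is a Lie group.
This file only contains definitions, easy lemmas about them, and the Props which are the interfaces
between the pieces.  Blueprint: channel r217 (helper343).
-/

set_option autoImplicit false

open Filter Topology BoundedContinuousFunction Metric
open scoped Topology BoundedContinuousFunction Manifold ContDiff

namespace Crest.Agent.R217.SpecA343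

/-! ## Groups without small subgroups -/

/-- no small subgroups -/
def NSS (G : Type*) [Group G] [TopologicalSpace G] : Prop :=
  ∃ U ∈ 𝓝 (1 : G), ∀ H : Subgroup G, (H : Set G) ⊆ U → H = ⊥

/-- no small compact subgroups -/
def NSCS (G : Type*) [Group G] [TopologicalSpace G] : Prop :=
  ∃ U ∈ 𝓝 (1 : G), ∀ H : Subgroup G, IsCompact (H : Set G) → (H : Set G) ⊆ U → H = ⊥

/-- In a locally compact Hausdorff group the two are the same (closure of a small subgroup). -/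
theorem nss_of_nscs {G : Type*} [Group G] [TopologicalSpace G] [IsTopologicalGroup G] [T2Space G]
    [LocallyCompactSpace G] (h : NSCS G) : NSS G := by
  obtain ⟨U, hU, hH⟩ := h
  obtain ⟨K, hK, hKU, hKc⟩ := local_compact_nhds hU
  refine ⟨K, hK, fun H hHK => ?_⟩
  have hcl : (H.topologicalClosure : Set G) ⊆ K := by
    rw [Subgroup.topologicalClosure_coe]
    exact closure_minimal hHK hKc.isClosed
  have h1 : H.topologicalClosure = ⊥ :=
    hH _ (hKc.of_isClosed_subset (H.isClosed_topologicalClosure) hcl) (hcl.trans hKU)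
  exact le_bot_iff.mp (h1 ▸ H.le_topologicalClosure)

/-! ## Part A-I: escape norm and Gleason function -/

/-- (A1) What we need about the escape norm. `W` is the big set (`U^6 ⊆ W`).
`U` is a small open symmetric set, `W ⊇ U^6` compact symmetric without nontrivial subgroups;
`N g = 1/(k+1)` where `k` is the largest number with `g, …, g^k ∈ U` (`N g = 0` iff `g = 1`). -/
structure Escape (G : Type*) [Group G] [TopologicalSpace G] where
  U : Set G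
  W : Set G
  N : G → ℝ
  C : ℝ
  one_le_C : 1 ≤ C
  isOpen_U : IsOpen U
  one_mem : (1 : G) ∈ U
  inv_mem : ∀ g ∈ U, g⁻¹ ∈ U
  inv_mem_W : ∀ g ∈ W, g⁻¹ ∈ W
  compact_W : IsCompact W
  six : ∀ l : List G, l.length ≤ 6 → (∀ g ∈ l, g ∈ U) → l.prod ∈ W
  N_nonneg : ∀ g, 0 ≤ N g
  N_le_one : ∀ g, N g ≤ 1
  N_one : N 1 = 0
  N_pos : ∀ g, g ≠ 1 → 0 < N g
  N_inv : ∀ g, N g⁻¹ = N g
  N_small : ∀ ε > 0, ∀ᶠ g in 𝓝 (1 : G), N g < ε
  N_nhds : ∀ V ∈ 𝓝 (1 : G), ∃ ε > 0, ∀ g, N g < ε → g ∈ V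
  mem_U : ∀ g, N g < 1 → g ∈ U
  /-- powers of `g` stay in `V` up to time `c / N g` -/
  stay : ∀ V ∈ 𝓝 (1 : G), ∃ c > 0, ∀ g, ∀ k : ℕ, (k : ℝ) * N g ≤ c → g ^ k ∈ V
  /-- powers of `g ≠ 1` leave `W` before time `C / N g` -/
  leave : ∀ g, g ≠ 1 → ∃ k : ℕ, (k : ℝ) * N g ≤ C ∧ g ^ k ∉ W
  /-- if `g` is not in `U`, a bounded power of `g` is not in `W` -/
  leave_U : ∀ g, g ∉ U → ∃ k : ℕ, (k : ℝ) ≤ C ∧ g ^ k ∉ W
  /-- if the powers of `g` up to `k` stay in `W` then `k * N g ≤ C` -/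
  esc_W : ∀ g, ∀ k : ℕ, (∀ i ≤ k, g ^ i ∈ W) → (k : ℝ) * N g ≤ C
  conj : ∀ h ∈ U, ∀ g, N (h * g * h⁻¹) ≤ C * N g

/-- TASK A1 -/
def TaskA1.{u} : Prop := ∀ (G : Type u) [Group G] [TopologicalSpace G] [IsTopologicalGroup G]
    [T2Space G] [LocallyCompactSpace G], NSS G → Nonempty (Escape G)

/-- the main Gleason lemma: a product of elements with small total escape norm is small. -/
def Star {G : Type*} [Group G] [TopologicalSpace G] (E : Escape G) : Prop :=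
  ∃ M : ℝ, 0 < M ∧ ∀ l : List G, (l.map E.N).sum ≤ 1 / M → l.prod ∈ E.U

/-- TASK A2 -/
def TaskA2.{u} : Prop := ∀ (G : Type u) [Group G] [TopologicalSpace G] [IsTopologicalGroup G]
    [T2Space G] [LocallyCompactSpace G] [SecondCountableTopology G] (E : Escape G), Star E

/-! ## translation operators on bounded continuous functions -/
section dd
variable {G : Type*} [Group G] [TopologicalSpace G] [IsTopologicalGroup G]

/-- left translation `(lt g f) x = f (g⁻¹ x)` -/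
def lt (g : G) (f : G →ᵇ ℝ) : G →ᵇ ℝ := f.compContinuous ⟨fun x => g⁻¹ * x, by fun_prop⟩

/-- the difference operator `(dd g f) x = f (g⁻¹ x) - f x` -/
def dd (g : G) (f : G →ᵇ ℝ) : G →ᵇ ℝ := lt g f - f

@[simp] lemma lt_apply (g : G) (f : G →ᵇ ℝ) (x : G) : lt g f x = f (g⁻¹ * x) := rfl

@[simp] lemma dd_apply (g : G) (f : G →ᵇ ℝ) (x : G) : dd g f x = f (g⁻¹ * x) - f x := rfl

@[simp] lemma lt_one (f : G →ᵇ ℝ) : lt 1 f = f := by ext x; simp
@[simp] lemma dd_one (f : G →ᵇ ℝ) : dd 1 f = 0 := by ext x; simp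
lemma lt_mul (g h : G) (f : G →ᵇ ℝ) : lt (g * h) f = lt g (lt h f) := by
  ext x; simp [mul_assoc]
lemma lt_eq (g : G) (f : G →ᵇ ℝ) : lt g f = f + dd g f := by ext x; simp
@[simp] lemma lt_add (g : G) (f₁ f₂ : G →ᵇ ℝ) : lt g (f₁ + f₂) = lt g f₁ + lt g f₂ := by
  ext x; simp
@[simp] lemma lt_sub (g : G) (f₁ f₂ : G →ᵇ ℝ) : lt g (f₁ - f₂) = lt g f₁ - lt g f₂ := by
  ext x; simp
@[simp] lemma lt_smul (g : G) (c : ℝ) (f : G →ᵇ ℝ) : lt g (c • f) = c • lt g f := by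
  ext x; simp
@[simp] lemma dd_add (g : G) (f₁ f₂ : G →ᵇ ℝ) : dd g (f₁ + f₂) = dd g f₁ + dd g f₂ := by
  ext x; simp; ring
@[simp] lemma dd_sub (g : G) (f₁ f₂ : G →ᵇ ℝ) : dd g (f₁ - f₂) = dd g f₁ - dd g f₂ := by
  ext x; simp; ring
@[simp] lemma dd_smul (g : G) (c : ℝ) (f : G →ᵇ ℝ) : dd g (c • f) = c • dd g f := by
  ext x; simp; ring
@[simp] lemma dd_zero (g : G) : dd g (0 : G →ᵇ ℝ) = 0 := by ext x; simp
@[simp] lemma lt_zero (g : G) : lt g (0 : G →ᵇ ℝ) = 0 := by ext x; simp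

@[simp] lemma norm_lt (g : G) (f : G →ᵇ ℝ) : ‖lt g f‖ = ‖f‖ := by
  apply le_antisymm
  · rw [BoundedContinuousFunction.norm_le (norm_nonneg f)]
    intro x; exact f.norm_coe_le_norm _
  · rw [BoundedContinuousFunction.norm_le (norm_nonneg _)]
    intro x
    have := (lt g f).norm_coe_le_norm (g * x)
    simpa using this

lemma dd_mul (g h : G) (f : G →ᵇ ℝ) : dd (g * h) f = dd g f + dd h f + dd g (dd h f) := by
  ext x; simp [mul_assoc]

lemma dd_mul' (g h : G) (f : G →ᵇ ℝ) : dd (g * h) f = dd g f + lt g (dd h f) := by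
  ext x; simp [mul_assoc]

lemma norm_dd_inv (g : G) (f : G →ᵇ ℝ) : ‖dd g⁻¹ f‖ = ‖dd g f‖ := by
  have h : dd g⁻¹ f = - lt g⁻¹ (dd g f) := by ext x; simp
  rw [h, norm_neg, norm_lt]

lemma norm_dd_mul_le (g h : G) (f : G →ᵇ ℝ) : ‖dd (g * h) f‖ ≤ ‖dd g f‖ + ‖dd h f‖ := by
  rw [dd_mul']
  exact (norm_add_le _ _).trans (by rw [norm_lt])

/-- left invariant metric -/
lemma norm_dd_inv_mul (g h : G) (f : G →ᵇ ℝ) : ‖dd (g⁻¹ * h) f‖ = ‖dd g f - dd h f‖ := by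
  have h1 : dd g f - dd h f = - lt g (dd (g⁻¹ * h) f) := by ext x; simp [mul_assoc]
  rw [h1, norm_neg, norm_lt]

lemma norm_dd_le (g : G) (f : G →ᵇ ℝ) : ‖dd g f‖ ≤ 2 * ‖f‖ := by
  have := norm_sub_le (lt g f) f
  rw [norm_lt] at this
  unfold dd; linarith

end dd

/-- (A-I output) A Gleason function: `n g = ‖dd g φ‖` is a left invariant norm defining the
topology, and second differences of `φ` are quadratically small. -/
structure GleasonFn (G : Type*) [Group G] [TopologicalSpace G] [IsTopologicalGroup G] where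
  φ : G →ᵇ ℝ
  C : ℝ
  r : ℝ
  one_le_C : 1 ≤ C
  r_pos : 0 < r
  Cr : 16 * (C * r) ≤ 1
  small : ∀ ε > 0, ∀ᶠ g in 𝓝 (1 : G), ‖dd g φ‖ < ε
  nhds : ∀ V ∈ 𝓝 (1 : G), ∃ ε > 0, ∀ g, ‖dd g φ‖ < ε → g ∈ V
  cpt : IsCompact {g : G | ‖dd g φ‖ ≤ r}
  second : ∀ g h, ‖dd g φ‖ ≤ r → ‖dd h φ‖ ≤ r →
    ‖dd g (dd h φ)‖ ≤ C * ‖dd g φ‖ * ‖dd h φ‖

/-- TASK A3 -/
def TaskA3.{u} : Prop := ∀ (G : Type u) [Group G] [TopologicalSpace G] [IsTopologicalGroup G]
    [T2Space G] [LocallyCompactSpace G] [SecondCountableTopology G] (E : Escape G),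
    Star E → Nonempty (GleasonFn G)

/-! ## Part A-II -/

/-- A left invariant norm with commutator and escape estimates ("Gleason metric"). -/
structure GNorm (G : Type*) [Group G] [TopologicalSpace G] where
  n : G → ℝ
  C : ℝ
  r : ℝ
  one_le_C : 1 ≤ C
  r_pos : 0 < r
  Cr : 8 * (C * r) ≤ 1
  nonneg : ∀ g, 0 ≤ n g
  one : n 1 = 0
  inv : ∀ g, n g⁻¹ = n g
  mul : ∀ g h, n (g * h) ≤ n g + n h
  small : ∀ ε > 0, ∀ᶠ g in 𝓝 (1 : G), n g < ε
  nhds : ∀ V ∈ 𝓝 (1 : G), ∃ ε > 0, ∀ g, n g < ε → g ∈ V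
  cpt : IsCompact {g : G | n g ≤ r}
  comm : ∀ g h, n g ≤ r → n h ≤ r → n (g⁻¹ * h⁻¹ * g * h) ≤ C * n g * n h
  esc : ∀ g, ∀ k : ℕ, (∀ i ≤ k, n (g ^ i) ≤ r) → (k : ℝ) * n g ≤ 2 * n (g ^ k)

/-- continuous one-parameter subgroups -/
structure OP (G : Type*) [Group G] [TopologicalSpace G] where
  X : ℝ → G
  cont : Continuous X
  add : ∀ s t, X (s + t) = X s * X t

/-- TASK A4a: the Gleason function gives a Gleason metric. -/
def TaskA4a.{u} : Prop := ∀ (G : Type u) [Group G] [TopologicalSpace G] [IsTopologicalGroup G]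
    [T2Space G] (F : GleasonFn G), ∃ N : GNorm G, N.n = (fun g => ‖dd g F.φ‖) ∧ N.r = F.r ∧
      N.C = 2 * F.C

/-- TASK A4b: perturbation of products. -/
def TaskA4b.{u} : Prop := ∀ (G : Type u) [Group G] [TopologicalSpace G] [IsTopologicalGroup G]
    (N : GNorm G) (l : List (G × G)),
    (∀ l' : List (G × G), l' <:+ l → N.n (l'.map Prod.fst).prod ≤ N.r) →
    (∀ p ∈ l, N.n p.2 ≤ N.r) →
    N.n ((l.map Prod.fst).prod⁻¹ * (l.map (fun p => p.1 * p.2)).prod) ≤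
      2 * (l.map (fun p => N.n p.2)).sum

/-- TASK A4c: powers. -/
def TaskA4c.{u} : Prop := ∀ (G : Type u) [Group G] [TopologicalSpace G] [IsTopologicalGroup G]
    (N : GNorm G),
    (∀ g h, ∀ k : ℕ, (∀ i ≤ k, N.n (g ^ i) ≤ N.r) → N.n (g⁻¹ * h) ≤ N.r →
      N.n ((g ^ k)⁻¹ * h ^ k) ≤ 2 * k * N.n (g⁻¹ * h)) ∧
    (∀ a b, ∀ k : ℕ, (k : ℝ) * N.n a ≤ N.r / 2 → (k : ℝ) * N.n b ≤ N.r / 2 →
      N.n ((a ^ k * b ^ k)⁻¹ * (a * b) ^ k) ≤ 2 * N.C * k ^ 2 * N.n a * N.n b) ∧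
    (∀ a b, N.n a ≤ N.r → N.n b ≤ N.r → N.n (b⁻¹ * a * b) ≤ 2 * N.n a)

/-- `D` is the derivative of `φ` along `X` (as a limit in sup norm, with quadratic error). -/
def HasD {G : Type*} [Group G] [TopologicalSpace G] [IsTopologicalGroup G] (F : GleasonFn G)
    (X : OP G) (D : G →ᵇ ℝ) : Prop :=
  (∀ t : ℝ, ‖dd (X.X t) F.φ‖ ≤ |t| * ‖D‖) ∧
  ∀ t : ℝ, |t| * ‖D‖ ≤ F.r → ‖dd (X.X t) F.φ - t • D‖ ≤ F.C * (t * ‖D‖) ^ 2

/-- TASK A5a: ultrafilter limits of powers are one-parameter subgroups. -/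
def TaskA5a.{u} : Prop := ∀ (G : Type u) [Group G] [TopologicalSpace G] [IsTopologicalGroup G]
    [T2Space G] [LocallyCompactSpace G] (F : GleasonFn G) (𝒰 : Ultrafilter ℕ)
    (g : ℕ → G) (m : ℕ → ℕ) (L : ℝ), Tendsto m 𝒰 atTop →
    (∀ᶠ j in (𝒰 : Filter ℕ), (m j : ℝ) * ‖dd (g j) F.φ‖ ≤ L) →
    ∃ (X : OP G) (D : G →ᵇ ℝ), HasD F X D ∧ Tendsto (fun j => (m j : ℝ) • dd (g j) F.φ) 𝒰 (𝓝 D) ∧
      ∀ t : ℝ, Tendsto (fun j => g j ^ ⌊(m j : ℝ) * t⌋) 𝒰 (𝓝 (X.X t))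

/-- TASK A5b: every one-parameter subgroup has a derivative, and the derivative determines it. -/
def TaskA5b.{u} : Prop := ∀ (G : Type u) [Group G] [TopologicalSpace G] [IsTopologicalGroup G]
    [T2Space G] [LocallyCompactSpace G] (F : GleasonFn G),
    (∀ X : OP G, ∃ D, HasD F X D) ∧
    (∀ (X Y : OP G) (D : G →ᵇ ℝ), HasD F X D → HasD F Y D → X.X = Y.X)

/-- TASK A6: the derivatives form a finite dimensional subspace. -/
def TaskA6.{u} : Prop := ∀ (G : Type u) [Group G] [TopologicalSpace G] [IsTopologicalGroup G]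
    [T2Space G] [LocallyCompactSpace G] (F : GleasonFn G),
    ∃ 𝔤 : Submodule ℝ (G →ᵇ ℝ), FiniteDimensional ℝ 𝔤 ∧
      ∀ D, D ∈ 𝔤 ↔ ∃ X : OP G, HasD F X D

/-- The exponential map in a Gleason metric (output of A7). -/
structure ExpData (G : Type*) [Group G] [TopologicalSpace G]
    (V : Type*) [NormedAddCommGroup V] [NormedSpace ℝ V] where
  N : GNorm G
  exp : V → G
  K : ℝ
  ρ : ℝ
  one_le_K : 1 ≤ K
  ρ_pos : 0 < ρ
  ρ_le : ρ ≤ N.r
  Kρ : 8 * (K * ρ) ≤ 1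
  cont : Continuous exp
  exp_add_smul : ∀ (u : V) (s t : ℝ), exp ((s + t) • u) = exp (s • u) * exp (t • u)
  exp_surj : ∀ X : OP G, ∃ u : V, ∀ t : ℝ, X.X t = exp (t • u)
  n_exp_le : ∀ u : V, N.n (exp u) ≤ ‖u‖
  exp_add : ∀ u w : V, ‖u‖ ≤ ρ → ‖w‖ ≤ ρ →
    N.n ((exp u * exp w)⁻¹ * exp (u + w)) ≤ K * ‖u‖ * ‖w‖
  le_dist : ∀ u w : V, ‖u‖ ≤ ρ → ‖w‖ ≤ ρ → ‖w - u‖ ≤ 4 * N.n ((exp u)⁻¹ * exp w)
  dist_le : ∀ u w : V, ‖u‖ ≤ ρ → ‖w‖ ≤ ρ → N.n ((exp u)⁻¹ * exp w) ≤ 4 * ‖w - u‖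
  exp_nhds : ∀ δ > 0, exp '' ball (0 : V) δ ∈ 𝓝 (1 : G)

/-- TASK A7. -/
def TaskA7.{u} : Prop := ∀ (G : Type u) [Group G] [TopologicalSpace G] [IsTopologicalGroup G]
    [T2Space G] [LocallyCompactSpace G] (F : GleasonFn G) (𝔤 : Submodule ℝ (G →ᵇ ℝ)),
    FiniteDimensional ℝ 𝔤 → (∀ D, D ∈ 𝔤 ↔ ∃ X : OP G, HasD F X D) →
    Nonempty (ExpData G 𝔤)

/-- Adjoint representation (output of A8). -/
structure AdData {G : Type*} [Group G] [TopologicalSpace G]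
    {V : Type*} [NormedAddCommGroup V] [NormedSpace ℝ V] (E : ExpData G V) where
  Ad : G → V →L[ℝ] V
  Ad_one : Ad 1 = ContinuousLinearMap.id ℝ V
  Ad_mul : ∀ g h, Ad (g * h) = (Ad g).comp (Ad h)
  exp_Ad : ∀ g u, g * E.exp u * g⁻¹ = E.exp (Ad g u)
  ad : V →L[ℝ] V →L[ℝ] V
  Ad_exp : ∀ u, Ad (E.exp u) = NormedSpace.exp (ad u)

/-- TASK A8 (A8a: Trotter formula and Ad; A8b: `ad`). -/
def TaskA8.{u, v} : Prop := ∀ (G : Type u) [Group G] [TopologicalSpace G] [IsTopologicalGroup G]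
    [T2Space G] (V : Type v) [NormedAddCommGroup V] [NormedSpace ℝ V] [FiniteDimensional ℝ V]
    (E : ExpData G V), Nonempty (AdData E)

/-- `Ψ(B) = ∫₀¹ exp(-sB) ds = (1 - e^{-B})/B`, the (left) logarithmic derivative of `exp`. -/
noncomputable def Psi {V : Type*} [NormedAddCommGroup V] [NormedSpace ℝ V]
    (B : V →L[ℝ] V) : V →L[ℝ] V :=
  ∫ s in (0 : ℝ)..1, NormedSpace.exp (-(s • B))

/-- TASK A9a: `Psi` is smooth and `Psi 0 = 1`. -/
def TaskA9a.{v} : Prop := ∀ (V : Type v) [NormedAddCommGroup V] [NormedSpace ℝ V]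
    [FiniteDimensional ℝ V], ContDiff ℝ ∞ (Psi (V := V)) ∧
      Psi (0 : V →L[ℝ] V) = ContinuousLinearMap.id ℝ V

/-- (E2) the derivative of `exp` at `z`. -/
def E2 {G : Type*} [Group G] [TopologicalSpace G]
    {V : Type*} [NormedAddCommGroup V] [NormedSpace ℝ V] (E : ExpData G V) (A : AdData E) : Prop :=
  ∃ c > 0, ∃ δ > 0, ∀ z v : V, ‖z‖ ≤ δ → ‖v‖ ≤ δ →
    E.N.n ((E.exp z * E.exp (Psi (A.ad z) v))⁻¹ * E.exp (z + v)) ≤ c * ‖v‖ ^ 2

/-- TASK A9b -/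
def TaskA9b.{u, v} : Prop := ∀ (G : Type u) [Group G] [TopologicalSpace G] [IsTopologicalGroup G]
    [T2Space G] (V : Type v) [NormedAddCommGroup V] [NormedSpace ℝ V] [FiniteDimensional ℝ V]
    (E : ExpData G V) (A : AdData E), E2 E A

/-- A local smooth structure at the identity (in a chart `κ`), for which multiplication, inversion
and all conjugations are smooth. -/
structure LocSm (G : Type*) [Group G] [TopologicalSpace G]
    (V : Type*) [NormedAddCommGroup V] [NormedSpace ℝ V] where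
  κ : OpenPartialHomeomorph G V
  one_mem : (1 : G) ∈ κ.source
  κ_one : κ 1 = 0
  mul_on : ∃ s ∈ 𝓝 ((0 : V), (0 : V)),
    ContDiffOn ℝ ∞ (fun p : V × V => κ (κ.symm p.1 * κ.symm p.2)) s
  inv_at : ContDiffAt ℝ ∞ (fun x : V => κ (κ.symm x)⁻¹) 0
  conj_at : ∀ g : G, ContDiffAt ℝ ∞ (fun x : V => κ (g * κ.symm x * g⁻¹)) 0

/-- TASK A10a: bootstrapping. -/
def TaskA10a.{v, w} : Prop := ∀ (V : Type v) [NormedAddCommGroup V] [NormedSpace ℝ V]
    (W : Type w) [NormedAddCommGroup W] [NormedSpace ℝ W] (s : Set V) (t : Set (V × W))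
    (f : V → W) (Φ : V × W → V →L[ℝ] W), IsOpen s → IsOpen t → ContDiffOn ℝ ∞ Φ t →
    (∀ x ∈ s, (x, f x) ∈ t) → (∀ x ∈ s, HasFDerivAt f (Φ (x, f x)) x) → ContDiffOn ℝ ∞ f s

/-- TASK A10b: local smooth structure. -/
def TaskA10b.{u, v} : Prop := ∀ (G : Type u) [Group G] [TopologicalSpace G] [IsTopologicalGroup G]
    [T2Space G] (V : Type v) [NormedAddCommGroup V] [NormedSpace ℝ V] [FiniteDimensional ℝ V]
    (E : ExpData G V) (A : AdData E), E2 E A → Nonempty (LocSm G V)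

/-- TASK A11: a local smooth structure gives a Lie group with the given topology. -/
def TaskA11.{u, v} : Prop := ∀ (G : Type u) [Group G] [TopologicalSpace G] [IsTopologicalGroup G]
    [T2Space G] (V : Type v) [NormedAddCommGroup V] [NormedSpace ℝ V] [FiniteDimensional ℝ V],
    Nonempty (LocSm G V) →
    ∃ (d : ℕ) (c : ChartedSpace (EuclideanSpace ℝ (Fin d)) G),
      @LieGroup ℝ _ (EuclideanSpace ℝ (Fin d)) _ (EuclideanSpace ℝ (Fin d)) _ _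
        𝓘(ℝ, EuclideanSpace ℝ (Fin d)) ∞ G _ _ c

/-- PART A -/
def PartA.{u} : Prop := ∀ (G : Type u) [Group G] [TopologicalSpace G] [IsTopologicalGroup G]
    [T2Space G] [LocallyCompactSpace G] [SecondCountableTopology G], NSCS G →
    ∃ (d : ℕ) (c : ChartedSpace (EuclideanSpace ℝ (Fin d)) G),
      @LieGroup ℝ _ (EuclideanSpace ℝ (Fin d)) _ (EuclideanSpace ℝ (Fin d)) _ _
        𝓘(ℝ, EuclideanSpace ℝ (Fin d)) ∞ G _ _ c

/-- Assembly of part A (all universe variables are the universe of `G`). -/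
theorem partA_of_tasks.{u} (h1 : TaskA1.{u}) (h2 : TaskA2.{u}) (h3 : TaskA3.{u})
    (h6 : TaskA6.{u}) (h7 : TaskA7.{u}) (h8 : TaskA8.{u, u}) (h9b : TaskA9b.{u, u})
    (h10b : TaskA10b.{u, u}) (h11 : TaskA11.{u, u}) : PartA.{u} := by
  intro G _ _ _ _ _ _ hG
  obtain ⟨E⟩ := h1 G (nss_of_nscs hG)
  obtain ⟨F⟩ := h3 G E (h2 G E)
  obtain ⟨𝔤, hfin, hmem⟩ := h6 G F
  obtain ⟨X⟩ := h7 G F 𝔤 hfin hmem
  obtain ⟨A⟩ := h8 G 𝔤 X
  exact h11 G 𝔤 (h10b G 𝔤 X A (h9b G 𝔤 X A))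

end Crest.Agent.R217.SpecA343
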