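import Mathlib
import Crest.Agent.R217.SpecA_343

/-!
Row 217 (S0336), PART B: interfaces between the group/manifold side and the chain-level crux.

* `HData E q` : the powers `h i` (`i : ℕ`) of one homeomorphism of an open set `Ω` of `E`,
  equicontinuous and recurrent along multiples of `q`, with an invariant map `f : Ω → E`.
* `CruxT` : small orbits near a ball and separation over one point: impossible.
* `CruxP` : `f` proper over a convex open `Y`, everything trivial over a neighbourhood of `y0 ∈ Y`,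
  separation over `y1 ∈ Y`: impossible.
* `TaskB1` : a nontrivial compact group contains a closed subgroup with `Mono` data (helper889).
* `PartB`: `TaskB1 → CruxT → CruxP → (faithful action on a connected manifold → NSCS G)`.
-/

set_option autoImplicit false

open Set Metric Topology
open scoped Topology Manifold ContDiff

namespace Crest.Agent.R217.SpecB837

open Crest.Agent.R217.SpecA343

/-! ## Euclidean data -/

/-- `h i` is the action of the `i`-th power of the generator on the open set `Ω`,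
`f` is an invariant map (an average). -/
structure HData (E : Type*) [PseudoMetricSpace E] (q : ℕ) where
  Ω : Set E
  h : ℕ → E → E
  f : E → E
  isOpen : IsOpen Ω
  maps : ∀ i, ∀ v ∈ Ω, h i v ∈ Ω
  zero : ∀ v ∈ Ω, h 0 v = v
  add : ∀ i j, ∀ v ∈ Ω, h (i + j) v = h i (h j v)
  /-- uniform equicontinuity on compact sets -/
  equi : ∀ K ⊆ Ω, IsCompact K → ∀ ε > 0, ∃ δ > 0, ∀ v ∈ K, ∀ w ∈ Ω, dist w v < δ →
    ∀ i, dist (h i w) (h i v) < ε
  /-- compact sets are contained in invariant compact sets -/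
  hull : ∀ K ⊆ Ω, IsCompact K → ∃ K' ⊆ Ω, IsCompact K' ∧ K ⊆ K' ∧ ∀ i, ∀ v ∈ K', h i v ∈ K'
  /-- recurrence, uniform on compact sets, along multiples of `q` -/
  recur : ∀ K ⊆ Ω, IsCompact K → ∀ ε > 0, ∃ m > 0, q ∣ m ∧ ∀ v ∈ K, dist (h m v) v < ε
  f_cont : ContinuousOn f Ω
  f_inv : ∀ i, ∀ v ∈ Ω, f (h i v) = f v

/-- **CRUX T** (small orbits).  In `Fin n → ℝ` with the sup norm: if all orbits of points of
`closedBall 0 2` are `δ`-small, `f` is `δ`-close to the identity there, then it is impossible that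
over (a neighbourhood of) some `y ∈ ball 0 1` the points are moved by at least `s` by all `h i`
with `q ∤ i`.  (`δ` depends on `n` only.) -/
def CruxT (n : ℕ) : Prop :=
  ∃ δ > 0, ∀ q : ℕ, q.Prime → ∀ D : HData (Fin n → ℝ) q, closedBall 0 2 ⊆ D.Ω →
    (∀ v ∈ closedBall (0 : Fin n → ℝ) 2, ∀ i, dist (D.h i v) v ≤ δ) →
    (∀ v ∈ closedBall (0 : Fin n → ℝ) 2, dist (D.f v) v ≤ δ) →
    ∀ y ∈ ball (0 : Fin n → ℝ) 1, ∀ r > 0, ∀ s > 0,
      (∀ v ∈ closedBall (0 : Fin n → ℝ) 2, dist (D.f v) y < r → ∀ i, ¬ q ∣ i → s ≤ dist (D.h i v) v) →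
      False

/-- **CRUX P** (proper version).  `f` is proper over the convex open set `Y`; over the ball
`ball y0 r` everything is trivial; over `ball y1 r` the points are separated. -/
def CruxP (n : ℕ) : Prop :=
  ∀ q : ℕ, q.Prime → ∀ D : HData (Fin n → ℝ) q, ∀ Y : Set (Fin n → ℝ), IsOpen Y → Convex ℝ Y →
    (∀ L ⊆ Y, IsCompact L → IsCompact (D.Ω ∩ D.f ⁻¹' L)) →
    ∀ y0 ∈ Y, ∀ y1 ∈ Y, ∀ r > 0, ∀ s > 0,
      (∀ v ∈ ball y0 r, v ∈ D.Ω ∧ D.f v = v ∧ ∀ i, D.h i v = v) →
      (∀ v ∈ D.Ω, D.f v ∈ ball y0 r → D.f v = v) →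
      (∀ v ∈ D.Ω, D.f v ∈ ball y1 r → ∀ i, ¬ q ∣ i → s ≤ dist (D.h i v) v) →
      False

/-! ## Compact groups -/

/-- a monothetic group with a character of prime order and the minimality property of helper67 -/
structure Mono (A : Type*) [Group A] [TopologicalSpace A] where
  x : A
  q : ℕ
  prime : q.Prime
  chi : A →* Circle
  cont : Continuous chi
  pow : chi x ^ q = 1
  ne : chi x ≠ 1
  mini : ∀ B : Subgroup A, IsClosed (B : Set A) → (∃ b ∈ B, chi b ≠ 1) → B = ⊤

/-- TASK B1 (helper889) -/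
def TaskB1.{u} : Prop := ∀ (H : Type u) [Group H] [TopologicalSpace H] [IsTopologicalGroup H]
    [T2Space H] [CompactSpace H] [SecondCountableTopology H], Nontrivial H →
    ∃ A : Subgroup H, IsClosed (A : Set H) ∧ Nonempty (Mono A)

/-! ## Part B -/

/-- PART B: a locally compact group acting faithfully on a connected manifold has no small compact
subgroups. -/
def PartB.{u, v} : Prop :=
    ∀ (n : ℕ) (_ : 1 ≤ n)
    (M : Type u) [TopologicalSpace M] [T2Space M] [SecondCountableTopology M] [ConnectedSpace M]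
    [ChartedSpace (EuclideanSpace ℝ (Fin n)) M]
    (G : Type v) [Group G] [TopologicalSpace G] [IsTopologicalGroup G] [T2Space G]
    [SecondCountableTopology G] [LocallyCompactSpace G]
    [MulAction G M] [ContinuousSMul G M] [FaithfulSMul G M], NSCS G

/-- S0336 from the parts -/
theorem s0336_of.{u, v} (hA : PartA.{v}) (hB : PartB.{u, v})
    (n : ℕ) (hn : 1 ≤ n)
    (M : Type u) [TopologicalSpace M] [T2Space M] [SecondCountableTopology M] [ConnectedSpace M]
    [ChartedSpace (EuclideanSpace ℝ (Fin n)) M]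
    (G : Type v) [Group G] [TopologicalSpace G] [IsTopologicalGroup G] [T2Space G]
    [SecondCountableTopology G] [LocallyCompactSpace G]
    [MulAction G M] [ContinuousSMul G M] [FaithfulSMul G M] :
    ∃ (d : ℕ) (c : ChartedSpace (EuclideanSpace ℝ (Fin d)) G),
      @LieGroup ℝ _ (EuclideanSpace ℝ (Fin d)) _ (EuclideanSpace ℝ (Fin d)) _ _
        𝓘(ℝ, EuclideanSpace ℝ (Fin d)) ∞ G _ _ c :=
  hA G (hB n hn M G)

/-- TASK B (helper837) -/
def TaskB.{u, v} : Prop := TaskB1.{v} → (∀ n, 1 ≤ n → CruxT n) → (∀ n, 1 ≤ n → CruxP n) →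
  PartB.{u, v}

end Crest.Agent.R217.SpecB837
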