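import Crest.Agent.R217.B1b_889
import Crest.Agent.R217.SpecB_837

/-!
Row 217 (S0336), part B, piece B1c (helper889): adapters.

* `taskB1 : SpecB837.TaskB1` (helper837's interface);
* `exists_complex_character` : the same with a complex valued character (helper478's `Crux`).
-/

set_option autoImplicit false

open scoped Topology

namespace Crest.Agent.R217.B1c_889

open Crest.Agent.R217.B1b_889

/-- TASK B1 in the form of `SpecB_837`. -/
theorem taskB1.{u} : Crest.Agent.R217.SpecB837.TaskB1.{u} := by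
  intro H _ _ _ _ _ _ hH
  obtain ⟨x₀, hx₀⟩ := exists_ne (1 : H)
  obtain ⟨A, hA, -, x, q, χ, hχ⟩ := exists_minData x₀ hx₀
  refine ⟨A, hA, ⟨{
    x := x
    q := q
    prime := hχ.prime
    chi := χ
    cont := hχ.cont
    pow := hχ.pow x
    ne := hχ.prim.ne_one hχ.prime.one_lt
    mini := hχ.min }⟩⟩

/-- The same with a character with values in `ℂ` and dense integer powers. -/
theorem exists_complex_character {H : Type*} [Group H] [TopologicalSpace H] [IsTopologicalGroup H]
    [CompactSpace H] [T2Space H] (x₀ : H) (hx₀ : x₀ ≠ 1) :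
    ∃ A : Subgroup H, IsClosed (A : Set H) ∧ (∀ a b : A, a * b = b * a) ∧
      ∃ (x : A) (q : ℕ) (χ : A →* ℂ), q.Prime ∧ Dense (Set.range fun k : ℤ => x ^ k) ∧
        Continuous χ ∧ (∀ g, χ g ^ q = 1) ∧ χ x ≠ 1 ∧
        ∀ B : Subgroup A, IsClosed (B : Set A) → (∃ b ∈ B, χ b ≠ 1) → B = ⊤ := by
  obtain ⟨A, hA, hcomm, x, q, χ, hχ⟩ := exists_minData x₀ hx₀
  refine ⟨A, hA, hcomm, x, q, Circle.coeHom.comp χ, hχ.prime, ?_, ?_, ?_, ?_, ?_⟩
  · have := hχ.dense
    rwa [Subgroup.coe_zpowers] at this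
  · exact continuous_subtype_val.comp hχ.cont
  · intro g
    change ((χ g : Circle) : ℂ) ^ q = 1
    rw [← Circle.coe_pow, hχ.pow, Circle.coe_one]
  · intro h
    have h1 : ((χ x : Circle) : ℂ) = ((1 : Circle) : ℂ) := h
    exact hχ.prim.ne_one hχ.prime.one_lt (Circle.ext h1)
  · rintro B hB ⟨b, hb, hb1⟩
    refine hχ.min B hB ⟨b, hb, fun h => hb1 ?_⟩
    change ((χ b : Circle) : ℂ) = 1
    rw [h, Circle.coe_one]

end Crest.Agent.R217.B1c_889
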