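import Mathlib

/-!
Row 217 (S0336), interface between the group/manifold side (part B) and the crux (part C).

`Crux n` is a purely Euclidean statement.  It is used twice:
* small orbits in a chart (`y1 = y0` a non-fixed point),
* at the frontier of the interior of the fixed point set (after an inversion of the chart).
-/

set_option autoImplicit false

open Filter Topology Metric Set

namespace Crest.Agent.R217.SpecC478

/-- Euclidean space -/
abbrev E (n : ℕ) := EuclideanSpace ℝ (Fin n)

/-- A (total function describing a) continuous action of `G` on the open subset `V` of `ℝⁿ`,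
a continuous `G`-invariant map `f : V → ℝⁿ`, and a ball `ball w R` over which `f` is proper. -/
structure Setup.{u} (n : ℕ) (G : Type u) [Group G] [TopologicalSpace G] where
  V : Set (E n)
  isOpen_V : IsOpen V
  act : G → E n → E n
  act_mem : ∀ g, ∀ v ∈ V, act g v ∈ V
  act_one : ∀ v ∈ V, act 1 v = v
  act_mul : ∀ g h, ∀ v ∈ V, act (g * h) v = act g (act h v)
  act_cont : ContinuousOn (fun p : G × E n => act p.1 p.2) (univ ×ˢ V)
  f : E n → E n
  f_cont : ContinuousOn f V
  f_inv : ∀ g, ∀ v ∈ V, f (act g v) = f v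
  w : E n
  R : ℝ
  proper : ∀ ρ < R, IsCompact {v | v ∈ V ∧ f v ∈ closedBall w ρ}

/-- THE CRUX.  There is `c > 0` (depending on `n`) such that the following is impossible:
`G` compact, topologically generated by `x`, `χ : G → μ_q` a continuous character of prime order
`q` with `χ x ≠ 1`; a `Setup`; a ball `ball y0 r0` in `V` and in `ball w R` near which all
displacements are `≤ c r0`; and `y1 ∈ ball w R` over which no `g` with `χ g ≠ 1` has a fixed
point. -/
def Crux.{u} (n : ℕ) : Prop :=
  ∃ c : ℝ, 0 < c ∧ ∀ (G : Type u) [Group G] [TopologicalSpace G] [IsTopologicalGroup G]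
    [CompactSpace G] [T2Space G] [SecondCountableTopology G]
    (x : G), Dense (range fun k : ℤ => x ^ k) →
    ∀ q : ℕ, q.Prime → ∀ χ : G →* ℂ, Continuous χ → (∀ g, χ g ^ q = 1) → χ x ≠ 1 →
    ∀ (D : Setup n G) (y0 : E n) (r0 : ℝ), 0 < r0 →
    ball y0 r0 ⊆ ball D.w D.R → ball y0 r0 ⊆ D.V →
    (∀ v ∈ D.V, (v ∈ ball y0 r0 ∨ D.f v ∈ ball y0 r0) →
      (∀ g, dist (D.act g v) v ≤ c * r0) ∧ dist (D.f v) v ≤ c * r0) →
    ∀ y1 ∈ ball D.w D.R,
    (∀ v ∈ D.V, D.f v = y1 → ∀ g, χ g ≠ 1 → D.act g v ≠ v) → False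

end Crest.Agent.R217.SpecC478
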