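import Mathlib
import Crest.Agent.R217.SpecC_478

/-!
Row 217 (S0336), part B2a: a compact group acting on a Hausdorff space, seen in a chart:
the induced partial action on subsets of `ℝⁿ`, and the Haar averaging map.
-/

set_option autoImplicit false
set_option linter.unusedSectionVars false

open Filter Topology Metric Set MeasureTheory
open Crest.Agent.R217.SpecC478

namespace Crest.Agent.R217.B2478

section chart

variable {n : ℕ} {M : Type*} [TopologicalSpace M]
  {A : Type*} [Group A] [MulAction A M]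

/-- the action read in a chart -/
noncomputable def cact (ψ : OpenPartialHomeomorph M (E n)) (g : A) (v : E n) : E n :=
  ψ (g • ψ.symm v)

/-- `S` is an invariant set in the chart -/
def Inv (A : Type*) [Group A] [MulAction A M] (ψ : OpenPartialHomeomorph M (E n))
    (S : Set (E n)) : Prop :=
  S ⊆ ψ.target ∧ ∀ v ∈ S, ∀ g : A, g • ψ.symm v ∈ ψ.symm '' S

variable {ψ : OpenPartialHomeomorph M (E n)} {S : Set (E n)}

theorem Inv.spec (h : Inv A ψ S) {v : E n} (hv : v ∈ S) (g : A) :
    cact ψ g v ∈ S ∧ ψ.symm (cact ψ g v) = g • ψ.symm v := by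
  obtain ⟨u, hu, hu'⟩ := h.2 v hv g
  have h1 : cact ψ g v = u := by
    rw [cact, ← hu', ψ.right_inv (h.1 hu)]
  rw [h1]
  exact ⟨hu, hu'⟩

theorem Inv.act_mem (h : Inv A ψ S) (g : A) {v : E n} (hv : v ∈ S) : cact ψ g v ∈ S :=
  (h.spec hv g).1

theorem Inv.symm_act (h : Inv A ψ S) (g : A) {v : E n} (hv : v ∈ S) :
    ψ.symm (cact ψ g v) = g • ψ.symm v := (h.spec hv g).2

theorem Inv.act_one (h : Inv A ψ S) {v : E n} (hv : v ∈ S) : cact ψ (1 : A) v = v := by
  rw [cact, one_smul, ψ.right_inv (h.1 hv)]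

theorem Inv.act_mul (h : Inv A ψ S) (a b : A) {v : E n} (hv : v ∈ S) :
    cact ψ (a * b) v = cact ψ a (cact ψ b v) := by
  rw [cact, mul_smul, ← h.symm_act b hv, ← cact]

/-- a point is fixed iff it is fixed in the chart -/
theorem Inv.fixed_iff (h : Inv A ψ S) (g : A) {v : E n} (hv : v ∈ S) :
    cact ψ g v = v ↔ g • ψ.symm v = ψ.symm v := by
  constructor
  · intro h1
    rw [← h.symm_act g hv, h1]
  · intro h1
    rw [cact, h1, ψ.right_inv (h.1 hv)]

variable [TopologicalSpace A] [ContinuousSMul A M]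

theorem continuousOn_smul_symm (ψ : OpenPartialHomeomorph M (E n)) :
    ContinuousOn (fun p : A × E n => p.1 • ψ.symm p.2) (univ ×ˢ ψ.target) := by
  have h2 : ContinuousOn (fun p : A × E n => ψ.symm p.2) (univ ×ˢ ψ.target) :=
    ψ.continuousOn_symm.comp continuousOn_snd (fun p hp => hp.2)
  exact continuousOn_fst.smul h2

theorem Inv.act_cont (h : Inv A ψ S) :
    ContinuousOn (fun p : A × E n => cact ψ p.1 p.2) (univ ×ˢ S) := by
  refine ψ.continuousOn.comp ((continuousOn_smul_symm ψ).mono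
    (prod_mono le_rfl h.1)) ?_
  rintro ⟨g, v⟩ ⟨-, hv⟩
  obtain ⟨u, hu, hu'⟩ := h.2 v hv g
  simp only at hu' ⊢
  rw [← hu']
  exact ψ.map_target (h.1 hu)

/-- the invariant part of an open set is open -/
theorem isOpen_invPart [CompactSpace A] (ψ : OpenPartialHomeomorph M (E n)) {B : Set (E n)}
    (hB : IsOpen B) (hBt : B ⊆ ψ.target) :
    IsOpen {v | v ∈ B ∧ ∀ g : A, g • ψ.symm v ∈ ψ.symm '' B} := by
  rw [isOpen_iff_mem_nhds]
  rintro v ⟨hv, hvg⟩
  have hO : IsOpen (ψ.symm '' B) := ψ.symm.isOpen_image_of_subset_source hB hBt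
  have h1 : ∀ᶠ u in 𝓝 v, ∀ g ∈ (univ : Set A), g • ψ.symm u ∈ ψ.symm '' B := by
    refine isCompact_univ.eventually_forall_of_forall_eventually ?_
    intro g _
    have h2 : ContinuousAt (fun p : E n × A => p.2 • ψ.symm p.1) (v, g) := by
      have h3 : ContinuousAt (fun p : A × E n => p.1 • ψ.symm p.2) (g, v) :=
        (continuousOn_smul_symm ψ).continuousAt
          (prod_mem_nhds univ_mem (ψ.open_target.mem_nhds (hBt hv)))
      exact ContinuousAt.comp (g := fun p : A × E n => p.1 • ψ.symm p.2)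
        (f := fun p : E n × A => (p.2, p.1)) h3 (by fun_prop)
    exact h2.eventually_mem (hO.mem_nhds (hvg g))
  filter_upwards [hB.mem_nhds hv, h1] with u hu hu'
  exact ⟨hu, fun g => hu' g (mem_univ _)⟩

theorem inv_invPart (A : Type*) [Group A] [MulAction A M] (ψ : OpenPartialHomeomorph M (E n))
    {B : Set (E n)} (hBt : B ⊆ ψ.target) :
    Inv A ψ {v | v ∈ B ∧ ∀ g : A, g • ψ.symm v ∈ ψ.symm '' B} := by
  refine ⟨fun v hv => hBt hv.1, ?_⟩
  rintro v ⟨hv, hvg⟩ g
  obtain ⟨u, hu, hu'⟩ := hvg g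
  refine ⟨u, ⟨hu, fun k => ?_⟩, hu'⟩
  rw [hu', smul_smul]
  exact hvg _

/-- the invariant part of a compact set is compact -/
theorem isCompact_invPart [T2Space M] (A : Type*) [Group A] [MulAction A M]
    [ContinuousConstSMul A M]
    (ψ : OpenPartialHomeomorph M (E n)) {B : Set (E n)}
    (hB : IsCompact B) (hBt : B ⊆ ψ.target) :
    IsCompact {v | v ∈ B ∧ ∀ g : A, g • ψ.symm v ∈ ψ.symm '' B} := by
  have hC : IsClosed (ψ.symm '' B) :=
    (hB.image_of_continuousOn (ψ.continuousOn_symm.mono hBt)).isClosed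
  have : {v | v ∈ B ∧ ∀ g : A, g • ψ.symm v ∈ ψ.symm '' B} =
      B ∩ ⋂ g : A, (B ∩ (fun v => g • ψ.symm v) ⁻¹' (ψ.symm '' B)) := by
    ext v
    simp only [mem_ofPred_eq, mem_inter_iff, mem_iInter, mem_preimage]
    constructor
    · rintro ⟨h1, h2⟩
      exact ⟨h1, fun g => ⟨h1, h2 g⟩⟩
    · rintro ⟨h1, h2⟩
      exact ⟨h1, fun g => (h2 g).2⟩
  rw [this]
  refine hB.inter_right (isClosed_iInter fun g => ?_)
  refine ContinuousOn.preimage_isClosed_of_isClosed ?_ hB.isClosed hC
  exact (ψ.continuousOn_symm.mono hBt).const_smul g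

end chart

section haar

variable {n : ℕ} {M : Type*} [TopologicalSpace M]
  {A : Type*} [Group A] [TopologicalSpace A] [IsTopologicalGroup A] [CompactSpace A]
  [MulAction A M] [ContinuousSMul A M]
  [MeasurableSpace A] [BorelSpace A]
  {ψ : OpenPartialHomeomorph M (E n)} {S : Set (E n)}

/-- normalised Haar measure -/
noncomputable def hm (A : Type*) [Group A] [TopologicalSpace A] [IsTopologicalGroup A]
    [CompactSpace A] [MeasurableSpace A] [BorelSpace A] : Measure A :=
  Measure.haarMeasure ⊤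

instance : IsProbabilityMeasure (hm A) := by
  constructor
  have := Measure.haarMeasure_self (K₀ := (⊤ : TopologicalSpace.PositiveCompacts A))
  simpa [hm] using this

instance : (hm A).IsMulLeftInvariant := by unfold hm; infer_instance

instance : (hm A).IsHaarMeasure := by unfold hm; infer_instance

/-- the averaging map -/
noncomputable def favg (A : Type*) [Group A] [TopologicalSpace A] [IsTopologicalGroup A]
    [CompactSpace A] [MulAction A M] [MeasurableSpace A] [BorelSpace A]
    (ψ : OpenPartialHomeomorph M (E n)) (v : E n) : E n :=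
  ∫ g, cact ψ (g⁻¹ : A) v ∂(hm A)

theorem Inv.orbit_cont (h : Inv A ψ S) {v : E n} (hv : v ∈ S) :
    Continuous (fun g : A => cact ψ (g⁻¹ : A) v) := by
  have h1 : ContinuousOn (fun g : A => ((g⁻¹ : A), v)) univ := by fun_prop
  have := h.act_cont.comp h1 (fun g _ => ⟨mem_univ _, hv⟩)
  exact continuousOn_univ.mp this

theorem Inv.orbit_int (h : Inv A ψ S) {v : E n} (hv : v ∈ S) :
    Integrable (fun g : A => cact ψ (g⁻¹ : A) v) (hm A) :=
  (h.orbit_cont hv).integrable_of_hasCompactSupport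
    (HasCompactSupport.of_compactSpace _)

theorem Inv.favg_inv (h : Inv A ψ S) (a : A) {v : E n} (hv : v ∈ S) :
    favg A ψ (cact ψ a v) = favg A ψ v := by
  unfold favg
  have h1 : ∀ g : A, cact ψ (g⁻¹ : A) (cact ψ a v) = cact ψ ((a⁻¹ * g)⁻¹ : A) v := by
    intro g
    rw [← h.act_mul _ _ hv]; simp
  simp_rw [h1]
  exact integral_mul_left_eq_self (fun g => cact ψ (g⁻¹ : A) v) a⁻¹

theorem Inv.favg_cont (h : Inv A ψ S) [LocallyCompactSpace S] :
    ContinuousOn (favg A ψ) S := by
  rw [continuousOn_iff_continuous_domRestrict]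
  have h1 : Continuous (Function.uncurry fun (v : S) (g : A) => cact ψ (g⁻¹ : A) (v : E n)) := by
    have h2 : ContinuousOn (fun p : S × A => ((p.2⁻¹ : A), (p.1 : E n))) univ := by fun_prop
    exact continuousOn_univ.mp (h.act_cont.comp h2 (fun p _ => ⟨mem_univ _, p.1.2⟩))
  have h3 := continuous_parametric_integral_of_continuous (μ := hm A) h1
    (isCompact_univ : IsCompact (univ : Set A))
  simpa [favg, domRestrict_def] using h3

theorem Inv.favg_mem_closedBall (h : Inv A ψ S) {v : E n} (hv : v ∈ S) {z : E n} {ρ : ℝ}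
    (hb : ∀ g : A, dist (cact ψ g v) z ≤ ρ) : dist (favg A ψ v) z ≤ ρ := by
  have h1 : favg A ψ v - z = ∫ g, (cact ψ (g⁻¹ : A) v - z) ∂(hm A) := by
    rw [integral_sub (h.orbit_int hv) (integrable_const _)]
    simp [favg]
  rw [dist_eq_norm, h1]
  have := norm_integral_le_of_norm_le_const (μ := hm A)
    (f := fun g => cact ψ (g⁻¹ : A) v - z) (C := ρ)
    (Eventually.of_forall fun g => by rw [← dist_eq_norm]; exact hb _)
  simpa using this

theorem favg_fixed {v : E n} (hb : ∀ g : A, cact ψ g v = v) : favg A ψ v = v := by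
  unfold favg
  simp [hb]

end haar

end Crest.Agent.R217.B2478
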