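import Mathlib
import Crest.Agent.R217.B2a_478

/-!
Row 217 (S0336), part B2b: the two uses of the crux in a chart.
-/

set_option autoImplicit false
set_option linter.unusedSectionVars false

open Filter Topology Metric Set MeasureTheory
open Crest.Agent.R217.SpecC478

namespace Crest.Agent.R217.B2478

/-- the crux with a given constant -/
def CruxAt.{u} (n : ℕ) (c : ℝ) : Prop :=
  ∀ (G : Type u) [Group G] [TopologicalSpace G] [IsTopologicalGroup G]
    [CompactSpace G] [T2Space G] [SecondCountableTopology G]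
    (x : G), Dense (range fun k : ℤ => x ^ k) →
    ∀ q : ℕ, q.Prime → ∀ χ : G →* ℂ, Continuous χ → (∀ g, χ g ^ q = 1) → χ x ≠ 1 →
    ∀ (D : Setup n G) (y0 : E n) (r0 : ℝ), 0 < r0 →
    ball y0 r0 ⊆ ball D.w D.R → ball y0 r0 ⊆ D.V →
    (∀ v ∈ D.V, (v ∈ ball y0 r0 ∨ D.f v ∈ ball y0 r0) →
      (∀ g, dist (D.act g v) v ≤ c * r0) ∧ dist (D.f v) v ≤ c * r0) →
    ∀ y1 ∈ ball D.w D.R,
    (∀ v ∈ D.V, D.f v = y1 → ∀ g, χ g ≠ 1 → D.act g v ≠ v) → False

theorem crux_iff.{u} (n : ℕ) : Crux.{u} n ↔ ∃ c : ℝ, 0 < c ∧ CruxAt.{u} n c := Iff.rfl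

/-- A minimal group: topologically generated by `x`, with a character of order `q`, nontrivial at
`x`, such that all closed subgroups outside the kernel are everything. -/
structure MC (A : Type*) [Group A] [TopologicalSpace A] where
  x : A
  dense : Dense (range fun k : ℤ => x ^ k)
  q : ℕ
  prime : q.Prime
  χ : A →* ℂ
  cont : Continuous χ
  pow : ∀ g, χ g ^ q = 1
  ne : χ x ≠ 1
  min : ∀ B : Subgroup A, IsClosed (B : Set A) → (∃ b ∈ B, χ b ≠ 1) → B = ⊤

theorem MC.fixed {A : Type*} [Group A] [TopologicalSpace A] (mc : MC A)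
    {M : Type*} [TopologicalSpace M] [T2Space M] [MulAction A M] [ContinuousSMul A M]
    {m : M} {g : A} (hg : mc.χ g ≠ 1) (hm : g • m = m) : ∀ a : A, a • m = m := by
  have h1 : MulAction.stabilizer A m = ⊤ := by
    refine mc.min _ ?_ ⟨g, hm, hg⟩
    have : ((MulAction.stabilizer A m : Subgroup A) : Set A) = {a : A | a • m = m} := by
      ext a; simp [MulAction.mem_stabilizer_iff]
    rw [this]
    exact isClosed_eq (by fun_prop) continuous_const
  intro a
  have : a ∈ MulAction.stabilizer A m := by rw [h1]; trivial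
  exact this

universe u v

section uses

variable {n : ℕ} {c : ℝ} {M : Type v} [TopologicalSpace M] [T2Space M]
  {A : Type u} [Group A] [TopologicalSpace A] [IsTopologicalGroup A] [CompactSpace A]
  [T2Space A] [SecondCountableTopology A] [MulAction A M] [ContinuousSMul A M]

/-- USE 1: small orbits. -/
theorem use1 (hc : 0 < c) (hC : CruxAt.{u} n c) (mc : MC A)
    (ψ : OpenPartialHomeomorph M (E n)) (z : E n) (ρ : ℝ) (hρ : 0 < ρ)
    (hz : closedBall z (2 * ρ) ⊆ ψ.target)
    (hd : ∀ g : A, ∀ v ∈ closedBall z (2 * ρ), g • ψ.symm v ∈ ψ.source ∧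
      dist (ψ (g • ψ.symm v)) v ≤ min (ρ / 8) (c * ρ / 2)) :
    ∀ v ∈ ball z ρ, ∀ g : A, g • ψ.symm v = ψ.symm v := by
  borelize A
  intro v0 hv0
  by_contra hne
  push Not at hne
  obtain ⟨g0, hg0⟩ := hne
  set δ : ℝ := min (ρ / 8) (c * ρ / 2) with hδdef
  have hδ1 : δ ≤ ρ / 8 := min_le_left _ _
  have hδ2 : δ ≤ c * ρ / 2 := min_le_right _ _
  have hδ0 : 0 < δ := lt_min (by positivity) (by positivity)
  have hbt : ball z (2 * ρ) ⊆ ψ.target := ball_subset_closedBall.trans hz
  set V : Set (E n) := {v | v ∈ ball z (2 * ρ) ∧ ∀ g : A, g • ψ.symm v ∈ ψ.symm '' ball z (2 * ρ)}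
    with hV
  have hVo : IsOpen V := isOpen_invPart ψ isOpen_ball hbt
  have hI : Inv A ψ V := inv_invPart A ψ hbt
  have hVb : V ⊆ ball z (2 * ρ) := fun v hv => hv.1
  have hVmem : ∀ v : E n, dist v z < 2 * ρ - δ → v ∈ V := by
    intro v hv
    have hvb : v ∈ ball z (2 * ρ) := by rw [mem_ball]; linarith
    refine ⟨hvb, fun g => ?_⟩
    obtain ⟨h1, h2⟩ := hd g v (ball_subset_closedBall hvb)
    refine ⟨ψ (g • ψ.symm v), ?_, ψ.left_inv h1⟩
    rw [mem_ball]
    calc dist (ψ (g • ψ.symm v)) z ≤ dist (ψ (g • ψ.symm v)) v + dist v z := dist_triangle _ _ _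
      _ < 2 * ρ := by linarith
  have hdis : ∀ v ∈ V, ∀ g : A, dist (cact ψ g v) v ≤ δ := fun v hv g =>
    (hd g v (ball_subset_closedBall (hVb hv))).2
  have hfdis : ∀ v ∈ V, dist (favg A ψ v) v ≤ δ := fun v hv =>
    hI.favg_mem_closedBall hv (hdis v hv)
  have : LocallyCompactSpace V := hVo.locallyCompactSpace
  have hfc : ContinuousOn (favg A ψ) V := hI.favg_cont
  let D : Setup n A :=
    { V := V
      isOpen_V := hVo
      act := fun g v => cact ψ g v
      act_mem := fun g v hv => hI.act_mem g hv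
      act_one := fun v hv => hI.act_one hv
      act_mul := fun a b v hv => hI.act_mul a b hv
      act_cont := hI.act_cont
      f := favg A ψ
      f_cont := hfc
      f_inv := fun g v hv => hI.favg_inv g hv
      w := z
      R := 2 * ρ - 2 * δ
      proper := by
        intro ρ' hρ'
        have h1 : {v | v ∈ V ∧ favg A ψ v ∈ closedBall z ρ'} =
            closedBall z (ρ' + δ) ∩ favg A ψ ⁻¹' closedBall z ρ' := by
          ext v
          simp only [mem_ofPred_eq, mem_inter_iff, mem_closedBall, mem_preimage]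
          constructor
          · rintro ⟨h1, h2⟩
            refine ⟨?_, h2⟩
            have := hfdis v h1
            rw [dist_comm] at this
            linarith [dist_triangle v (favg A ψ v) z]
          · rintro ⟨h1, h2⟩
            exact ⟨hVmem v (by linarith), h2⟩
        rw [h1]
        have h2 : closedBall z (ρ' + δ) ⊆ V := fun v hv =>
          hVmem v (by rw [mem_closedBall] at hv; linarith)
        refine (isCompact_closedBall z (ρ' + δ)).of_isClosed_subset ?_ inter_subset_left
        exact (hfc.mono h2).preimage_isClosed_of_isClosed isClosed_closedBall isClosed_closedBall }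
  have hv0z : dist v0 z < ρ := hv0
  refine hC A mc.x mc.dense mc.q mc.prime mc.χ mc.cont mc.pow mc.ne D v0 (ρ / 2) (by positivity)
    ?_ ?_ ?_ v0 ?_ ?_
  · intro v hv
    change dist v z < 2 * ρ - 2 * δ
    have : dist v v0 < ρ / 2 := hv
    linarith [dist_triangle v v0 z]
  · intro v hv
    refine hVmem v ?_
    have : dist v v0 < ρ / 2 := hv
    linarith [dist_triangle v v0 z]
  · intro v hv _
    refine ⟨fun g => (hdis v hv g).trans (by linarith), (hfdis v hv).trans (by linarith)⟩
  · change dist v0 z < 2 * ρ - 2 * δ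
    linarith
  · intro v hv hfv g hg hfix
    have h1 : g • ψ.symm v = ψ.symm v := (hI.fixed_iff g hv).1 hfix
    have h2 := mc.fixed hg h1
    have h3 : favg A ψ v = v := favg_fixed fun a => (hI.fixed_iff a hv).2 (h2 a)
    have h4 : v = v0 := by rw [← h3]; exact hfv
    subst h4
    exact hg0 (h2 g0)

theorem inner_nonneg_of_ball {w z u : E n} (hu : u ∈ closedBall z (dist w z)) :
    0 ≤ inner ℝ (w - u) (w - z) := by
  have h1 : inner ℝ (w - u) (w - z) = inner ℝ (w - z) (w - z) - inner ℝ (u - z) (w - z) := by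
    rw [← inner_sub_left]; congr 1; abel
  have h2 : inner ℝ (u - z) (w - z) ≤ ‖u - z‖ * ‖w - z‖ := real_inner_le_norm _ _
  have h3 : ‖u - z‖ ≤ ‖w - z‖ := by
    rw [← dist_eq_norm, ← dist_eq_norm]; exact hu
  have h4 : inner ℝ (w - z) (w - z) = ‖w - z‖ * ‖w - z‖ := real_inner_self_eq_norm_mul_norm _
  rw [h1, h4]
  nlinarith [norm_nonneg (w - z), norm_nonneg (u - z)]

theorem eq_of_inner_eq_zero {w z u : E n} (hu : u ∈ closedBall z (dist w z))
    (h0 : inner ℝ (w - u) (w - z) = 0) : u = w := by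
  have h3 : ‖u - z‖ ≤ ‖w - z‖ := by
    rw [← dist_eq_norm, ← dist_eq_norm]; exact hu
  have h5 : ‖u - z‖ ^ 2 = ‖w - z‖ ^ 2 - 2 * inner ℝ (w - u) (w - z) + ‖w - u‖ ^ 2 := by
    have : u - z = (w - z) - (w - u) := by abel
    rw [this, norm_sub_sq_real, real_inner_comm]
  have h6 : ‖w - u‖ ^ 2 ≤ 0 := by
    rw [h0] at h5
    have : ‖u - z‖ ^ 2 ≤ ‖w - z‖ ^ 2 := by gcongr
    linarith
  have h7 : ‖w - u‖ = 0 := by
    have := sq_nonneg ‖w - u‖
    exact pow_eq_zero_iff (two_ne_zero) |>.1 (le_antisymm h6 this)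
  rw [norm_eq_zero, sub_eq_zero] at h7
  exact h7.symm

/-- points on the far side of `w` -/
theorem farpt {w z : E n} {t : ℝ} (ht : 0 < t) :
    dist (w + t • (w - z)) z = (1 + t) * dist w z ∧
    dist (w + t • (w - z)) w = t * dist w z := by
  constructor
  · have : w + t • (w - z) - z = (1 + t) • (w - z) := by
      rw [add_smul, one_smul]; abel
    rw [dist_eq_norm, this, norm_smul, dist_eq_norm, Real.norm_of_nonneg (by positivity)]
  · have : w + t • (w - z) - w = t • (w - z) := by abel
    rw [dist_eq_norm, this, norm_smul, dist_eq_norm, Real.norm_of_nonneg ht.le]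

/-- USE 2: the frontier of the interior of the fixed point set (chart already inverted). -/
theorem use2 (hc : 0 < c) (hC : CruxAt.{u} n c) (mc : MC A)
    (ψ : OpenPartialHomeomorph M (E n)) (w z : E n) (r : ℝ) (hr : 0 < r)
    (hw : closedBall w r ⊆ ψ.target) (hρ : 0 < dist w z)
    (hB : ∀ v ∈ closedBall w r, (∃ g : A, g • ψ.symm v ≠ ψ.symm v) →
      v ∈ closedBall z (dist w z))
    (hcl : ∀ ε > 0, ∃ v ∈ ball w ε, ∃ g : A, g • ψ.symm v ≠ ψ.symm v) : False := by
  borelize A
  set ρ := dist w z with hρdef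
  have hwt : w ∈ ψ.target := hw (mem_closedBall_self hr.le)
  -- `w` is fixed
  have hwfix : ∀ g : A, g • ψ.symm w = ψ.symm w := by
    by_contra hne
    push Not at hne
    obtain ⟨g, hg⟩ := hne
    have h1 : ContinuousAt (fun v => g • ψ.symm v) w :=
      (ψ.continuousAt_symm hwt).const_smul g
    have h2 : ∀ᶠ v in 𝓝 w, g • ψ.symm v ≠ ψ.symm v :=
      (h1.ne_iff_eventually_ne (ψ.continuousAt_symm hwt)).1 hg
    obtain ⟨ε, hε, hεw⟩ := Metric.eventually_nhds_iff.1 h2
    set t : ℝ := min ε r / (2 * ρ) with ht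
    have hm : 0 < min ε r := lt_min hε hr
    have ht0 : 0 < t := by positivity
    obtain ⟨hp1, hp2⟩ := farpt (w := w) (z := z) ht0
    rw [← hρdef] at hp1 hp2
    have htρ : t * ρ = min ε r / 2 := by rw [ht]; field_simp
    have h3 : dist (w + t • (w - z)) w < min ε r := by rw [hp2, htρ]; linarith
    have h4 := hεw (h3.trans_le (min_le_left _ _))
    have h5 := hB _ (mem_closedBall.2 (h3.trans_le (min_le_right _ _)).le) ⟨g, h4⟩
    rw [mem_closedBall, hp1] at h5
    nlinarith
  have hbt : ball w r ⊆ ψ.target := ball_subset_closedBall.trans hw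
  set V : Set (E n) := {v | v ∈ ball w r ∧ ∀ g : A, g • ψ.symm v ∈ ψ.symm '' ball w r} with hV
  have hVo : IsOpen V := isOpen_invPart ψ isOpen_ball hbt
  have hI : Inv A ψ V := inv_invPart A ψ hbt
  set K : Set (E n) := {v | v ∈ closedBall w r ∧
    ∀ g : A, g • ψ.symm v ∈ ψ.symm '' closedBall w r} with hK
  have hKc : IsCompact K := isCompact_invPart A ψ (isCompact_closedBall w r) hw
  have hIK : Inv A ψ K := inv_invPart A ψ hw
  have hVK : V ⊆ K := fun v hv => ⟨ball_subset_closedBall hv.1, fun g =>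
    image_mono ball_subset_closedBall (hv.2 g)⟩
  have hwV : w ∈ V := ⟨mem_ball_self hr, fun g => ⟨w, mem_ball_self hr, (hwfix g).symm⟩⟩
  have : CompactSpace K := isCompact_iff_compactSpace.1 hKc
  have hfK : ContinuousOn (favg A ψ) K := hIK.favg_cont
  have hfV : ContinuousOn (favg A ψ) V := hfK.mono hVK
  -- fixed points
  have hfix : ∀ v ∈ K, (¬ ∃ g : A, g • ψ.symm v ≠ ψ.symm v) →
      (∀ g : A, cact ψ g v = v) ∧ favg A ψ v = v := by
    intro v hv h
    push Not at h
    have h1 : ∀ g : A, cact ψ g v = v := fun g => (hIK.fixed_iff g hv).2 (h g)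
    exact ⟨h1, favg_fixed h1⟩
  -- nonfixed points
  have hnf : ∀ v ∈ K, (∃ g : A, g • ψ.symm v ≠ ψ.symm v) →
      (∀ g : A, cact ψ g v ∈ closedBall z ρ) ∧ favg A ψ v ∈ closedBall z ρ := by
    intro v hv h
    obtain ⟨a, ha⟩ := h
    have h1 : ∀ g : A, cact ψ g v ∈ closedBall z ρ := by
      intro g
      refine hB _ (hIK.act_mem g hv).1 ⟨g * a * g⁻¹, ?_⟩
      rw [hIK.symm_act g hv, smul_smul]
      intro h2
      apply ha
      have h3 : g • (a • ψ.symm v) = g • ψ.symm v := by
        rw [smul_smul]; rw [show g * a = g * a * g⁻¹ * g by group]; exact h2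
      exact smul_left_cancel g h3
    exact ⟨h1, hIK.favg_mem_closedBall hv fun g => h1 g⟩
  have hfw : ∀ v ∈ K, favg A ψ v = w → v = w := by
    intro v hv hfv
    by_cases h : ∃ g : A, g • ψ.symm v ≠ ψ.symm v
    · exfalso
      obtain ⟨h1, h2⟩ := hnf v hv h
      have h3 : Continuous (fun g : A => inner ℝ (w - cact ψ (g⁻¹ : A) v) (w - z)) := by
        have := hIK.orbit_cont hv
        fun_prop
      have h4 : ∀ g : A, 0 ≤ inner ℝ (w - cact ψ (g⁻¹ : A) v) (w - z) := fun g =>
        inner_nonneg_of_ball (h1 _)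
      have h5 : ∫ g : A, inner ℝ (w - cact ψ (g⁻¹ : A) v) (w - z) ∂(hm A) = 0 := by
        have h6 : ∫ g : A, (w - cact ψ (g⁻¹ : A) v) ∂(hm A) = 0 := by
          rw [integral_sub (integrable_const _) (hIK.orbit_int hv)]
          have : ∫ g : A, cact ψ (g⁻¹ : A) v ∂(hm A) = w := hfv
          rw [this]; simp
        have h7 : ∫ g : A, inner ℝ (w - z) (w - cact ψ (g⁻¹ : A) v) ∂(hm A) =
            inner ℝ (w - z) (∫ g : A, (w - cact ψ (g⁻¹ : A) v) ∂(hm A)) :=
          integral_inner ((integrable_const _).sub (hIK.orbit_int hv)) _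
        rw [h6, inner_zero_right] at h7
        simpa [real_inner_comm] using h7
      have h8 : (fun g : A => inner ℝ (w - cact ψ (g⁻¹ : A) v) (w - z)) = 0 := by
        have h9 := (integral_eq_zero_iff_of_nonneg (fun g => h4 g)
          (h3.integrable_of_hasCompactSupport (HasCompactSupport.of_compactSpace _))).1 h5
        exact (h3.ae_eq_iff_eq (μ := hm A) continuous_const).1 h9
      have h10 := congrFun h8 1
      simp only [inv_one, Pi.zero_apply] at h10
      rw [hIK.act_one hv] at h10
      have h11 := h1 1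
      rw [hIK.act_one hv] at h11
      have h12 := eq_of_inner_eq_zero h11 h10
      obtain ⟨a, ha⟩ := h
      rw [h12] at ha
      exact ha (hwfix a)
    · rw [(hfix v hv h).2] at hfv; exact hfv
  obtain ⟨r1, hr1, hr1V⟩ := Metric.isOpen_iff.1 hVo w hwV
  set r2 := r1 / 2 with hr2
  have hr20 : 0 < r2 := by positivity
  have hr2V : closedBall w r2 ⊆ V := (closedBall_subset_ball (by linarith)).trans hr1V
  have hR : ∃ R > 0, ∀ v ∈ K, r2 ≤ dist v w → R ≤ dist (favg A ψ v) w := by
    have hK' : IsCompact (K \ ball w r2) := hKc.diff isOpen_ball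
    rcases (K \ ball w r2).eq_empty_or_nonempty with he | hne
    · refine ⟨1, one_pos, fun v hv hv2 => ?_⟩
      exfalso
      have : v ∈ K \ ball w r2 := ⟨hv, by rw [mem_ball]; linarith⟩
      rw [he] at this; exact this
    · obtain ⟨v0, hv0, hmin⟩ := hK'.exists_isMinOn hne
        (f := fun v => dist (favg A ψ v) w)
        ((continuous_id.dist continuous_const).comp_continuousOn (hfK.mono sdiff_subset))
      refine ⟨dist (favg A ψ v0) w, ?_, fun v hv hv2 => ?_⟩
      · rw [gt_iff_lt, dist_pos]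
        intro h
        have := hfw v0 hv0.1 h
        apply hv0.2
        rw [this]; exact mem_ball_self hr20
      · exact hmin ⟨hv, by rw [mem_ball]; linarith⟩
  obtain ⟨R, hR0, hR⟩ := hR
  let D : Setup n A :=
    { V := V
      isOpen_V := hVo
      act := fun g v => cact ψ g v
      act_mem := fun g v hv => hI.act_mem g hv
      act_one := fun v hv => hI.act_one hv
      act_mul := fun a b v hv => hI.act_mul a b hv
      act_cont := hI.act_cont
      f := favg A ψ
      f_cont := hfV
      f_inv := fun g v hv => hI.favg_inv g hv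
      w := w
      R := R
      proper := by
        intro ρ' hρ'
        have h1 : {v | v ∈ V ∧ favg A ψ v ∈ closedBall w ρ'} =
            closedBall w r2 ∩ favg A ψ ⁻¹' closedBall w ρ' := by
          ext v
          simp only [mem_ofPred_eq, mem_inter_iff, mem_closedBall, mem_preimage]
          constructor
          · rintro ⟨h1, h2⟩
            refine ⟨?_, h2⟩
            by_contra h3
            push Not at h3
            have := hR v (hVK h1) h3.le
            linarith
          · rintro ⟨h1, h2⟩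
            exact ⟨hr2V h1, h2⟩
        rw [h1]
        refine (isCompact_closedBall w r2).of_isClosed_subset ?_ inter_subset_left
        exact (hfV.mono hr2V).preimage_isClosed_of_isClosed isClosed_closedBall
          isClosed_closedBall }
  obtain ⟨y1, hy1, a1, ha1⟩ := hcl R hR0
  set m := min R r2 with hm
  have hm0 : 0 < m := lt_min hR0 hr20
  set t : ℝ := m / (2 * ρ) with ht
  have ht0 : 0 < t := by positivity
  obtain ⟨hp1, hp2⟩ := farpt (w := w) (z := z) ht0
  rw [← hρdef] at hp1 hp2
  have htρ : t * ρ = m / 2 := by rw [ht]; field_simp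
  set y0 := w + t • (w - z) with hy0
  have hnear : ∀ v ∈ ball y0 (m / 4), dist v w < m ∧ v ∉ closedBall z ρ := by
    intro v hv
    have h1 : dist v y0 < m / 4 := hv
    constructor
    · linarith [dist_triangle v y0 w]
    · rw [mem_closedBall, not_le]
      have h2 : dist y0 v < m / 4 := by rw [dist_comm]; exact h1
      have h3 := dist_triangle y0 v z
      nlinarith
  have hfixnear : ∀ v ∈ V, (v ∈ ball y0 (m / 4) ∨ favg A ψ v ∈ ball y0 (m / 4)) →
      ¬ ∃ g : A, g • ψ.symm v ≠ ψ.symm v := by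
    intro v hv h hn
    obtain ⟨h1, h2⟩ := hnf v (hVK hv) hn
    rcases h with h | h
    · have h3 := h1 1
      rw [hI.act_one hv] at h3
      exact (hnear v h).2 h3
    · exact (hnear _ h).2 h2
  refine hC A mc.x mc.dense mc.q mc.prime mc.χ mc.cont mc.pow mc.ne D y0 (m / 4) (by positivity)
    ?_ ?_ ?_ y1 hy1 ?_
  · intro v hv
    exact (hnear v hv).1.trans_le (min_le_left _ _)
  · intro v hv
    exact hr2V ((hnear v hv).1.trans_le (min_le_right _ _)).le
  · intro v hv h
    obtain ⟨h1, h2⟩ := hfix v (hVK hv) (hfixnear v hv h)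
    have hp : 0 ≤ c * (m / 4) := by positivity
    refine ⟨fun g => ?_, ?_⟩
    · change dist (cact ψ g v) v ≤ _
      rw [h1 g, dist_self]; exact hp
    · change dist (favg A ψ v) v ≤ _
      rw [h2, dist_self]; exact hp
  · intro v hv hfv g hg hfixg
    have h1 : g • ψ.symm v = ψ.symm v := (hI.fixed_iff g hv).1 hfixg
    have h2 := mc.fixed hg h1
    have h3 : favg A ψ v = v := favg_fixed fun a => (hI.fixed_iff a hv).2 (h2 a)
    have h4 : v = y1 := by rw [← h3]; exact hfv
    subst h4
    exact ha1 (h2 a1)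

end uses

end Crest.Agent.R217.B2478
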