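import Mathlib
import Crest.Agent.R217.B2b_478
import Crest.Agent.R217.B1c_889
import Crest.Agent.R217.SpecA_343

/-!
Row 217 (S0336), part B2c: from the crux to "no small compact subgroups".
-/

set_option autoImplicit false
set_option linter.unusedSectionVars false

open Filter Topology Metric Set MeasureTheory EuclideanGeometry
open Crest.Agent.R217.SpecC478

namespace Crest.Agent.R217.B2478

/-- inversion as a partial homeomorphism -/
noncomputable def invH {n : ℕ} (z : E n) (ρ : ℝ) (hρ : ρ ≠ 0) : OpenPartialHomeomorph (E n) (E n) where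
  toFun := inversion z ρ
  invFun := inversion z ρ
  source := {z}ᶜ
  target := {z}ᶜ
  map_source' := fun x hx => by
    simp only [mem_compl_iff, mem_singleton_iff] at hx ⊢
    rw [inversion_eq_center hρ]; exact hx
  map_target' := fun x hx => by
    simp only [mem_compl_iff, mem_singleton_iff] at hx ⊢
    rw [inversion_eq_center hρ]; exact hx
  left_inv' := fun x _ => inversion_inversion z hρ x
  right_inv' := fun x _ => inversion_inversion z hρ x
  open_source := isOpen_compl_singleton
  open_target := isOpen_compl_singleton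
  continuousOn_toFun := continuousOn_const.inversion continuousOn_const continuousOn_id
    (fun x hx => hx)
  continuousOn_invFun := continuousOn_const.inversion continuousOn_const continuousOn_id
    (fun x hx => hx)

universe u v

variable {n : ℕ} {c : ℝ} {M : Type v} [TopologicalSpace M] [T2Space M]
  {A : Type u} [Group A] [TopologicalSpace A] [IsTopologicalGroup A] [CompactSpace A]
  [T2Space A] [SecondCountableTopology A] [MulAction A M] [ContinuousSMul A M]

/-- the fixed point set -/
def FixS (A : Type*) [Group A] (M : Type*) [MulAction A M] : Set M := {m | ∀ a : A, a • m = m}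

theorem not_mem_fixS {m : M} : m ∉ FixS A M ↔ ∃ a : A, a • m ≠ m := by
  simp [FixS]

/-- N2: trivial on an open set implies trivial. -/
theorem n2 [ChartedSpace (E n) M] [PreconnectedSpace M] (hc : 0 < c) (hC : CruxAt.{u} n c)
    (mc : MC A) (hne : (interior (FixS A M)).Nonempty) : FixS A M = univ := by
  have hcl : IsClosed (interior (FixS A M)) := by
    by_contra hncl
    have h0 : ∃ m1 ∈ closure (interior (FixS A M)), m1 ∉ interior (FixS A M) := by
      by_contra h
      push Not at h
      exact hncl (closure_subset_iff_isClosed.1 h)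
    obtain ⟨m1, hm1, hm1'⟩ := h0
    set φ : OpenPartialHomeomorph M (E n) := chartAt (E n) m1 with hφ
    have hm1s : m1 ∈ φ.source := mem_chart_source _ _
    set z1 := φ m1 with hz1
    have hz1t : z1 ∈ φ.target := φ.map_source hm1s
    obtain ⟨r0', hr0', hr0t'⟩ := Metric.isOpen_iff.1 φ.open_target z1 hz1t
    set r0 := r0' / 2 with hr0def
    have hr0 : 0 < r0 := by positivity
    have hr0t : closedBall z1 r0 ⊆ φ.target :=
      (closedBall_subset_ball (by linarith)).trans hr0t'
    have hnh : ∀ ε > 0, φ.source ∩ φ ⁻¹' ball z1 ε ∈ 𝓝 m1 := fun ε hε =>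
      (φ.isOpen_inter_preimage isOpen_ball).mem_nhds ⟨hm1s, mem_ball_self hε⟩
    -- the center
    obtain ⟨p, ⟨hps, hpb⟩, hpO⟩ := mem_closure_iff_nhds.1 hm1 _ (hnh (r0 / 4) (by positivity))
    set z := φ p with hz
    have hzz1 : dist z z1 < r0 / 4 := hpb
    -- nonfixed points in the chart
    set NF : Set (E n) := {v | v ∈ closedBall z1 r0 ∧ ∃ a : A, a • φ.symm v ≠ φ.symm v} with hNF
    have hNF0 : ∀ ε > 0, ∃ v ∈ NF, dist v z1 < ε := by
      intro ε hε
      have h1 : ¬ (φ.source ∩ φ ⁻¹' ball z1 (min ε r0) ⊆ FixS A M) := fun h =>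
        hm1' (mem_interior_iff_mem_nhds.2
          (mem_of_superset (hnh (min ε r0) (lt_min hε hr0)) h))
      obtain ⟨q, ⟨hq1, hq2⟩, hq3⟩ := not_subset.1 h1
      rw [not_mem_fixS] at hq3
      have hq4 : dist (φ q) z1 < min ε r0 := hq2
      refine ⟨φ q, ⟨(hq4.trans_le (min_le_right _ _)).le, ?_⟩, hq4.trans_le (min_le_left _ _)⟩
      rw [φ.left_inv hq1]; exact hq3
    have hz1C : z1 ∈ closure NF := by
      rw [Metric.mem_closure_iff]
      intro ε hε
      obtain ⟨v, hv, hv'⟩ := hNF0 ε hε
      exact ⟨v, hv, by rw [dist_comm]; exact hv'⟩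
    have hzC : z ∉ closure NF := by
      intro h
      have hop : IsOpen (φ '' (interior (FixS A M) ∩ φ.source)) :=
        φ.isOpen_image_of_subset_source (isOpen_interior.inter φ.open_source) inter_subset_right
      obtain ⟨v, hv1, hv2⟩ := mem_closure_iff.1 h _ hop ⟨p, ⟨hpO, hps⟩, rfl⟩
      obtain ⟨q, ⟨hq1, hq2⟩, rfl⟩ := hv1
      obtain ⟨a, ha⟩ := hv2.2
      rw [φ.left_inv hq2] at ha
      exact ha (interior_subset hq1 a)
    obtain ⟨w, hwC, hw⟩ := isClosed_closure.exists_infDist_eq_dist ⟨z1, hz1C⟩ z
    have hρpos : 0 < dist w z := by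
      rw [dist_pos]; rintro rfl; exact hzC hwC
    have hwz : dist w z < r0 / 4 := by
      rw [dist_comm, ← hw]; exact (infDist_le_dist_of_mem hz1C).trans_lt hzz1
    have hwz1 : dist w z1 < r0 / 2 := by linarith [dist_triangle w z z1]
    have hNFρ : ∀ v ∈ NF, dist w z ≤ dist v z := by
      intro v hv
      rw [dist_comm w z, ← hw, dist_comm v z]
      exact infDist_le_dist_of_mem (subset_closure hv)
    -- inversion
    set ρ := dist w z with hρ
    have hρ0 : ρ ≠ 0 := hρpos.ne'
    have hιw : inversion z ρ w = w := inversion_dist_center z w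
    have hwne : w ≠ z := by rw [← dist_pos]; exact hρpos
    have hιc : ContinuousAt (inversion z ρ) w :=
      ContinuousAt.inversion continuousAt_const continuousAt_const continuousAt_id hwne
    have hev : ∀ᶠ v in 𝓝 w, inversion z ρ v ∈ ball z1 r0 ∧ v ≠ z := by
      refine Filter.Eventually.and ?_ (eventually_ne_nhds hwne)
      refine hιc.eventually_mem (isOpen_ball.mem_nhds ?_)
      rw [hιw, mem_ball]; linarith
    obtain ⟨r', hr', hr'w⟩ := Metric.eventually_nhds_iff.1 hev
    let ψ : OpenPartialHomeomorph M (E n) := φ.trans (invH z ρ hρ0)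
    have hψs : ∀ v, ψ.symm v = φ.symm (inversion z ρ v) := fun v => rfl
    have hψt : ∀ v, v ≠ z → inversion z ρ v ∈ φ.target → v ∈ ψ.target := by
      intro v hv1 hv2
      change v ∈ (φ.trans (invH z ρ hρ0)).target
      rw [OpenPartialHomeomorph.trans_target]
      exact ⟨hv1, hv2⟩
    refine use2 hc hC mc ψ w z (r' / 2) (by positivity) ?_ hρpos ?_ ?_
    · intro v hv
      have h1 : dist v w < r' := lt_of_le_of_lt hv (by linarith)
      obtain ⟨h2, h3⟩ := hr'w h1
      exact hψt v h3 (hr0t (ball_subset_closedBall h2))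
    · intro v hv hg
      have h1 : dist v w < r' := lt_of_le_of_lt hv (by linarith)
      obtain ⟨h2, h3⟩ := hr'w h1
      have h4 : inversion z ρ v ∈ NF := ⟨ball_subset_closedBall h2, by simpa only [hψs] using hg⟩
      have h5 := hNFρ _ h4
      rw [dist_inversion_center] at h5
      have h6 : 0 < dist v z := dist_pos.2 h3
      rw [le_div_iff₀ h6] at h5
      rw [mem_closedBall, ← hρ]
      nlinarith
    · intro ε hε
      have h1 : ∀ᶠ u in 𝓝 w, inversion z ρ u ∈ ball w ε :=
        hιc.eventually_mem (isOpen_ball.mem_nhds (by rw [hιw]; exact mem_ball_self hε))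
      obtain ⟨u, hu1, hu2⟩ := mem_closure_iff_nhds.1 hwC _ h1
      refine ⟨inversion z ρ u, hu1, ?_⟩
      obtain ⟨a, ha⟩ := hu2.2
      refine ⟨a, ?_⟩
      rw [hψs, inversion_inversion z hρ0]; exact ha
  rcases isClopen_iff.1 ⟨hcl, isOpen_interior⟩ with h | h
  · exact absurd h hne.ne_empty
  · exact univ_subset_iff.1 (h ▸ interior_subset)

/-- The reduction: the crux implies that a group acting faithfully has no small compact
subgroups. -/
theorem nscs_of_crux (hC : Crux.{u} n)
    (M : Type v) [TopologicalSpace M] [T2Space M] [ConnectedSpace M] [ChartedSpace (E n) M]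
    (G : Type u) [Group G] [TopologicalSpace G] [IsTopologicalGroup G] [T2Space G]
    [SecondCountableTopology G] [MulAction G M] [ContinuousSMul G M] [FaithfulSMul G M] :
    SpecA343.NSCS G := by
  obtain ⟨c, hc, hC⟩ := (crux_iff n).1 hC
  obtain ⟨m0⟩ : Nonempty M := inferInstance
  set φ : OpenPartialHomeomorph M (E n) := chartAt (E n) m0 with hφ
  have hm0 : m0 ∈ φ.source := mem_chart_source _ _
  set z := φ m0 with hz
  have hzt : z ∈ φ.target := φ.map_source hm0
  obtain ⟨r, hr, hrt⟩ := Metric.isOpen_iff.1 φ.open_target z hzt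
  set ρ := r / 4 with hρdef
  have hρ : 0 < ρ := by positivity
  have hzt2 : closedBall z (2 * ρ) ⊆ φ.target :=
    (closedBall_subset_ball (by linarith)).trans hrt
  set δ := min (ρ / 8) (c * ρ / 2) with hδ
  have hδ0 : 0 < δ := lt_min (by positivity) (by positivity)
  refine ⟨{g : G | ∀ v ∈ closedBall z (2 * ρ), g • φ.symm v ∈ φ.source ∧
    dist (φ (g • φ.symm v)) v ≤ δ}, ?_, ?_⟩
  · refine (isCompact_closedBall z (2 * ρ)).eventually_forall_of_forall_eventually ?_
    intro v hv
    have hvt : v ∈ φ.target := hzt2 hv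
    have h1 : ContinuousAt (fun p : G × E n => p.1 • φ.symm p.2) (1, v) :=
      (continuousOn_smul_symm φ).continuousAt
        (prod_mem_nhds univ_mem (φ.open_target.mem_nhds hvt))
    have h2 : (fun p : G × E n => p.1 • φ.symm p.2) (1, v) = φ.symm v := by simp
    have h3 : ∀ᶠ p : G × E n in 𝓝 (1, v), p.1 • φ.symm p.2 ∈ φ.source :=
      h1.eventually_mem (φ.open_source.mem_nhds (by simpa using φ.map_target hvt))
    have h4 : ContinuousAt (fun p : G × E n => dist (φ (p.1 • φ.symm p.2)) p.2) (1, v) := by
      have h5 : ContinuousAt φ ((fun p : G × E n => p.1 • φ.symm p.2) (1, v)) := by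
        rw [h2]; exact φ.continuousAt (φ.map_target hvt)
      exact (ContinuousAt.comp (g := φ) (f := fun p : G × E n => p.1 • φ.symm p.2) h5 h1).dist
        continuousAt_snd
    have h6 : ∀ᶠ p : G × E n in 𝓝 (1, v), dist (φ (p.1 • φ.symm p.2)) p.2 < δ := by
      refine h4.eventually_lt_const ?_
      simp only [one_smul, φ.right_inv hvt, dist_self]; exact hδ0
    filter_upwards [h3, h6] with p hp3 hp6
    exact ⟨hp3, hp6.le⟩
  · intro H hHc hHU
    by_contra hH
    obtain ⟨x0, hx0H, hx0⟩ := (Subgroup.ne_bot_iff_exists_ne_one (H := H)).1 hH |>.elim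
      fun a ha => (⟨a.1, a.2, fun h => ha (Subtype.ext h)⟩ : ∃ x ∈ H, x ≠ (1 : G))
    have : CompactSpace H := isCompact_iff_compactSpace.1 hHc
    obtain ⟨A, hAc, -, x, q, χ, hq, hx, hχc, hχq, hχx, hmin⟩ :=
      B1c_889.exists_complex_character (H := H) ⟨x0, hx0H⟩ (fun h => hx0 (congrArg Subtype.val h))
    have : CompactSpace A := isCompact_iff_compactSpace.1 hAc.isCompact
    have : SecondCountableTopology H :=
      TopologicalSpace.Subtype.secondCountableTopology (H : Set G)
    have : SecondCountableTopology A :=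
      TopologicalSpace.Subtype.secondCountableTopology (A : Set H)
    let mc : MC A := ⟨x, hx, q, hq, χ, hχc, hχq, hχx, hmin⟩
    have hsm : ∀ (a : A) (m : M), a • m = ((a : H) : G) • m := fun a m => rfl
    have h1 := use1 hc hC mc φ z ρ hρ hzt2 (fun a v hv => hHU ((a : H).2) v hv)
    have h2 : (interior (FixS A M)).Nonempty := by
      refine ⟨m0, ?_⟩
      rw [mem_interior]
      refine ⟨φ.symm '' ball z ρ, ?_, ?_, ?_⟩
      · rintro _ ⟨v, hv, rfl⟩ a
        exact h1 v hv a
      · refine φ.symm.isOpen_image_of_subset_source isOpen_ball ?_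
        exact (ball_subset_closedBall.trans (closedBall_subset_closedBall (by linarith))).trans
          hzt2
      · exact ⟨z, mem_ball_self hρ, φ.left_inv hm0⟩
    have h3 := n2 (n := n) hc hC mc h2
    have h4 : ((x : H) : G) = 1 := by
      apply eq_of_smul_eq_smul (α := M)
      intro m
      have h5 : m ∈ FixS A M := by rw [h3]; trivial
      rw [one_smul]
      exact h5 x
    apply hχx
    have h5 : x = 1 := Subtype.ext (Subtype.ext h4)
    rw [h5, map_one]

end Crest.Agent.R217.B2478
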