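import Crest.Agent.R217.SpecB_837

/-!
Row 217, B3: from a continuous action of a compact group on an open set of a finite dimensional
space to `HData`.
-/

set_option autoImplicit false

open Set Metric Topology Filter MeasureTheory
open scoped Topology

namespace Crest.Agent.R217.B3837

open Crest.Agent.R217.SpecB837

/-- a continuous action of `A` on an open set `Ω` of `E`, given by maps of `E` -/
structure Act (A : Type*) [Group A] [TopologicalSpace A] (E : Type*) [TopologicalSpace E] where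
  Ω : Set E
  a : A → E → E
  isOpen : IsOpen Ω
  maps : ∀ g, ∀ v ∈ Ω, a g v ∈ Ω
  one : ∀ v ∈ Ω, a 1 v = v
  mul : ∀ g g', ∀ v ∈ Ω, a (g * g') v = a g (a g' v)
  cont : ContinuousOn (fun p : A × E => a p.1 p.2) (univ ×ˢ Ω)

namespace Act

variable {A : Type*} [Group A] [TopologicalSpace A]

section top

variable {E : Type*} [TopologicalSpace E] (X : Act A E)

/-- fixed by the whole group -/
def Fixed (v : E) : Prop := ∀ g, X.a g v = v

theorem cont_left {v : E} (hv : v ∈ X.Ω) : Continuous (fun g => X.a g v) := by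
  have h : Continuous (fun g : A => ((g, v) : A × E)) := by fun_prop
  have := X.cont.comp (s := (univ : Set A)) h.continuousOn (fun g _ => by simp [hv])
  exact continuousOn_univ.1 this

theorem cont_right (g : A) : ContinuousOn (X.a g) X.Ω := by
  have h : ContinuousOn (fun v : E => ((g, v) : A × E)) X.Ω := by fun_prop
  exact X.cont.comp h (fun v hv => by simp [hv])

theorem inv_smul {g : A} {v : E} (hv : v ∈ X.Ω) : X.a g⁻¹ (X.a g v) = v := by
  rw [← X.mul _ _ v hv, inv_mul_cancel, X.one v hv]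

theorem smul_inv {g : A} {v : E} (hv : v ∈ X.Ω) : X.a g (X.a g⁻¹ v) = v := by
  rw [← X.mul _ _ v hv, mul_inv_cancel, X.one v hv]

theorem fixed_smul {g : A} {v : E} (hv : v ∈ X.Ω) (h : X.Fixed (X.a g v)) : X.Fixed v := by
  have h1 : X.a g v = v := by
    have h2 := h g⁻¹
    rw [X.inv_smul hv] at h2
    exact h2.symm
  rwa [h1] at h

/-- the stabilizer -/
def stab (v : E) (hv : v ∈ X.Ω) : Subgroup A where
  carrier := {g | X.a g v = v}
  mul_mem' := by
    intro g g' hg hg'
    simp only [mem_ofPred_eq] at *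
    rw [X.mul _ _ v hv, hg', hg]
  one_mem' := X.one v hv
  inv_mem' := by
    intro g hg
    simp only [mem_ofPred_eq] at *
    conv_lhs => rw [← hg]
    exact X.inv_smul hv

theorem isClosed_stab [T2Space E] (v : E) (hv : v ∈ X.Ω) : IsClosed (X.stab v hv : Set A) :=
  isClosed_eq (X.cont_left hv) continuous_const

theorem fixed_of_chi [T2Space E] (m : Mono A) {v : E} (hv : v ∈ X.Ω) {g : A} (hg : m.chi g ≠ 1)
    (h : X.a g v = v) : X.Fixed v := by
  have h1 := m.mini (X.stab v hv) (X.isClosed_stab v hv) ⟨g, h, hg⟩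
  intro g'
  have h2 : g' ∈ X.stab v hv := by rw [h1]; trivial
  exact h2

/-- the orbit hull of a compact set -/
def hull (K : Set E) : Set E := (fun p : A × E => X.a p.1 p.2) '' (univ ×ˢ K)

theorem isCompact_hull [CompactSpace A] {K : Set E} (hK : K ⊆ X.Ω) (hc : IsCompact K) :
    IsCompact (X.hull K) :=
  (isCompact_univ.prod hc).image_of_continuousOn (X.cont.mono (prod_mono_right hK))

theorem hull_subset {K : Set E} (hK : K ⊆ X.Ω) : X.hull K ⊆ X.Ω := by
  rintro _ ⟨⟨g, v⟩, ⟨-, hv⟩, rfl⟩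
  exact X.maps g v (hK hv)

theorem subset_hull {K : Set E} (hK : K ⊆ X.Ω) : K ⊆ X.hull K :=
  fun v hv => ⟨(1, v), ⟨trivial, hv⟩, X.one v (hK hv)⟩

theorem smul_mem_hull {K : Set E} (hK : K ⊆ X.Ω) {g : A} {v : E} (hv : v ∈ X.hull K) :
    X.a g v ∈ X.hull K := by
  obtain ⟨⟨g', w⟩, ⟨-, hw⟩, rfl⟩ := hv
  exact ⟨(g * g', w), ⟨trivial, hw⟩, X.mul g g' w (hK hw)⟩

/-- the fixed points are relatively closed -/
theorem isClosed_fixed [T2Space E] {v : E} (hv : v ∈ X.Ω)
    (h : v ∈ closure {w | w ∈ X.Ω ∧ X.Fixed w}) : X.Fixed v := by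
  intro g
  have h1 : ContinuousWithinAt (X.a g) X.Ω v := X.cont_right g v hv
  have h2 : v ∈ closure ({w | w ∈ X.Ω ∧ X.Fixed w}) := h
  have h3 : Tendsto (X.a g) (𝓝[{w | w ∈ X.Ω ∧ X.Fixed w}] v) (𝓝 (X.a g v)) :=
    h1.mono (fun w hw => hw.1)
  have h4 : Tendsto (X.a g) (𝓝[{w | w ∈ X.Ω ∧ X.Fixed w}] v) (𝓝 v) := by
    refine (tendsto_id.mono_left nhdsWithin_le_nhds).congr' ?_
    filter_upwards [self_mem_nhdsWithin] with w hw
    exact (hw.2 g).symm
  have : (𝓝[{w | w ∈ X.Ω ∧ X.Fixed w}] v).NeBot := mem_closure_iff_nhdsWithin_neBot.1 h2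
  exact tendsto_nhds_unique h3 h4

end top

section metric

variable {E : Type*} [MetricSpace E] [ProperSpace E] (X : Act A E)

open Classical in
/-- the orbit map as an element of `C(A, E)` -/
noncomputable def orb (v : E) : C(A, E) :=
  if hv : v ∈ X.Ω then ⟨fun g => X.a g v, X.cont_left hv⟩ else ContinuousMap.const A v

theorem orb_apply {v : E} (hv : v ∈ X.Ω) (g : A) : X.orb v g = X.a g v := by
  simp [orb, hv]

theorem continuousOn_orb [CompactSpace A] : ContinuousOn X.orb X.Ω := by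
  rw [continuousOn_iff_continuous_domRestrict]
  let F : C(X.Ω × A, E) := ⟨fun p => X.a p.2 p.1, by
    have h : Continuous (fun p : X.Ω × A => ((p.2, (p.1 : E)) : A × E)) := by fun_prop
    have := X.cont.comp (s := (univ : Set (X.Ω × A))) h.continuousOn
      (fun p _ => by simp)
    exact continuousOn_univ.1 this⟩
  have : X.Ω.domRestrict X.orb = fun v => F.curry v := by
    ext v g
    change X.orb v g = _
    rw [X.orb_apply v.2]
    rfl
  rw [this]
  exact F.curry.continuous

theorem equi [CompactSpace A] {K : Set E} (hK : K ⊆ X.Ω) (hc : IsCompact K) {ε : ℝ} (hε : 0 < ε) :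
    ∃ δ > 0, ∀ v ∈ K, ∀ w ∈ X.Ω, dist w v < δ → ∀ g, dist (X.a g w) (X.a g v) < ε := by
  obtain ⟨r, hr, hrK⟩ := hc.exists_cthickening_subset_open X.isOpen hK
  have hc' : IsCompact (cthickening r K) := hc.cthickening
  have hu := hc'.uniformContinuousOn_of_continuous (X.continuousOn_orb.mono hrK)
  rw [Metric.uniformContinuousOn_iff] at hu
  obtain ⟨δ, hδ, h⟩ := hu ε hε
  refine ⟨min δ r, lt_min hδ hr, fun v hv w hw hvw g => ?_⟩
  have hv' : v ∈ cthickening r K := self_subset_cthickening K hv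
  have hw' : w ∈ cthickening r K :=
    mem_cthickening_of_dist_le w v r K hv (hvw.le.trans (min_le_right _ _))
  have h1 := h w hw' v hv' (hvw.trans_le (min_le_left _ _))
  have h2 := ContinuousMap.dist_apply_le_dist (f := X.orb w) (g := X.orb v) g
  rw [X.orb_apply hw, X.orb_apply (hK hv)] at h2
  exact h2.trans_lt h1

/-- elements near `1` move the points of a compact set by less than `ε` -/
theorem small_of_nhds_one {K : Set E} (hK : K ⊆ X.Ω) (hc : IsCompact K) {ε : ℝ} (hε : 0 < ε) :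
    ∀ᶠ g in 𝓝 (1 : A), ∀ v ∈ K, dist (X.a g v) v < ε := by
  let U : Set (A × E) := {p | p.2 ∈ X.Ω ∧ dist (X.a p.1 p.2) p.2 < ε}
  have hcont : ContinuousOn (fun p : A × E => dist (X.a p.1 p.2) p.2) (univ ×ˢ X.Ω) :=
    continuous_dist.comp_continuousOn (X.cont.prodMk continuous_snd.continuousOn)
  have hU : IsOpen U := by
    have h1 := hcont.isOpen_inter_preimage (isOpen_univ.prod X.isOpen) (isOpen_Iio (a := ε))
    convert h1 using 1
    ext p
    simp [U]
  have hsub : ({1} : Set A) ×ˢ K ⊆ U := by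
    rintro ⟨g, v⟩ ⟨hg, hv⟩
    rw [mem_singleton_iff] at hg
    subst hg
    refine ⟨hK hv, ?_⟩
    simp only
    rw [X.one v (hK hv), dist_self]
    exact hε
  obtain ⟨u, v, hu, -, hu1, hKv, huv⟩ := generalized_tube_lemma isCompact_singleton hc hU hsub
  filter_upwards [hu.mem_nhds (hu1 rfl)] with g hg w hw
  exact (huv (mk_mem_prod hg (hKv hw))).2

theorem recur [IsTopologicalGroup A] [CompactSpace A] (y : A) {K : Set E} (hK : K ⊆ X.Ω)
    (hc : IsCompact K) {ε : ℝ} (hε : 0 < ε) :
    ∃ m > 0, ∀ v ∈ K, dist (X.a (y ^ m) v) v < ε := by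
  have h1 := mapClusterPt_one_atTop_pow y
  have h2 := (h1.frequently (X.small_of_nhds_one hK hc hε)).and_eventually (eventually_gt_atTop 0)
  obtain ⟨m, hm1, hm2⟩ := h2.exists
  exact ⟨m, hm2, hm1⟩

theorem orderOf_chi (m : Mono A) : orderOf (m.chi m.x) = m.q := by
  have := Fact.mk m.prime
  exact orderOf_eq_prime m.pow m.ne

/-- separation of the points of a compact set without fixed points -/
theorem separation [IsTopologicalGroup A] [CompactSpace A] (m : Mono A) {K : Set E} (hK : K ⊆ X.Ω)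
    (hc : IsCompact K) (hfix : ∀ v ∈ K, ¬ X.Fixed v) :
    ∃ s > 0, ∀ v ∈ K, ∀ i, ¬ m.q ∣ i → s ≤ dist (X.a (m.x ^ i) v) v := by
  set C : Set A := closure {g | ∃ i, ¬ m.q ∣ i ∧ m.x ^ i = g} with hC
  have hCc : IsCompact C := isClosed_closure.isCompact
  have hchi : ∀ g ∈ C, m.chi g ≠ 1 := by
    have hfin : Set.Finite ((fun j => m.chi m.x ^ j) '' {j | j < m.q ∧ j ≠ 0}) :=
      ((Set.finite_lt_nat m.q).subset (fun j hj => hj.1)).image _
    have h1 : C ⊆ m.chi ⁻¹' ((fun j => m.chi m.x ^ j) '' {j | j < m.q ∧ j ≠ 0}) := by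
      refine closure_minimal ?_ (hfin.isClosed.preimage m.cont)
      rintro g ⟨i, hi, rfl⟩
      refine ⟨i % m.q, ⟨Nat.mod_lt _ m.prime.pos, fun h => hi (Nat.dvd_of_mod_eq_zero h)⟩, ?_⟩
      simp only [map_pow]
      rw [← orderOf_chi m, pow_mod_orderOf]
    intro g hg h
    obtain ⟨j, ⟨hj1, hj2⟩, hj3⟩ := h1 hg
    simp only at hj3
    rw [h] at hj3
    have h2 := orderOf_dvd_of_pow_eq_one hj3
    rw [orderOf_chi m] at h2
    exact absurd (Nat.le_of_dvd (Nat.pos_of_ne_zero hj2) h2) (by omega)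
  rcases K.eq_empty_or_nonempty with rfl | hne
  · exact ⟨1, one_pos, by simp⟩
  rcases C.eq_empty_or_nonempty with hCe | hCne
  · refine ⟨1, one_pos, fun v _ i hi => ?_⟩
    have : m.x ^ i ∈ C := subset_closure ⟨i, hi, rfl⟩
    rw [hCe] at this
    exact this.elim
  have hcont : ContinuousOn (fun p : A × E => dist (X.a p.1 p.2) p.2) (C ×ˢ K) :=
    (continuous_dist.comp_continuousOn (X.cont.prodMk continuous_snd.continuousOn)).mono (prod_mono (subset_univ _) hK)
  obtain ⟨⟨g0, v0⟩, ⟨hg0, hv0⟩, hmin⟩ := (hCc.prod hc).exists_isMinOn (hCne.prod hne) hcont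
  refine ⟨dist (X.a g0 v0) v0, ?_, fun v hv i hi => ?_⟩
  · rw [gt_iff_lt, dist_pos]
    intro h
    exact hfix v0 hv0 (X.fixed_of_chi m (hK hv0) (hchi g0 hg0) h)
  · exact hmin (show (m.x ^ i, v) ∈ C ×ˢ K from ⟨subset_closure ⟨i, hi, rfl⟩, hv⟩)

end metric

section avg

variable {E : Type*} [NormedAddCommGroup E] [NormedSpace ℝ E] [FiniteDimensional ℝ E]
  (X : Act A E)

  [IsTopologicalGroup A] [CompactSpace A] [T2Space A] [MeasurableSpace A] [BorelSpace A]

variable (A) in
/-- normalised Haar measure of a compact group -/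
noncomputable def mu : Measure A := Measure.haarMeasure ⊤

instance : (mu A).IsMulLeftInvariant := by unfold mu; infer_instance

instance : (mu A).IsOpenPosMeasure := by unfold mu; infer_instance

instance : IsProbabilityMeasure (mu A) := ⟨by
  have := Measure.haarMeasure_self (K₀ := (⊤ : TopologicalSpace.PositiveCompacts A))
  unfold mu
  simpa using this⟩

theorem integrable_of_cont {F : Type*} [NormedAddCommGroup F] {φ : A → F} (h : Continuous φ) :
    Integrable φ (mu A) :=
  (integrableOn_univ (μ := mu A)).1 (h.continuousOn.integrableOn_compact isCompact_univ)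

/-- the average of the orbit -/
noncomputable def avg (v : E) : E := ∫ g, X.a g⁻¹ v ∂(mu A)

theorem cont_inv {v : E} (hv : v ∈ X.Ω) : Continuous (fun g => X.a g⁻¹ v) :=
  (X.cont_left hv).comp continuous_inv

theorem avg_smul {v : E} (hv : v ∈ X.Ω) (h : A) : X.avg (X.a h v) = X.avg v := by
  unfold avg
  rw [← integral_mul_left_eq_self (μ := mu A) (fun g => X.a g⁻¹ (X.a h v)) h]
  congr 1
  ext g
  rw [← X.mul _ _ v hv]
  congr 1
  group

theorem avg_mem {v : E} (hv : v ∈ X.Ω) {C : Set E} (hC : Convex ℝ C) (hCc : IsClosed C)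
    (h : ∀ g, X.a g v ∈ C) : X.avg v ∈ C :=
  hC.integral_mem hCc (Eventually.of_forall (fun g => h g⁻¹)) (integrable_of_cont (X.cont_inv hv))

theorem avg_fixed {v : E} (h : X.Fixed v) : X.avg v = v := by
  unfold avg
  have : (fun g => X.a g⁻¹ v) = fun _ => v := by
    ext g
    exact h _
  rw [this, integral_const]
  simp

theorem continuousOn_avg : ContinuousOn X.avg X.Ω := by
  rw [continuousOn_iff_continuous_domRestrict]
  have : LocallyCompactSpace X.Ω := X.isOpen.locallyCompactSpace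
  have hF : Continuous (Function.uncurry (fun (v : X.Ω) (g : A) => X.a g⁻¹ (v : E))) := by
    have h : Continuous (fun p : X.Ω × A => ((p.2⁻¹, (p.1 : E)) : A × E)) := by fun_prop
    have := X.cont.comp (s := (univ : Set (X.Ω × A))) h.continuousOn
      (fun p _ => by simp)
    exact continuousOn_univ.1 this
  have h2 := continuous_parametric_integral_of_continuous (μ := mu A) hF isCompact_univ
  simp only [Measure.restrict_univ] at h2
  exact h2

theorem clm_avg {v : E} (hv : v ∈ X.Ω) {F : Type*} [NormedAddCommGroup F] [NormedSpace ℝ F]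
    [CompleteSpace F] (ℓ : E →L[ℝ] F) : ℓ (X.avg v) = ∫ g, ℓ (X.a g⁻¹ v) ∂(mu A) :=
  (ℓ.integral_comp_comm (integrable_of_cont (X.cont_inv hv))).symm

/-- a nonnegative continuous function with integral zero vanishes -/
theorem eq_zero_of_integral {φ : A → ℝ} (h : Continuous φ) (h0 : ∀ g, 0 ≤ φ g)
    (hi : ∫ g, φ g ∂(mu A) = 0) (g : A) : φ g = 0 := by
  have h1 := (integral_eq_zero_iff_of_nonneg h0 (integrable_of_cont h)).1 hi
  have h2 := (Continuous.ae_eq_iff_eq (mu A) h continuous_const).1 h1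
  exact congrFun h2 g

theorem dist_avg_le {v : E} (hv : v ∈ X.Ω) {δ : ℝ} (h : ∀ g, dist (X.a g v) v ≤ δ) :
    dist (X.avg v) v ≤ δ :=
  X.avg_mem hv (convex_closedBall v δ) isClosed_closedBall h

/-- the `HData` of an action -/
noncomputable def toHData (m : Mono A) : HData E m.q where
  Ω := X.Ω
  h i v := X.a (m.x ^ i) v
  f := X.avg
  isOpen := X.isOpen
  maps i v hv := X.maps _ v hv
  zero v hv := by rw [pow_zero, X.one v hv]
  add i j v hv := by rw [pow_add, X.mul _ _ v hv]
  equi K hK hc ε hε := by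
    obtain ⟨δ, hδ, h⟩ := X.equi hK hc hε
    exact ⟨δ, hδ, fun v hv w hw hd i => h v hv w hw hd _⟩
  hull K hK hc := ⟨X.hull K, X.hull_subset hK, X.isCompact_hull hK hc, X.subset_hull hK,
    fun i v hv => X.smul_mem_hull hK hv⟩
  recur K hK hc ε hε := by
    obtain ⟨k, hk, h⟩ := X.recur (m.x ^ m.q) hK hc hε
    refine ⟨m.q * k, Nat.mul_pos m.prime.pos hk, dvd_mul_right _ _, fun v hv => ?_⟩
    rw [pow_mul]
    exact h v hv
  f_cont := X.continuousOn_avg
  f_inv i v hv := X.avg_smul hv _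

end avg

end Act

end Crest.Agent.R217.B3837
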