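import Crest.Agent.R217.B3_837

/-!
Row 217, B3 (continued): transport of `HData` along a linear homeomorphism; the crux Props in an
arbitrary normed space of dimension `n`.
-/

set_option autoImplicit false

open Set Metric Topology Filter
open scoped Topology

namespace Crest.Agent.R217.B3837

open Crest.Agent.R217.SpecB837

variable {E F : Type*} [NormedAddCommGroup E] [NormedSpace ℝ E] [NormedAddCommGroup F]
  [NormedSpace ℝ F]

theorem exists_lip (e : E ≃L[ℝ] F) : ∃ C > 0, ∀ a b : E, dist (e a) (e b) ≤ C * dist a b := by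
  refine ⟨‖(e : E →L[ℝ] F)‖ + 1, by positivity, fun a b => ?_⟩
  have h := (e : E →L[ℝ] F).lipschitz.dist_le_mul a b
  refine h.trans ?_
  gcongr
  simp

/-- transport of `HData` -/
def mapHData {q : ℕ} (D : HData E q) (e : E ≃L[ℝ] F) : HData F q where
  Ω := e.symm ⁻¹' D.Ω
  h i w := e (D.h i (e.symm w))
  f w := e (D.f (e.symm w))
  isOpen := D.isOpen.preimage e.symm.continuous
  maps i v hv := by
    simp only [mem_preimage, ContinuousLinearEquiv.symm_apply_apply]
    exact D.maps i _ hv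
  zero v hv := by rw [D.zero _ hv, e.apply_symm_apply]
  add i j v hv := by rw [e.symm_apply_apply, D.add i j _ hv]
  equi K hK hc ε hε := by
    obtain ⟨C, hC, hl⟩ := exists_lip e
    obtain ⟨C', hC', hl'⟩ := exists_lip e.symm
    obtain ⟨δ, hδ, h⟩ := D.equi (e.symm '' K) (by rintro _ ⟨v, hv, rfl⟩; exact hK hv)
      (hc.image e.symm.continuous) (ε / C) (div_pos hε hC)
    refine ⟨δ / C', div_pos hδ hC', fun v hv w hw hd i => ?_⟩
    have h1 : dist (e.symm w) (e.symm v) < δ := by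
      refine (hl' w v).trans_lt ?_
      rw [mul_comm]
      exact (lt_div_iff₀ hC').1 hd
    have h2 := h (e.symm v) ⟨v, hv, rfl⟩ (e.symm w) hw h1 i
    refine (hl _ _).trans_lt ?_
    rw [mul_comm]
    exact (lt_div_iff₀ hC).1 h2
  hull K hK hc := by
    obtain ⟨K', h1, h2, h3, h4⟩ := D.hull (e.symm '' K)
      (by rintro _ ⟨v, hv, rfl⟩; exact hK hv) (hc.image e.symm.continuous)
    refine ⟨e '' K', ?_, h2.image e.continuous, ?_, ?_⟩
    · rintro _ ⟨v, hv, rfl⟩
      simp only [mem_preimage, ContinuousLinearEquiv.symm_apply_apply]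
      exact h1 hv
    · intro v hv
      exact ⟨e.symm v, h3 ⟨v, hv, rfl⟩, e.apply_symm_apply v⟩
    · rintro i _ ⟨v, hv, rfl⟩
      rw [e.symm_apply_apply]
      exact ⟨_, h4 i v hv, rfl⟩
  recur K hK hc ε hε := by
    obtain ⟨C, hC, hl⟩ := exists_lip e
    obtain ⟨m, hm, hq, h⟩ := D.recur (e.symm '' K)
      (by rintro _ ⟨v, hv, rfl⟩; exact hK hv) (hc.image e.symm.continuous) (ε / C) (div_pos hε hC)
    refine ⟨m, hm, hq, fun v hv => ?_⟩
    have h2 := h (e.symm v) ⟨v, hv, rfl⟩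
    have h3 := hl (D.h m (e.symm v)) (e.symm v)
    rw [e.apply_symm_apply] at h3
    refine h3.trans_lt ?_
    rw [mul_comm]
    exact (lt_div_iff₀ hC).1 h2
  f_cont := e.continuous.comp_continuousOn
    (D.f_cont.comp e.symm.continuous.continuousOn (fun v hv => hv))
  f_inv i v hv := by rw [e.symm_apply_apply, D.f_inv i _ hv]

/-- `CruxP` in a normed space of dimension `n` -/
theorem cruxP_map {n : ℕ} (hP : CruxP n) (e : E ≃L[ℝ] (Fin n → ℝ)) :
    ∀ q : ℕ, q.Prime → ∀ D : HData E q, ∀ Y : Set E, IsOpen Y → Convex ℝ Y →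
    (∀ L ⊆ Y, IsCompact L → IsCompact (D.Ω ∩ D.f ⁻¹' L)) →
    ∀ y0 ∈ Y, ∀ y1 ∈ Y, ∀ r > 0, ∀ s > 0,
      (∀ v ∈ ball y0 r, v ∈ D.Ω ∧ D.f v = v ∧ ∀ i, D.h i v = v) →
      (∀ v ∈ D.Ω, D.f v ∈ ball y0 r → D.f v = v) →
      (∀ v ∈ D.Ω, D.f v ∈ ball y1 r → ∀ i, ¬ q ∣ i → s ≤ dist (D.h i v) v) →
      False := by
  intro q hq D Y hYo hYc hprop y0 hy0 y1 hy1 r hr s hs h1 h2 h3
  obtain ⟨C, hC, hl⟩ := exists_lip e
  obtain ⟨C', hC', hl'⟩ := exists_lip e.symm
  have hball : ∀ y : E, ∀ w ∈ ball (e y) (r / C'), e.symm w ∈ ball y r := by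
    intro y w hw
    rw [mem_ball] at hw ⊢
    have h4 := hl' w (e y)
    rw [e.symm_apply_apply] at h4
    refine h4.trans_lt ?_
    rw [mul_comm]
    exact (lt_div_iff₀ hC').1 hw
  refine hP q hq (mapHData D e) (e.symm ⁻¹' Y) (hYo.preimage e.symm.continuous)
    (hYc.is_linear_preimage (f := e.symm) ⟨map_add _, map_smul _⟩) ?_ (e y0) (by simpa using hy0)
    (e y1) (by simpa using hy1)
    (r / C') (div_pos hr hC') (s / C') (div_pos hs hC') ?_ ?_ ?_
  · intro L hL hLc
    have h4 := hprop (e.symm '' L) (by rintro _ ⟨v, hv, rfl⟩; exact hL hv)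
      (hLc.image e.symm.continuous)
    convert h4.image e.continuous using 1
    ext w
    constructor
    · rintro ⟨hw1, hw2⟩
      refine ⟨e.symm w, ⟨hw1, ⟨e (D.f (e.symm w)), hw2, by simp⟩⟩, by simp⟩
    · rintro ⟨v, ⟨hv1, ⟨u, hu1, hu2⟩⟩, rfl⟩
      refine ⟨by simpa [mapHData] using hv1, ?_⟩
      show e (D.f (e.symm (e v))) ∈ L
      rw [e.symm_apply_apply, ← hu2, e.apply_symm_apply]
      exact hu1
  · intro w hw
    obtain ⟨h5, h6, h7⟩ := h1 _ (hball y0 w hw)
    refine ⟨h5, ?_, fun i => ?_⟩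
    · show e (D.f (e.symm w)) = w
      rw [h6, e.apply_symm_apply]
    · show e (D.h i (e.symm w)) = w
      rw [h7, e.apply_symm_apply]
  · intro w hw hfw
    have h5 := hball y0 _ hfw
    have h6 : e.symm ((mapHData D e).f w) = D.f (e.symm w) := e.symm_apply_apply _
    rw [h6] at h5
    have h7 := h2 _ hw h5
    show e (D.f (e.symm w)) = w
    rw [h7, e.apply_symm_apply]
  · intro w hw hfw i hi
    have h5 := hball y1 _ hfw
    have h6 : e.symm ((mapHData D e).f w) = D.f (e.symm w) := e.symm_apply_apply _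
    rw [h6] at h5
    have h7 := h3 _ hw h5 i hi
    rw [div_le_iff₀ hC', mul_comm]
    refine h7.trans ?_
    have h8 := hl' ((mapHData D e).h i w) w
    have h9 : e.symm ((mapHData D e).h i w) = D.h i (e.symm w) := e.symm_apply_apply _
    rwa [h9] at h8

end Crest.Agent.R217.B3837
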