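import Crest.Agent.R217.B3map_837

/-!
Row 217, B4: the local form of "trivial on an open set implies trivial" (inversion picture): if all
points of `Ω` outside a closed ball are fixed then all points near a boundary point of the ball
are fixed.
-/

set_option autoImplicit false

open Set Metric Topology Filter MeasureTheory
open scoped Topology RealInnerProductSpace

namespace Crest.Agent.R217.B3837

open Crest.Agent.R217.SpecB837

namespace Act

variable {A : Type*} [Group A] [TopologicalSpace A] [CompactSpace A]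

section core

variable {E : Type*} [MetricSpace E] [ProperSpace E] (X : Act A E)

/-- the points whose orbit stays in `U0` -/
def coreSet (U0 : Set E) : Set E := {v | v ∈ X.Ω ∧ ∀ g, X.a g v ∈ U0}

theorem isOpen_coreSet {U0 : Set E} (hU0 : IsOpen U0) : IsOpen (X.coreSet U0) := by
  have h1 := ContinuousMap.isOpen_setOfPred_mapsTo (X := A) isCompact_univ hU0
  have h2 := X.continuousOn_orb.isOpen_inter_preimage X.isOpen h1
  convert h2 using 1
  ext v
  constructor
  · rintro ⟨hv, h⟩
    refine ⟨hv, fun g _ => ?_⟩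
    rw [X.orb_apply hv]
    exact h g
  · rintro ⟨hv, h⟩
    refine ⟨hv, fun g => ?_⟩
    have := h (mem_univ g)
    rwa [X.orb_apply hv] at this

/-- restriction of the action to the points whose orbit stays in `U0` -/
def core (U0 : Set E) (hU0 : IsOpen U0) : Act A E where
  Ω := X.coreSet U0
  a := X.a
  isOpen := X.isOpen_coreSet hU0
  maps g v hv := ⟨X.maps g v hv.1, fun g' => by rw [← X.mul _ _ v hv.1]; exact hv.2 _⟩
  one v hv := X.one v hv.1
  mul g g' v hv := X.mul g g' v hv.1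
  cont := X.cont.mono (prod_mono_right (fun v hv => hv.1))

end core

section geom

variable {E : Type*} [NormedAddCommGroup E] [InnerProductSpace ℝ E] [FiniteDimensional ℝ E]
  (X : Act A E) [IsTopologicalGroup A] [T2Space A]

omit [FiniteDimensional ℝ E] in
theorem sq_le_of_mem {z w v : E} (hv : v ∈ closedBall z (dist w z)) :
    ‖v - w‖ ^ 2 ≤ 2 * ⟪z - w, v - w⟫ := by
  rw [mem_closedBall, dist_eq_norm, dist_eq_norm] at hv
  have h1 : v - z = (v - w) - (z - w) := by abel
  have h2 := norm_sub_sq_real (v - w) (z - w)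
  rw [← h1] at h2
  have h3 : ‖v - z‖ ^ 2 ≤ ‖w - z‖ ^ 2 := by gcongr
  rw [norm_sub_rev w z] at h3
  rw [real_inner_comm]
  linarith

variable [MeasurableSpace A] [BorelSpace A]

variable (A E) in
/-- the crux for actions: `avg` proper over `ball w R`, everything fixed over `ball y0 r`, nothing
fixed over `closedBall y1 r` -/
def ActP : Prop := ∀ (X : Act A E) (w : E) (R : ℝ),
    (∀ ρ < R, IsCompact (X.Ω ∩ X.avg ⁻¹' closedBall w ρ)) →
    ∀ y0 ∈ ball w R, ∀ y1 ∈ ball w R, ∀ r > 0, ball y0 r ⊆ ball w R →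
      (∀ v ∈ ball y0 r, v ∈ X.Ω ∧ X.Fixed v) →
      (∀ v ∈ X.Ω, X.avg v ∈ ball y0 r → X.Fixed v) →
      (∀ v ∈ X.Ω, X.avg v ∈ closedBall y1 r → ¬ X.Fixed v) → False

theorem inner_avg {v : E} (hv : v ∈ X.Ω) (z w : E) :
    ⟪z - w, X.avg v - w⟫ = ∫ g, ⟪z - w, X.a g⁻¹ v - w⟫ ∂(mu A) := by
  have h1 := X.clm_avg hv (innerSL ℝ (z - w))
  simp only [innerSL_apply_apply] at h1
  rw [inner_sub_right, h1]
  have h2 : ∀ g, ⟪z - w, X.a g⁻¹ v - w⟫ = ⟪z - w, X.a g⁻¹ v⟫ - ⟪z - w, w⟫ := fun g =>
    inner_sub_right _ _ _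
  simp_rw [h2]
  rw [integral_sub (integrable_of_cont (by have := X.cont_inv hv; fun_prop)) (integrable_const _)]
  simp

/-- **Local N2.** -/
theorem n2loc (hP : ActP A E) {z w : E}
    (hρ : 0 < dist w z) (hw : w ∈ X.Ω)
    (hout : ∀ v ∈ X.Ω, v ∉ closedBall z (dist w z) → X.Fixed v) :
    ∃ r > 0, ∀ v ∈ ball w r, v ∈ X.Ω → X.Fixed v := by
  by_contra hcon
  push Not at hcon
  obtain ⟨R, hR, hRΩ⟩ := Metric.nhds_basis_closedBall.mem_iff.1 (X.isOpen.mem_nhds hw)
  set ρ := dist w z with hρ'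
  set K := closedBall w R with hK
  have hKc : IsCompact K := isCompact_closedBall w R
  -- the compact set S1
  set S1 : Set E := {v | v ∈ K ∧ ∀ g, X.a g v ∈ K ∩ closedBall z ρ} with hS1
  have hS1cl : IsClosed S1 := by
    have h1 : S1 = ⋂ g : A, (K ∩ X.a g ⁻¹' (K ∩ closedBall z ρ)) := by
      ext v
      simp only [hS1, mem_ofPred_eq, mem_iInter, mem_inter_iff, mem_preimage]
      exact ⟨fun h g => ⟨h.1, h.2 g⟩, fun h => ⟨(h 1).1, fun g => (h g).2⟩⟩
    rw [h1]
    refine isClosed_iInter fun g => ?_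
    exact ((X.cont_right g).mono hRΩ).preimage_isClosed_of_isClosed isClosed_closedBall
      (isClosed_closedBall.inter isClosed_closedBall)
  have hS1K : S1 ⊆ K := fun v hv => hv.1
  have hS1c : IsCompact S1 := hKc.of_isClosed_subset hS1cl hS1K
  have hS1Ω : S1 ⊆ X.Ω := hS1K.trans hRΩ
  -- the number s
  obtain ⟨s, hs, hsT⟩ : ∃ s > 0, ∀ v ∈ S1, ∀ g, R ≤ dist (X.a g v) w →
      s ≤ ⟪z - w, X.avg v - w⟫ := by
    set T : Set (A × E) := (univ ×ˢ S1) ∩ {p | R ≤ dist (X.a p.1 p.2) w} with hT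
    have hTcl : IsClosed T := by
      have h1 : ContinuousOn (fun p : A × E => dist (X.a p.1 p.2) w) (univ ×ˢ S1) :=
        continuous_dist.comp_continuousOn
          ((X.cont.mono (prod_mono_right hS1Ω)).prodMk continuousOn_const)
      exact h1.preimage_isClosed_of_isClosed (isClosed_univ.prod hS1cl) (isClosed_Ici (a := R))
    have hTc : IsCompact T :=
      (isCompact_univ.prod hS1c).of_isClosed_subset hTcl inter_subset_left
    rcases T.eq_empty_or_nonempty with hTe | hTne
    · refine ⟨1, one_pos, fun v hv g hg => ?_⟩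
      have : (g, v) ∈ T := ⟨⟨trivial, hv⟩, hg⟩
      rw [hTe] at this
      exact this.elim
    · have hcont : ContinuousOn (fun p : A × E => ⟪z - w, X.avg p.2 - w⟫) T := by
        have h1 : ContinuousOn (fun p : A × E => X.avg p.2) T :=
          X.continuousOn_avg.comp continuous_snd.continuousOn (fun p hp => hS1Ω hp.1.2)
        exact continuousOn_const.inner (h1.sub continuousOn_const)
      obtain ⟨⟨g0, v0⟩, hp0, hmin⟩ := hTc.exists_isMinOn hTne hcont
      have hv0 : v0 ∈ S1 := hp0.1.2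
      have hv0Ω := hS1Ω hv0
      refine ⟨⟪z - w, X.avg v0 - w⟫, ?_, fun v hv g hg => hmin (show (g, v) ∈ T from
        ⟨⟨trivial, hv⟩, hg⟩)⟩
      have hnn : ∀ g, 0 ≤ ⟪z - w, X.a g⁻¹ v0 - w⟫ := by
        intro g
        have h1 := sq_le_of_mem (hv0.2 g⁻¹).2
        have h2 : 0 ≤ ‖X.a g⁻¹ v0 - w‖ ^ 2 := by positivity
        linarith
      have hci : Continuous (fun g => ⟪z - w, X.a g⁻¹ v0 - w⟫) := by
        have := X.cont_inv hv0Ω
        fun_prop
      have h0 : 0 ≤ ⟪z - w, X.avg v0 - w⟫ := by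
        rw [X.inner_avg hv0Ω]
        exact integral_nonneg hnn
      rcases h0.lt_or_eq with h | h
      · exact h
      · exfalso
        rw [X.inner_avg hv0Ω] at h
        have h1 := eq_zero_of_integral hci hnn h.symm g0⁻¹
        simp only [inv_inv] at h1
        have h2 := sq_le_of_mem (hv0.2 g0).2
        rw [h1, mul_zero] at h2
        have h3 : ‖X.a g0 v0 - w‖ = 0 := by
          have : ‖X.a g0 v0 - w‖ ^ 2 = 0 := le_antisymm h2 (by positivity)
          exact pow_eq_zero_iff (two_ne_zero) |>.1 this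
        have h4 : R ≤ dist (X.a g0 v0) w := hp0.2
        rw [dist_eq_norm, h3] at h4
        linarith
  -- the restricted action and the target region
  set X' := X.core (ball w R) isOpen_ball with hX'
  have hX'Ω : X'.Ω ⊆ X.Ω := fun v hv => hv.1
  have hX'K : X'.Ω ⊆ K := fun v hv => by
    have := hv.2 1
    rw [X.one v hv.1] at this
    exact ball_subset_closedBall this
  have havg : X'.avg = X.avg := rfl
  set Y : Set E := {y | dist y w < R ∧ ⟪z - w, y - w⟫ < s} with hY
  have hYo : IsOpen Y := by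
    have h1 : IsOpen {y : E | dist y w < R} := isOpen_ball
    have h2 : IsOpen {y : E | ⟪z - w, y - w⟫ < s} :=
      isOpen_lt (by fun_prop) continuous_const
    exact h1.inter h2
  have hYc : Convex ℝ Y := by
    have h1 : Convex ℝ {y : E | dist y w < R} := convex_ball w R
    have h2 : Convex ℝ {y : E | ⟪z - w, y - w⟫ < s} := by
      have h3 : {y : E | ⟪z - w, y - w⟫ < s} = {y : E | ⟪z - w, y⟫ < s + ⟪z - w, w⟫} := by
        ext y
        simp only [mem_ofPred_eq, inner_sub_right]
        constructor <;> intro h <;> linarith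
      rw [h3]
      exact convex_halfSpace_lt (f := fun y : E => ⟪z - w, y⟫)
        ⟨fun a b => inner_add_right _ _ _, fun c a => real_inner_smul_right _ _ _⟩ _
    exact h1.inter h2
  have hwY : w ∈ Y := by
    refine ⟨by rw [dist_self]; exact hR, ?_⟩
    simp only [sub_self, inner_zero_right]
    exact hs
  -- non-fixed points of `X'` have their orbit in the ball
  have hnf : ∀ v ∈ X.Ω, ¬ X.Fixed v → ∀ g, X.a g v ∈ closedBall z ρ := by
    intro v hv hnf g
    by_contra h
    exact hnf (X.fixed_smul hv (hout _ (X.maps g v hv) h))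
  -- properness
  have hprop : ∀ L ⊆ Y, IsCompact L → IsCompact (X'.Ω ∩ X'.avg ⁻¹' L) := by
    intro L hL hLc
    have hKL : IsClosed (K ∩ X.avg ⁻¹' L) :=
      (X.continuousOn_avg.mono hRΩ).preimage_isClosed_of_isClosed isClosed_closedBall hLc.isClosed
    have hcl : ∀ g, IsClosed (K ∩ X.a g ⁻¹' K) := fun g =>
      ((X.cont_right g).mono hRΩ).preimage_isClosed_of_isClosed isClosed_closedBall
        isClosed_closedBall
    refine hKc.of_isClosed_subset ?_ (fun v hv => hX'K hv.1)
    have heq : X'.Ω ∩ X'.avg ⁻¹' L = (K ∩ X.avg ⁻¹' L) ∩ ⋂ g : A, (K ∩ X.a g ⁻¹' K) := by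
      ext v
      simp only [mem_inter_iff, mem_iInter, mem_preimage]
      constructor
      · rintro ⟨hv, hvL⟩
        exact ⟨⟨hX'K hv, hvL⟩, fun g => ⟨hX'K hv, ball_subset_closedBall (hv.2 g)⟩⟩
      · rintro ⟨⟨hvK, hvL⟩, h⟩
        have hvΩ := hRΩ hvK
        refine ⟨⟨hvΩ, fun g => ?_⟩, hvL⟩
        by_contra hg
        rw [mem_ball, not_lt] at hg
        by_cases hfx : X.Fixed v
        · have h1 := hL hvL
          rw [X.avg_fixed hfx] at h1
          rw [hfx g] at hg
          exact absurd h1.1 (not_lt.2 hg)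
        · have hvS : v ∈ S1 := ⟨hvK, fun g' => ⟨(h g').2, hnf v hvΩ hfx g'⟩⟩
          exact absurd (hL hvL).2 (not_lt.2 (hsT v hvS g hg))
    rw [heq]
    exact hKL.inter (isClosed_iInter hcl)
  -- a ball around `w` in `Y ∩ Ω`
  obtain ⟨R2, hR2, hR2Y⟩ := Metric.isOpen_iff.1 (hYo.inter X.isOpen) w ⟨hwY, hw⟩
  have hprop2 : ∀ ρ' < R2, IsCompact (X'.Ω ∩ X'.avg ⁻¹' closedBall w ρ') := fun ρ' hρ' =>
    hprop _ (fun v hv => (hR2Y (closedBall_subset_ball hρ' hv)).1) (isCompact_closedBall w ρ')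
  -- the point y0
  set R3 := min R R2 with hR3
  have hR30 : 0 < R3 := lt_min hR hR2
  set t := min (R3 / (2 * ρ)) 1 with ht
  have ht0 : 0 < t := lt_min (by positivity) one_pos
  have htR : t * ρ ≤ R3 / 2 := by
    have h1 : t ≤ R3 / (2 * ρ) := min_le_left _ _
    have h2 : t * ρ ≤ R3 / (2 * ρ) * ρ := by gcongr
    refine h2.trans (le_of_eq ?_)
    field_simp
  set y0 : E := w - t • (z - w) with hy0
  have hnzw : ‖z - w‖ = ρ := by rw [hρ', dist_eq_norm, norm_sub_rev]
  have hy0w : dist y0 w = t * ρ := by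
    rw [dist_eq_norm, hy0]
    have : w - t • (z - w) - w = -(t • (z - w)) := by abel
    rw [this, norm_neg, norm_smul, Real.norm_of_nonneg ht0.le, hnzw]
  have hy0z : dist y0 z = (1 + t) * ρ := by
    rw [dist_eq_norm, hy0]
    have : w - t • (z - w) - z = -((1 + t) • (z - w)) := by
      rw [add_smul, one_smul]
      abel
    rw [this, norm_neg, norm_smul, Real.norm_of_nonneg (by positivity), hnzw]
  set r0 := t * ρ / 2 with hr0
  have hr0p : 0 < r0 := by positivity
  have hy0out : ∀ v ∈ ball y0 r0, v ∉ closedBall z ρ := by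
    intro v hv h
    rw [mem_ball] at hv
    rw [mem_closedBall] at h
    have h1 := dist_triangle y0 v z
    rw [dist_comm y0 v, hy0z] at h1
    have h2 : (1 + t) * ρ = ρ + t * ρ := by ring
    linarith
  have hy0in : ∀ v ∈ ball y0 r0, v ∈ ball w R3 := by
    intro v hv
    rw [mem_ball] at hv ⊢
    have h1 := dist_triangle v y0 w
    rw [hy0w] at h1
    linarith
  -- the point y1
  obtain ⟨y1, hy1, hy1Ω, hy1f⟩ := hcon R2 hR2
  obtain ⟨r2, hr2, hr2s⟩ : ∃ r2 > 0, closedBall y1 r2 ⊆
      (closure {w | w ∈ X.Ω ∧ X.Fixed w})ᶜ := by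
    have h1 : (closure {w | w ∈ X.Ω ∧ X.Fixed w})ᶜ ∈ 𝓝 y1 :=
      isClosed_closure.isOpen_compl.mem_nhds (fun h => hy1f (X.isClosed_fixed hy1Ω h))
    exact Metric.nhds_basis_closedBall.mem_iff.1 h1
  refine hP X' w R2 hprop2 y0
    (ball_subset_ball (min_le_right _ _) (hy0in y0 (mem_ball_self hr0p))) y1 hy1
    (min r0 r2) (lt_min hr0p hr2) ?_ ?_ ?_ ?_
  · intro v hv
    exact ball_subset_ball (min_le_right _ _)
      (hy0in v (ball_subset_ball (min_le_left _ _) hv))
  · intro v hv
    have hv0 : v ∈ ball y0 r0 := ball_subset_ball (min_le_left _ _) hv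
    have hvK : v ∈ ball w R := ball_subset_ball (min_le_left _ _) (hy0in v hv0)
    have hvΩ : v ∈ X.Ω := hRΩ (ball_subset_closedBall hvK)
    have hfx := hout v hvΩ (hy0out v hv0)
    exact ⟨⟨hvΩ, fun g => by rw [hfx g]; exact hvK⟩, hfx⟩
  · intro v hv hfv
    by_contra hfx
    have h1 : X.avg v ∈ closedBall z ρ :=
      X.avg_mem hv.1 (convex_closedBall z ρ) isClosed_closedBall (hnf v hv.1 hfx)
    exact hy0out _ (ball_subset_ball (min_le_left _ _) hfv) h1
  · intro v hv hfv hfx
    have hfx' : X.Fixed v := hfx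
    have h1 : X.avg v ∈ closedBall y1 (min r0 r2) := hfv
    rw [X.avg_fixed hfx'] at h1
    exact hr2s (closedBall_subset_closedBall (min_le_right _ _) h1)
      (subset_closure ⟨hX'Ω hv, hfx'⟩)

end geom

end Act

end Crest.Agent.R217.B3837
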