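import Crest.Agent.R217.B4_837

/-!
Row 217, B5: charts, "trivial on a nonempty open set implies trivial", small orbits, and the
assembly of part B.
-/

set_option autoImplicit false

open Set Metric Topology Filter MeasureTheory
open scoped Topology Manifold ContDiff

namespace Crest.Agent.R217.B3837

open Crest.Agent.R217.SpecA343 Crest.Agent.R217.SpecB837

/-! ### charts -/

section chart

variable {A : Type*} [Group A] [TopologicalSpace A] [CompactSpace A]
  {M : Type*} [TopologicalSpace M] [MulAction A M] [ContinuousSMul A M]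

theorem isOpen_forall_smul {U : Set M} (hU : IsOpen U) : IsOpen {p : M | ∀ g : A, g • p ∈ U} := by
  let F : C(M × A, M) := ⟨fun p => p.2 • p.1, by fun_prop⟩
  have h1 := ContinuousMap.isOpen_setOfPred_mapsTo (X := A) isCompact_univ hU
  have h2 := h1.preimage F.curry.continuous
  convert h2 using 1
  ext p
  constructor
  · intro h g _
    exact h g
  · intro h g
    exact h (mem_univ g)

variable {F : Type*} [TopologicalSpace F]

/-- the action read in a chart -/
def chartAct (φ : OpenPartialHomeomorph M F) : Act A F where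
  Ω := φ.target ∩ φ.symm ⁻¹' {p | ∀ g : A, g • p ∈ φ.source}
  a g v := φ (g • φ.symm v)
  isOpen := φ.symm.continuousOn.isOpen_inter_preimage φ.open_target (isOpen_forall_smul φ.open_source)
  maps g v hv := by
    have h1 : g • φ.symm v ∈ φ.source := hv.2 g
    refine ⟨φ.map_source h1, fun g' => ?_⟩
    show g' • φ.symm (φ (g • φ.symm v)) ∈ φ.source
    rw [φ.left_inv h1, ← mul_smul]
    exact hv.2 _
  one v hv := by rw [one_smul, φ.right_inv hv.1]
  mul g g' v hv := by
    have h1 : g' • φ.symm v ∈ φ.source := hv.2 g'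
    rw [φ.left_inv h1, ← mul_smul]
  cont := by
    have h1 : ContinuousOn (fun p : A × F => p.1 • φ.symm p.2)
        (univ ×ˢ (φ.target ∩ φ.symm ⁻¹' {p | ∀ g : A, g • p ∈ φ.source})) := by
      refine ContinuousOn.smul continuous_fst.continuousOn ?_
      exact φ.symm.continuousOn.comp continuous_snd.continuousOn (fun p hp => hp.2.1)
    exact φ.continuousOn.comp h1 (fun p hp => hp.2.2 p.1)

theorem chartAct_mem (φ : OpenPartialHomeomorph M F) {p : M} (hp : ∀ g : A, g • p ∈ φ.source) :
    φ p ∈ (chartAct (A := A) φ).Ω := by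
  have h1 : p ∈ φ.source := by simpa using hp 1
  refine ⟨φ.map_source h1, fun g => ?_⟩
  show g • φ.symm (φ p) ∈ φ.source
  rw [φ.left_inv h1]
  exact hp g

theorem chartAct_fixed (φ : OpenPartialHomeomorph M F) {v : F}
    (hv : v ∈ (chartAct (A := A) φ).Ω) :
    (chartAct (A := A) φ).Fixed v ↔ ∀ g : A, g • φ.symm v = φ.symm v := by
  constructor
  · intro h g
    have h1 : φ (g • φ.symm v) = v := h g
    have h2 : g • φ.symm v ∈ φ.source := hv.2 g
    calc g • φ.symm v = φ.symm (φ (g • φ.symm v)) := (φ.left_inv h2).symm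
      _ = φ.symm v := by rw [h1]
  · intro h g
    show φ (g • φ.symm v) = v
    rw [h g, φ.right_inv hv.1]

end chart

/-! ### inversion -/

section inversion

variable {A : Type*} [Group A] [TopologicalSpace A]
  {E : Type*} [NormedAddCommGroup E] [InnerProductSpace ℝ E]

/-- conjugation of an action by an inversion centred at a fixed point -/
noncomputable def invAct (X : Act A E) (z : E) (hzf : X.Fixed z) {ρ : ℝ} (hρ : ρ ≠ 0) :
    Act A E where
  Ω := {z}ᶜ ∩ EuclideanGeometry.inversion z ρ ⁻¹' X.Ω
  a g v := EuclideanGeometry.inversion z ρ (X.a g (EuclideanGeometry.inversion z ρ v))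
  isOpen := by
    have h1 : ContinuousOn (EuclideanGeometry.inversion z ρ) ({z}ᶜ : Set E) :=
      continuousOn_const.inversion continuousOn_const continuousOn_id (fun a ha => ha)
    exact h1.isOpen_inter_preimage isOpen_compl_singleton X.isOpen
  maps g v hv := by
    refine ⟨?_, ?_⟩
    · intro h
      have h1 : EuclideanGeometry.inversion z ρ
        (X.a g (EuclideanGeometry.inversion z ρ v)) = z := h
      rw [EuclideanGeometry.inversion_eq_center hρ] at h1
      have h2 : EuclideanGeometry.inversion z ρ v = z := by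
        have h3 := X.inv_smul (g := g) hv.2
        rw [h1, hzf g⁻¹] at h3
        exact h3.symm
      rw [EuclideanGeometry.inversion_eq_center hρ] at h2
      exact hv.1 h2
    · show EuclideanGeometry.inversion z ρ (EuclideanGeometry.inversion z ρ _) ∈ X.Ω
      rw [EuclideanGeometry.inversion_inversion z hρ]
      exact X.maps g _ hv.2
  one v hv := by rw [X.one _ hv.2, EuclideanGeometry.inversion_inversion z hρ]
  mul g g' v hv := by
    rw [EuclideanGeometry.inversion_inversion z hρ, X.mul _ _ _ hv.2]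
  cont := by
    have h1 : ContinuousOn (EuclideanGeometry.inversion z ρ) ({z}ᶜ : Set E) :=
      continuousOn_const.inversion continuousOn_const continuousOn_id (fun a ha => ha)
    have h2 : ContinuousOn (fun p : A × E => X.a p.1 (EuclideanGeometry.inversion z ρ p.2))
        (univ ×ˢ ({z}ᶜ ∩ EuclideanGeometry.inversion z ρ ⁻¹' X.Ω)) := by
      refine X.cont.comp (continuous_fst.continuousOn.prodMk
        (h1.comp continuous_snd.continuousOn (fun p hp => hp.2.1))) ?_
      intro p hp
      exact ⟨trivial, hp.2.2⟩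
    refine h1.comp h2 ?_
    intro p hp h
    have h1 : X.a p.1 (EuclideanGeometry.inversion z ρ p.2) = z := h
    have h3 := X.inv_smul (g := p.1) hp.2.2
    rw [h1, hzf p.1⁻¹] at h3
    have h4 := h3.symm
    rw [EuclideanGeometry.inversion_eq_center hρ] at h4
    exact hp.2.1 h4

theorem invAct_fixed (X : Act A E) (z : E) (hzf : X.Fixed z) {ρ : ℝ} (hρ : ρ ≠ 0)
    (v : E) : (invAct X z hzf hρ).Fixed v ↔ X.Fixed (EuclideanGeometry.inversion z ρ v) := by
  constructor
  · intro h g
    have h1 : EuclideanGeometry.inversion z ρ (X.a g (EuclideanGeometry.inversion z ρ v)) = v := h g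
    conv_rhs => rw [← h1]
    rw [EuclideanGeometry.inversion_inversion z hρ]
  · intro h g
    show EuclideanGeometry.inversion z ρ (X.a g (EuclideanGeometry.inversion z ρ v)) = v
    rw [h g, EuclideanGeometry.inversion_inversion z hρ]

end inversion

/-! ### N2: trivial on an open set implies trivial -/

section n2

variable {A : Type*} [Group A] [TopologicalSpace A] [CompactSpace A] [IsTopologicalGroup A]
  [T2Space A] [MeasurableSpace A] [BorelSpace A]
  {E : Type*} [NormedAddCommGroup E] [InnerProductSpace ℝ E] [FiniteDimensional ℝ E]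

/-- N2 near one point of a euclidean space -/
theorem n2point (hP : Act.ActP A E) (X : Act A E)
    {w : E} (hw : w ∈ X.Ω) (hcl : w ∈ closure (interior {v | v ∈ X.Ω ∧ X.Fixed v})) :
    ∃ r > 0, ∀ v ∈ ball w r, v ∈ X.Ω ∧ X.Fixed v := by
  obtain ⟨r, hr, hrΩ⟩ := Metric.isOpen_iff.1 X.isOpen w hw
  obtain ⟨z, hz, hzr⟩ := Metric.mem_closure_iff.1 hcl (r / 2) (by positivity)
  by_contra hcon
  push Not at hcon
  set NF : Set E := {v | v ∈ X.Ω ∧ ¬ X.Fixed v} with hNF
  have hwNF : w ∈ closure NF := by
    rw [Metric.mem_closure_iff]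
    intro ε hε
    obtain ⟨v, hv, hv'⟩ := hcon (min ε r) (lt_min hε hr)
    have hvΩ : v ∈ X.Ω := hrΩ (ball_subset_ball (min_le_right _ _) hv)
    refine ⟨v, ⟨hvΩ, hv' hvΩ⟩, ?_⟩
    rw [dist_comm]
    exact (mem_ball.1 hv).trans_le (min_le_left _ _)
  have hne : (closure NF).Nonempty := ⟨w, hwNF⟩
  obtain ⟨w1, hw1, hw1d⟩ := isClosed_closure.exists_infDist_eq_dist hne z
  set ρ := dist w1 z with hρ
  have hρle : ρ < r / 2 := by
    have h1 := Metric.infDist_le_dist_of_mem (x := z) hwNF
    rw [hw1d, dist_comm z w1, dist_comm z w] at h1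
    exact h1.trans_lt hzr
  have hw1w : dist w1 w < r := by
    have h1 := dist_triangle w1 z w
    rw [dist_comm z w] at h1
    linarith
  have hw1Ω : w1 ∈ X.Ω := hrΩ hw1w
  have hin : ∀ v ∈ X.Ω, dist v z < ρ → X.Fixed v := by
    intro v hv hd
    by_contra h
    have h1 := Metric.infDist_le_dist_of_mem (x := z) (subset_closure (show v ∈ NF from ⟨hv, h⟩))
    rw [hw1d, dist_comm z w1, dist_comm z v] at h1
    linarith
  have hzF : z ∈ {v | v ∈ X.Ω ∧ X.Fixed v} := interior_subset hz
  have hρ0 : 0 < ρ := by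
    rw [hρ, dist_pos]
    rintro rfl
    rw [_root_.mem_closure_iff] at hw1
    obtain ⟨v, hv1, hv2⟩ := hw1 _ isOpen_interior hz
    exact hv2.2 (interior_subset hv1).2
  have hzf : X.Fixed z := hzF.2
  set X1 := invAct X z hzf hρ0.ne' with hX1
  have hinvw1 : EuclideanGeometry.inversion z ρ w1 = w1 :=
    EuclideanGeometry.inversion_of_mem_sphere rfl
  have hw1z : w1 ≠ z := fun h => by rw [hρ, h, dist_self] at hρ0; exact lt_irrefl _ hρ0
  have hw1X1 : w1 ∈ X1.Ω := ⟨hw1z, by show EuclideanGeometry.inversion z ρ w1 ∈ X.Ω; rwa [hinvw1]⟩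
  obtain ⟨r3, hr3, h3⟩ := X1.n2loc hP (z := z) (w := w1) hρ0 hw1X1 (by
    intro v hv hout
    rw [invAct_fixed]
    refine hin _ hv.2 ?_
    rw [EuclideanGeometry.dist_inversion_center]
    have h1 : ρ < dist v z := not_le.1 hout
    rw [div_lt_iff₀ (hρ0.trans h1), sq]
    exact mul_lt_mul_of_pos_left h1 hρ0)
  have hcontI : ContinuousAt (EuclideanGeometry.inversion z ρ) w1 :=
    continuousAt_const.inversion continuousAt_const continuousAt_id hw1z
  have hnb : (EuclideanGeometry.inversion z ρ) ⁻¹' (ball w1 r3) ∩ {z}ᶜ ∈ 𝓝 w1 := by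
    refine inter_mem (hcontI.preimage_mem_nhds ?_) (isOpen_compl_singleton.mem_nhds hw1z)
    rw [hinvw1]
    exact ball_mem_nhds _ hr3
  obtain ⟨u, hu1, hu2⟩ := mem_closure_iff_nhds.1 hw1 _ hnb
  have h4 := h3 (EuclideanGeometry.inversion z ρ u) hu1.1 ⟨by
      intro h
      have h' : EuclideanGeometry.inversion z ρ u = z := h
      rw [EuclideanGeometry.inversion_eq_center hρ0.ne'] at h'
      exact hu1.2 h', by
      show EuclideanGeometry.inversion z ρ (EuclideanGeometry.inversion z ρ u) ∈ X.Ω
      rw [EuclideanGeometry.inversion_inversion z hρ0.ne']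
      exact hu2.1⟩
  rw [invAct_fixed, EuclideanGeometry.inversion_inversion z hρ0.ne'] at h4
  exact hu2.2 h4

/-- N2 on a connected manifold -/
theorem n2 {n : ℕ} (hP : Act.ActP A (EuclideanSpace ℝ (Fin n)))
    (M : Type*) [TopologicalSpace M] [T2Space M] [ConnectedSpace M]
    [ChartedSpace (EuclideanSpace ℝ (Fin n)) M] [MulAction A M] [ContinuousSMul A M]
    (h0 : (interior {p : M | ∀ g : A, g • p = p}).Nonempty) (p : M) (g : A) : g • p = p := by
  set F : Set M := {p : M | ∀ g : A, g • p = p} with hF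
  have hFc : IsClosed F := by
    have : F = ⋂ g : A, {p : M | g • p = p} := by
      ext p
      simp [hF]
    rw [this]
    exact isClosed_iInter fun g => isClosed_eq (continuous_const_smul g) continuous_id
  have hcl : IsClosed (interior F) := by
    rw [← closure_subset_iff_isClosed]
    intro w hw
    have hwF : w ∈ F := (closure_minimal interior_subset hFc) hw
    set φ := chartAt (EuclideanSpace ℝ (Fin n)) w with hφ
    have hws : w ∈ φ.source := mem_chart_source _ w
    set X : Act A (EuclideanSpace ℝ (Fin n)) := chartAct φ with hX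
    have hmem : ∀ p ∈ F ∩ φ.source, φ p ∈ X.Ω := fun p hp =>
      chartAct_mem φ (fun g => by rw [hp.1 g]; exact hp.2)
    have hfix : ∀ p ∈ F ∩ φ.source, X.Fixed (φ p) := fun p hp => by
      rw [chartAct_fixed φ (hmem p hp)]
      intro g
      rw [φ.left_inv hp.2]
      exact hp.1 g
    have hopen : IsOpen (φ '' (interior F ∩ φ.source)) := by
      rw [inter_comm]
      exact φ.isOpen_image_source_inter isOpen_interior
    have hsub : φ '' (interior F ∩ φ.source) ⊆ interior {v | v ∈ X.Ω ∧ X.Fixed v} := by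
      refine interior_maximal ?_ hopen
      rintro _ ⟨p, hp, rfl⟩
      exact ⟨hmem p ⟨interior_subset hp.1, hp.2⟩, hfix p ⟨interior_subset hp.1, hp.2⟩⟩
    have hcl' : φ w ∈ closure (interior {v | v ∈ X.Ω ∧ X.Fixed v}) := by
      rw [mem_closure_iff_nhds]
      intro T hT
      have h1 : φ ⁻¹' T ∩ φ.source ∈ 𝓝 w :=
        inter_mem ((φ.continuousAt hws).preimage_mem_nhds hT) (φ.open_source.mem_nhds hws)
      obtain ⟨p, hp1, hp2⟩ := mem_closure_iff_nhds.1 hw _ h1
      exact ⟨φ p, hp1.1, hsub ⟨p, ⟨hp2, hp1.2⟩, rfl⟩⟩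
    obtain ⟨r, hr, h⟩ := n2point hP X (hmem w ⟨hwF, hws⟩) hcl'
    rw [mem_interior_iff_mem_nhds]
    have h1 : φ ⁻¹' (ball (φ w) r) ∩ φ.source ∈ 𝓝 w :=
      inter_mem ((φ.continuousAt hws).preimage_mem_nhds (ball_mem_nhds _ hr))
        (φ.open_source.mem_nhds hws)
    refine mem_of_superset h1 ?_
    rintro p ⟨hp1, hp2⟩
    obtain ⟨h2, h3⟩ := h (φ p) hp1
    rw [chartAct_fixed φ h2, φ.left_inv hp2] at h3
    exact h3
  have huniv : interior F = univ := IsClopen.eq_univ ⟨hcl, isOpen_interior⟩ h0
  have : p ∈ interior F := by rw [huniv]; trivial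
  exact interior_subset this g

end n2

end Crest.Agent.R217.B3837
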