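import Crest.Agent.R217.A1_740
import Crest.Agent.R217.A2_490
import Crest.Agent.R217.A3_490
import Crest.Agent.R217.A4_970
import Crest.Agent.R217.A5_839
import Crest.Agent.R217.A5b_947
import Crest.Agent.R217.A7_418
import Crest.Agent.R217.A8_430
import Crest.Agent.R217.A9a_970
import Crest.Agent.R217.A9b_430
import Crest.Agent.R217.A10a_970
import Crest.Agent.R217.A10b_531
import Crest.Agent.R217.A11_531

/-!
Row 217 (S0336), part A, assembled: a locally compact, second countable Hausdorff group without
small compact subgroups is a Lie group (with its given topology).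
-/

set_option autoImplicit false

open scoped Manifold ContDiff

namespace Crest.Agent.R217.PartA531

open Crest.Agent.R217.SpecA343

universe u

theorem taskA7 : TaskA7.{u} :=
  A7_418.taskA7_of A4_970.taskA4a A4_970.taskA4c A5_839.taskA5a A5_839.taskA5b

theorem taskA10b : TaskA10b.{u, u} := A10b531.taskA10b_of A9a_970.taskA9a A10a_970.taskA10a

/-- PART A of row 217 -/
theorem partA : PartA.{u} :=
  partA_of_tasks A1_740.taskA1 A2490.taskA2 A3490.taskA3 A5_947.taskA6 taskA7
    A8_430.taskA8 A9b_430.taskA9b taskA10b A11531.taskA11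

/-- unfolded form -/
theorem exists_lieGroup_of_nscs (G : Type u) [Group G] [TopologicalSpace G] [IsTopologicalGroup G]
    [T2Space G] [LocallyCompactSpace G] [SecondCountableTopology G] (h : NSCS G) :
    ∃ (d : ℕ) (c : ChartedSpace (EuclideanSpace ℝ (Fin d)) G),
      @LieGroup ℝ _ (EuclideanSpace ℝ (Fin d)) _ (EuclideanSpace ℝ (Fin d)) _ _
        𝓘(ℝ, EuclideanSpace ℝ (Fin d)) ∞ G _ _ c := partA G h

end Crest.Agent.R217.PartA531
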