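import Crest.Agent.R217.B5_837
import Crest.Agent.R217.SpecC_478
import Crest.Agent.R217.B1c_889
import Crest.Agent.R217.PartA_531

/-!
Row 217, part B, final assembly: `SpecC478.Crux n` for all `n ≥ 1` implies that a locally compact
group acting faithfully on a connected manifold has no small compact subgroups, hence S0336.
-/

set_option autoImplicit false

open Set Metric Topology Filter MeasureTheory
open scoped Topology Manifold ContDiff

namespace Crest.Agent.R217.B3837

open Crest.Agent.R217.SpecA343 Crest.Agent.R217.SpecB837 Crest.Agent.R217.SpecC478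

universe u v

section crux

variable {A : Type u} [Group A] [TopologicalSpace A] [IsTopologicalGroup A] [CompactSpace A]
  [T2Space A] [SecondCountableTopology A] [MeasurableSpace A] [BorelSpace A]
  {n : ℕ}

theorem fixed_of_min {F : Type*} [TopologicalSpace F] [T2Space F] (X : Act A F) {χ : A →* ℂ}
    (hmin : ∀ B : Subgroup A, IsClosed (B : Set A) → (∃ b ∈ B, χ b ≠ 1) → B = ⊤)
    {v : F} (hv : v ∈ X.Ω) {g : A} (hg : χ g ≠ 1) (h : X.a g v = v) : X.Fixed v := by
  have h1 := hmin (X.stab v hv) (X.isClosed_stab v hv) ⟨g, h, hg⟩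
  intro g'
  have h2 : g' ∈ X.stab v hv := by rw [h1]; trivial
  exact h2

/-- the `Setup` of an action and a ball over which the average is proper -/
noncomputable def mkSetup (X : Act A (EuclideanSpace ℝ (Fin n))) (w : EuclideanSpace ℝ (Fin n)) (R : ℝ)
    (hp : ∀ ρ < R, IsCompact (X.Ω ∩ X.avg ⁻¹' closedBall w ρ)) : Setup n A where
  V := X.Ω
  isOpen_V := X.isOpen
  act := X.a
  act_mem := X.maps
  act_one := X.one
  act_mul := X.mul
  act_cont := X.cont
  f := X.avg
  f_cont := X.continuousOn_avg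
  f_inv g v hv := X.avg_smul hv g
  w := w
  R := R
  proper ρ hρ := hp ρ hρ

theorem actP_of_crux (hC : Crux.{u} n) {x : A} (hx : Dense (range fun k : ℤ => x ^ k)) {q : ℕ}
    (hq : q.Prime) {χ : A →* ℂ} (hχ : Continuous χ) (hχq : ∀ g, χ g ^ q = 1) (hχx : χ x ≠ 1)
    (hmin : ∀ B : Subgroup A, IsClosed (B : Set A) → (∃ b ∈ B, χ b ≠ 1) → B = ⊤) :
    Act.ActP A (EuclideanSpace ℝ (Fin n)) := by
  obtain ⟨c, hc, hC⟩ := hC
  intro X w R hp y0 hy0 y1 hy1 r hr hrR h1 h2 h3
  refine hC A x hx q hq χ hχ hχq hχx (mkSetup X w R hp) y0 r hr hrR (fun v hv => (h1 v hv).1) ?_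
    y1 hy1 ?_
  · intro v hv hv'
    have hfx : X.Fixed v := by
      rcases hv' with h | h
      · exact (h1 v h).2
      · exact h2 v hv h
    refine ⟨fun g => ?_, ?_⟩
    · have h4 : X.a g v = v := hfx g
      show dist (X.a g v) v ≤ _
      rw [h4, dist_self]
      positivity
    · show dist (X.avg v) v ≤ _
      rw [X.avg_fixed hfx, dist_self]
      positivity
  · intro v hv hfv g hg hgv
    have h4 := fixed_of_min X hmin hv hg hgv
    refine h3 v hv ?_ h4
    have h5 : X.avg v = y1 := hfv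
    rw [h5]
    exact mem_closedBall_self hr.le

/-- small orbits -/
theorem small_of_crux (hC : Crux.{u} n) : ∃ δ > 0, ∀ (A : Type u) [Group A] [TopologicalSpace A]
    [IsTopologicalGroup A] [CompactSpace A] [T2Space A] [SecondCountableTopology A] (x : A),
    Dense (range fun k : ℤ => x ^ k) → ∀ q : ℕ, q.Prime → ∀ χ : A →* ℂ, Continuous χ →
    (∀ g, χ g ^ q = 1) → χ x ≠ 1 →
    (∀ B : Subgroup A, IsClosed (B : Set A) → (∃ b ∈ B, χ b ≠ 1) → B = ⊤) →
    ∀ (X : Act A (EuclideanSpace ℝ (Fin n))), closedBall 0 2 ⊆ X.Ω →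
    (∀ v ∈ closedBall (0 : EuclideanSpace ℝ (Fin n)) 2, ∀ g, dist (X.a g v) v ≤ δ) →
    ∀ y ∈ ball (0 : EuclideanSpace ℝ (Fin n)) 1, X.Fixed y := by
  obtain ⟨c, hc, hC⟩ := hC
  refine ⟨min c (1 / 8), lt_min hc (by norm_num), ?_⟩
  intro A _ _ _ _ _ _ x hx q hq χ hχ hχq hχx hmin X h2 hδ y1 hy1
  borelize A
  set δ := min c (1 / 8) with hδ'
  have hδ8 : δ ≤ 1 / 8 := min_le_right _ _
  have hδc : δ ≤ c := min_le_left _ _
  by_contra hfy
  set X' := X.core (ball (0 : EuclideanSpace ℝ (Fin n)) 2) isOpen_ball with hX'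
  have hX'Ω : X'.Ω ⊆ X.Ω := fun v hv => hv.1
  have hX'B : ∀ v ∈ X'.Ω, v ∈ closedBall (0 : EuclideanSpace ℝ (Fin n)) 2 := fun v hv => by
    have := hv.2 1
    rw [X.one v hv.1] at this
    exact ball_subset_closedBall this
  have hfd : ∀ v ∈ closedBall (0 : EuclideanSpace ℝ (Fin n)) 2, dist (X.avg v) v ≤ δ :=
    fun v hv => X.dist_avg_le (h2 hv) (hδ v hv)
  have hmem : ∀ v : EuclideanSpace ℝ (Fin n), dist v 0 ≤ 3 / 2 → v ∈ X'.Ω := by
    intro v hv
    have hv2 : v ∈ closedBall (0 : EuclideanSpace ℝ (Fin n)) 2 := by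
      rw [mem_closedBall]; linarith
    refine ⟨h2 hv2, fun g => ?_⟩
    rw [mem_ball]
    have h3 := dist_triangle (X.a g v) v 0
    have h4 := hδ v hv2 g
    linarith
  have hp : ∀ ρ < (1 : ℝ), IsCompact (X'.Ω ∩ X'.avg ⁻¹' closedBall 0 ρ) := by
    intro ρ hρ
    have hKL : IsClosed (closedBall (0 : EuclideanSpace ℝ (Fin n)) 2 ∩ X.avg ⁻¹' closedBall 0 ρ) :=
      (X.continuousOn_avg.mono h2).preimage_isClosed_of_isClosed isClosed_closedBall
        isClosed_closedBall
    have heq : X'.Ω ∩ X'.avg ⁻¹' closedBall 0 ρ =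
        closedBall (0 : EuclideanSpace ℝ (Fin n)) 2 ∩ X.avg ⁻¹' closedBall 0 ρ := by
      ext v
      constructor
      · rintro ⟨hv, hvL⟩
        exact ⟨hX'B v hv, hvL⟩
      · rintro ⟨hv, hvL⟩
        refine ⟨hmem v ?_, hvL⟩
        have h3 : dist (X.avg v) 0 ≤ ρ := hvL
        have h4 := hfd v hv
        have h5 := dist_triangle_left v 0 (X.avg v)
        linarith
    rw [heq]
    exact (isCompact_closedBall _ _).of_isClosed_subset hKL inter_subset_left
  refine hC A x hx q hq χ hχ hχq hχx (mkSetup X' 0 1 hp) 0 1 one_pos subset_rfl ?_ ?_ y1 hy1 ?_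
  · intro v hv
    refine hmem v ?_
    rw [mem_ball] at hv
    linarith
  · intro v hv _
    refine ⟨fun g => ?_, ?_⟩
    · have h3 := hδ v (hX'B v hv) g
      show dist (X.a g v) v ≤ _
      linarith
    · have h3 := hfd v (hX'B v hv)
      show dist (X.avg v) v ≤ _
      linarith
  · intro v hv hfv g hg hgv
    have h4 : X'.Fixed v := fixed_of_min X' hmin hv hg hgv
    have h5 : X.avg v = y1 := hfv
    have h6 : X.Fixed v := h4
    rw [X.avg_fixed h6] at h5
    rw [h5] at h6
    exact hfy h6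

end crux

/-- **Part B.** -/
theorem partB_of_crux (hC : ∀ n, 1 ≤ n → Crux.{v} n) : PartB.{u, v} := by
  intro n hn M _ _ _ _ _ G _ _ _ _ _ _ _ _ _
  by_contra hG
  unfold NSCS at hG
  push Not at hG
  obtain ⟨δ, hδ, hsm⟩ := small_of_crux (hC n hn)
  -- a chart whose image contains the ball of radius 2
  obtain ⟨p0⟩ := (inferInstance : Nonempty M)
  obtain ⟨φ, hφ⟩ : ∃ φ : OpenPartialHomeomorph M (EuclideanSpace ℝ (Fin n)),
      closedBall (0 : EuclideanSpace ℝ (Fin n)) 2 ⊆ φ.target := by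
    set φ0 := chartAt (EuclideanSpace ℝ (Fin n)) p0 with hφ0
    have h0 : φ0 p0 ∈ φ0.target := φ0.map_source (mem_chart_source _ p0)
    obtain ⟨ε, hε, hεt⟩ := Metric.isOpen_iff.1 φ0.open_target _ h0
    let ψ : EuclideanSpace ℝ (Fin n) ≃ₜ EuclideanSpace ℝ (Fin n) :=
      (Homeomorph.addRight (-(φ0 p0))).trans (Homeomorph.smulOfNeZero (4 / ε) (by positivity))
    refine ⟨φ0.transHomeomorph ψ, ?_⟩
    intro v hv
    show ψ.symm v ∈ φ0.target
    apply hεt
    have h1 : ψ.symm v = (4 / ε)⁻¹ • v + φ0 p0 := by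
      apply ψ.injective
      rw [ψ.apply_symm_apply]
      show v = (4 / ε) • (((4 / ε)⁻¹ • v + φ0 p0) + -(φ0 p0))
      rw [add_neg_cancel_right, smul_smul, mul_inv_cancel₀ (by positivity), one_smul]
    rw [h1, mem_ball, dist_eq_norm, add_sub_cancel_right, norm_smul]
    have h2 : ‖v‖ ≤ 2 := by simpa using hv
    have h3 : ‖(4 / ε)⁻¹‖ = ε / 4 := by
      rw [norm_inv, Real.norm_of_nonneg (by positivity), inv_div]
    rw [h3]
    nlinarith
  -- a neighbourhood of 1 with small displacements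
  set K := closedBall (0 : EuclideanSpace ℝ (Fin n)) 2 with hK
  have hKc : IsCompact K := isCompact_closedBall _ _
  obtain ⟨U, hU, hUK⟩ : ∃ U ∈ 𝓝 (1 : G), ∀ g ∈ U, ∀ v ∈ K,
      g • φ.symm v ∈ φ.source ∧ dist (φ (g • φ.symm v)) v < δ := by
    have hc1 : ContinuousOn (fun p : G × EuclideanSpace ℝ (Fin n) => p.1 • φ.symm p.2)
        (univ ×ˢ φ.target) :=
      ContinuousOn.smul continuous_fst.continuousOn
        (φ.symm.continuousOn.comp continuous_snd.continuousOn (fun p hp => hp.2))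
    set W1 : Set (G × EuclideanSpace ℝ (Fin n)) := (univ ×ˢ φ.target) ∩
      (fun p : G × EuclideanSpace ℝ (Fin n) => p.1 • φ.symm p.2) ⁻¹' φ.source with hW1
    have hW1o : IsOpen W1 := hc1.isOpen_inter_preimage (isOpen_univ.prod φ.open_target) φ.open_source
    have hc2 : ContinuousOn (fun p : G × EuclideanSpace ℝ (Fin n) =>
        dist (φ (p.1 • φ.symm p.2)) p.2) W1 := by
      refine continuous_dist.comp_continuousOn (ContinuousOn.prodMk ?_ continuous_snd.continuousOn)
      exact φ.continuousOn.comp (hc1.mono inter_subset_left) (fun p hp => hp.2)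
    have hW2o : IsOpen (W1 ∩ (fun p : G × EuclideanSpace ℝ (Fin n) =>
        dist (φ (p.1 • φ.symm p.2)) p.2) ⁻¹' Iio δ) := hc2.isOpen_inter_preimage hW1o isOpen_Iio
    have hsub : ({1} : Set G) ×ˢ K ⊆ (W1 ∩ (fun p : G × EuclideanSpace ℝ (Fin n) =>
        dist (φ (p.1 • φ.symm p.2)) p.2) ⁻¹' Iio δ) := by
      rintro ⟨g, v⟩ ⟨hg, hv⟩
      rw [mem_singleton_iff] at hg
      subst hg
      have hvt := hφ hv
      refine ⟨⟨⟨trivial, hvt⟩, ?_⟩, ?_⟩
      · show (1 : G) • φ.symm v ∈ φ.source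
        rw [one_smul]
        exact φ.map_target hvt
      · show dist (φ ((1 : G) • φ.symm v)) v < δ
        rw [one_smul, φ.right_inv hvt, dist_self]
        exact hδ
    obtain ⟨U, V, hUo, -, hU1, hKV, hUV⟩ := generalized_tube_lemma isCompact_singleton hKc hW2o hsub
    refine ⟨U, hUo.mem_nhds (hU1 rfl), fun g hg v hv => ?_⟩
    have h1 := hUV (mk_mem_prod hg (hKV hv))
    exact ⟨h1.1.2, h1.2⟩
  obtain ⟨H, hHc, hHU, hH1⟩ := hG U hU
  -- the compact group `H`
  have : CompactSpace H := isCompact_iff_compactSpace.1 hHc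
  obtain ⟨h0, hh0⟩ := Subgroup.ne_bot_iff_exists_ne_one.1 hH1
  obtain ⟨A, hAc, -, x, q, χ, hq, hx, hχ, hχq, hχx, hmin⟩ :=
    B1c_889.exists_complex_character h0 hh0
  have : CompactSpace A := isCompact_iff_compactSpace.1 hAc.isCompact
  have : SecondCountableTopology H := TopologicalSpace.Subtype.secondCountableTopology (H : Set G)
  have : SecondCountableTopology A := TopologicalSpace.Subtype.secondCountableTopology (A : Set H)
  have hAU : ∀ a : A, ((a : H) : G) ∈ U := fun a => hHU (a : H).2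
  have hsmul : ∀ (a : A) (p : M), a • p = ((a : H) : G) • p := fun a p => rfl
  set X : Act A (EuclideanSpace ℝ (Fin n)) := chartAct φ with hX
  have hKX : K ⊆ X.Ω := by
    intro v hv
    refine ⟨hφ hv, fun g => ?_⟩
    rw [hsmul]
    exact (hUK _ (hAU g) v hv).1
  have hfix := hsm A x hx q hq χ hχ hχq hχx hmin X hKX (fun v hv g => by
    have := (hUK _ (hAU g) v hv).2
    exact this.le)
  letI : MeasurableSpace A := borel A
  have : BorelSpace A := ⟨rfl⟩
  have hP := actP_of_crux (hC n hn) hx hq hχ hχq hχx hmin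
  have hint : (interior {p : M | ∀ g : A, g • p = p}).Nonempty := by
    have hball : ball (0 : EuclideanSpace ℝ (Fin n)) 1 ⊆ φ.target :=
      (ball_subset_closedBall.trans (closedBall_subset_closedBall (by norm_num))).trans hφ
    have hop : IsOpen (φ.symm '' ball (0 : EuclideanSpace ℝ (Fin n)) 1) :=
      φ.symm.isOpen_image_of_subset_source isOpen_ball hball
    refine ⟨φ.symm 0, ?_⟩
    have hsub : φ.symm '' ball (0 : EuclideanSpace ℝ (Fin n)) 1 ⊆
        {p : M | ∀ g : A, g • p = p} := by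
      rintro _ ⟨v, hv, rfl⟩
      have hvK : v ∈ K := ball_subset_closedBall (ball_subset_ball (by norm_num) hv)
      exact (chartAct_fixed φ (hKX hvK)).1 (hfix v hv)
    exact interior_maximal hsub hop ⟨0, mem_ball_self one_pos, rfl⟩
  have htriv := n2 hP M hint
  have hx1 : x = 1 := by
    have h1 : ((x : H) : G) = 1 := by
      apply FaithfulSMul.eq_of_smul_eq_smul (α := M)
      intro p
      rw [one_smul, ← hsmul]
      exact htriv p x
    exact Subtype.ext (Subtype.ext h1)
  exact hχx (by rw [hx1, map_one])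

/-- **S0336 from the crux.** -/
theorem s0336_of_crux (hC : ∀ n, 1 ≤ n → Crux.{v} n)
    (n : ℕ) (hn : 1 ≤ n)
    (M : Type u) [TopologicalSpace M] [T2Space M] [SecondCountableTopology M] [ConnectedSpace M]
    [ChartedSpace (EuclideanSpace ℝ (Fin n)) M]
    (G : Type v) [Group G] [TopologicalSpace G] [IsTopologicalGroup G] [T2Space G]
    [SecondCountableTopology G] [LocallyCompactSpace G]
    [MulAction G M] [ContinuousSMul G M] [FaithfulSMul G M] :
    ∃ (d : ℕ) (c : ChartedSpace (EuclideanSpace ℝ (Fin d)) G),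
      @LieGroup ℝ _ (EuclideanSpace ℝ (Fin d)) _ (EuclideanSpace ℝ (Fin d)) _ _
        𝓘(ℝ, EuclideanSpace ℝ (Fin d)) ∞ G _ _ c :=
  s0336_of PartA531.partA (partB_of_crux hC) n hn M G

end Crest.Agent.R217.B3837
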