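import Crest.Agent.R217.PCops_473

/-!
Row 217 (S0336), part C1: naturality of the words DOUBLE, BDRY, COMPRESS under non-unital
`*`-homomorphisms, negation, conjugation; the explicit contraction of the cone and the wall formula.
-/

set_option autoImplicit false
set_option linter.unusedSectionVars false
set_option linter.unusedSimpArgs false
set_option linter.unusedVariables false

namespace Crest.Agent.R217.PC473

open Matrix

section nat

variable {A B : Type*} [Ring A] [StarRing A] [Algebra ℂ A] [StarModule ℂ A]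
  [Ring B] [StarRing B] [Algebra ℂ B] [StarModule ℂ B]

theorem map_neg_one_pow_mul (F : A →⋆ₙₐ[ℂ] B) (m : ℕ) (x : A) :
    F ((-1 : A) ^ m * x) = (-1 : B) ^ m * F x := by
  rcases Nat.even_or_odd m with h | h
  · simp [h.neg_one_pow]
  · simp [h.neg_one_pow]

theorem map_two_mul (F : A →⋆ₙₐ[ℂ] B) (x : A) : F (2 * x) = 2 * F x := by
  rw [two_mul, map_add, two_mul]

theorem map_four_mul (F : A →⋆ₙₐ[ℂ] B) (x : A) : F (4 * x) = 4 * F x := by
  have h4 : (4 : A) * x = 2 * (2 * x) := by rw [← mul_assoc]; norm_num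
  have h5 : (4 : B) * F x = 2 * (2 * F x) := by rw [← mul_assoc]; norm_num
  rw [h4, h5, map_two_mul, map_two_mul]

theorem map_aa (F : A →⋆ₙₐ[ℂ] B) (m : ℕ) (x : A) : F (aa m x) = aa m (F x) := by
  unfold aa; rw [map_smul]

theorem map_fin2 {R S : Type*} (F : R → S) (a b c d : R) :
    (!![a, b; c, d] : Matrix (Fin 2) (Fin 2) R).map F = !![F a, F b; F c, F d] := by
  ext i j; fin_cases i <;> fin_cases j <;> rfl

theorem Tup.IsPC.mapN {m : ℕ} {x : Tup A} (hx : x.IsPC m) (F : A →⋆ₙₐ[ℂ] B) :
    (x.map F).IsPC m where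
  pp := by simp only [Tup.map]; rw [← map_mul, hx.pp]
  sp := by simp only [Tup.map]; rw [← map_star, hx.sp]
  gg := by simp only [Tup.map]; rw [← map_mul, hx.gg]
  sg := by simp only [Tup.map]; rw [← map_star, hx.sg]
  pg := by simp only [Tup.map]; rw [← map_mul, hx.pg]
  pd := by simp only [Tup.map]; rw [← map_mul, hx.pd]
  dp := by simp only [Tup.map]; rw [← map_mul, hx.dp]
  pS := by simp only [Tup.map]; rw [← map_mul, hx.pS]
  pT := by simp only [Tup.map]; rw [← map_mul, hx.pT]
  pH := by simp only [Tup.map]; rw [← map_mul, hx.pH]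
  Hp := by simp only [Tup.map]; rw [← map_mul, hx.Hp]
  dd := by simp only [Tup.map]; rw [← map_mul, hx.dd, map_zero]
  sS := by simp only [Tup.map]; rw [← map_star, hx.sS]
  sT := by simp only [Tup.map]; rw [← map_star, hx.sT]
  dS := by simp only [Tup.map]; rw [← map_star, ← map_mul, ← map_mul, ← map_add, hx.dS, map_zero]
  Td := by simp only [Tup.map]; rw [← map_star, ← map_mul, ← map_mul, ← map_add, hx.Td, map_zero]
  ST := by
    simp only [Tup.map]; rw [← map_mul, ← map_mul, ← map_mul, ← map_add, ← map_add, hx.ST]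
  gd := by simp only [Tup.map]; rw [← map_mul, ← map_mul, ← map_neg, hx.gd]
  gS := by simp only [Tup.map]; rw [← map_mul, hx.gS, map_neg_one_pow_mul, map_mul]
  gT := by simp only [Tup.map]; rw [← map_mul, hx.gT, map_neg_one_pow_mul, map_mul]
  gH := by simp only [Tup.map]; rw [← map_mul, ← map_mul, ← map_neg, hx.gH]

theorem RPr.IsRP.mapN {m : ℕ} {x : RPr A} (hx : x.IsRP m) (F : A →⋆ₙₐ[ℂ] B) :
    (x.map F).IsRP m where
  pp := by simp only [RPr.map]; rw [← map_mul, hx.pp]
  sp := by simp only [RPr.map]; rw [← map_star, hx.sp]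
  gg := by simp only [RPr.map]; rw [← map_mul, hx.gg]
  sg := by simp only [RPr.map]; rw [← map_star, hx.sg]
  pg := by simp only [RPr.map]; rw [← map_mul, hx.pg]
  pd := by simp only [RPr.map]; rw [← map_mul, hx.pd]
  dp := by simp only [RPr.map]; rw [← map_mul, hx.dp]
  pf := by simp only [RPr.map]; rw [← map_mul, hx.pf]
  pq := by simp only [RPr.map]; rw [← map_mul, hx.pq]
  ph := by simp only [RPr.map]; rw [← map_mul, hx.ph]
  hp := by simp only [RPr.map]; rw [← map_mul, hx.hp]
  dd := by simp only [RPr.map]; rw [← map_mul, hx.dd, map_zero]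
  sf := by simp only [RPr.map]; rw [← map_star, hx.sf]
  sq := by simp only [RPr.map]; rw [← map_star, hx.sq]
  df := by simp only [RPr.map]; rw [← map_star, ← map_mul, ← map_mul, ← map_add, hx.df, map_zero]
  qd := by simp only [RPr.map]; rw [← map_star, ← map_mul, ← map_mul, ← map_add, hx.qd, map_zero]
  fqf := by
    simp only [RPr.map]; rw [← map_star, ← map_mul, ← map_mul, ← map_mul, ← map_mul, ← map_add,
      ← map_sub, hx.fqf]
  gd := by simp only [RPr.map]; rw [← map_mul, ← map_mul, ← map_neg, hx.gd]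
  gf := by simp only [RPr.map]; rw [← map_mul, hx.gf, map_neg_one_pow_mul, map_mul]
  gq := by simp only [RPr.map]; rw [← map_mul, hx.gq, map_neg_one_pow_mul, map_mul]
  gh := by simp only [RPr.map]; rw [← map_mul, hx.gh, map_neg, map_neg_one_pow_mul, map_mul]

theorem dbl_map (F : A →⋆ₙₐ[ℂ] B) (m : ℕ) (x : RPr A) :
    (dbl m x).map (fun M => M.map F) = dbl m (x.map F) := by
  simp only [dbl, Tup.map, RPr.map, map_fin2]
  repeat first
    | simp only [map_zero, map_neg_one_pow_mul, map_two_mul, map_four_mul, map_aa, map_sub,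
        map_neg, map_star]
    | rw [map_mul]

theorem trunc_map (F : A →⋆ₙₐ[ℂ] B) (x : Tup A) (P : A) :
    (trunc x P).map F = trunc (x.map F) (F P) := by
  simp only [trunc, Tup.map, map_mul, map_zero]

theorem bdry0_map (F : A →⋆ₙₐ[ℂ] B) (m : ℕ) (x : Tup A) :
    (bdry0 m x).map (fun M => M.map F) = bdry0 m (x.map F) := by
  simp only [bdry0, Tup.map, map_fin2, map_zero, map_neg_one_pow_mul, map_aa, map_neg,
    map_star]
  congr 1
  ext i j; simp

theorem bdry_map (F : A →⋆ₙₐ[ℂ] B) (m : ℕ) (x : Tup A) (P : A) :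
    (bdry m x P).map (fun M => M.map F) = bdry m (x.map F) (F P) := by
  unfold bdry; rw [bdry0_map, trunc_map]

theorem KK_map (F : A →⋆ₙₐ[ℂ] B) (x : Tup A) (G : A) : F (KK x G) = KK (x.map F) (F G) := by
  simp only [KK, Tup.map, map_sub, map_mul]

theorem compr_map (F : A →⋆ₙₐ[ℂ] B) (x : Tup A) (G Q : A) :
    (compr x G Q).map F = compr (x.map F) (F G) (F Q) := by
  simp only [compr, RPr.map, map_mul, map_star, KK_map, map_sub, map_add]
  simp only [Tup.map]

end nat

section neg

variable {A : Type*} [Ring A] [StarRing A] [Algebra ℂ A] [StarModule ℂ A]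

/-- `-x` -/
def RPr.neg (x : RPr A) : RPr A := ⟨x.p, x.g, x.d, -x.f, -x.q, -x.h⟩

/-- `-x` -/
def Tup.neg (x : Tup A) : Tup A := ⟨x.p, x.g, x.d, -x.S, -x.T, x.H⟩

/-- conjugation by `u` -/
def Tup.conj (x : Tup A) (u : A) : Tup A := x.map (fun a => u * a * star u)

/-- conjugation by `u` -/
def RPr.conj (x : RPr A) (u : A) : RPr A := x.map (fun a => u * a * star u)

/-- the sign matrix `diag(1,-1)` -/
def uu : Matrix (Fin 2) (Fin 2) A := !![1, 0; 0, -1]

theorem uu_conj (a b c d : A) :
    uu * (!![a, b; c, d] : Matrix (Fin 2) (Fin 2) A) * star uu = !![a, -b; -c, d] := by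
  simp [uu, star_fin2, mul_fin_two]

theorem Tup.IsPC.neg {m : ℕ} {x : Tup A} (h : x.IsPC m) : x.neg.IsPC m := by
  constructor <;> simp only [Tup.neg]
  · exact h.pp
  · exact h.sp
  · exact h.gg
  · exact h.sg
  · exact h.pg
  · exact h.pd
  · exact h.dp
  · rw [mul_neg, h.pS]
  · rw [mul_neg, h.pT]
  · exact h.pH
  · exact h.Hp
  · exact h.dd
  · rw [star_neg, h.sS]
  · rw [star_neg, h.sT]
  · rw [mul_neg, neg_mul, ← neg_add, h.dS, neg_zero]
  · rw [mul_neg, neg_mul, ← neg_add, h.Td, neg_zero]
  · rw [neg_mul_neg, h.ST]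
  · exact h.gd
  · rw [mul_neg, h.gS, neg_mul, mul_neg]
  · rw [mul_neg, h.gT, neg_mul, mul_neg]
  · exact h.gH

theorem RPr.IsRP.neg {m : ℕ} {x : RPr A} (h : x.IsRP m) : x.neg.IsRP m := by
  constructor <;> simp only [RPr.neg]
  · exact h.pp
  · exact h.sp
  · exact h.gg
  · exact h.sg
  · exact h.pg
  · exact h.pd
  · exact h.dp
  · rw [mul_neg, h.pf]
  · rw [mul_neg, h.pq]
  · rw [mul_neg, h.ph]
  · rw [neg_mul, h.hp]
  · exact h.dd
  · rw [star_neg, h.sf]
  · rw [star_neg, h.sq]
  · rw [mul_neg, neg_mul, ← neg_add, h.df, neg_zero]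
  · rw [mul_neg, neg_mul, ← neg_add, h.qd, neg_zero]
  · rw [neg_mul_neg, mul_neg, h.fqf]; noncomm_ring
  · exact h.gd
  · rw [mul_neg, h.gf, neg_mul, mul_neg]
  · rw [mul_neg, h.gq, neg_mul, mul_neg]
  · rw [mul_neg, h.gh, neg_mul, mul_neg]

theorem Tup.neg_neg (x : Tup A) : x.neg.neg = x := by
  cases x; simp [Tup.neg]

theorem dbl_neg (m : ℕ) (x : RPr A) : dbl m x.neg = ((dbl m x).conj uu).neg := by
  simp only [dbl, Tup.neg, Tup.conj, Tup.map, RPr.neg, uu_conj, neg_fin2]
  congr 1 <;> refine fin2_eq ?_ ?_ ?_ ?_ <;>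
    simp only [neg_zero, neg_neg, neg_mul, mul_neg, star_neg, star_mul] <;>
    try first
      | rfl
      | noncomm_ring

theorem trunc_neg (x : Tup A) (P : A) : trunc x.neg P =
    ⟨P, P * x.g, P * x.d, -(P * x.S * P), 0, 0⟩ := by
  simp only [trunc, Tup.neg, mul_neg, neg_mul]

theorem bdry0_neg (m : ℕ) (x : Tup A) : bdry0 m x.neg = ((bdry0 m x).conj uu).neg := by
  simp only [bdry0, Tup.neg, Tup.conj, Tup.map, uu_conj, neg_fin2]
  congr 1 <;> first
    | (refine fin2_eq ?_ ?_ ?_ ?_ <;> simp)
    | simp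

theorem bdry_neg (m : ℕ) (x : Tup A) (P : A) :
    bdry m x.neg P = ((bdry m x P).conj uu).neg := by
  unfold bdry
  rw [← bdry0_neg]
  simp only [trunc, Tup.neg, mul_neg, neg_mul, bdry0]

theorem KK_neg (x : Tup A) (G : A) : KK x.neg G = KK x G := rfl

theorem compr_neg (x : Tup A) (G Q : A) : compr x.neg G Q = (compr x G Q).neg := by
  simp only [compr, KK_neg]
  simp only [Tup.neg, RPr.neg, mul_neg, neg_mul, neg_neg]

end neg

section cone

variable {A : Type*} [Ring A] [StarRing A]

/-- differential of the full cone of `S` -/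
def coneD (x : Tup A) : Matrix (Fin 2) (Fin 2) A := !![x.d, x.S; 0, star x.d]

/-- explicit contraction of the full cone of `S` -/
def coneG (x : Tup A) : Matrix (Fin 2) (Fin 2) A :=
  !![-x.H, -(x.H * (x.S * star x.H + x.H * x.S));
     x.T, x.T * (x.S * star x.H + x.H * x.S) - star x.H]

theorem coneG_spec {m : ℕ} {x : Tup A} (hx : x.IsPC m) :
    coneD x * coneG x + coneG x * coneD x = !![x.p, 0; 0, x.p] := by
  have hTS := hx.TS
  have hSp := hx.Sp
  have hpsd := hx.psd
  have hpsH := hx.psH
  obtain ⟨p, g, d, S, T, H⟩ := x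
  obtain ⟨pp, sp, gg, sg, pg, pd, dp, pS, pT, pH, Hp, dd, sS, sT, dS, Td, ST, gd, gS, gT, gH⟩ := hx
  simp only [coneD, coneG] at *
  have hdS : S * star d = -(d * S) := eq_neg_of_add_eq_zero_right dS
  have hN : (S * star H + H * S) * star d = d * (S * star H + H * S) := by
    rw [add_mul, mul_assoc H S, hdS, show S * star H * star d + H * -(d * S)
      = S * (star H * star d) - H * d * S by noncomm_ring,
      show star H * star d = T * S - p - star d * star H by rw [hTS]; noncomm_ring,
      show H * d = S * T - p - d * H by rw [ST]; noncomm_ring,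
      show S * (T * S - p - star d * star H) - (S * T - p - d * H) * S
      = -(S * p) - (S * star d) * star H + p * S + d * H * S by noncomm_ring, hdS, hSp, pS]
    noncomm_ring
  have hpN : p * (S * star H + H * S) = S * star H + H * S := by
    rw [mul_add, ← mul_assoc, pS, ← mul_assoc, pH]
  rw [mul_fin_two, mul_fin_two, add_fin2]
  generalize hNN : S * star H + H * S = N at *
  have hTd : star d * T = -(T * d) := eq_neg_of_add_eq_zero_right Td
  refine fin2_eq ?_ ?_ ?_ ?_
  · rw [ST]; noncomm_ring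
  · rw [show d * -(H * N) + S * (T * N - star H) + (-H * S + -(H * N) * star d)
      = -(d * H * N) + (S * T) * N - (S * star H + H * S) - H * (N * star d) by noncomm_ring,
      hN, hNN, ST, show -(d * H * N) + (p + d * H + H * d) * N - N - H * (d * N)
      = p * N - N by noncomm_ring, hpN, sub_self]
  · rw [zero_mul, mul_zero, zero_add, add_zero, hTd]; abel
  · rw [show 0 * -(H * N) + star d * (T * N - star H) + (T * S + (T * N - star H) * star d)
      = (star d * T) * N - star d * star H + T * S + T * (N * star d) - star H * star d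
        by noncomm_ring, hTd, hN, hTS]
    noncomm_ring

/-- the local contraction used for the cut along `P` -/
def cutG (x : Tup A) (P : A) : Matrix (Fin 2) (Fin 2) A :=
  !![P, 0; 0, P] * coneG x * !![P, 0; 0, P]

/-- wall formula, abstract form -/
theorem wall_formula {R : Type*} [Ring R] {D G c P : R} (hDG : D * G + G * D = c)
    (hcP : P * c * P = P) (hPP : P * P = P) (hDc : c * D = D) (hGc : c * G = G) :
    P - (P * D * P) * (P * G * P) - (P * G * P) * (P * D * P)
      = P * D * (c - P) * G * P + P * G * (c - P) * D * P := by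
  have h1 : (P * D * P) * (P * G * P) = P * D * (P * P) * G * P := by noncomm_ring
  have h2 : (P * G * P) * (P * D * P) = P * G * (P * P) * D * P := by noncomm_ring
  rw [h1, h2, hPP]
  have h3 : P * D * (c - P) * G * P + P * G * (c - P) * D * P
      = P * D * (c * G) * P + P * G * (c * D) * P - P * D * P * G * P - P * G * P * D * P := by
    noncomm_ring
  rw [h3, hDc, hGc]
  have h4 : P * D * G * P + P * G * D * P = P := by
    have : P * D * G * P + P * G * D * P = P * (D * G + G * D) * P := by noncomm_ring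
    rw [this, hDG, hcP]
  have : P * D * G * P + P * G * D * P - P * D * P * G * P - P * G * P * D * P
      = P - P * D * P * G * P - P * G * P * D * P := by rw [h4]
  rw [this]

end cone

end Crest.Agent.R217.PC473
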