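import Mathlib
import Crest.Agent.R217.PCnat_473

/-!
Row 217 (S0336), part C, module M4: frames, flattening, objects, admissible cuts (definitions).
-/

set_option autoImplicit false
set_option linter.unusedSectionVars false

namespace Crest.Agent.R217.Obj52

open Matrix PC473

/-- abstract local algebra with control projections `pu k c = 1_{u_k ≤ c}` and an open box. -/
structure Frame (κ : Type*) (R : Type*) [Ring R] [StarRing R] where
  pu : κ → ℝ → R
  pu_star : ∀ k c, star (pu k c) = pu k c
  pu_mul : ∀ k (s t : ℝ), s ≤ t → pu k s * pu k t = pu k s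
  pu_comm : ∀ k l (s t : ℝ), pu k s * pu l t = pu l t * pu k s
  loc : ∀ k (s t : ℝ), s < t → ∀ a, pu k s * a * (1 - pu k t) = 0
  lo : κ → ℝ
  hi : κ → ℝ
  lt : ∀ k, lo k < hi k

section defs

variable {κ : Type*} {R : Type*} [Ring R] [StarRing R]
variable {J : Type*} [Fintype J] [DecidableEq J]

/-- flattening `M_2(M_J R) → M_{2 × J} R` -/
def fl (M : Matrix (Fin 2) (Fin 2) (Matrix J J R)) : Matrix (Fin 2 × J) (Fin 2 × J) R :=
  fun a b => M a.1 b.1 a.2 b.2

/-- diagonal and commuting with all control projections -/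
def DgC (F : Frame κ R) (a : Matrix J J R) : Prop :=
  ∃ e : J → R, a = diagonal e ∧ ∀ j k c, e j * F.pu k c = F.pu k c * e j

/-- control projection with block dependent thresholds -/
def PU (F : Frame κ R) (k : κ) (t : J → ℝ) : Matrix J J R := diagonal fun j => F.pu k (t j)

/-- homogeneity: `a i j ≠ 0 → α i = β j` -/
def Hm (α β : J → ℤ) (a : Matrix J J R) : Prop := ∀ i j, α i ≠ β j → a i j = 0

/-- supported above some level inside the box -/
def BdLo (F : Frame κ R) (k : κ) (a : Matrix J J R) : Prop :=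
  ∃ s, F.lo k < s ∧ PU F k (fun _ => s) * a = 0

/-- supported below some level inside the box -/
def BdHi (F : Frame κ R) (k : κ) (a : Matrix J J R) : Prop :=
  ∃ t, t < F.hi k ∧ PU F k (fun _ => t) * a = a

/-- object (regular pair) of dimension `m`, bounded in the directions `S` -/
structure IsOb (F : Frame κ R) (m : ℕ) (S : Set κ) (deg : J → ℤ) (x : RPr (Matrix J J R)) :
    Prop where
  rp : x.IsRP m
  pd : DgC F x.p
  gd : DgC F x.g
  hd : Hm (fun j => deg j + 1) deg x.d
  hf : Hm deg (fun j => m - deg j) x.f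
  hq : Hm (fun j => m - deg j) deg x.q
  hh : Hm deg (fun j => m + 1 - deg j) x.h
  lo : ∀ k ∈ S, BdLo F k x.p
  hi : ∀ k ∈ S, BdHi F k x.p

/-- honest Poincaré object of dimension `m`, bounded in the directions `S` -/
structure IsOT (F : Frame κ R) (m : ℕ) (S : Set κ) (deg : J → ℤ) (z : Tup (Matrix J J R)) :
    Prop where
  pc : z.IsPC m
  pd : DgC F z.p
  gd : DgC F z.g
  hd : Hm (fun j => deg j + 1) deg z.d
  hS : Hm deg (fun j => m - deg j) z.S
  hT : Hm (fun j => m - deg j) deg z.T
  hH : Hm deg (fun j => deg j + 1) z.H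
  lo : ∀ k ∈ S, BdLo F k z.p
  hi : ∀ k ∈ S, BdHi F k z.p

/-- degrees of the double (dimension `m`) -/
def degD (m : ℕ) (deg : J → ℤ) : Fin 2 × J → ℤ :=
  fun a => if a.1 = 0 then deg a.2 else m - deg a.2

/-- degrees of the boundary (dimension `m`, of an object of dimension `m + 1`) -/
def degB (m : ℕ) (deg : J → ℤ) : Fin 2 × J → ℤ :=
  fun a => if a.1 = 0 then deg a.2 - 1 else (m + 1) - deg a.2

/-- canonical thresholds -/
noncomputable def thr (c δ : ℝ) (deg : J → ℤ) : J → ℝ := fun j => c - δ * Real.arctan (deg j)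

end defs

section cut

variable {κ : Type*} {R : Type*} [Ring R] [StarRing R] [Algebra ℂ R] [StarModule ℂ R]
variable {J : Type*} [Fintype J] [DecidableEq J]

/-- canonical quotient projection -/
noncomputable def wallP (F : Frame κ R) (k : κ) (c δ : ℝ) (deg : J → ℤ) (p : Matrix J J R) :
    Matrix J J R := p * (1 - PU F k (thr c δ deg))

/-- canonical strip -/
noncomputable def stripQ (F : Frame κ R) (k : κ) (b δ : ℝ) (m : ℕ) (deg : J → ℤ)
    (P : Matrix J J R) : Matrix (Fin 2) (Fin 2) (Matrix J J R) :=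
  !![P * PU F k (thr b δ fun j => degB m deg (0, j)), 0;
     0, P * PU F k (thr b δ fun j => degB m deg (1, j))]

/-- admissible triple for a cut in direction `k` (from dimension `m + 1` to `m`) -/
structure Adm (F : Frame κ R) (k : κ) (m : ℕ) (deg : J → ℤ) (z : Tup (Matrix J J R))
    (P : Matrix J J R) (G Q : Matrix (Fin 2) (Fin 2) (Matrix J J R)) : Prop where
  quot : IsQuot z P
  Pd : DgC F P
  wlo : BdLo F k P
  whi : BdHi F k (z.p - P)
  comp : IsComp (bdry m z P) G Q
  hG : Hm (degB m deg) (fun a => degB m deg a + 1) (fl G)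
  Qd : DgC F (fl Q)
  qhi : BdHi F k (fl Q)

/-- the double, flattened -/
noncomputable def dblT (m : ℕ) (x : RPr (Matrix J J R)) :
    Tup (Matrix (Fin 2 × J) (Fin 2 × J) R) := (dbl m x).map fl

/-- the cut along `(P, G, Q)`, flattened -/
noncomputable def cutR (m : ℕ) (z : Tup (Matrix J J R)) (P : Matrix J J R)
    (G Q : Matrix (Fin 2) (Fin 2) (Matrix J J R)) :
    RPr (Matrix (Fin 2 × J) (Fin 2 × J) R) := (compr (bdry m z P) G Q).map fl

/-- parameters of a canonical cut -/
structure Par (κ : Type*) where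
  k : κ
  c : ℝ
  b : ℝ
  δ : ℝ

/-- admissible parameters -/
structure Par.Ok (F : Frame κ R) (a : Par κ) : Prop where
  pos : 0 < a.δ
  h1 : F.lo a.k < a.c - 2 * a.δ
  h2 : a.c + 2 * a.δ < a.b - 2 * a.δ
  h3 : a.b + 2 * a.δ < F.hi a.k

/-- canonical cut of a Poincaré tuple of dimension `m + 1` -/
noncomputable def cutT (F : Frame κ R) (a : Par κ) (m : ℕ) (deg : J → ℤ)
    (z : Tup (Matrix J J R)) : RPr (Matrix (Fin 2 × J) (Fin 2 × J) R) :=
  cutR m z (wallP F a.k a.c a.δ deg z.p) (cutG z (wallP F a.k a.c a.δ deg z.p))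
    (stripQ F a.k a.b a.δ m deg (wallP F a.k a.c a.δ deg z.p))

/-- canonical cut of a regular pair of dimension `m + 1` -/
noncomputable def cut (F : Frame κ R) (a : Par κ) (m : ℕ) (deg : J → ℤ)
    (x : RPr (Matrix J J R)) :
    RPr (Matrix (Fin 2 × (Fin 2 × J)) (Fin 2 × (Fin 2 × J)) R) :=
  cutT F a m (degD (m + 1) deg) (dblT (m + 1) x)

end cut

/-- bundled object -/
structure Obj (R : Type*) where
  J : Type
  ft : Fintype J
  de : DecidableEq J
  deg : J → ℤ
  x : RPr (Matrix J J R)

attribute [instance] Obj.ft Obj.de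

section red

variable {κ : Type*} {R : Type*} [Ring R] [StarRing R] [Algebra ℂ R] [StarModule ℂ R]

/-- canonical cut of a bundled object -/
noncomputable def cutO (F : Frame κ R) (a : Par κ) (m : ℕ) (X : Obj R) : Obj R where
  J := Fin 2 × (Fin 2 × X.J)
  ft := inferInstance
  de := inferInstance
  deg := degB m (degD (m + 1) X.deg)
  x := cut F a m X.deg X.x

/-- successive canonical cuts; `X` has dimension `l.length`, the result dimension `0` -/
noncomputable def red (F : Frame κ R) : List (Par κ) → Obj R → Obj R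
  | [], X => X
  | a :: l, X => red F l (cutO F a l.length X)

end red

end Crest.Agent.R217.Obj52
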