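import Crest.Agent.R217.PCsh_473
import Crest.Agent.R217.Obj_52

/-!
Row 217 (S0336), part C, module M4: (T1), (T2) of helper52's plan: the double and the cut of an
object are objects.
-/

set_option autoImplicit false
set_option linter.unusedSectionVars false

namespace Crest.Agent.R217.Cut1x473

open Matrix PC473 Obj52

section fl

variable {R : Type*} [Ring R] [StarRing R] {J : Type*} [Fintype J] [DecidableEq J]

theorem fl_apply (M : Matrix (Fin 2) (Fin 2) (Matrix J J R)) (a b : Fin 2 × J) :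
    fl M a b = M a.1 b.1 a.2 b.2 := rfl

theorem fl_mul (M N : Matrix (Fin 2) (Fin 2) (Matrix J J R)) : fl (M * N) = fl M * fl N := by
  ext a b
  rw [fl_apply, Matrix.mul_apply, Matrix.mul_apply, Fintype.sum_prod_type, Matrix.sum_apply]
  simp only [Matrix.mul_apply, fl_apply]

theorem fl_add (M N : Matrix (Fin 2) (Fin 2) (Matrix J J R)) : fl (M + N) = fl M + fl N := rfl

theorem fl_sub (M N : Matrix (Fin 2) (Fin 2) (Matrix J J R)) : fl (M - N) = fl M - fl N := rfl

theorem fl_neg (M : Matrix (Fin 2) (Fin 2) (Matrix J J R)) : fl (-M) = -fl M := rfl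

theorem fl_zero : fl (0 : Matrix (Fin 2) (Fin 2) (Matrix J J R)) = 0 := rfl

theorem fl_star (M : Matrix (Fin 2) (Fin 2) (Matrix J J R)) : fl (star M) = star (fl M) := rfl

theorem fl_one : fl (1 : Matrix (Fin 2) (Fin 2) (Matrix J J R)) = 1 := by
  ext ⟨a, i⟩ ⟨b, j⟩
  rw [fl_apply]
  by_cases h : a = b
  · subst h
    by_cases h' : i = j
    · subst h'; simp
    · simp [h', Matrix.one_apply, Prod.ext_iff]
  · simp [h, Matrix.one_apply, Prod.ext_iff]

/-- `fl` as a ring homomorphism -/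
def flHom : Matrix (Fin 2) (Fin 2) (Matrix J J R) →+* Matrix (Fin 2 × J) (Fin 2 × J) R where
  toFun := fl
  map_one' := fl_one
  map_mul' := fl_mul
  map_zero' := fl_zero
  map_add' := fl_add

theorem fl_injective : Function.Injective
    (fl : Matrix (Fin 2) (Fin 2) (Matrix J J R) → Matrix (Fin 2 × J) (Fin 2 × J) R) := by
  intro M N h
  ext a b i j
  have := congrFun (congrFun h (a, i)) (b, j)
  exact this

theorem fl_shom [Algebra ℂ R] [StarModule ℂ R] :
    Frame52.SHom (fl : Matrix (Fin 2) (Fin 2) (Matrix J J R) → _) where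
  add := fl_add
  mul := fl_mul
  smul _ _ := rfl
  star := fl_star

theorem isPC_fl {m : ℕ} {x : Tup (Matrix (Fin 2) (Fin 2) (Matrix J J R))} (hx : x.IsPC m) :
    (x.map fl).IsPC m := hx.map flHom fl_star

theorem isRP_fl {m : ℕ} {x : RPr (Matrix (Fin 2) (Fin 2) (Matrix J J R))} (hx : x.IsRP m) :
    (x.map fl).IsRP m := hx.map flHom fl_star

end fl

section bookkeeping

variable {κ : Type*} {R : Type*} [Ring R] [StarRing R]
variable {J : Type*} [Fintype J] [DecidableEq J]

/-! #### homogeneity -/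

theorem _root_.Crest.Agent.R217.Obj52.Hm.congrc {α β α' β' : J → ℤ} {a : Matrix J J R} (h : Hm α β a)
    (H : ∀ i j, α i = β j → α' i = β' j) : Hm α' β' a :=
  fun i j hne => h i j (fun he => hne (H i j he))

theorem _root_.Crest.Agent.R217.Obj52.Hm.mulc {α β γ : J → ℤ} {a b : Matrix J J R} (ha : Hm α β a) (hb : Hm β γ b) :
    Hm α γ (a * b) := by
  intro i j hne
  rw [Matrix.mul_apply]
  refine Finset.sum_eq_zero fun k _ => ?_
  by_cases h1 : α i = β k
  · have h2 : β k ≠ γ j := fun h => hne (h1.trans h)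
    rw [hb k j h2, mul_zero]
  · rw [ha i k h1, zero_mul]

theorem _root_.Crest.Agent.R217.Obj52.Hm.addc {α β : J → ℤ} {a b : Matrix J J R} (ha : Hm α β a) (hb : Hm α β b) :
    Hm α β (a + b) := by
  intro i j hne; rw [Matrix.add_apply, ha i j hne, hb i j hne, add_zero]

theorem _root_.Crest.Agent.R217.Obj52.Hm.subc {α β : J → ℤ} {a b : Matrix J J R} (ha : Hm α β a) (hb : Hm α β b) :
    Hm α β (a - b) := by
  intro i j hne; rw [Matrix.sub_apply, ha i j hne, hb i j hne, sub_zero]

theorem _root_.Crest.Agent.R217.Obj52.Hm.negc {α β : J → ℤ} {a : Matrix J J R} (ha : Hm α β a) : Hm α β (-a) := by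
  intro i j hne; rw [Matrix.neg_apply, ha i j hne, neg_zero]

theorem _root_.Crest.Agent.R217.Obj52.Hm.zeroc {α β : J → ℤ} : Hm α β (0 : Matrix J J R) := by
  intro i j _; rfl

theorem _root_.Crest.Agent.R217.Obj52.Hm.starc {α β : J → ℤ} {a : Matrix J J R} (ha : Hm α β a) : Hm β α (star a) := by
  intro i j hne; rw [Matrix.star_apply, ha j i (Ne.symm hne), star_zero]

theorem _root_.Crest.Agent.R217.Obj52.Hm.npowc {α β : J → ℤ} {a : Matrix J J R} (ha : Hm α β a) (m : ℕ) :
    Hm α β ((-1) ^ m * a) := by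
  rcases neg_one_pow_eq_or (Matrix J J R) m with h | h <;> rw [h]
  · rwa [one_mul]
  · rw [neg_one_mul]; exact ha.negc

theorem _root_.Crest.Agent.R217.Obj52.Hm.twoc {α β : J → ℤ} {a : Matrix J J R} (ha : Hm α β a) : Hm α β (2 * a) := by
  rw [two_mul]; exact ha.addc ha

theorem _root_.Crest.Agent.R217.Obj52.Hm.fourc {α β : J → ℤ} {a : Matrix J J R} (ha : Hm α β a) : Hm α β (4 * a) := by
  rw [show (4 : Matrix J J R) * a = 2 * (2 * a) by rw [← mul_assoc]; norm_num]
  exact ha.twoc.twoc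

theorem _root_.Crest.Agent.R217.Obj52.Hm.diagc {α β : J → ℤ} (h : ∀ i, α i = β i) (e : J → R) : Hm α β (diagonal e) := by
  intro i j hne
  by_cases hij : i = j
  · subst hij; exact absurd (h i) hne
  · exact Matrix.diagonal_apply_ne _ hij

theorem _root_.Crest.Agent.R217.Obj52.Hm.smulCc [Algebra ℂ R] {α β : J → ℤ} {a : Matrix J J R} (ha : Hm α β a) (c : ℂ) :
    Hm α β (c • a) := by
  intro i j hne; rw [Matrix.smul_apply, ha i j hne, smul_zero]

/-- homogeneity of a flattened block matrix -/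
theorem _root_.Crest.Agent.R217.Obj52.Hm.fl2c {α β : Fin 2 × J → ℤ} {a b c d : Matrix J J R}
    (ha : Hm (fun j => α (0, j)) (fun j => β (0, j)) a)
    (hb : Hm (fun j => α (0, j)) (fun j => β (1, j)) b)
    (hc : Hm (fun j => α (1, j)) (fun j => β (0, j)) c)
    (hd : Hm (fun j => α (1, j)) (fun j => β (1, j)) d) : Hm α β (fl !![a, b; c, d]) := by
  rintro ⟨s, i⟩ ⟨t, j⟩ hne
  rw [fl_apply]
  fin_cases s <;> fin_cases t
  · exact ha i j hne
  · exact hb i j hne
  · exact hc i j hne
  · exact hd i j hne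

/-! #### diagonal elements -/

variable {F : Frame κ R}

theorem _root_.Crest.Agent.R217.Obj52.DgC.mulc {a b : Matrix J J R} (ha : DgC F a) (hb : DgC F b) : DgC F (a * b) := by
  obtain ⟨e, rfl, he⟩ := ha
  obtain ⟨e', rfl, he'⟩ := hb
  refine ⟨fun j => e j * e' j, by rw [diagonal_mul_diagonal], fun j k c => ?_⟩
  rw [mul_assoc, he', ← mul_assoc, he, mul_assoc]

theorem _root_.Crest.Agent.R217.Obj52.DgC.negc {a : Matrix J J R} (ha : DgC F a) : DgC F (-a) := by
  obtain ⟨e, rfl, he⟩ := ha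
  refine ⟨fun j => -e j, ?_, fun j k c => ?_⟩
  · ext i j
    by_cases h : i = j
    · subst h; simp
    · simp [h]
  · rw [neg_mul, he, mul_neg]

theorem _root_.Crest.Agent.R217.Obj52.DgC.npowc {a : Matrix J J R} (ha : DgC F a) (m : ℕ) : DgC F ((-1) ^ m * a) := by
  rcases neg_one_pow_eq_or (Matrix J J R) m with h | h <;> rw [h]
  · rwa [one_mul]
  · rw [neg_one_mul]; exact ha.negc

theorem _root_.Crest.Agent.R217.Obj52.DgC.hmc {a : Matrix J J R} (ha : DgC F a) {α β : J → ℤ} (h : ∀ i, α i = β i) :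
    Hm α β a := by
  obtain ⟨e, rfl, -⟩ := ha
  exact Hm.diagc h e

theorem _root_.Crest.Agent.R217.Obj52.DgC.fl2c {a b : Matrix J J R} (ha : DgC F a) (hb : DgC F b) :
    DgC F (fl !![a, 0; 0, b]) := by
  obtain ⟨e, rfl, he⟩ := ha
  obtain ⟨e', rfl, he'⟩ := hb
  refine ⟨fun x => if x.1 = 0 then e x.2 else e' x.2, ?_, ?_⟩
  · ext ⟨s, i⟩ ⟨t, j⟩
    rw [fl_apply]
    by_cases hij : i = j
    · subst hij
      fin_cases s <;> fin_cases t <;> simp [Matrix.diagonal_apply, Prod.ext_iff]
    · fin_cases s <;> fin_cases t <;> simp [Matrix.diagonal_apply, Prod.ext_iff, hij]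
  · rintro ⟨s, j⟩ k c
    fin_cases s
    · simpa using he j k c
    · simpa using he' j k c

theorem PU_fl (k : κ) (s : ℝ) :
    PU F k (fun _ : Fin 2 × J => s) = fl !![PU F k (fun _ => s), 0; 0, PU F k (fun _ => s)] := by
  ext ⟨a, i⟩ ⟨b, j⟩
  rw [fl_apply]
  by_cases hij : i = j
  · subst hij
    fin_cases a <;> fin_cases b <;> simp [PU, Matrix.diagonal_apply, Prod.ext_iff]
  · fin_cases a <;> fin_cases b <;> simp [PU, Matrix.diagonal_apply, Prod.ext_iff, hij]

theorem PU_mul_fl (k : κ) (s : ℝ) (a b c d : Matrix J J R) :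
    PU F k (fun _ : Fin 2 × J => s) * fl !![a, b; c, d]
      = fl !![PU F k (fun _ => s) * a, PU F k (fun _ => s) * b;
              PU F k (fun _ => s) * c, PU F k (fun _ => s) * d] := by
  rw [PU_fl, ← fl_mul, mul_fin_two]
  simp

theorem _root_.Crest.Agent.R217.Obj52.BdLo.fl2c {k : κ} {a : Matrix J J R} (h : BdLo F k a) : BdLo F k (fl !![a, 0; 0, a]) := by
  obtain ⟨s, hs, h⟩ := h
  refine ⟨s, hs, ?_⟩
  rw [PU_mul_fl, h, mul_zero, ← zero_fin2, fl_zero]

theorem _root_.Crest.Agent.R217.Obj52.BdHi.fl2c {k : κ} {a : Matrix J J R} (h : BdHi F k a) : BdHi F k (fl !![a, 0; 0, a]) := by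
  obtain ⟨t, ht, h⟩ := h
  refine ⟨t, ht, ?_⟩
  rw [PU_mul_fl, h, mul_zero]

theorem _root_.Crest.Agent.R217.Obj52.BdLo.mulc {k : κ} {a b : Matrix J J R} (h : BdLo F k a) : BdLo F k (a * b) := by
  obtain ⟨s, hs, h⟩ := h
  exact ⟨s, hs, by rw [← mul_assoc, h, zero_mul]⟩

theorem _root_.Crest.Agent.R217.Obj52.BdHi.mulc {k : κ} {a b : Matrix J J R} (h : BdHi F k a) : BdHi F k (a * b) := by
  obtain ⟨s, hs, h⟩ := h
  exact ⟨s, hs, by rw [← mul_assoc, h]⟩

end bookkeeping

section T1

variable {κ : Type*} {R : Type*} [Ring R] [StarRing R] [Algebra ℂ R] [StarModule ℂ R]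
variable {J : Type*} [Fintype J] [DecidableEq J] {F : Frame κ R}

theorem _root_.Crest.Agent.R217.Obj52.Hm.aac {α β : J → ℤ} {a : Matrix J J R} (ha : Hm α β a) (m : ℕ) :
    Hm α β (PC473.aa m a) := ha.smulCc _

/-- (T1) the double of an object is an honest object. -/
theorem T1 {m : ℕ} {S : Set κ} {deg : J → ℤ} {x : RPr (Matrix J J R)}
    (hx : IsOb F m S deg x) : IsOT F m S (degD m deg) (dblT m x) := by
  have hfl := fl_zero (R := R) (J := J)
  constructor
  · exact isPC_fl (dbl_isPC hx.rp)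
  · exact hx.pd.fl2c hx.pd
  · exact hx.gd.fl2c (hx.gd.npowc m)
  · refine Hm.fl2c ?_ Hm.zeroc Hm.zeroc ?_
    · exact hx.hd.congrc (by intro i j h; simpa [degD] using h)
    · refine hx.hd.starc.congrc ?_
      intro i j h; simp only [degD]; simp; omega
  · refine Hm.fl2c ?_ ?_ ?_ ?_
    · exact hx.hf.congrc (by intro i j h; simpa [degD] using h)
    · exact Hm.aac (hx.gd.hmc (by intro i; simp [degD])) m
    · exact (Hm.aac (hx.gd.hmc (by intro i; simp [degD])) m).npowc m
    · exact ((hx.hq.congrc (by intro i j h; simp [degD]; omega)).npowc m).twoc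
  · have hqf : Hm (fun j => (m : ℤ) - deg j) (fun j => m - deg j) (x.q * x.f) :=
      hx.hq.mulc hx.hf
    have hfq : Hm deg deg (x.f * x.q) := hx.hf.mulc hx.hq
    refine Hm.fl2c ?_ ?_ ?_ ?_
    · refine Hm.congrc (α := fun j => (m : ℤ) - deg j) (β := deg) ?_
        (by intro i j h; simpa [degD] using h)
      exact ((hqf.mulc hx.hq).twoc.subc hx.hq).twoc
    · refine Hm.congrc (α := fun j => (m : ℤ) - deg j) (β := fun j => (m : ℤ) - deg j) ?_
        (by intro i j h; simpa [degD] using h)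
      exact ((Hm.aac (hx.gd.hmc fun _ => rfl) m).mulc (hqf.twoc.subc (hx.pd.hmc fun _ => rfl))).negc
    · refine Hm.congrc (α := deg) (β := deg) ?_ (by intro i j h; simpa [degD] using h)
      exact (((Hm.aac (hx.gd.hmc fun _ => rfl) m).mulc
        (hfq.twoc.subc (hx.pd.hmc fun _ => rfl))).npowc m).negc
    · refine Hm.congrc (α := deg) (β := fun j => (m : ℤ) - deg j) ?_
        (by intro i j h; simp [degD]; omega)
      exact ((hfq.mulc hx.hf).twoc.subc hx.hf).npowc m
  · have hhq : Hm deg (fun j => deg j + 1) (x.h * x.q) :=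
      hx.hh.mulc (hx.hq.congrc (by intro i j h; omega))
    refine Hm.fl2c ?_ Hm.zeroc Hm.zeroc ?_
    · exact hhq.fourc.congrc (by intro i j h; simpa [degD] using h)
    · exact hhq.starc.fourc.congrc (by intro i j h; simp [degD]; omega)
  · intro k hk; exact (hx.lo k hk).fl2c
  · intro k hk; exact (hx.hi k hk).fl2c

end T1

section T2

variable {κ : Type*} {R : Type*} [Ring R] [StarRing R] [Algebra ℂ R] [StarModule ℂ R]
variable {J : Type*} [Fintype J] [DecidableEq J] {F : Frame κ R}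

/-- (T2) the cut of an honest object of dimension `m + 1` is an object of dimension `m`. -/
theorem T2 {m : ℕ} {S : Set κ} {deg : J → ℤ} {z : Tup (Matrix J J R)} {k : κ}
    {P : Matrix J J R} {G Q : Matrix (Fin 2) (Fin 2) (Matrix J J R)}
    (hz : IsOT F (m + 1) S deg z) (ha : Adm F k m deg z P G Q) :
    IsOb F m (insert k S) (degB m deg) (cutR m z P G Q) := by
  have hpc : (bdry m z P).IsPC m := bdry0_isPC (trunc_isSym hz.pc.isSym ha.quot)
  have hPh : ∀ {α : J → ℤ}, Hm α α P := fun {α} => ha.Pd.hmc fun _ => rfl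
  have hgh : ∀ {α β : J → ℤ}, (∀ i, α i = β i) → Hm α β (P * z.g) :=
    fun h => (ha.Pd.mulc hz.gd).hmc h
  have hQh : ∀ {α : Fin 2 × J → ℤ}, Hm α α (fl Q) := fun {α} => ha.Qd.hmc fun _ => rfl
  -- homogeneity of the boundary
  have hdd : Hm (fun a => degB m deg a + 1) (degB m deg) (fl (bdry m z P).d) := by
    refine Hm.fl2c ?_ ?_ Hm.zeroc ?_
    · exact (Hm.mulc (hPh (α := fun j => deg j + 1)) hz.hd).congrc
        (by intro i j h; simp [degB]; omega)
    · refine Hm.congrc (α := deg) (β := fun j => ((m + 1 : ℕ) : ℤ) - deg j) ?_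
        (by intro i j h; simp [degB]; push_cast at h; omega)
      exact (hPh.mulc hz.hS).mulc hPh
    · refine (Hm.mulc (hPh (α := fun j => deg j + 1)) hz.hd).starc.congrc
        (by intro i j h; simp [degB]; omega)
  have hSS : Hm (degB m deg) (fun a => (m : ℤ) - degB m deg a) (fl (bdry m z P).S) := by
    refine Hm.fl2c Hm.zeroc ?_ ?_ Hm.zeroc
    · exact Hm.aac (hgh (by intro i; simp [degB] <;> omega)) m
    · exact (Hm.aac (hgh (by intro i; simp [degB] <;> omega)) m).npowc m
  have hTT : Hm (fun a => (m : ℤ) - degB m deg a) (degB m deg) (fl (bdry m z P).T) := by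
    refine Hm.fl2c Hm.zeroc ?_ ?_ Hm.zeroc
    · exact Hm.aac (hgh (by intro i; simp [degB] <;> omega)) m
    · exact (Hm.aac (hgh (by intro i; simp [degB] <;> omega)) m).npowc m
  have hpp : Hm (degB m deg) (degB m deg) (fl (bdry m z P).p) :=
    (ha.Pd.fl2c ha.Pd).hmc fun _ => rfl
  have hGG := ha.hG
  have hdG : Hm (degB m deg) (degB m deg)
      (fl ((bdry m z P).d * G + G * (bdry m z P).d)) := by
    rw [fl_add, fl_mul, fl_mul]
    refine Hm.addc ?_ (hGG.mulc hdd)
    exact (hdd.mulc (hGG.congrc (α' := degB m deg) (β' := fun a => degB m deg a + 1)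
      fun i j h => h)).congrc (by intro i j h; omega)
  have hKK : Hm (degB m deg) (degB m deg) (fl (KK (bdry m z P) G)) := by
    have : KK (bdry m z P) G = (bdry m z P).p - ((bdry m z P).d * G + G * (bdry m z P).d) := by
      unfold KK; noncomm_ring
    rw [this, fl_sub]
    exact hpp.subc hdG
  have hsK : Hm (fun a => (m : ℤ) - degB m deg a) (fun a => (m : ℤ) - degB m deg a)
      (star (fl (KK (bdry m z P) G))) := hKK.starc.congrc (by intro i j h; omega)
  have hsK' : Hm (fun a => (m : ℤ) + 1 - degB m deg a) (fun a => (m : ℤ) + 1 - degB m deg a)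
      (star (fl (KK (bdry m z P) G))) := hKK.starc.congrc (by intro i j h; omega)
  have hlo : ∀ k', BdLo F k' P → BdLo F k' (fl Q) := by
    intro k' h
    have h1 := h.fl2c
    have h2 : fl Q = fl !![P, 0; 0, P] * fl Q := by
      rw [← fl_mul]; exact congrArg fl ha.comp.pB.symm
    rw [h2]; exact h1.mulc
  have hhi : ∀ k', BdHi F k' P → BdHi F k' (fl Q) := by
    intro k' h
    have h1 := h.fl2c
    have h2 : fl Q = fl !![P, 0; 0, P] * fl Q := by
      rw [← fl_mul]; exact congrArg fl ha.comp.pB.symm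
    rw [h2]; exact h1.mulc
  constructor
  · exact isRP_fl (compr_isRP hpc ha.comp)
  · exact ha.Qd
  · show DgC F (fl (Q * (bdry m z P).g))
    rw [fl_mul]
    exact ha.Qd.mulc ((ha.Pd.mulc hz.gd).negc.fl2c ((ha.Pd.mulc hz.gd).npowc _))
  · show Hm _ _ (fl ((bdry m z P).d * Q))
    rw [fl_mul]
    exact hdd.mulc hQh
  · show Hm _ _ (fl (KK (bdry m z P) G * (bdry m z P).S * star (KK (bdry m z P) G)))
    rw [fl_mul, fl_mul, fl_star]
    exact (hKK.mulc hSS).mulc hsK
  · show Hm _ _ (fl (Q * (bdry m z P).T * Q))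
    rw [fl_mul, fl_mul]
    exact (hQh.mulc hTT).mulc hQh
  · show Hm _ _ (fl (KK (bdry m z P) G * (((bdry m z P).H + (bdry m z P).S * star G * (bdry m z P).T)
      - G - ((bdry m z P).H + (bdry m z P).S * star G * (bdry m z P).T)
        * ((bdry m z P).d * G + G * (bdry m z P).d)) * (bdry m z P).S
        * star (KK (bdry m z P) G)))
    have hU : Hm (degB m deg) (fun a => degB m deg a + 1)
        (fl ((bdry m z P).H + (bdry m z P).S * star G * (bdry m z P).T)) := by
      rw [fl_add, fl_mul, fl_mul, fl_star]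
      refine Hm.addc Hm.zeroc ?_
      have hsG : Hm (fun a => (m : ℤ) - degB m deg a) (fun a => (m : ℤ) + 1 - degB m deg a)
          (star (fl G)) := hGG.starc.congrc (by intro i j h; omega)
      exact (hSS.mulc hsG).mulc (hTT.congrc (by intro i j h; omega))
    rw [fl_mul, fl_mul, fl_mul, fl_sub, fl_sub, fl_mul, fl_star]
    have hTh : Hm (degB m deg) (fun a => degB m deg a + 1)
        (fl ((bdry m z P).H + (bdry m z P).S * star G * (bdry m z P).T) - fl G
          - fl ((bdry m z P).H + (bdry m z P).S * star G * (bdry m z P).T)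
            * fl ((bdry m z P).d * G + G * (bdry m z P).d)) := by
      refine (hU.subc hGG).subc (hU.mulc (hdG.congrc (by intro i j h; omega)))
    exact (((hKK.mulc hTh).mulc (hSS.congrc (by intro i j h; omega))).mulc hsK')
  · intro k' hk'
    rcases hk' with rfl | hk'
    · exact hlo _ ha.wlo
    · refine hlo k' ?_
      rw [← ha.quot.pP]
      exact (hz.lo k' hk').mulc
  · intro k' hk'
    rcases hk' with rfl | hk'
    · exact ha.qhi
    · refine hhi k' ?_
      rw [← ha.quot.pP]
      exact (hz.hi k' hk').mulc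

end T2

end Crest.Agent.R217.Cut1x473
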