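import Mathlib
import Crest.Agent.R217.Obj_52

/-!
Row 217 (S0336), part C, module M4: naturality of the cut operations.
-/

set_option autoImplicit false
set_option linter.unusedSectionVars false

namespace Crest.Agent.R217.Nat52

open Matrix PC473 Obj52

section flatten

variable {R : Type*} [Ring R] [StarRing R] [Algebra ℂ R] [StarModule ℂ R]
variable {J : Type*} [Fintype J] [DecidableEq J]

theorem fl_mul (M N : Matrix (Fin 2) (Fin 2) (Matrix J J R)) : fl (M * N) = fl M * fl N := by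
  ext ⟨a, i⟩ ⟨b, j⟩
  simp only [fl, Matrix.mul_apply, Fintype.sum_prod_type, Matrix.sum_apply]

theorem fl_inj {M N : Matrix (Fin 2) (Fin 2) (Matrix J J R)} (h : fl M = fl N) : M = N := by
  ext a b i j
  exact congrFun (congrFun h (a, i)) (b, j)

/-- flattening as a star homomorphism -/
def flH : Matrix (Fin 2) (Fin 2) (Matrix J J R) →⋆ₙₐ[ℂ] Matrix (Fin 2 × J) (Fin 2 × J) R where
  toFun := fl
  map_smul' _ _ := rfl
  map_zero' := rfl
  map_add' _ _ := rfl
  map_mul' := fl_mul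
  map_star' _ := rfl

@[simp] theorem flH_apply (M : Matrix (Fin 2) (Fin 2) (Matrix J J R)) : flH M = fl M := rfl

theorem fl_one : fl (1 : Matrix (Fin 2) (Fin 2) (Matrix J J R)) = 1 := by
  ext ⟨a, i⟩ ⟨b, j⟩
  by_cases h : a = b
  · subst h
    by_cases h2 : i = j
    · subst h2; simp [fl]
    · simp [fl, h2]
  · simp [fl, h]

theorem fl_diag (d e : J → R) : fl !![diagonal d, 0; 0, diagonal e]
    = diagonal (fun a : Fin 2 × J => if a.1 = 0 then d a.2 else e a.2) := by
  ext ⟨a, i⟩ ⟨b, j⟩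
  fin_cases a <;> fin_cases b <;> simp [fl, diagonal_apply]

end flatten

section maps

variable {R R' : Type*} [Ring R] [StarRing R] [Algebra ℂ R] [StarModule ℂ R]
  [Ring R'] [StarRing R'] [Algebra ℂ R'] [StarModule ℂ R']
variable {J J' : Type*} [Fintype J] [DecidableEq J] [Fintype J'] [DecidableEq J']

/-- entrywise image -/
def mapH (J : Type*) [Fintype J] [DecidableEq J] (φ : R →⋆ₙₐ[ℂ] R') :
    Matrix J J R →⋆ₙₐ[ℂ] Matrix J J R' where
  toFun M := M.map φ
  map_smul' c M := by ext i j; simp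
  map_zero' := by ext i j; simp
  map_add' M N := by ext i j; simp
  map_mul' M N := by ext i j; simp [Matrix.mul_apply]
  map_star' M := by ext i j; simp [Matrix.star_apply, map_star]

@[simp] theorem mapH_apply (φ : R →⋆ₙₐ[ℂ] R') (M : Matrix J J R) : mapH J φ M = M.map φ := rfl

theorem coneG_map (F : R →⋆ₙₐ[ℂ] R') (z : Tup R) :
    (coneG z).map F = coneG (z.map F) := by
  simp only [coneG, map_fin2, Tup.map, map_neg, map_mul, map_sub, map_add, map_star]

theorem diag_map (F : R →⋆ₙₐ[ℂ] R') (P Q : R) :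
    (!![P, 0; 0, Q] : Matrix (Fin 2) (Fin 2) R).map F = !![F P, 0; 0, F Q] := by
  rw [map_fin2, map_zero]

theorem cutG_map (F : R →⋆ₙₐ[ℂ] R') (z : Tup R) (P : R) :
    (cutG z P).map F = cutG (z.map F) (F P) := by
  unfold cutG
  rw [← coneG_map, ← diag_map]
  exact ((mapH (Fin 2) F).map_mul' _ _).trans (congrArg (· * _) ((mapH (Fin 2) F).map_mul' _ _))

/-- a pair of compatible homomorphisms at levels `J` and `2 × J` -/
def Compat (φ : Matrix J J R →⋆ₙₐ[ℂ] Matrix J' J' R')
    (φ2 : Matrix (Fin 2 × J) (Fin 2 × J) R →⋆ₙₐ[ℂ] Matrix (Fin 2 × J') (Fin 2 × J') R') : Prop :=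
  ∀ M : Matrix (Fin 2) (Fin 2) (Matrix J J R), φ2 (fl M) = fl (M.map φ)

variable {φ : Matrix J J R →⋆ₙₐ[ℂ] Matrix J' J' R'}
  {φ2 : Matrix (Fin 2 × J) (Fin 2 × J) R →⋆ₙₐ[ℂ] Matrix (Fin 2 × J') (Fin 2 × J') R'}

theorem Compat.dblT (h : Compat φ φ2) (m : ℕ) (x : RPr (Matrix J J R)) :
    dblT m (x.map φ) = (dblT m x).map φ2 := by
  unfold Obj52.dblT
  rw [← dbl_map]
  simp only [Tup.map, Compat] at *
  simp only [h]

theorem Compat.cutR (h : Compat φ φ2) (m : ℕ) (z : Tup (Matrix J J R)) (P : Matrix J J R)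
    (G Q : Matrix (Fin 2) (Fin 2) (Matrix J J R)) :
    cutR m (z.map φ) (φ P) (G.map φ) (Q.map φ) = (cutR m z P G Q).map φ2 := by
  unfold Obj52.cutR
  rw [← bdry_map]
  have := compr_map (mapH (Fin 2) φ) (bdry m z P) G Q
  simp only [mapH_apply] at this
  rw [show (fun M : Matrix (Fin 2) (Fin 2) (Matrix J J R) => M.map φ)
    = ⇑(mapH (Fin 2) φ) from rfl, ← this]
  simp only [RPr.map, Compat] at *
  simp only [h, mapH_apply]

theorem compat_map (φ : R →⋆ₙₐ[ℂ] R') : Compat (mapH J φ) (mapH (Fin 2 × J) φ) := fun _ => rfl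

end maps

section mono

variable {R : Type*} [Ring R] [StarRing R] [Algebra ℂ R] [StarModule ℂ R]
variable {J J' : Type*} [Fintype J] [DecidableEq J] [Fintype J'] [DecidableEq J']

/-- monomial isometry data: injection and unimodular phases -/
structure Mon (J J' : Type*) where
  σ : J → J'
  inj : Function.Injective σ
  ε : J → ℂ
  unit : ∀ j, star (ε j) * ε j = 1

/-- the matrix of a monomial isometry -/
noncomputable def Mon.V (R : Type*) [Ring R] [StarRing R] [Algebra ℂ R] (v : Mon J J') :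
    Matrix J' J R :=
  fun i j => if i = v.σ j then algebraMap ℂ R (v.ε j) else 0

theorem Mon.V_iso (v : Mon J J') : (v.V R)ᴴ * v.V R = 1 := by
  ext i j
  simp only [Matrix.mul_apply, Matrix.conjTranspose_apply, Mon.V]
  by_cases h : i = j
  · subst h
    rw [Finset.sum_eq_single (v.σ i)]
    · simp only [if_true, Matrix.one_apply_eq]
      rw [← algebraMap_star_comm, ← map_mul, v.unit, map_one]
    · intro b _ hb; simp [hb]
    · simp
  · rw [Matrix.one_apply_ne h]
    refine Finset.sum_eq_zero fun k _ => ?_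
    by_cases h1 : k = v.σ j
    · have h2 : k ≠ v.σ i := fun h3 => h (v.inj (h3.symm.trans h1))
      simp [h2]
    · simp [h1]

/-- conjugation by a monomial isometry -/
noncomputable def cjH (R : Type*) [Ring R] [StarRing R] [Algebra ℂ R] [StarModule ℂ R]
    (v : Mon J J') : Matrix J J R →⋆ₙₐ[ℂ] Matrix J' J' R where
  toFun a := v.V R * a * (v.V R)ᴴ
  map_smul' c a := by simp
  map_zero' := by simp
  map_add' a b := by rw [Matrix.mul_add, Matrix.add_mul]
  map_mul' a b := by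
    have := v.V_iso (R := R)
    calc v.V R * (a * b) * (v.V R)ᴴ = v.V R * a * (1 : Matrix J J R) * b * (v.V R)ᴴ := by
          simp only [mul_one, Matrix.mul_assoc]
      _ = _ := by rw [← this]; simp only [Matrix.mul_assoc]
  map_star' a := by
    simp only [star_eq_conjTranspose, conjTranspose_mul, conjTranspose_conjTranspose,
      Matrix.mul_assoc]

theorem cjH_apply (v : Mon J J') (a : Matrix J J R) : cjH R v a = v.V R * a * (v.V R)ᴴ := rfl

/-- two copies of a monomial isometry -/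
def Mon.two (v : Mon J J') : Mon (Fin 2 × J) (Fin 2 × J') where
  σ a := (a.1, v.σ a.2)
  inj := by
    rintro ⟨a, i⟩ ⟨b, j⟩ h
    simp only [Prod.mk.injEq] at h
    rw [h.1, v.inj h.2]
  ε a := v.ε a.2
  unit a := v.unit a.2

theorem Mon.two_V (v : Mon J J') (a b : Fin 2) (i : J') (j : J) :
    (v.two.V R) (a, i) (b, j) = if a = b then v.V R i j else 0 := by
  simp only [Mon.V, Mon.two, Prod.mk.injEq]
  by_cases h : a = b
  · simp [h]
  · simp [h]

theorem compat_cj (v : Mon J J') : Compat (cjH R v) (cjH R v.two) := by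
  intro M
  ext ⟨a, i⟩ ⟨b, j⟩
  simp only [cjH_apply, Matrix.mul_apply, Matrix.conjTranspose_apply, Fintype.sum_prod_type,
    Mon.two_V, fl, Matrix.map_apply, apply_ite star, star_zero, mul_ite, mul_zero, ite_mul, zero_mul]
  have : ∀ x : J, ∑ x1 : Fin 2, ∑ x2 : J, (if a = x1 then v.V R i x2 * M x1 b x2 x else 0)
      = ∑ x2 : J, v.V R i x2 * M a b x2 x := by
    intro x
    rw [Finset.sum_eq_single a]
    · simp
    · intro c _ hc; simp [Ne.symm hc]
    · simp
  rw [Finset.sum_eq_single b]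
  · refine Finset.sum_congr rfl fun x _ => ?_
    rw [if_pos rfl, this x]
  · intro c _ hc; simp [Ne.symm hc]
  · simp

theorem V_PU {κ : Type*} (F : Frame κ R) (k : κ) (v : Mon J J') {t : J → ℝ} {t' : J' → ℝ}
    (h : ∀ j, t' (v.σ j) = t j) : v.V R * PU F k t = PU F k t' * v.V R := by
  ext i j
  simp only [PU, Matrix.mul_diagonal, Matrix.diagonal_mul, Mon.V]
  by_cases hi : i = v.σ j
  · subst hi
    rw [if_pos rfl, h j, ← Algebra.commutes]
  · simp [hi]

theorem PU_star {κ : Type*} (F : Frame κ R) (k : κ) (t : J → ℝ) :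
    (PU F k t)ᴴ = PU F k t := by
  simp only [PU, Matrix.diagonal_conjTranspose]
  congr 1
  ext j
  exact F.pu_star k (t j)

theorem cj_PU_left {κ : Type*} (F : Frame κ R) (k : κ) (v : Mon J J') {t : J → ℝ} {t' : J' → ℝ}
    (h : ∀ j, t' (v.σ j) = t j) (a : Matrix J J R) :
    cjH R v (PU F k t * a) = PU F k t' * cjH R v a := by
  simp only [cjH_apply]
  rw [← Matrix.mul_assoc, V_PU F k v h]
  simp only [Matrix.mul_assoc]

theorem cj_PU_right {κ : Type*} (F : Frame κ R) (k : κ) (v : Mon J J') {t : J → ℝ} {t' : J' → ℝ}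
    (h : ∀ j, t' (v.σ j) = t j) (a : Matrix J J R) :
    cjH R v (a * PU F k t) = cjH R v a * PU F k t' := by
  have h1 := cj_PU_left F k v h aᴴ
  have h2 := congrArg conjTranspose h1
  simp only [cjH_apply, conjTranspose_mul, conjTranspose_conjTranspose, PU_star] at h2 ⊢
  simpa only [Matrix.mul_assoc] using h2

end mono

section punat

variable {κ : Type*} {R R' : Type*} [Ring R] [StarRing R] [Algebra ℂ R] [StarModule ℂ R]
  [Ring R'] [StarRing R'] [Algebra ℂ R'] [StarModule ℂ R']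
variable {J J' : Type*} [Fintype J] [DecidableEq J] [Fintype J'] [DecidableEq J']

/-- compatibility with the control projections (thresholds functions of the degree) -/
def PUNat (F : Frame κ R) (F' : Frame κ R') (deg : J → ℤ) (deg' : J' → ℤ)
    (φ : Matrix J J R →⋆ₙₐ[ℂ] Matrix J' J' R') : Prop :=
  ∀ (k : κ) (f : ℤ → ℝ) (a : Matrix J J R),
    φ (a * PU F k (fun j => f (deg j))) = φ a * PU F' k (fun j => f (deg' j))

theorem PU_fl (F : Frame κ R) (k : κ) (t : Fin 2 × J → ℝ) :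
    PU F k t = fl !![PU F k (fun j => t (0, j)), 0; 0, PU F k (fun j => t (1, j))] := by
  unfold PU
  rw [fl_diag]
  congr 1
  ext ⟨a, j⟩
  fin_cases a <;> simp

theorem fin2_mul_diag {A : Type*} [Ring A] (M : Matrix (Fin 2) (Fin 2) A) (d e : A) :
    M * !![d, 0; 0, e] = !![M 0 0 * d, M 0 1 * e; M 1 0 * d, M 1 1 * e] := by
  ext i j; fin_cases i <;> fin_cases j <;> simp [Matrix.mul_apply, Fin.sum_univ_two]

variable {φ : Matrix J J R →⋆ₙₐ[ℂ] Matrix J' J' R'}
  {φ2 : Matrix (Fin 2 × J) (Fin 2 × J) R →⋆ₙₐ[ℂ] Matrix (Fin 2 × J') (Fin 2 × J') R'}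
  {φ3 : Matrix (Fin 2 × (Fin 2 × J)) (Fin 2 × (Fin 2 × J)) R →⋆ₙₐ[ℂ]
    Matrix (Fin 2 × (Fin 2 × J')) (Fin 2 × (Fin 2 × J')) R'}
  {F : Frame κ R} {F' : Frame κ R'} {deg : J → ℤ} {deg' : J' → ℤ}

theorem PUNat.two (α : Fin 2 → ℤ → ℤ) (h : Compat φ φ2) (hp : PUNat F F' deg deg' φ) :
    PUNat F F' (fun a : Fin 2 × J => α a.1 (deg a.2)) (fun a : Fin 2 × J' => α a.1 (deg' a.2))
      φ2 := by
  intro k f a
  obtain ⟨M, rfl⟩ : ∃ M, a = fl M := ⟨fun i j => fun x y => a (i, x) (j, y), rfl⟩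
  have e0 := hp k (fun n => f (α 0 n))
  have e1 := hp k (fun n => f (α 1 n))
  rw [PU_fl, ← fl_mul, h, h, PU_fl, ← fl_mul, fin2_mul_diag, fin2_mul_diag]
  congr 1
  ext i j : 1
  fin_cases i <;> fin_cases j <;> simp [e0, e1]

theorem PUNat.degD (m : ℕ) (h : Compat φ φ2) (hp : PUNat F F' deg deg' φ) :
    PUNat F F' (degD m deg) (degD m deg') φ2 :=
  hp.two (fun a n => if a = 0 then n else m - n) h

theorem PUNat.degB (m : ℕ) (h : Compat φ φ2) (hp : PUNat F F' deg deg' φ) :
    PUNat F F' (degB m deg) (degB m deg') φ2 :=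
  hp.two (fun a n => if a = 0 then n - 1 else (m + 1) - n) h

theorem wallP_nat (hp : PUNat F F' deg deg' φ) (k : κ) (c δ : ℝ) (p : Matrix J J R) :
    φ (wallP F k c δ deg p) = wallP F' k c δ deg' (φ p) := by
  unfold wallP
  rw [mul_sub, mul_one, mul_sub, mul_one, map_sub]
  congr 1
  exact hp k (fun n => c - δ * Real.arctan n) p

theorem stripQ_nat (hp : PUNat F F' deg deg' φ) (k : κ) (b δ : ℝ) (m : ℕ) (P : Matrix J J R) :
    (stripQ F k b δ m deg P).map φ = stripQ F' k b δ m deg' (φ P) := by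
  unfold stripQ
  rw [diag_map]
  have e0 := hp k (fun n => b - δ * Real.arctan (n - 1 : ℤ)) P
  have e1 := hp k (fun n => b - δ * Real.arctan ((m + 1) - n : ℤ)) P
  refine fin2_eq ?_ rfl rfl ?_
  · exact e0
  · exact e1

theorem cutT_nat (h : Compat φ φ2) (hp : PUNat F F' deg deg' φ) (a : Par κ) (m : ℕ)
    (z : Tup (Matrix J J R)) :
    cutT F' a m deg' (z.map φ) = (cutT F a m deg z).map φ2 := by
  unfold cutT
  have e1 : (z.map φ).p = φ z.p := rfl
  rw [e1, ← wallP_nat hp, ← stripQ_nat hp, ← cutG_map, h.cutR]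

theorem cut_nat (h : Compat φ φ2) (h2 : Compat φ2 φ3) (hp : PUNat F F' deg deg' φ) (a : Par κ)
    (m : ℕ) (x : RPr (Matrix J J R)) :
    cut F' a m deg' (x.map φ) = (cut F a m deg x).map φ3 := by
  unfold cut
  rw [h.dblT, cutT_nat h2 (hp.degD (m + 1) h)]

theorem punat_cj (F : Frame κ R) (v : Mon J J') {deg : J → ℤ} {deg' : J' → ℤ}
    (h : ∀ j, deg' (v.σ j) = deg j) : PUNat F F deg deg' (cjH R v) := by
  intro k f a
  exact cj_PU_right F k v (fun j => by rw [h j]) a

theorem punat_map {ϕ : R →⋆ₙₐ[ℂ] R'} (h : ∀ k c, ϕ (F.pu k c) = F'.pu k c) (deg : J → ℤ) :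
    PUNat F F' deg deg (mapH J ϕ) := by
  intro k f a
  rw [map_mul]
  congr 1
  ext i j
  simp only [mapH_apply, PU, Matrix.map_apply, diagonal_apply]
  split_ifs <;> simp [h]

end punat

section redn

variable {κ : Type*} {R R' : Type*} [Ring R] [StarRing R] [Algebra ℂ R] [StarModule ℂ R]
  [Ring R'] [StarRing R'] [Algebra ℂ R'] [StarModule ℂ R']

/-- entrywise image of a bundled object -/
def mapO (ϕ : R →⋆ₙₐ[ℂ] R') (X : Obj R) : Obj R' := ⟨X.J, X.ft, X.de, X.deg, X.x.map (mapH X.J ϕ)⟩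

theorem red_map {F : Frame κ R} {F' : Frame κ R'} {ϕ : R →⋆ₙₐ[ℂ] R'}
    (h : ∀ k c, ϕ (F.pu k c) = F'.pu k c) (l : List (Par κ)) (X : Obj R) :
    red F' l (mapO ϕ X) = mapO ϕ (red F l X) := by
  induction l generalizing X with
  | nil => rfl
  | cons a l ih =>
    show red F' l (cutO F' a l.length (mapO ϕ X)) = mapO ϕ (red F l (cutO F a l.length X))
    rw [← ih]
    congr 1
    unfold cutO mapO
    congr 1
    exact cut_nat (compat_map ϕ) (compat_map ϕ) (punat_map h X.deg) a l.length X.x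

/-- two objects related by a monomial isometry -/
def Iso (X Y : Obj R) : Prop :=
  ∃ v : Mon X.J Y.J, (∀ j, Y.deg (v.σ j) = X.deg j) ∧ Y.x = X.x.map (cjH R v)

theorem red_iso (F : Frame κ R) (l : List (Par κ)) {X Y : Obj R} (h : Iso X Y) :
    Iso (red F l X) (red F l Y) := by
  induction l generalizing X Y with
  | nil => exact h
  | cons a l ih =>
    apply ih
    obtain ⟨v, h1, h2⟩ := h
    refine ⟨v.two.two, ?_, ?_⟩
    · rintro ⟨i, j, x⟩
      simp [cutO, Mon.two, degB, degD, h1]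
    · show cut F a l.length Y.deg Y.x = _
      rw [h2]
      exact cut_nat (compat_cj v) (compat_cj v.two) (punat_cj F v h1) a l.length X.x

end redn

end Crest.Agent.R217.Nat52
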