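import Mathlib
import Crest.Agent.R217.PC_473

/-!
Row 217 (S0336), part C, module M4: abstract local algebras (frames), objects.

* `SHom φ` : (non-unital) star-algebra homomorphism, as a predicate on functions.
* `Frame κ R` : local algebra `R` with diagonal part `dg`, control projections `pu k c`, box `lo, hi`.
* `FHom F F' φ` : morphism of frames (control projections only sandwiched).
* `Hom`, `IsDg`, `Below`, `Above` : homogeneous / diagonal / supported elements of `Matrix J J R`.
* `IsOb F m S deg x` : `x : Tup (Matrix J J R)` is an object of dimension `m`, bounded in directions `S`.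
-/

set_option autoImplicit false
set_option linter.unusedSectionVars false

namespace Crest.Agent.R217.Frame52

open Matrix PC473

/-! ### Star homomorphisms as predicates -/

section shom

variable {A B C : Type*} [Ring A] [StarRing A] [Algebra ℂ A] [Ring B] [StarRing B] [Algebra ℂ B]
  [Ring C] [StarRing C] [Algebra ℂ C]

/-- non-unital `*`-homomorphism of `ℂ`-algebras, as a predicate -/
structure SHom (φ : A → B) : Prop where
  add : ∀ a b, φ (a + b) = φ a + φ b
  mul : ∀ a b, φ (a * b) = φ a * φ b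
  smul : ∀ (c : ℂ) (a), φ (c • a) = c • φ a
  star : ∀ a, φ (star a) = star (φ a)

namespace SHom

variable {φ : A → B} (h : SHom φ)
include h

theorem zero : φ 0 = 0 := by
  have := h.smul 0 0
  simpa using this

theorem neg (a : A) : φ (-a) = -φ a := by
  have := h.smul (-1) a
  simpa using this

theorem sub (a b : A) : φ (a - b) = φ a - φ b := by
  rw [sub_eq_add_neg, h.add, h.neg, ← sub_eq_add_neg]

theorem npow (m : ℕ) (a : A) : φ ((-1 : A) ^ m * a) = (-1 : B) ^ m * φ a := by
  rcases Nat.even_or_odd m with hm | hm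
  · simp [hm.neg_one_pow]
  · simp [hm.neg_one_pow, h.neg]

theorem comp {ψ : B → C} (h' : SHom ψ) : SHom (fun a => ψ (φ a)) where
  add a b := by simp only [h.add, h'.add]
  mul a b := by simp only [h.mul, h'.mul]
  smul c a := by simp only [h.smul, h'.smul]
  star a := by simp only [h.star, h'.star]

end SHom

theorem SHom.id : SHom (fun a : A => a) where
  add _ _ := rfl
  mul _ _ := rfl
  smul _ _ := rfl
  star _ := rfl

theorem SHom.ofHom [StarModule ℂ A] [StarModule ℂ B] (φ : A →⋆ₐ[ℂ] B) : SHom φ where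
  add := map_add φ
  mul := map_mul φ
  smul := map_smul φ
  star := map_star φ

theorem SHom.mapM {φ : A → B} (h : SHom φ) {J : Type*} [Fintype J] [DecidableEq J] :
    SHom (fun M : Matrix J J A => M.map φ) where
  add a b := by ext i j; simp [h.add]
  mul a b := by
    ext i j
    simp only [Matrix.map_apply, Matrix.mul_apply]
    classical
    have : ∀ s : Finset J, φ (∑ k ∈ s, a i k * b k j) = ∑ k ∈ s, φ (a i k) * φ (b k j) := by
      intro s
      induction s using Finset.induction_on with
      | empty => simpa using h.zero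
      | insert x s hx ih => rw [Finset.sum_insert hx, Finset.sum_insert hx, h.add, h.mul, ih]
    exact this _
  smul c a := by ext i j; simp [h.smul]
  star a := by ext i j; simp [Matrix.star_apply, h.star]

theorem _root_.Crest.Agent.R217.PC473.Tup.IsPC.smap {m : ℕ} {x : Tup A} (hx : x.IsPC m) {φ : A → B}
    (h : SHom φ) : (x.map φ).IsPC m where
  pp := by simp only [Tup.map]; rw [← h.mul, hx.pp]
  sp := by simp only [Tup.map]; rw [← h.star, hx.sp]
  gg := by simp only [Tup.map]; rw [← h.mul, hx.gg]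
  sg := by simp only [Tup.map]; rw [← h.star, hx.sg]
  pg := by simp only [Tup.map]; rw [← h.mul, hx.pg]
  pd := by simp only [Tup.map]; rw [← h.mul, hx.pd]
  dp := by simp only [Tup.map]; rw [← h.mul, hx.dp]
  pS := by simp only [Tup.map]; rw [← h.mul, hx.pS]
  pT := by simp only [Tup.map]; rw [← h.mul, hx.pT]
  pH := by simp only [Tup.map]; rw [← h.mul, hx.pH]
  Hp := by simp only [Tup.map]; rw [← h.mul, hx.Hp]
  dd := by simp only [Tup.map]; rw [← h.mul, hx.dd, h.zero]
  sS := by simp only [Tup.map]; rw [← h.star, hx.sS]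
  sT := by simp only [Tup.map]; rw [← h.star, hx.sT]
  dS := by simp only [Tup.map]; rw [← h.star, ← h.mul, ← h.mul, ← h.add, hx.dS, h.zero]
  Td := by simp only [Tup.map]; rw [← h.star, ← h.mul, ← h.mul, ← h.add, hx.Td, h.zero]
  ST := by simp only [Tup.map]; rw [← h.mul, ← h.mul, ← h.mul, ← h.add, ← h.add, hx.ST]
  gd := by simp only [Tup.map]; rw [← h.mul, ← h.mul, ← h.neg, hx.gd]
  gS := by simp only [Tup.map]; rw [← h.mul, hx.gS, h.npow, h.mul]
  gT := by simp only [Tup.map]; rw [← h.mul, hx.gT, h.npow, h.mul]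
  gH := by simp only [Tup.map]; rw [← h.mul, ← h.mul, ← h.neg, hx.gH]

theorem _root_.Crest.Agent.R217.PC473.RPr.IsRP.smap {m : ℕ} {x : RPr A} (hx : x.IsRP m) {φ : A → B}
    (h : SHom φ) : (x.map φ).IsRP m where
  pp := by simp only [RPr.map]; rw [← h.mul, hx.pp]
  sp := by simp only [RPr.map]; rw [← h.star, hx.sp]
  gg := by simp only [RPr.map]; rw [← h.mul, hx.gg]
  sg := by simp only [RPr.map]; rw [← h.star, hx.sg]
  pg := by simp only [RPr.map]; rw [← h.mul, hx.pg]
  pd := by simp only [RPr.map]; rw [← h.mul, hx.pd]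
  dp := by simp only [RPr.map]; rw [← h.mul, hx.dp]
  pf := by simp only [RPr.map]; rw [← h.mul, hx.pf]
  pq := by simp only [RPr.map]; rw [← h.mul, hx.pq]
  ph := by simp only [RPr.map]; rw [← h.mul, hx.ph]
  hp := by simp only [RPr.map]; rw [← h.mul, hx.hp]
  dd := by simp only [RPr.map]; rw [← h.mul, hx.dd, h.zero]
  sf := by simp only [RPr.map]; rw [← h.star, hx.sf]
  sq := by simp only [RPr.map]; rw [← h.star, hx.sq]
  df := by simp only [RPr.map]; rw [← h.star, ← h.mul, ← h.mul, ← h.add, hx.df, h.zero]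
  qd := by simp only [RPr.map]; rw [← h.star, ← h.mul, ← h.mul, ← h.add, hx.qd, h.zero]
  fqf := by
    simp only [RPr.map]; rw [← h.star, ← h.mul, ← h.mul, ← h.mul, ← h.mul, ← h.add,
      ← h.sub, hx.fqf]
  gd := by simp only [RPr.map]; rw [← h.mul, ← h.mul, ← h.neg, hx.gd]
  gf := by simp only [RPr.map]; rw [← h.mul, hx.gf, h.npow, h.mul]
  gq := by simp only [RPr.map]; rw [← h.mul, hx.gq, h.npow, h.mul]
  gh := by simp only [RPr.map]; rw [← h.mul, hx.gh, h.neg, h.npow, h.mul]

end shom

/-! ### Frames -/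

/-- abstract local algebra with control projections -/
structure Frame (κ : Type*) (R : Type*) [Ring R] [StarRing R] [Algebra ℂ R] [StarModule ℂ R] where
  dg : StarSubalgebra ℂ R
  dg_comm : ∀ a ∈ dg, ∀ b ∈ dg, a * b = b * a
  pu : κ → ℝ → R
  pu_dg : ∀ k c, pu k c ∈ dg
  pu_star : ∀ k c, star (pu k c) = pu k c
  pu_mul : ∀ k (s t : ℝ), s ≤ t → pu k s * pu k t = pu k s
  loc : ∀ k (s t : ℝ), s < t → ∀ a, pu k s * a * (1 - pu k t) = 0
  lo : κ → ℝ
  hi : κ → ℝ
  lt : ∀ k, lo k < hi k

section frame

variable {κ : Type*} {R R' : Type*} [Ring R] [StarRing R] [Algebra ℂ R] [StarModule ℂ R]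
  [Ring R'] [StarRing R'] [Algebra ℂ R'] [StarModule ℂ R']

theorem Frame.loc' (F : Frame κ R) (k : κ) (s t : ℝ) (h : s < t) (a : R) :
    (1 - F.pu k t) * a * F.pu k s = 0 := by
  have := F.loc k s t h (star a)
  have h2 := congrArg star this
  simpa [star_mul, F.pu_star, mul_assoc] using h2

/-- morphism of frames: control projections are sandwiched -/
structure FHom (F : Frame κ R) (F' : Frame κ R') (φ : R → R') : Prop extends SHom φ where
  one : φ 1 = 1
  dg : ∀ a ∈ F.dg, φ a ∈ F'.dg
  pu_le : ∀ k (s t : ℝ), s < t → F'.pu k t * φ (F.pu k s) = φ (F.pu k s)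
  le_pu : ∀ k (s t : ℝ), s < t → φ (F.pu k t) * F'.pu k s = F'.pu k s
  lo : ∀ k, F'.lo k ≤ F.lo k
  hi : ∀ k, F.hi k ≤ F'.hi k

end frame

end Crest.Agent.R217.Frame52
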