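import Crest.Agent.R217.PCnat_473
import Crest.Agent.R217.Frame_52

/-!
Row 217 (S0336), part C1: naturality of the words under `SHom` (helper52's predicate), the wall
formula for `KK (bdry m x P) (cutG x P)`.
-/

set_option autoImplicit false
set_option linter.unusedSectionVars false
set_option linter.unusedSimpArgs false
set_option linter.unusedVariables false

namespace Crest.Agent.R217.PC473

open Matrix Crest.Agent.R217.Frame52

section nat

variable {A B : Type*} [Ring A] [StarRing A] [Algebra ℂ A] [StarModule ℂ A]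
  [Ring B] [StarRing B] [Algebra ℂ B] [StarModule ℂ B] {φ : A → B}

theorem sh_two (h : SHom φ) (x : A) : φ (2 * x) = 2 * φ x := by
  rw [two_mul, h.add, two_mul]

theorem sh_four (h : SHom φ) (x : A) : φ (4 * x) = 4 * φ x := by
  have h4 : (4 : A) * x = 2 * (2 * x) := by rw [← mul_assoc]; norm_num
  have h5 : (4 : B) * φ x = 2 * (2 * φ x) := by rw [← mul_assoc]; norm_num
  rw [h4, h5, sh_two h, sh_two h]

theorem sh_aa (h : SHom φ) (m : ℕ) (x : A) : φ (aa m x) = aa m (φ x) := by
  unfold aa; rw [h.smul]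

theorem dbl_sh (h : SHom φ) (m : ℕ) (x : RPr A) :
    (dbl m x).map (fun M => M.map φ) = dbl m (x.map φ) := by
  simp only [dbl, Tup.map, RPr.map, map_fin2]
  repeat first
    | simp only [h.zero, h.npow, sh_two h, sh_four h, sh_aa h, h.sub, h.neg, h.star]
    | rw [h.mul]

theorem trunc_sh (h : SHom φ) (x : Tup A) (P : A) :
    (trunc x P).map φ = trunc (x.map φ) (φ P) := by
  simp only [trunc, Tup.map, h.mul, h.zero]

theorem bdry0_sh (h : SHom φ) (m : ℕ) (x : Tup A) :
    (bdry0 m x).map (fun M => M.map φ) = bdry0 m (x.map φ) := by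
  simp only [bdry0, Tup.map, map_fin2, h.zero, h.npow, sh_aa h, h.neg, h.star]
  congr 1
  ext i j; simp [h.zero]

theorem bdry_sh (h : SHom φ) (m : ℕ) (x : Tup A) (P : A) :
    (bdry m x P).map (fun M => M.map φ) = bdry m (x.map φ) (φ P) := by
  unfold bdry; rw [bdry0_sh h, trunc_sh h]

theorem KK_sh (h : SHom φ) (x : Tup A) (G : A) : φ (KK x G) = KK (x.map φ) (φ G) := by
  simp only [KK, Tup.map, h.sub, h.mul]

theorem compr_sh (h : SHom φ) (x : Tup A) (G Q : A) :
    (compr x G Q).map φ = compr (x.map φ) (φ G) (φ Q) := by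
  simp only [compr, RPr.map, h.mul, h.star, KK_sh h, h.sub, h.add]
  simp only [Tup.map]

theorem coneD_sh (h : SHom φ) (x : Tup A) : (coneD x).map φ = coneD (x.map φ) := by
  simp only [coneD, Tup.map, map_fin2, h.zero, h.star]

theorem coneG_sh (h : SHom φ) (x : Tup A) : (coneG x).map φ = coneG (x.map φ) := by
  simp only [coneG, Tup.map, map_fin2, h.star, h.neg, h.sub, h.mul, h.add]

theorem cutG_sh (h : SHom φ) (x : Tup A) (P : A) :
    (cutG x P).map φ = cutG (x.map φ) (φ P) := by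
  have hM := SHom.mapM h (J := Fin 2)
  simp only [cutG]
  rw [hM.mul, hM.mul, coneG_sh h, map_fin2, h.zero]

theorem Tup.neg_map (h : SHom φ) (x : Tup A) : (x.neg).map φ = (x.map φ).neg := by
  simp only [Tup.neg, Tup.map, h.neg]

theorem RPr.neg_map (h : SHom φ) (x : RPr A) : (x.neg).map φ = (x.map φ).neg := by
  simp only [RPr.neg, RPr.map, h.neg]

theorem conj_shom {u : A} (hu : star u * u = 1) : SHom (fun a : A => u * a * star u) where
  add a b := by noncomm_ring
  mul a b := by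
    rw [show u * a * star u * (u * b * star u) = u * a * (star u * u) * b * star u
      by noncomm_ring, hu]; noncomm_ring
  smul c a := by rw [mul_smul_comm, smul_mul_assoc]
  star a := by simp only [star_mul, star_star, mul_assoc]

theorem uu_star : star (uu : Matrix (Fin 2) (Fin 2) A) = uu := by
  simp [uu, star_fin2]

theorem uu_mul : (uu : Matrix (Fin 2) (Fin 2) A) * uu = 1 := by
  simp [uu, mul_fin_two, one_fin_two]

theorem coneG_neg (x : Tup A) : coneG x.neg = uu * coneG x * star uu := by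
  simp only [coneG, uu_conj, Tup.neg]
  refine fin2_eq rfl ?_ rfl ?_
  · noncomm_ring
  · noncomm_ring

theorem coneD_neg (x : Tup A) : coneD x.neg = uu * coneD x * star uu := by
  simp only [coneD, uu_conj, Tup.neg, neg_zero]

theorem cutG_neg (x : Tup A) (P : A) : cutG x.neg P = uu * cutG x P * star uu := by
  have h1 : (!![P, 0; 0, P] : Matrix (Fin 2) (Fin 2) A) * uu = uu * !![P, 0; 0, P] := by
    simp [uu, mul_fin_two]
  simp only [cutG, coneG_neg, uu_star]
  rw [show !![P, 0; 0, P] * (uu * coneG x * uu) * !![P, 0; 0, P]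
    = (!![P, 0; 0, P] * uu) * coneG x * (uu * !![P, 0; 0, P]) by simp only [mul_assoc], h1,
    show uu * !![P, 0; 0, P] * coneG x * (uu * !![P, 0; 0, P])
    = uu * !![P, 0; 0, P] * coneG x * (!![P, 0; 0, P] * uu) by rw [h1]]
  simp only [mul_assoc]

end nat

section wall

variable {A : Type*} [Ring A] [StarRing A] [Algebra ℂ A] [StarModule ℂ A]

/-- `diag(P, P)` -/
def dg2 (P : A) : Matrix (Fin 2) (Fin 2) A := !![P, 0; 0, P]

theorem dg2_mul (P Q : A) : dg2 P * dg2 Q = dg2 (P * Q) := by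
  simp [dg2, mul_fin_two]

theorem dg2_star (P : A) : star (dg2 P) = dg2 (star P) := by
  simp [dg2, star_fin2]

theorem dg2_sub (P Q : A) : dg2 (P - Q) = dg2 P - dg2 Q := by
  simp [dg2, sub_fin2]

theorem dg2_one : dg2 (1 : A) = 1 := by
  simp [dg2, one_fin_two]

theorem bdry_p (m : ℕ) (x : Tup A) (P : A) : (bdry m x P).p = dg2 P := rfl

theorem IsQuot.Pp {x : Tup A} {P : A} (hP : IsQuot x P) (hsp : star x.p = x.p) : P * x.p = P := by
  have := congrArg star hP.pP
  rwa [star_mul, hsp, hP.sP] at this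

theorem IsQuot.PsdP {x : Tup A} {P : A} (hP : IsQuot x P) :
    P * star x.d * P = star x.d * P := by
  have := congrArg star hP.Pd
  simp only [star_mul, hP.sP] at this
  rw [mul_assoc, this]

theorem bdry_d {m : ℕ} {x : Tup A} {P : A} (hP : IsQuot x P) :
    (bdry m x P).d = dg2 P * coneD x * dg2 P := by
  have h1 := hP.PsdP
  have h2 := hP.Pd
  simp only [bdry, bdry0, trunc, dg2, coneD, mul_fin_two, zero_mul, mul_zero, add_zero, zero_add,
    star_mul, hP.sP]
  refine fin2_eq h2.symm rfl rfl h1.symm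

theorem cutG_eq (x : Tup A) (P : A) : cutG x P = dg2 P * coneG x * dg2 P := rfl

theorem coneD_p {m : ℕ} {x : Tup A} (hx : x.IsPC m) : dg2 x.p * coneD x = coneD x := by
  simp only [dg2, coneD, mul_fin_two, zero_mul, mul_zero, add_zero, zero_add, hx.pd, hx.pS, hx.psd]

theorem coneG_p {m : ℕ} {x : Tup A} (hx : x.IsPC m) : dg2 x.p * coneG x = coneG x := by
  simp only [dg2, coneG, mul_fin_two, zero_mul, mul_zero, add_zero, zero_add]
  refine fin2_eq ?_ ?_ ?_ ?_
  · rw [mul_neg, hx.pH]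
  · rw [mul_neg, ← mul_assoc, hx.pH]
  · exact hx.pT
  · rw [mul_sub, ← mul_assoc, hx.pT, hx.psH]

/-- WALL FORMULA: `K` of the cut is supported at the wall. -/
theorem KK_bdry {m : ℕ} {x : Tup A} {P : A} (hx : x.IsPC (m + 1)) (hP : IsQuot x P) :
    KK (bdry m x P) (cutG x P) =
      dg2 P * coneD x * (dg2 x.p - dg2 P) * coneG x * dg2 P
      + dg2 P * coneG x * (dg2 x.p - dg2 P) * coneD x * dg2 P := by
  unfold KK
  rw [bdry_d hP, cutG_eq, bdry_p]
  refine wall_formula (coneG_spec hx) ?_ ?_ (coneD_p hx) (coneG_p hx)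
  · rw [dg2_mul, dg2_mul, hP.Pp hx.sp, hP.PP]
  · rw [dg2_mul, hP.PP]

theorem cutG_odd {m : ℕ} {x : Tup A} {P : A} (hx : x.IsPC (m + 1)) (hP : IsQuot x P) :
    (bdry m x P).g * cutG x P = -(cutG x P * (bdry m x P).g) := by
  have gH := hx.gH
  have gT := hx.gT
  have gS := hx.gS
  have gsH := hx.gsH
  have hgN : x.g * (x.S * star x.H + x.H * x.S)
      = -((-1 : A) ^ (m + 1) * ((x.S * star x.H + x.H * x.S) * x.g)) := by
    rw [mul_add, ← mul_assoc x.g x.S, gS, ← mul_assoc x.g x.H, gH,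
      show (-1 : A) ^ (m + 1) * (x.S * x.g) * star x.H = (-1 : A) ^ (m + 1) * (x.S * (x.g * star x.H))
        by simp only [mul_assoc], gsH, show -(x.H * x.g) * x.S = -(x.H * (x.g * x.S))
        by noncomm_ring, gS]
    rcases neg_one_pow_eq_or A (m + 1) with h | h <;> rw [h] <;> noncomm_ring
  -- oddness of the full contraction
  have key : (!![-x.g, 0; 0, (-1) ^ (m + 1) * x.g] : Matrix (Fin 2) (Fin 2) A) * coneG x
      = -(coneG x * !![-x.g, 0; 0, (-1) ^ (m + 1) * x.g]) := by
    simp only [coneG, mul_fin_two, neg_fin2, zero_mul, mul_zero, add_zero, zero_add]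
    generalize x.S * star x.H + x.H * x.S = N at *
    refine fin2_eq ?_ ?_ ?_ ?_
    · rw [neg_mul_neg, gH]; noncomm_ring
    · rw [neg_mul_neg, ← mul_assoc, gH, show -(x.H * x.g) * N = -(x.H * (x.g * N)) by noncomm_ring,
        hgN]
      rcases neg_one_pow_eq_or A (m + 1) with h | h <;> rw [h] <;> noncomm_ring
    · rw [mul_assoc, gT]
      rcases neg_one_pow_eq_or A (m + 1) with h | h <;> rw [h] <;> noncomm_ring
    · rw [mul_assoc, mul_sub, ← mul_assoc, gT, gsH, mul_assoc, mul_assoc x.T x.g N, hgN]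
      rcases neg_one_pow_eq_or A (m + 1) with h | h <;> rw [h] <;> noncomm_ring
  have hg : (bdry m x P).g = dg2 P * !![-x.g, 0; 0, (-1) ^ (m + 1) * x.g] := by
    simp only [bdry, bdry0, trunc, dg2, mul_fin_two, zero_mul, mul_zero, add_zero, zero_add]
    refine fin2_eq ?_ rfl rfl ?_
    · noncomm_ring
    · rcases neg_one_pow_eq_or A (m + 1) with h | h <;> rw [h] <;> noncomm_ring
  have hg' : (bdry m x P).g = !![-x.g, 0; 0, (-1) ^ (m + 1) * x.g] * dg2 P := by
    rw [hg]
    simp only [dg2, mul_fin_two, zero_mul, mul_zero, add_zero, zero_add]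
    refine fin2_eq ?_ rfl rfl ?_
    · rw [neg_mul, hP.gP, mul_neg]
    · rw [mul_assoc, hP.gP]
      rcases neg_one_pow_eq_or A (m + 1) with h | h <;> rw [h] <;> noncomm_ring
  have hPP : dg2 P * dg2 P = dg2 P := by rw [dg2_mul, hP.PP]
  rw [cutG_eq]
  have e1 : (bdry m x P).g * (dg2 P * coneG x * dg2 P)
      = dg2 P * (!![-x.g, 0; 0, (-1) ^ (m + 1) * x.g] * coneG x) * dg2 P := by
    rw [hg']
    rw [show !![-x.g, 0; 0, (-1) ^ (m + 1) * x.g] * dg2 P * (dg2 P * coneG x * dg2 P)
      = (!![-x.g, 0; 0, (-1) ^ (m + 1) * x.g] * (dg2 P * dg2 P)) * coneG x * dg2 P by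
        simp only [mul_assoc], hPP, ← hg', hg]
    simp only [mul_assoc]
  have e2 : (dg2 P * coneG x * dg2 P) * (bdry m x P).g
      = dg2 P * (coneG x * !![-x.g, 0; 0, (-1) ^ (m + 1) * x.g]) * dg2 P := by
    rw [hg]
    rw [show dg2 P * coneG x * dg2 P * (dg2 P * !![-x.g, 0; 0, (-1) ^ (m + 1) * x.g])
      = dg2 P * coneG x * ((dg2 P * dg2 P) * !![-x.g, 0; 0, (-1) ^ (m + 1) * x.g]) by
        simp only [mul_assoc], hPP, ← hg, hg']
    simp only [mul_assoc]
  rw [e1, e2, key]
  simp only [mul_neg, neg_mul]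

/-- the hypotheses of the compression, from the strip conditions only -/
theorem isComp_cut {m : ℕ} {x : Tup A} {P : A} {Q : Matrix (Fin 2) (Fin 2) A}
    (hx : x.IsPC (m + 1)) (hP : IsQuot x P) (QQ : Q * Q = Q) (sQ : star Q = Q)
    (pQ : dg2 P * Q = Q) (dQ : Q * (bdry m x P).d * Q = (bdry m x P).d * Q)
    (gQ : (bdry m x P).g * Q = Q * (bdry m x P).g)
    (QK : Q * KK (bdry m x P) (cutG x P) = KK (bdry m x P) (cutG x P)) :
    IsComp (bdry m x P) (cutG x P) Q where
  pG := by
    rw [bdry_p, cutG_eq, ← mul_assoc, ← mul_assoc, dg2_mul, hP.PP]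
  Gp := by
    rw [bdry_p, cutG_eq, mul_assoc, dg2_mul, hP.PP]
  gG := cutG_odd hx hP
  BB := QQ
  sB := sQ
  pB := by rw [bdry_p]; exact pQ
  dB := dQ
  gB := gQ
  BK := QK

end wall

end Crest.Agent.R217.PC473
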