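import Mathlib
import Crest.Agent.R217.Nat_52
import Crest.Agent.R217.PCsh_473

/-!
Row 217 (S0336), part C, module M4: sums and negatives of objects.
-/

set_option autoImplicit false
set_option linter.unusedSectionVars false

namespace Crest.Agent.R217.Sum52

open Matrix PC473 Obj52 Nat52

section pair

variable {A B : Type*}

/-- pair of regular pairs over the product ring -/
def pairR (x y : RPr A) : RPr (A × A) :=
  ⟨(x.p, y.p), (x.g, y.g), (x.d, y.d), (x.f, y.f), (x.q, y.q), (x.h, y.h)⟩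

/-- pair of tuples over the product ring -/
def pairT (x y : Tup A) : Tup (A × A) :=
  ⟨(x.p, y.p), (x.g, y.g), (x.d, y.d), (x.S, y.S), (x.T, y.T), (x.H, y.H)⟩

/-- pair of matrices -/
def pairM {I : Type*} (G H : Matrix I I A) : Matrix I I (A × A) := fun i j => (G i j, H i j)

end pair

section sum

variable {R : Type*} [Ring R] [StarRing R] [Algebra ℂ R] [StarModule ℂ R]
variable {J : Type*} [Fintype J] [DecidableEq J]

/-- block sum -/
def sm (a b : Matrix J J R) : Matrix (Fin 2 × J) (Fin 2 × J) R := fl !![a, 0; 0, b]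

theorem sm_mul (a b c d : Matrix J J R) : sm a b * sm c d = sm (a * c) (b * d) := by
  unfold sm
  rw [← fl_mul, mul_fin_two]
  simp

theorem sm_add (a b c d : Matrix J J R) : sm a b + sm c d = sm (a + c) (b + d) := by
  ext ⟨i, x⟩ ⟨j, y⟩
  fin_cases i <;> fin_cases j <;> simp [sm, fl]

theorem sm_sub (a b c d : Matrix J J R) : sm a b - sm c d = sm (a - c) (b - d) := by
  ext ⟨i, x⟩ ⟨j, y⟩
  fin_cases i <;> fin_cases j <;> simp [sm, fl]

theorem sm_star (a b : Matrix J J R) : star (sm a b) = sm (star a) (star b) := by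
  ext ⟨i, x⟩ ⟨j, y⟩
  fin_cases i <;> fin_cases j <;> simp [sm, fl, star_apply]

theorem sm_one : sm (1 : Matrix J J R) 1 = 1 := by
  unfold sm
  rw [← fl_one]
  congr 1
  ext i j : 1
  fin_cases i <;> fin_cases j <;> simp

/-- block sum as a star homomorphism of the product -/
def smH : (Matrix J J R × Matrix J J R) →⋆ₙₐ[ℂ] Matrix (Fin 2 × J) (Fin 2 × J) R where
  toFun ab := sm ab.1 ab.2
  map_smul' c ab := by
    ext ⟨i, x⟩ ⟨j, y⟩
    fin_cases i <;> fin_cases j <;> simp [sm, fl]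
  map_zero' := by
    ext ⟨i, x⟩ ⟨j, y⟩
    fin_cases i <;> fin_cases j <;> simp [sm, fl]
  map_add' a b := (sm_add _ _ _ _).symm
  map_mul' a b := (sm_mul _ _ _ _).symm
  map_star' a := (sm_star _ _).symm

@[simp] theorem smH_apply (ab : Matrix J J R × Matrix J J R) : smH ab = sm ab.1 ab.2 := rfl

/-- sum of regular pairs over the same index type -/
def sumR (x y : RPr (Matrix J J R)) : RPr (Matrix (Fin 2 × J) (Fin 2 × J) R) :=
  (pairR x y).map smH

/-- sum of tuples over the same index type -/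
def sumT (x y : Tup (Matrix J J R)) : Tup (Matrix (Fin 2 × J) (Fin 2 × J) R) :=
  (pairT x y).map smH

/-- sum of 2×2 matrices of matrices -/
def sumM (G H : Matrix (Fin 2) (Fin 2) (Matrix J J R)) :
    Matrix (Fin 2) (Fin 2) (Matrix (Fin 2 × J) (Fin 2 × J) R) :=
  (pairM G H).map smH

/-- swap of the first two factors -/
def sw (J : Type*) : Mon (Fin 2 × (Fin 2 × J)) (Fin 2 × (Fin 2 × J)) where
  σ a := (a.2.1, (a.1, a.2.2))
  inj := by
    rintro ⟨a, b, i⟩ ⟨a', b', i'⟩ h
    simp only [Prod.mk.injEq] at h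
    obtain ⟨h1, h2, h3⟩ := h
    rw [h1, h2, h3]
  ε _ := 1
  unit _ := by simp

theorem cj_apply_σ {J J' : Type*} [Fintype J] [DecidableEq J] [Fintype J'] [DecidableEq J']
    (v : Mon J J') (a : Matrix J J R) (i j : J) :
    cjH R v a (v.σ i) (v.σ j) = (v.ε i * star (v.ε j)) • a i j := by
  simp only [cjH_apply, Matrix.mul_apply, Matrix.conjTranspose_apply, Mon.V]
  rw [Finset.sum_eq_single j]
  · rw [Finset.sum_eq_single i]
    · simp only [if_true]
      rw [← algebraMap_star_comm, ← Algebra.commutes, ← mul_assoc, ← map_mul, Algebra.smul_def,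
        mul_comm]
    · intro b _ hb
      rw [if_neg (fun h => hb (v.inj h).symm), zero_mul]
    · simp
  · intro b _ hb
    rw [if_neg (fun h => hb (v.inj h).symm), star_zero, mul_zero]
  · simp

theorem fl_smH (M : Matrix (Fin 2) (Fin 2) (Matrix J J R × Matrix J J R)) :
    fl (M.map smH) = cjH R (sw J) (sm (fl (M.map Prod.fst)) (fl (M.map Prod.snd))) := by
  funext x y
  obtain ⟨a, b, i⟩ := x
  obtain ⟨c, d, j⟩ := y
  refine Eq.trans ?_ (cj_apply_σ (sw J) (sm (fl (M.map Prod.fst)) (fl (M.map Prod.snd)))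
    (b, a, i) (d, c, j)).symm
  simp only [fl, sm, sw, star_one, mul_one, one_smul]
  fin_cases b <;> fin_cases d <;> simp [sm, fl]

theorem pairR_fst {A : Type*} (x y : RPr A) : (pairR x y).map Prod.fst = x := rfl
theorem pairR_snd {A : Type*} (x y : RPr A) : (pairR x y).map Prod.snd = y := rfl
theorem pairT_fst {A : Type*} (x y : Tup A) : (pairT x y).map Prod.fst = x := rfl
theorem pairT_snd {A : Type*} (x y : Tup A) : (pairT x y).map Prod.snd = y := rfl

theorem dblT_sum (m : ℕ) (x y : RPr (Matrix J J R)) :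
    dblT m (sumR x y) = (sumT (dblT m x) (dblT m y)).map (cjH R (sw J)) := by
  unfold dblT sumR
  rw [← dbl_map]
  have h1 := dbl_map (NonUnitalStarAlgHom.fst ℂ (Matrix J J R) (Matrix J J R)) m (pairR x y)
  have h2 := dbl_map (NonUnitalStarAlgHom.snd ℂ (Matrix J J R) (Matrix J J R)) m (pairR x y)
  have e1 : (pairR x y).map (NonUnitalStarAlgHom.fst ℂ (Matrix J J R) (Matrix J J R)) = x := rfl
  have e2 : (pairR x y).map (NonUnitalStarAlgHom.snd ℂ (Matrix J J R) (Matrix J J R)) = y := rfl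
  rw [e1] at h1
  rw [e2] at h2
  rw [← h1, ← h2]
  generalize dbl m (pairR x y) = Z
  simp only [Tup.map, sumT, pairT, smH_apply, fl_smH]
  rfl

theorem pairM_fst {A I : Type*} (G H : Matrix I I A) : (pairM G H).map Prod.fst = G := rfl
theorem pairM_snd {A I : Type*} (G H : Matrix I I A) : (pairM G H).map Prod.snd = H := rfl

theorem cutR_sum (m : ℕ) (z w : Tup (Matrix J J R)) (P P' : Matrix J J R)
    (G Q G' Q' : Matrix (Fin 2) (Fin 2) (Matrix J J R)) :
    cutR m (sumT z w) (sm P P') (sumM G G') (sumM Q Q') =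
      (sumR (cutR m z P G Q) (cutR m w P' G' Q')).map (cjH R (sw J)) := by
  unfold cutR sumT sumM
  have e0 : sm P P' = smH (P, P') := rfl
  rw [e0, ← bdry_map]
  have := compr_map (mapH (Fin 2) (smH (R := R) (J := J)))
    (bdry m (pairT z w) (P, P')) (pairM G G') (pairM Q Q')
  simp only [mapH_apply] at this
  rw [show (fun M : Matrix (Fin 2) (Fin 2) (Matrix J J R × Matrix J J R) => M.map smH)
    = ⇑(mapH (Fin 2) (smH (R := R) (J := J))) from rfl, ← this]
  have f1 := compr_map (mapH (Fin 2) (NonUnitalStarAlgHom.fst ℂ (Matrix J J R) (Matrix J J R)))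
    (bdry m (pairT z w) (P, P')) (pairM G G') (pairM Q Q')
  have f2 := compr_map (mapH (Fin 2) (NonUnitalStarAlgHom.snd ℂ (Matrix J J R) (Matrix J J R)))
    (bdry m (pairT z w) (P, P')) (pairM G G') (pairM Q Q')
  have g1 := bdry_map (NonUnitalStarAlgHom.fst ℂ (Matrix J J R) (Matrix J J R)) m
    (pairT z w) (P, P')
  have g2 := bdry_map (NonUnitalStarAlgHom.snd ℂ (Matrix J J R) (Matrix J J R)) m
    (pairT z w) (P, P')
  have e1 : (bdry m (pairT z w) (P, P')).map
      (mapH (Fin 2) (NonUnitalStarAlgHom.fst ℂ (Matrix J J R) (Matrix J J R))) = bdry m z P := g1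
  have e2 : (bdry m (pairT z w) (P, P')).map
      (mapH (Fin 2) (NonUnitalStarAlgHom.snd ℂ (Matrix J J R) (Matrix J J R))) = bdry m w P' := g2
  rw [e1] at f1
  rw [e2] at f2
  have k1 : mapH (Fin 2) (NonUnitalStarAlgHom.fst ℂ (Matrix J J R) (Matrix J J R)) (pairM G G')
    = G := rfl
  have k2 : mapH (Fin 2) (NonUnitalStarAlgHom.fst ℂ (Matrix J J R) (Matrix J J R)) (pairM Q Q')
    = Q := rfl
  have k3 : mapH (Fin 2) (NonUnitalStarAlgHom.snd ℂ (Matrix J J R) (Matrix J J R)) (pairM G G')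
    = G' := rfl
  have k4 : mapH (Fin 2) (NonUnitalStarAlgHom.snd ℂ (Matrix J J R) (Matrix J J R)) (pairM Q Q')
    = Q' := rfl
  rw [k1, k2] at f1
  rw [k3, k4] at f2
  rw [← f1, ← f2]
  generalize compr (bdry m (pairT z w) (P, P')) (pairM G G') (pairM Q Q') = Z
  simp only [RPr.map, sumR, pairR, smH_apply, fl_smH, mapH_apply]
  rfl

end sum

section sumcut

variable {κ : Type*} {R : Type*} [Ring R] [StarRing R] [Algebra ℂ R] [StarModule ℂ R]
variable {J : Type*} [Fintype J] [DecidableEq J]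

/-- degree of the sum -/
def deg2 (deg : J → ℤ) : Fin 2 × J → ℤ := fun a => deg a.2

theorem sm_PU (F : Frame κ R) (k : κ) (t : J → ℝ) :
    PU F k (fun a : Fin 2 × J => t a.2) = sm (PU F k t) (PU F k t) := by
  rw [PU_fl]; rfl

theorem wallP_sum (F : Frame κ R) (k : κ) (c δ : ℝ) (deg : J → ℤ) (p p' : Matrix J J R) :
    wallP F k c δ (deg2 deg) (sm p p') = sm (wallP F k c δ deg p) (wallP F k c δ deg p') := by
  unfold wallP
  rw [show PU F k (thr c δ (deg2 deg)) = sm (PU F k (thr c δ deg)) (PU F k (thr c δ deg)) from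
    sm_PU F k (thr c δ deg), ← sm_one, sm_sub, sm_mul]

theorem sumM_diag (a b a' b' : Matrix J J R) :
    sumM !![a, 0; 0, b] !![a', 0; 0, b'] = !![sm a a', 0; 0, sm b b'] := by
  ext i j : 1
  have h0 : sm (0 : Matrix J J R) 0 = 0 := smH.map_zero'
  fin_cases i <;> fin_cases j <;> simp [sumM, pairM, h0]

theorem stripQ_sum (F : Frame κ R) (k : κ) (b δ : ℝ) (m : ℕ) (deg : J → ℤ)
    (P P' : Matrix J J R) :
    stripQ F k b δ m (deg2 deg) (sm P P') = sumM (stripQ F k b δ m deg P)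
      (stripQ F k b δ m deg P') := by
  unfold stripQ
  rw [sumM_diag, ← sm_mul, ← sm_mul]
  refine fin2_eq ?_ rfl rfl ?_
  · rw [← sm_PU]; rfl
  · rw [← sm_PU]; rfl

theorem cutG_sum (z w : Tup (Matrix J J R)) (P P' : Matrix J J R) :
    cutG (sumT z w) (sm P P') = sumM (cutG z P) (cutG w P') := by
  have e0 : sm P P' = smH (P, P') := rfl
  unfold sumT
  rw [e0, ← cutG_map]
  have f1 := cutG_map (NonUnitalStarAlgHom.fst ℂ (Matrix J J R) (Matrix J J R)) (pairT z w) (P, P')
  have f2 := cutG_map (NonUnitalStarAlgHom.snd ℂ (Matrix J J R) (Matrix J J R)) (pairT z w) (P, P')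
  have e1 : cutG ((pairT z w).map (NonUnitalStarAlgHom.fst ℂ (Matrix J J R) (Matrix J J R)))
    (NonUnitalStarAlgHom.fst ℂ (Matrix J J R) (Matrix J J R) (P, P')) = cutG z P := rfl
  have e2 : cutG ((pairT z w).map (NonUnitalStarAlgHom.snd ℂ (Matrix J J R) (Matrix J J R)))
    (NonUnitalStarAlgHom.snd ℂ (Matrix J J R) (Matrix J J R) (P, P')) = cutG w P' := rfl
  rw [e1] at f1
  rw [e2] at f2
  unfold sumM
  congr 1
  rw [← f1, ← f2]
  rfl

theorem cutT_sum (F : Frame κ R) (a : Par κ) (m : ℕ) (deg : J → ℤ) (z w : Tup (Matrix J J R)) :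
    cutT F a m (deg2 deg) (sumT z w) =
      (sumR (cutT F a m deg z) (cutT F a m deg w)).map (cjH R (sw J)) := by
  unfold cutT
  rw [show (sumT z w).p = sm z.p w.p from rfl, wallP_sum, stripQ_sum, cutG_sum, cutR_sum]

theorem cut_sum (F : Frame κ R) (a : Par κ) (m : ℕ) (deg : J → ℤ) (x y : RPr (Matrix J J R)) :
    cut F a m (deg2 deg) (sumR x y) =
      ((sumR (cut F a m deg x) (cut F a m deg y)).map (cjH R (sw (Fin 2 × J)))).map
        (cjH R (sw J).two) := by
  unfold cut
  rw [← cutT_sum, dblT_sum]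
  exact cutT_nat (compat_cj (sw J)) (punat_cj F (sw J) (fun _ => rfl)) a m _

end sumcut

section neg

variable {κ : Type*} {R : Type*} [Ring R] [StarRing R] [Algebra ℂ R] [StarModule ℂ R]
variable {J : Type*} [Fintype J] [DecidableEq J]

/-- the sign `diag(1,-1)` -/
def sgn (J : Type*) : Mon (Fin 2 × J) (Fin 2 × J) where
  σ a := a
  inj := fun _ _ h => h
  ε a := if a.1 = 0 then 1 else -1
  unit a := by split_ifs <;> simp

theorem cj_id_apply (v : Mon J J) (hv : ∀ j, v.σ j = j) (a : Matrix J J R) (i j : J) :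
    cjH R v a i j = (v.ε i * star (v.ε j)) • a i j := by
  have := cj_apply_σ v a i j
  rwa [hv, hv] at this

theorem fl_uu (M : Matrix (Fin 2) (Fin 2) (Matrix J J R)) :
    fl (uu * M * star uu) = cjH R (sgn J) (fl M) := by
  obtain ⟨a, b, c, d, rfl⟩ : ∃ a b c d, M = !![a, b; c, d] := ⟨M 0 0, M 0 1, M 1 0, M 1 1, by
    ext i j; fin_cases i <;> fin_cases j <;> rfl⟩
  rw [uu_conj]
  funext x y
  obtain ⟨i, x⟩ := x
  obtain ⟨j, y⟩ := y
  rw [cj_id_apply (sgn J) (fun _ => rfl)]
  simp only [sgn]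
  fin_cases i <;> fin_cases j <;> simp [fl]

theorem dblT_neg (m : ℕ) (x : RPr (Matrix J J R)) :
    dblT m x.neg = ((dblT m x).map (cjH R (sgn J))).neg := by
  unfold dblT
  rw [dbl_neg]
  simp only [Tup.neg, Tup.conj, Tup.map, ← fl_uu]
  rfl

theorem uu_diag (a b : Matrix J J R) : uu * (!![a, 0; 0, b] : Matrix (Fin 2) (Fin 2) _) * star uu
    = !![a, 0; 0, b] := by
  rw [uu_conj]; simp

theorem cutR_neg (m : ℕ) (z : Tup (Matrix J J R)) (P : Matrix J J R)
    (G Q : Matrix (Fin 2) (Fin 2) (Matrix J J R)) :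
    cutR m z.neg P (uu * G * star uu) (uu * Q * star uu) =
      ((cutR m z P G Q).map (cjH R (sgn J))).neg := by
  unfold cutR
  rw [bdry_neg, compr_neg]
  have h := conj_shom (u := (uu : Matrix (Fin 2) (Fin 2) (Matrix J J R)))
      (by rw [uu_star, uu_mul])
  have e : compr ((bdry m z P).conj uu) (uu * G * star uu) (uu * Q * star uu)
      = (compr (bdry m z P) G Q).conj uu := (compr_sh h (bdry m z P) G Q).symm
  rw [e]
  simp only [RPr.neg, RPr.conj, RPr.map, ← fl_uu]
  rfl

theorem wallP_tneg (F : Frame κ R) (k : κ) (c δ : ℝ) (deg : J → ℤ) (z : Tup (Matrix J J R)) :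
    wallP F k c δ deg z.neg.p = wallP F k c δ deg z.p := rfl

theorem cutT_neg (F : Frame κ R) (a : Par κ) (m : ℕ) (deg : J → ℤ) (z : Tup (Matrix J J R)) :
    cutT F a m deg z.neg = ((cutT F a m deg z).map (cjH R (sgn J))).neg := by
  unfold cutT
  rw [wallP_tneg, cutG_neg, ← cutR_neg]
  congr 1
  unfold stripQ
  rw [uu_diag]

end neg

end Crest.Agent.R217.Sum52
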