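import Crest.Agent.R217.TForm_555
import Crest.Agent.R217.PCnat_473
import Crest.Agent.R217.Frame_52

/-!
Row 217 (S0336), part C1, helper555: naturality of the total form under `Frame52.SHom`, negation
and conjugation in the conventions of `PCnat_473`.
-/

set_option autoImplicit false
set_option linter.unusedSectionVars false

namespace Crest.Agent.R217.TForm555

open Matrix PC473 Frame52

variable {A B : Type*} [Ring A] [StarRing A] [Algebra ℂ A] [StarModule ℂ A]
  [Ring B] [StarRing B] [Algebra ℂ B] [StarModule ℂ B]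

theorem tform_smap {φ : A → B} (h : SHom φ) (x : Tup A) :
    (tform x).map φ = tform (x.map φ) := by
  simp only [tform, ac, dc, gc, sw, TForm555.uu, yy, xi, Tup.map, mul_fin_two, add_fin2,
    TForm555.map_fin2, h.add, h.mul, h.neg, h.smul, h.star, h.zero]

theorem tinv_smap {φ : A → B} (h : SHom φ) (x : Tup A) :
    (tinv x).map φ = tinv (x.map φ) := by
  simp only [tinv, ac, dc, gc, sw, TForm555.uu, yy, xi, Tup.map, mul_fin_two, add_fin2,
    TForm555.map_fin2, h.add, h.mul, h.neg, h.smul, h.star, h.zero]

theorem pc_smap {φ : A → B} (h : SHom φ) (x : Tup A) :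
    (pc x).map φ = pc (x.map φ) := by
  simp only [pc, Tup.map, TForm555.map_fin2, h.zero]

/-- `tform (-x) = - diag(1,-1) (tform x) diag(1,-1)` -/
theorem tform_neg (x : Tup A) : tform x.neg = -(PC473.uu * tform x * star PC473.uu) := by
  have h : (star PC473.uu : Matrix (Fin 2) (Fin 2) A) = PC473.uu := by
    rw [PC473.uu, star_fin2]; simp
  rw [h]
  exact tform_ng x

theorem tform_conj {u : A} (hu : star u * u = 1) (x : Tup A) :
    tform (x.conj u) = !![u, 0; 0, u] * tform x * star !![u, 0; 0, u] := by
  have h : SHom (fun a : A => u * a * star u) := by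
    refine ⟨fun a b => by noncomm_ring, fun a b => ?_, fun c a => ?_, fun a => ?_⟩
    · calc u * (a * b) * star u = u * (a * 1 * b) * star u := by rw [mul_one]
        _ = u * a * star u * (u * b * star u) := by rw [← hu]; noncomm_ring
    · rw [mul_smul_comm, smul_mul_assoc]
    · rw [star_mul, star_mul, star_star, mul_assoc]
  rw [Tup.conj, ← tform_smap h]
  rw [show tform x = !![tform x 0 0, tform x 0 1; tform x 1 0, tform x 1 1] from
    Matrix.eta_fin_two _]
  rw [TForm555.map_fin2, star_fin2, mul_fin_two, mul_fin_two]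
  refine fin2_eq ?_ ?_ ?_ ?_ <;> simp

/-- diagonal signs -/
theorem tinv_neg (x : Tup A) : tinv x.neg = -(PC473.uu * tinv x * star PC473.uu) := by
  have h : (star PC473.uu : Matrix (Fin 2) (Fin 2) A) = PC473.uu := by
    rw [PC473.uu, star_fin2]; simp
  have e3 : (PC473.uu : Matrix (Fin 2) (Fin 2) A) * PC473.uu = 1 := by
    simp only [PC473.uu, mul_fin_two, one_fin_two, mul_zero, mul_one, add_zero,
      zero_add, mul_neg, neg_neg, neg_zero]
  have e1 : dc x.neg = PC473.uu * dc x * PC473.uu := by
    simp only [dc, Tup.neg, PC473.uu, mul_fin_two, one_mul, zero_mul, mul_zero, mul_one, add_zero,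
      zero_add, neg_mul, mul_neg, neg_neg]
  have e2 : gc x.neg = PC473.uu * gc x * PC473.uu := by
    simp only [gc, TForm555.uu, yy, xi, Tup.neg, PC473.uu, mul_fin_two, one_mul, zero_mul,
      mul_zero, mul_one, add_zero, zero_add, neg_mul, mul_neg, neg_neg, star_add, star_neg,
      smul_neg, neg_zero, ← neg_add]
  have e4 : sw x.neg = -(PC473.uu * sw x * PC473.uu) := by
    simp only [sw, Tup.neg, PC473.uu, mul_fin_two, one_mul, zero_mul, mul_zero, mul_one, add_zero,
      zero_add, neg_mul, mul_neg, neg_fin2, neg_neg, neg_zero]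
  rw [h]
  unfold tinv ac
  rw [e1, e2, e4]
  have : ∀ a b : Matrix (Fin 2) (Fin 2) A, PC473.uu * a * PC473.uu * (PC473.uu * b * PC473.uu)
      = PC473.uu * (a * b) * PC473.uu := by
    intro a b
    calc PC473.uu * a * PC473.uu * (PC473.uu * b * PC473.uu)
        = PC473.uu * a * (PC473.uu * PC473.uu) * b * PC473.uu := by noncomm_ring
      _ = PC473.uu * (a * b) * PC473.uu := by rw [e3]; noncomm_ring
  rw [this, this, neg_mul, ← add_mul, ← mul_add, this]

end Crest.Agent.R217.TForm555
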