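import Mathlib
import Crest.Agent.R217.Sum_52
import Crest.Agent.R217.Cut1_473
import Crest.Agent.R217.TFormS_555
import Crest.Agent.R217.LocF_555

/-!
Row 217 (S0336), part C, module M4: the signature `sig F L l X` of an object.
-/

set_option autoImplicit false
set_option linter.unusedSectionVars false

namespace Crest.Agent.R217.Sig52

open Matrix PC473 Obj52 Nat52 Sum52 TForm555 LocF555

section mon

variable {R : Type*} [Ring R] [StarRing R] [Algebra ℂ R] [StarModule ℂ R]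
variable {J J' J'' : Type*} [Fintype J] [DecidableEq J] [Fintype J'] [DecidableEq J']
  [Fintype J''] [DecidableEq J'']

/-- composition of monomial isometries -/
def _root_.Crest.Agent.R217.Nat52.Mon.trans (v : Mon J J') (w : Mon J' J'') : Mon J J'' where
  σ j := w.σ (v.σ j)
  inj := w.inj.comp v.inj
  ε j := w.ε (v.σ j) * v.ε j
  unit j := by
    have h1 := v.unit j
    have h2 := w.unit (v.σ j)
    rw [star_mul]
    calc star (v.ε j) * star (w.ε (v.σ j)) * (w.ε (v.σ j) * v.ε j)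
        = star (v.ε j) * (star (w.ε (v.σ j)) * w.ε (v.σ j)) * v.ε j := by ring
      _ = 1 := by rw [h2, mul_one, h1]

theorem V_trans (v : Mon J J') (w : Mon J' J'') : (v.trans w).V R = w.V R * v.V R := by
  ext i j
  simp only [Matrix.mul_apply, Mon.V, Mon.trans]
  rw [Finset.sum_eq_single (v.σ j)]
  · by_cases h : i = w.σ (v.σ j)
    · simp [h]
    · simp [h]
  · intro b _ hb; simp [hb]
  · simp

theorem cj_trans (v : Mon J J') (w : Mon J' J'') (a : Matrix J J R) :
    cjH R (v.trans w) a = cjH R w (cjH R v a) := by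
  simp only [cjH_apply, V_trans, conjTranspose_mul, Matrix.mul_assoc]

theorem Iso.trans {X Y Z : Obj R} (h : Iso X Y) (h' : Iso Y Z) : Iso X Z := by
  obtain ⟨v, h1, h2⟩ := h
  obtain ⟨w, h3, h4⟩ := h'
  refine ⟨v.trans w, fun j => (h3 _).trans (h1 j), ?_⟩
  rw [h4, h2]
  simp only [RPr.map, cj_trans]

end mon

/-- signature package: laws over `R0`, path algebra `R1` -/
structure SgP {κ : Type*} {R0 R1 : Type*} [Ring R0] [StarRing R0] [Algebra ℂ R0] [StarModule ℂ R0]
    [Ring R1] [StarRing R1] [Algebra ℂ R1] [StarModule ℂ R1]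
    (F0 : Frame κ R0) (F1 : Frame κ R1) (G : Type*) [AddCommGroup G] where
  L : SgLaws R0 G
  ev0 : R1 →⋆ₙₐ[ℂ] R0
  ev1 : R1 →⋆ₙₐ[ℂ] R0
  cst : R0 →⋆ₙₐ[ℂ] R1
  ev0_cst : ∀ a, ev0 (cst a) = a
  ev1_cst : ∀ a, ev1 (cst a) = a
  ev0_pu : ∀ k c, ev0 (F1.pu k c) = F0.pu k c
  ev1_pu : ∀ k c, ev1 (F1.pu k c) = F0.pu k c
  cst_pu : ∀ k c, cst (F0.pu k c) = F1.pu k c
  cst_one : cst 1 = 1
  lo_eq : F1.lo = F0.lo
  hi_eq : F1.hi = F0.hi
  tt : R1
  cs : R1
  sn : R1
  tt_star : star tt = tt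
  cs_star : star cs = cs
  sn_star : star sn = sn
  tt_comm : ∀ a, tt * a = a * tt
  cs_comm : ∀ a, cs * a = a * cs
  sn_comm : ∀ a, sn * a = a * sn
  cs_sn : cs * cs + sn * sn = 1
  ev0_tt : ev0 tt = 0
  ev0_cs : ev0 cs = 1
  ev0_sn : ev0 sn = 0
  ev1_tt : ev1 tt = 1
  ev1_cs : ev1 cs = 0
  ev1_sn : ev1 sn = 1
  ok_cpt : ∀ {J : Type} [Fintype J] [DecidableEq J] (e M : Matrix J J R0), DgC F0 e → e * e = e →
    star e = e → (∀ k, BdLo F0 k e) → (∀ k, BdHi F0 k e) → e * M = M → L.ok M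
  sg_iso : ∀ {J J' : Type} [Fintype J] [DecidableEq J] [Fintype J'] [DecidableEq J']
    (V : Matrix J' J R0) (M : Matrix J J R0), Vᴴ * V = 1 → Mᴴ = M → L.ok M →
    L.sg (V * M * Vᴴ) = L.sg M
  sg_path : ∀ {J : Type} [Fintype J] [DecidableEq J] (e M M' : Matrix J J R1), DgC F1 e →
    e * e = e → star e = e → (∀ k, BdLo F1 k e) → (∀ k, BdHi F1 k e) → e * M = M →
    M * M' = e → Mᴴ = M → M'ᴴ = M' → L.sg (M.map ev0) = L.sg (M.map ev1)

section sgo

variable {κ : Type*} {R : Type*} [Ring R] [StarRing R] [Algebra ℂ R] [StarModule ℂ R]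
  {G : Type*} [AddCommGroup G] {J : Type} [Fintype J] [DecidableEq J]

/-- level zero form of an object -/
noncomputable def frm (x : RPr (Matrix J J R)) :
    Matrix (Fin 2 × (Fin 2 × J)) (Fin 2 × (Fin 2 × J)) R := fl (tform (dblT 0 x))

/-- its inverse -/
noncomputable def frmI (x : RPr (Matrix J J R)) :
    Matrix (Fin 2 × (Fin 2 × J)) (Fin 2 × (Fin 2 × J)) R := fl (tinv (dblT 0 x))

/-- its support projection -/
noncomputable def frmP (x : RPr (Matrix J J R)) :
    Matrix (Fin 2 × (Fin 2 × J)) (Fin 2 × (Fin 2 × J)) R := fl (pc (dblT 0 x))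

/-- signature of a regular pair of dimension `0` -/
noncomputable def sgU (L : SgLaws R G) (x : RPr (Matrix J J R)) : G := L.sg (frm x)

/-- signature of an object of dimension `0` -/
noncomputable def sgO (L : SgLaws R G) (X : Obj R) : G := sgU L X.x

/-- signature of an object of dimension `l.length` with respect to the cut parameters `l` -/
noncomputable def sig (F : Frame κ R) (L : SgLaws R G) (l : List (Par κ)) (X : Obj R) : G :=
  sgO L (red F l X)

variable {F : Frame κ R} {S : Set κ} {deg : J → ℤ} {x : RPr (Matrix J J R)}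

theorem frm_herm (h : IsOb F 0 S deg x) : (frm x)ᴴ = frm x := by
  have h1 := (Cut1x473.T1 h).pc
  have := star_tform h1
  unfold frm
  exact congrArg fl this

theorem frmI_herm (h : IsOb F 0 S deg x) : (frmI x)ᴴ = frmI x := by
  have h1 := (Cut1x473.T1 h).pc
  have := star_tinv h1
  unfold frmI
  exact congrArg fl this

theorem frm_mul (h : IsOb F 0 S deg x) : frm x * frmI x = frmP x := by
  have h1 := (Cut1x473.T1 h).pc
  unfold frm frmI frmP
  rw [← Nat52.fl_mul, tform_tinv h1]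

theorem frmI_mul (h : IsOb F 0 S deg x) : frmI x * frm x = frmP x := by
  have h1 := (Cut1x473.T1 h).pc
  unfold frm frmI frmP
  rw [← Nat52.fl_mul, tinv_tform h1]

theorem frmP_mul (h : IsOb F 0 S deg x) : frmP x * frm x = frm x := by
  have h1 := (Cut1x473.T1 h).pc
  unfold frm frmP
  rw [← Nat52.fl_mul, pc_tform h1]

theorem frm_mulP (h : IsOb F 0 S deg x) : frm x * frmP x = frm x := by
  have h1 := (Cut1x473.T1 h).pc
  unfold frm frmP
  rw [← Nat52.fl_mul, tform_pc h1]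

theorem frmP_mulI (h : IsOb F 0 S deg x) : frmP x * frmI x = frmI x := by
  have h1 := (Cut1x473.T1 h).pc
  unfold frmI frmP
  rw [← Nat52.fl_mul, pc_tinv h1]

theorem frmI_mulP (h : IsOb F 0 S deg x) : frmI x * frmP x = frmI x := by
  have h1 := (Cut1x473.T1 h).pc
  unfold frmI frmP
  rw [← Nat52.fl_mul, tinv_pc h1]

theorem frmP_sq (h : IsOb F 0 S deg x) : frmP x * frmP x = frmP x := by
  have h1 := (Cut1x473.T1 h).pc
  unfold frmP
  rw [← Nat52.fl_mul, pc_pc h1]

theorem frmP_star (h : IsOb F 0 S deg x) : star (frmP x) = frmP x := by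
  have h1 := (Cut1x473.T1 h).pc
  exact congrArg fl (star_pc h1)

theorem frmP_dgc (h : IsOb F 0 S deg x) : DgC F (frmP x) := by
  have h1 := (Cut1x473.T1 h).pd
  exact h1.fl2c h1

theorem frmP_lo (h : IsOb F 0 S deg x) (k : κ) (hk : k ∈ S) : BdLo F k (frmP x) :=
  ((Cut1x473.T1 h).lo k hk).fl2c

theorem frmP_hi (h : IsOb F 0 S deg x) (k : κ) (hk : k ∈ S) : BdHi F k (frmP x) :=
  ((Cut1x473.T1 h).hi k hk).fl2c

end sgo

section sgo2

variable {κ : Type*} {R0 R1 : Type*} [Ring R0] [StarRing R0] [Algebra ℂ R0] [StarModule ℂ R0]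
    [Ring R1] [StarRing R1] [Algebra ℂ R1] [StarModule ℂ R1]
    {F0 : Frame κ R0} {F1 : Frame κ R1} {G : Type*} [AddCommGroup G] (P : SgP F0 F1 G)
    {J J' : Type} [Fintype J] [DecidableEq J] [Fintype J'] [DecidableEq J']
    {S : Set κ} {deg : J → ℤ} {x y : RPr (Matrix J J R0)}

include P in
theorem frm_ok (h : IsOb F0 0 S deg x) (hS : ∀ k, k ∈ S) : P.L.ok (frm x) :=
  P.ok_cpt (frmP x) _ (frmP_dgc h) (frmP_sq h) (frmP_star h) (fun k => frmP_lo h k (hS k))
    (fun k => frmP_hi h k (hS k)) (frmP_mul h)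

theorem shom {A B : Type*} [Ring A] [StarRing A] [Algebra ℂ A] [StarModule ℂ A] [Ring B]
    [StarRing B] [Algebra ℂ B] [StarModule ℂ B] (φ : A →⋆ₙₐ[ℂ] B) : Frame52.SHom φ where
  add := map_add φ
  mul := map_mul φ
  smul := map_smul φ
  star := map_star φ

theorem frm_iso (v : Mon J J') (x : RPr (Matrix J J R0)) :
    frm (x.map (cjH R0 v)) = cjH R0 v.two.two (frm x) := by
  unfold frm
  rw [(compat_cj v).dblT, ← tform_smap (shom (cjH R0 v.two)), compat_cj v.two]

theorem sgU_iso (h : IsOb F0 0 S deg x) (hS : ∀ k, k ∈ S) (v : Mon J J') :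
    sgU P.L (x.map (cjH R0 v)) = sgU P.L x := by
  unfold sgU
  rw [frm_iso, cjH_apply]
  exact P.sg_iso _ _ (Mon.V_iso _) (frm_herm h) (frm_ok P h hS)

theorem sgU_path {x : RPr (Matrix J J R1)} (h : IsOb F1 0 S deg x) (hS : ∀ k, k ∈ S) :
    sgU P.L (x.map (mapH J P.ev0)) = sgU P.L (x.map (mapH J P.ev1)) := by
  have key : ∀ ev : R1 →⋆ₙₐ[ℂ] R0, frm (x.map (mapH J ev)) = (frm x).map ev := by
    intro ev
    unfold frm
    rw [(compat_map ev).dblT, ← tform_smap (shom (mapH (Fin 2 × J) ev))]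
    rfl
  unfold sgU
  rw [key, key]
  exact P.sg_path (frmP x) _ (frmI x) (frmP_dgc h) (frmP_sq h) (frmP_star h)
    (fun k => frmP_lo h k (hS k)) (fun k => frmP_hi h k (hS k)) (frmP_mul h) (frm_mul h)
    (frm_herm h) (frmI_herm h)

theorem cj_herm {I I' : Type*} [Fintype I] [DecidableEq I] [Fintype I'] [DecidableEq I']
      (v : Mon I I') {M : Matrix I I R0} (hM : Mᴴ = M) : (cjH R0 v M)ᴴ = cjH R0 v M := by
  simp only [cjH_apply, conjTranspose_mul, conjTranspose_conjTranspose, hM, Matrix.mul_assoc]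

include P in
theorem cj_ok {I : Type} [Fintype I] [DecidableEq I] (v : Mon I I) {M : Matrix I I R0}
    (hM : P.L.ok M) : P.L.ok (cjH R0 v M) := by
  rw [cjH_apply]
  exact P.L.ok_mul_right _ _ (P.L.ok_mul_left _ _ hM)

theorem sg_cj {I I' : Type} [Fintype I] [DecidableEq I] [Fintype I'] [DecidableEq I']
      (v : Mon I I') {M : Matrix I I R0} (hM : Mᴴ = M) (ok : P.L.ok M) :
    P.L.sg (cjH R0 v M) = P.L.sg M := by
  rw [cjH_apply]
  exact P.sg_iso _ _ (Mon.V_iso _) hM ok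

theorem frm_neg (x : RPr (Matrix J J R0)) :
    frm x.neg = -(cjH R0 (sgn (Fin 2 × J)) (cjH R0 (sgn J).two (frm x))) := by
  unfold frm
  rw [dblT_neg, tform_neg, ← tform_smap (shom (cjH R0 (sgn J))), compat_cj (sgn J), ← fl_uu]
  rfl

theorem sgU_neg (h : IsOb F0 0 S deg x) (hS : ∀ k, k ∈ S) :
    sgU P.L x.neg = - sgU P.L x := by
  unfold sgU
  rw [frm_neg]
  have hok := frm_ok P h hS
  have hh := frm_herm h
  rw [P.L.sg_neg _ (cj_ok P _ (cj_ok P _ hok)) (cj_herm _ (cj_herm _ hh)),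
    sg_cj P _ (cj_herm _ hh) (cj_ok P _ hok), sg_cj P _ hh hok]

/-- `ι ⊕ ι → 2 × ι` -/
def s2 (J : Type*) : Mon (J ⊕ J) (Fin 2 × J) where
  σ := Sum.elim (fun j => (0, j)) (fun j => (1, j))
  inj := by
    rintro (a | a) (b | b) h <;> simp at h <;> simp [h]
  ε _ := 1
  unit _ := by simp

theorem cj_s2 {J : Type*} [Fintype J] [DecidableEq J] (a b : Matrix J J R0) :
    cjH R0 (s2 J) (fromBlocks a 0 0 b) = sm a b := by
  funext x y
  obtain ⟨i, x⟩ := x
  obtain ⟨j, y⟩ := y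
  have key : ∀ u w : J ⊕ J, cjH R0 (s2 J) (fromBlocks a 0 0 b) ((s2 J).σ u) ((s2 J).σ w)
      = (fromBlocks a 0 0 b) u w := by
    intro u w
    rw [cj_apply_σ]
    simp [s2]
  fin_cases i <;> fin_cases j
  · refine (key (Sum.inl x) (Sum.inl y)).trans ?_
    simp [sm, fl]
  · refine (key (Sum.inl x) (Sum.inr y)).trans ?_
    simp [sm, fl]
  · refine (key (Sum.inr x) (Sum.inl y)).trans ?_
    simp [sm, fl]
  · refine (key (Sum.inr x) (Sum.inr y)).trans ?_
    simp [sm, fl]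

theorem tform_sumT {J : Type*} [Fintype J] [DecidableEq J] (z w : Tup (Matrix J J R0)) :
    fl (tform (sumT z w)) = cjH R0 (sw J) (sm (fl (tform z)) (fl (tform w))) := by
  unfold sumT
  rw [← tform_smap (shom (smH (R := R0) (J := J))), fl_smH]
  have h1 := tform_smap (shom (NonUnitalStarAlgHom.fst ℂ (Matrix J J R0) (Matrix J J R0)))
    (pairT z w)
  have h2 := tform_smap (shom (NonUnitalStarAlgHom.snd ℂ (Matrix J J R0) (Matrix J J R0)))
    (pairT z w)
  have e1 : (pairT z w).map (NonUnitalStarAlgHom.fst ℂ (Matrix J J R0) (Matrix J J R0)) = z := rfl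
  have e2 : (pairT z w).map (NonUnitalStarAlgHom.snd ℂ (Matrix J J R0) (Matrix J J R0)) = w := rfl
  rw [e1] at h1
  rw [e2] at h2
  rw [← h1, ← h2]
  rfl

theorem BdLo_sm {κ : Type*} {R : Type*} [Ring R] [StarRing R] [Algebra ℂ R] [StarModule ℂ R]
    {F : Frame κ R} {I : Type*} [Fintype I] [DecidableEq I] {a b : Matrix I I R} {k : κ}
    (ha : BdLo F k a) (hb : BdLo F k b) : BdLo F k (sm a b) := by
  obtain ⟨s, h1, h2⟩ := ha
  obtain ⟨s', h1', h2'⟩ := hb
  refine ⟨min s s', lt_min h1 h1', ?_⟩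
  have a1 : PU F k (fun _ => min s s') * a = 0 := by
    have : PU F k (fun _ => min s s') * PU F k (fun _ => s) = PU F k (fun _ : I => min s s') := by
      unfold PU
      rw [diagonal_mul_diagonal]
      congr 1; ext j
      exact F.pu_mul k _ _ (min_le_left _ _)
    rw [← this, Matrix.mul_assoc, h2, Matrix.mul_zero]
  have a2 : PU F k (fun _ => min s s') * b = 0 := by
    have : PU F k (fun _ => min s s') * PU F k (fun _ => s') = PU F k (fun _ : I => min s s') := by
      unfold PU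
      rw [diagonal_mul_diagonal]
      congr 1; ext j
      exact F.pu_mul k _ _ (min_le_right _ _)
    rw [← this, Matrix.mul_assoc, h2', Matrix.mul_zero]
  rw [show PU F k (fun _ : Fin 2 × I => min s s')
    = sm (PU F k (fun _ => min s s')) (PU F k (fun _ => min s s')) from Nat52.PU_fl F k _,
    sm_mul, a1, a2]
  exact smH.map_zero'

theorem BdHi_sm {κ : Type*} {R : Type*} [Ring R] [StarRing R] [Algebra ℂ R] [StarModule ℂ R]
    {F : Frame κ R} {I : Type*} [Fintype I] [DecidableEq I] {a b : Matrix I I R} {k : κ}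
    (ha : BdHi F k a) (hb : BdHi F k b) : BdHi F k (sm a b) := by
  obtain ⟨s, h1, h2⟩ := ha
  obtain ⟨s', h1', h2'⟩ := hb
  refine ⟨max s s', max_lt h1 h1', ?_⟩
  have pm : ∀ (a b : ℝ), a ≤ b → F.pu k b * F.pu k a = F.pu k a := by
    intro a b hab
    rw [F.pu_comm, F.pu_mul k a b hab]
  have a1 : PU F k (fun _ => max s s') * a = a := by
    have : PU F k (fun _ => max s s') * PU F k (fun _ => s) = PU F k (fun _ : I => s) := by
      unfold PU
      rw [diagonal_mul_diagonal]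
      congr 1; ext j
      exact pm _ _ (le_max_left _ _)
    conv_lhs => rw [← h2, ← Matrix.mul_assoc, this, h2]
  have a2 : PU F k (fun _ => max s s') * b = b := by
    have : PU F k (fun _ => max s s') * PU F k (fun _ => s') = PU F k (fun _ : I => s') := by
      unfold PU
      rw [diagonal_mul_diagonal]
      congr 1; ext j
      exact pm _ _ (le_max_right _ _)
    conv_lhs => rw [← h2', ← Matrix.mul_assoc, this, h2']
  rw [show PU F k (fun _ : Fin 2 × I => max s s')
    = sm (PU F k (fun _ => max s s')) (PU F k (fun _ => max s s')) from Nat52.PU_fl F k _,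
    sm_mul, a1, a2]

theorem frm_sum (x y : RPr (Matrix J J R0)) :
    frm (sumR x y) = cjH R0 (sw J).two (cjH R0 (sw (Fin 2 × J)) (sm (frm x) (frm y))) := by
  unfold frm
  rw [dblT_sum, ← tform_smap (shom (cjH R0 (sw J))), ← tform_sumT, compat_cj]

theorem sgU_sum (hx : IsOb F0 0 S deg x) (hy : IsOb F0 0 S deg y) (hS : ∀ k, k ∈ S) :
    sgU P.L (sumR x y) = sgU P.L x + sgU P.L y := by
  unfold sgU
  rw [frm_sum]
  have okX := frm_ok P hx hS
  have okY := frm_ok P hy hS
  have hhX := frm_herm hx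
  have hhY := frm_herm hy
  have ok0 : P.L.ok (0 : Matrix (Fin 2 × (Fin 2 × J)) (Fin 2 × (Fin 2 × J)) R0) := by
    have := P.L.ok_sub _ _ okX okX
    rwa [sub_self] at this
  have okB : P.L.ok (fromBlocks (frm x) 0 0 (frm y)) := P.L.ok_blocks _ _ _ _ okX ok0 ok0 okY
  have hhB : (fromBlocks (frm x) 0 0 (frm y))ᴴ = fromBlocks (frm x) 0 0 (frm y) := by
    rw [fromBlocks_conjTranspose, hhX, hhY, conjTranspose_zero]
  have ok1 : P.L.ok (sm (frm x) (frm y)) := by
    refine P.ok_cpt (sm (frmP x) (frmP y)) _ ?_ ?_ ?_ ?_ ?_ ?_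
    · exact (frmP_dgc hx).fl2c (frmP_dgc hy)
    · rw [sm_mul, frmP_sq hx, frmP_sq hy]
    · rw [sm_star, frmP_star hx, frmP_star hy]
    · exact fun k => BdLo_sm (frmP_lo hx k (hS k)) (frmP_lo hy k (hS k))
    · exact fun k => BdHi_sm (frmP_hi hx k (hS k)) (frmP_hi hy k (hS k))
    · rw [sm_mul, frmP_mul hx, frmP_mul hy]
  have hh1 : (sm (frm x) (frm y))ᴴ = sm (frm x) (frm y) := by
    rw [← cj_s2]; exact cj_herm _ hhB
  rw [sg_cj P _ (cj_herm _ hh1) (cj_ok P _ ok1), sg_cj P _ hh1 ok1, ← cj_s2,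
    sg_cj P _ hhB okB, P.L.sg_blocks _ _ okX okY hhX hhY]

end sgo2

end Crest.Agent.R217.Sig52
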