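import Mathlib
import Crest.Agent.R217.Sig_52
import Crest.Agent.R217.Cut2_473

/-!
Row 217 (S0336), part C, module M4: inductions over the list of cuts.
-/

set_option autoImplicit false
set_option linter.unusedSectionVars false

namespace Crest.Agent.R217.Ind52

open Matrix PC473 Obj52 Nat52 Sum52 TForm555 LocF555 Sig52

section closure

variable {κ : Type*} {R : Type*} [Ring R] [StarRing R] [Algebra ℂ R] [StarModule ℂ R]
  {J J' : Type*} [Fintype J] [DecidableEq J] [Fintype J'] [DecidableEq J']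
  {F : Frame κ R} {m : ℕ} {S : Set κ} {deg : J → ℤ} {x y : RPr (Matrix J J R)}

theorem _root_.Crest.Agent.R217.Obj52.IsOb.neg (h : IsOb F m S deg x) : IsOb F m S deg x.neg where
  rp := h.rp.neg
  pd := h.pd
  gd := h.gd
  hd := h.hd
  hf := h.hf.negc
  hq := h.hq.negc
  hh := h.hh.negc
  lo := h.lo
  hi := h.hi

theorem isRP_pair {A : Type*} [Ring A] [StarRing A] {x y : RPr A} (hx : x.IsRP m)
    (hy : y.IsRP m) : (pairR x y).IsRP m := by
  have h1 : ((-1 : A × A) ^ m).1 = (-1) ^ m := by simp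
  have h2 : ((-1 : A × A) ^ m).2 = (-1) ^ m := by simp
  constructor <;> apply Prod.ext <;> simp only [pairR, Prod.fst_mul, Prod.snd_mul, Prod.fst_star,
    Prod.snd_star, Prod.fst_zero, Prod.snd_zero, Prod.fst_add, Prod.snd_add, Prod.fst_sub,
    Prod.snd_sub, Prod.fst_neg, Prod.snd_neg, h1, h2]
  exacts [hx.pp, hy.pp, hx.sp, hy.sp, hx.gg, hy.gg, hx.sg, hy.sg, hx.pg, hy.pg, hx.pd, hy.pd,
    hx.dp, hy.dp, hx.pf, hy.pf, hx.pq, hy.pq, hx.ph, hy.ph, hx.hp, hy.hp, hx.dd, hy.dd, hx.sf,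
    hy.sf, hx.sq, hy.sq, hx.df, hy.df, hx.qd, hy.qd, hx.fqf, hy.fqf, hx.gd, hy.gd, hx.gf, hy.gf,
    hx.gq, hy.gq, hx.gh, hy.gh]

theorem hm_sm {α β : J → ℤ} {a b : Matrix J J R} (ha : Hm α β a) (hb : Hm α β b) :
    Hm (fun j : Fin 2 × J => α j.2) (fun j => β j.2) (sm a b) := by
  rintro ⟨i, u⟩ ⟨j, v⟩ h
  fin_cases i <;> fin_cases j <;> simp [sm, fl, ha u v h, hb u v h]

theorem _root_.Crest.Agent.R217.Obj52.IsOb.sum (hx : IsOb F m S deg x) (hy : IsOb F m S deg y) :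
    IsOb F m S (deg2 deg) (sumR x y) where
  rp := (isRP_pair hx.rp hy.rp).mapN smH
  pd := hx.pd.fl2c hy.pd
  gd := hx.gd.fl2c hy.gd
  hd := hm_sm hx.hd hy.hd
  hf := hm_sm hx.hf hy.hf
  hq := hm_sm hx.hq hy.hq
  hh := hm_sm hx.hh hy.hh
  lo k hk := BdLo_sm (hx.lo k hk) (hy.lo k hk)
  hi k hk := BdHi_sm (hx.hi k hk) (hy.hi k hk)

theorem hm_map {R' : Type*} [Ring R'] [StarRing R'] [Algebra ℂ R'] [StarModule ℂ R']
    (ϕ : R →⋆ₙₐ[ℂ] R') {α β : J → ℤ} {a : Matrix J J R} (ha : Hm α β a) :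
    Hm α β (mapH J ϕ a) := by
  intro i j h
  simp [ha i j h]

theorem dgc_map {R' : Type*} [Ring R'] [StarRing R'] [Algebra ℂ R'] [StarModule ℂ R']
    {F' : Frame κ R'} {ϕ : R →⋆ₙₐ[ℂ] R'} (h : ∀ k c, ϕ (F.pu k c) = F'.pu k c)
    {a : Matrix J J R} (ha : DgC F a) : DgC F' (mapH J ϕ a) := by
  obtain ⟨e, rfl, he⟩ := ha
  refine ⟨fun j => ϕ (e j), ?_, ?_⟩
  · ext i j
    simp only [mapH_apply, Matrix.map_apply, diagonal_apply]
    split_ifs <;> simp
  · intro j k c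
    rw [← h, ← map_mul, ← map_mul, he]

theorem PU_map {R' : Type*} [Ring R'] [StarRing R'] [Algebra ℂ R'] [StarModule ℂ R']
    {F' : Frame κ R'} {ϕ : R →⋆ₙₐ[ℂ] R'} (h : ∀ k c, ϕ (F.pu k c) = F'.pu k c) (k : κ)
    (t : J → ℝ) : mapH J ϕ (PU F k t) = PU F' k t := by
  ext i j
  simp only [mapH_apply, PU, Matrix.map_apply, diagonal_apply]
  split_ifs <;> simp [h]

theorem bdlo_map {R' : Type*} [Ring R'] [StarRing R'] [Algebra ℂ R'] [StarModule ℂ R']
    {F' : Frame κ R'} {ϕ : R →⋆ₙₐ[ℂ] R'} (h : ∀ k c, ϕ (F.pu k c) = F'.pu k c)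
    (hlo : F'.lo = F.lo) {a : Matrix J J R} {k : κ} (ha : BdLo F k a) :
    BdLo F' k (mapH J ϕ a) := by
  obtain ⟨s, h1, h2⟩ := ha
  refine ⟨s, by rwa [hlo], ?_⟩
  rw [← PU_map h, ← map_mul, h2, map_zero]

theorem bdhi_map {R' : Type*} [Ring R'] [StarRing R'] [Algebra ℂ R'] [StarModule ℂ R']
    {F' : Frame κ R'} {ϕ : R →⋆ₙₐ[ℂ] R'} (h : ∀ k c, ϕ (F.pu k c) = F'.pu k c)
    (hhi : F'.hi = F.hi) {a : Matrix J J R} {k : κ} (ha : BdHi F k a) :
    BdHi F' k (mapH J ϕ a) := by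
  obtain ⟨s, h1, h2⟩ := ha
  refine ⟨s, by rwa [hhi], ?_⟩
  rw [← PU_map h, ← map_mul, h2]

theorem _root_.Crest.Agent.R217.Obj52.IsOb.map {R' : Type*} [Ring R'] [StarRing R'] [Algebra ℂ R']
    [StarModule ℂ R'] {F' : Frame κ R'} {ϕ : R →⋆ₙₐ[ℂ] R'} (hx : IsOb F m S deg x)
    (h : ∀ k c, ϕ (F.pu k c) = F'.pu k c) (hlo : F'.lo = F.lo) (hhi : F'.hi = F.hi) :
    IsOb F' m S deg (x.map (mapH J ϕ)) where
  rp := hx.rp.mapN _
  pd := dgc_map h hx.pd
  gd := dgc_map h hx.gd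
  hd := hm_map ϕ hx.hd
  hf := hm_map ϕ hx.hf
  hq := hm_map ϕ hx.hq
  hh := hm_map ϕ hx.hh
  lo k hk := bdlo_map h hlo (hx.lo k hk)
  hi k hk := bdhi_map h hhi (hx.hi k hk)

end closure

section T6

variable {κ : Type*} {R : Type*} [Ring R] [StarRing R] [Algebra ℂ R] [StarModule ℂ R]

variable {F : Frame κ R}

/-- all directions are bounded or will be cut -/
def Cov (S : Set κ) (l : List (Par κ)) : Prop := ∀ k, k ∈ S ∨ ∃ a ∈ l, a.k = k

theorem Cov.tail {S : Set κ} {a : Par κ} {l : List (Par κ)} (h : Cov S (a :: l)) :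
    Cov (insert a.k S) l := by
  intro k
  rcases h k with h | ⟨b, hb, rfl⟩
  · exact Or.inl (Or.inr h)
  · rcases List.mem_cons.1 hb with rfl | hb
    · exact Or.inl (Or.inl rfl)
    · exact Or.inr ⟨b, hb, rfl⟩

theorem red_isOb {l : List (Par κ)} (hl : ∀ a ∈ l, a.Ok F) {S : Set κ} (X : Obj R)
    (h : IsOb F l.length S X.deg X.x) (hc : Cov S l) :
    IsOb F 0 Set.univ (red F l X).deg (red F l X).x := by
  induction l generalizing X S with
  | nil =>
    have hS : S = Set.univ := by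
      ext k
      rcases hc k with h | ⟨a, ha, _⟩
      · simp [h]
      · simp at ha
    subst hS
    exact h
  | cons a l ih =>
    refine ih (fun b hb => hl b (List.mem_cons_of_mem _ hb)) (cutO F a l.length X) ?_ hc.tail
    exact Cut2x473.T6 (hl a List.mem_cons_self) h

end T6

section laws

variable {κ : Type*} {R0 R1 : Type*} [Ring R0] [StarRing R0] [Algebra ℂ R0] [StarModule ℂ R0]
    [Ring R1] [StarRing R1] [Algebra ℂ R1] [StarModule ℂ R1]
    {F0 : Frame κ R0} {F1 : Frame κ R1} {G : Type*} [AddCommGroup G] (P : SgP F0 F1 G)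

/-- bundling -/
def ob {R : Type*} {J : Type} [Fintype J] [DecidableEq J] (deg : J → ℤ)
    (x : RPr (Matrix J J R)) : Obj R := ⟨J, inferInstance, inferInstance, deg, x⟩

theorem sig_iso {l : List (Par κ)} (hl : ∀ a ∈ l, a.Ok F0) {S : Set κ}
    {X Y : Obj R0} (h : IsOb F0 l.length S X.deg X.x) (hc : Cov S l) (hXY : Iso X Y) :
    sig F0 P.L l Y = sig F0 P.L l X := by
  have h1 := red_isOb hl X h hc
  obtain ⟨v, h2, h3⟩ := red_iso F0 l hXY
  unfold sig sgO
  rw [h3]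
  exact sgU_iso P h1 (fun k => Set.mem_univ k) v

include P in
theorem ok1 {a : Par κ} (h : a.Ok F0) : a.Ok F1 := by
  obtain ⟨h0, h1, h2, h3⟩ := h
  exact ⟨h0, by rwa [P.lo_eq], h2, by rwa [P.hi_eq]⟩

theorem sig_path {l : List (Par κ)} (hl : ∀ a ∈ l, a.Ok F0) {S : Set κ}
    {X : Obj R1} (h : IsOb F1 l.length S X.deg X.x) (hc : Cov S l) :
    sig F0 P.L l (mapO P.ev0 X) = sig F0 P.L l (mapO P.ev1 X) := by
  have h1 := red_isOb (fun a ha => ok1 P (hl a ha)) X h hc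
  unfold sig
  rw [red_map (F := F1) (F' := F0) P.ev0_pu, red_map (F := F1) (F' := F0) P.ev1_pu]
  exact sgU_path P h1 (fun k => Set.mem_univ k)

theorem rmap_trans {J J' J'' : Type*} [Fintype J] [DecidableEq J] [Fintype J'] [DecidableEq J']
    [Fintype J''] [DecidableEq J''] (v : Mon J J') (w : Mon J' J'') (x : RPr (Matrix J J R0)) :
    (x.map (cjH R0 v)).map (cjH R0 w) = x.map (cjH R0 (v.trans w)) := by
  simp only [RPr.map, cj_trans]

theorem cut_neg (F : Frame κ R0) (a : Par κ) (m : ℕ) {J : Type*} [Fintype J] [DecidableEq J]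
    (deg : J → ℤ) (x : RPr (Matrix J J R0)) :
    cut F a m deg x.neg = ((cut F a m deg x).neg.map (cjH R0 (sgn J).two)).map
      (cjH R0 (sgn (Fin 2 × J))) := by
  unfold cut
  have h := cutT_nat (compat_cj (sgn J)) (punat_cj F (sgn J)
    (deg := degD (m + 1) deg) (deg' := degD (m + 1) deg) (fun _ => rfl)) a m (dblT (m + 1) x)
  rw [dblT_neg, cutT_neg, h, ← RPr.neg_map (shom _), ← RPr.neg_map (shom _)]

theorem sig_neg {l : List (Par κ)} (hl : ∀ a ∈ l, a.Ok F0) {S : Set κ}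
    {X : Obj R0} (h : IsOb F0 l.length S X.deg X.x) (hc : Cov S l) :
    sig F0 P.L l ⟨X.J, X.ft, X.de, X.deg, X.x.neg⟩ = - sig F0 P.L l X := by
  induction l generalizing X S with
  | nil =>
    have hS : S = Set.univ := by
      ext k
      rcases hc k with h | ⟨a, ha, _⟩
      · simp [h]
      · simp at ha
    subst hS
    exact sgU_neg P h (fun k => Set.mem_univ k)
  | cons a l ih =>
    have hl' : ∀ b ∈ l, b.Ok F0 := fun b hb => hl b (List.mem_cons_of_mem _ hb)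
    have h1 := Cut2x473.T6 (hl a List.mem_cons_self) h
    have h2 := ih hl' (X := cutO F0 a l.length X) h1 hc.tail
    have e1 : ∀ Y : Obj R0, sig F0 P.L (a :: l) Y = sig F0 P.L l (cutO F0 a l.length Y) :=
      fun Y => rfl
    rw [e1, e1, ← h2]
    apply sig_iso P hl' (X := ⟨(cutO F0 a l.length X).J, _, _, _, _⟩) h1.neg hc.tail
    refine ⟨(sgn X.J).two.trans (sgn (Fin 2 × X.J)), fun _ => rfl, ?_⟩
    show cut F0 a l.length X.deg X.x.neg = _
    rw [cut_neg, rmap_trans]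
    rfl

theorem sig_sum {l : List (Par κ)} (hl : ∀ a ∈ l, a.Ok F0) {S : Set κ}
    {J : Type} [Fintype J] [DecidableEq J] {deg : J → ℤ} {x y : RPr (Matrix J J R0)}
    (hx : IsOb F0 l.length S deg x) (hy : IsOb F0 l.length S deg y) (hc : Cov S l) :
    sig F0 P.L l (ob (deg2 deg) (sumR x y)) = sig F0 P.L l (ob deg x)
      + sig F0 P.L l (ob deg y) := by
  induction l generalizing J S with
  | nil =>
    have hS : S = Set.univ := by
      ext k
      rcases hc k with h | ⟨a, ha, _⟩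
      · simp [h]
      · simp at ha
    subst hS
    exact sgU_sum P hx hy (fun k => Set.mem_univ k)
  | cons a l ih =>
    have hl' : ∀ b ∈ l, b.Ok F0 := fun b hb => hl b (List.mem_cons_of_mem _ hb)
    have hx1 := Cut2x473.T6 (hl a List.mem_cons_self) hx
    have hy1 := Cut2x473.T6 (hl a List.mem_cons_self) hy
    have h2 := ih hl' hx1 hy1 hc.tail
    have e1 : ∀ Y : Obj R0, sig F0 P.L (a :: l) Y = sig F0 P.L l (cutO F0 a l.length Y) :=
      fun Y => rfl
    rw [e1, e1, e1]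
    refine Eq.trans ?_ h2
    apply sig_iso P hl' (X := ob _ _) (hx1.sum hy1) hc.tail
    refine ⟨(sw (Fin 2 × J)).trans (sw J).two, fun _ => rfl, ?_⟩
    show cut F0 a l.length (deg2 deg) (sumR x y) = _
    rw [cut_sum, rmap_trans]
    rfl

end laws

end Crest.Agent.R217.Ind52
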