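import Crest.Agent.R217.RE4_531
import Crest.Agent.R217.Ind_52

/-!
Row 217 (S0336), part C1: LEMMA RE at the level of the signature.
-/

set_option autoImplicit false
set_option linter.unusedSectionVars false
set_option linter.unusedSimpArgs false

namespace Crest.Agent.R217.RE531

open Crest.Agent.R217.PC473 Crest.Agent.R217.Obj52
open Crest.Agent.R217.Frame52 (SHom)
open Crest.Agent.R217.Nat52 Crest.Agent.R217.Sum52 Crest.Agent.R217.Sig52
open Crest.Agent.R217.LocF555
open Crest.Agent.R217.Ind52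
open Matrix

section mon

variable {R : Type*} [Ring R] [StarRing R] [Algebra ℂ R] [StarModule ℂ R]
variable {J J' : Type} [Fintype J] [DecidableEq J] [Fintype J'] [DecidableEq J']

theorem cj_apply_left (v : Mon J J') (a : Matrix J J R) (i j : J') (h : ∀ x, v.σ x ≠ i) :
    cjH R v a i j = 0 := by
  simp only [cjH_apply, Matrix.mul_apply, Matrix.conjTranspose_apply, Mon.V]
  refine Finset.sum_eq_zero fun x _ => ?_
  rw [Finset.sum_eq_zero (fun y _ => by rw [if_neg (fun e => h y e.symm), zero_mul]), zero_mul]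

theorem cj_apply_right (v : Mon J J') (a : Matrix J J R) (i j : J') (h : ∀ x, v.σ x ≠ j) :
    cjH R v a i j = 0 := by
  simp only [cjH_apply, Matrix.mul_apply, Matrix.conjTranspose_apply, Mon.V]
  refine Finset.sum_eq_zero fun x _ => ?_
  rw [if_neg (fun e => h x e.symm), star_zero, mul_zero]

/-- inclusion `J → J ⊕ J'` -/
def mL (J J' : Type*) : Mon J (J ⊕ J') where
  σ := Sum.inl
  inj := Sum.inl_injective
  ε _ := 1
  unit _ := by simp

/-- inclusion `J' → J ⊕ J'` -/
def mR (J J' : Type*) : Mon J' (J ⊕ J') where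
  σ := Sum.inr
  inj := Sum.inr_injective
  ε _ := 1
  unit _ := by simp

/-- `J ⊕ J' → 2 × (J ⊕ J')` -/
def mW (J J' : Type*) : Mon (J ⊕ J') (Fin 2 × (J ⊕ J')) where
  σ := Sum.elim (fun j => (0, Sum.inl j)) (fun j => (1, Sum.inr j))
  inj := by
    rintro (a | a) (b | b) h <;> simp at h <;> simp [h]
  ε _ := 1
  unit _ := by simp

/-- the sign `diag(1,-1)` on `J ⊕ J'` -/
def mS (J J' : Type*) : Mon (J ⊕ J') (J ⊕ J') where
  σ a := a
  inj := fun _ _ h => h
  ε := Sum.elim (fun _ => 1) (fun _ => -1)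
  unit a := by cases a <;> simp

theorem cj_mL (a : Matrix J J R) : cjH R (mL J J') a = fromBlocks a 0 0 0 := by
  funext i j
  rcases i with i | i
  · rcases j with j | j
    · have := cj_apply_σ (mL J J') a i j
      simpa [mL] using this
    · rw [cj_apply_right _ _ _ _ (by intro x; simp [mL])]
      rfl
  · rw [cj_apply_left _ _ _ _ (by intro x; simp [mL])]
    cases j <;> rfl

theorem cj_mR (a : Matrix J' J' R) : cjH R (mR J J') a = fromBlocks 0 0 0 a := by
  funext i j
  rcases i with i | i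
  · rw [cj_apply_left _ _ _ _ (by intro x; simp [mR])]
    cases j <;> rfl
  · rcases j with j | j
    · rw [cj_apply_right _ _ _ _ (by intro x; simp [mR])]
      rfl
    · have := cj_apply_σ (mR J J') a i j
      simpa [mR] using this

theorem cj_mW (a : Matrix J J R) (b : Matrix J' J' R) :
    cjH R (mW J J') (fromBlocks a 0 0 b) = sm (fromBlocks a 0 0 0) (fromBlocks 0 0 0 b) := by
  have key : ∀ u w : J ⊕ J', cjH R (mW J J') (fromBlocks a 0 0 b) ((mW J J').σ u) ((mW J J').σ w)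
      = (fromBlocks a 0 0 b) u w := by
    intro u w
    rw [cj_apply_σ]
    simp [mW]
  funext x y
  obtain ⟨i, x⟩ := x
  obtain ⟨j, y⟩ := y
  by_cases hx : ∃ u, (mW J J').σ u = (i, x)
  · by_cases hy : ∃ w, (mW J J').σ w = (j, y)
    · obtain ⟨u, hu⟩ := hx
      obtain ⟨w, hw⟩ := hy
      rw [← hu, ← hw, key]
      rcases u with u | u <;> rcases w with w | w <;> simp [mW, sm, fl]
    · rw [cj_apply_right _ _ _ _ (by push Not at hy; exact hy)]
      rcases y with y | y
      · have hj : j ≠ 0 := by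
          rintro rfl; exact hy ⟨Sum.inl y, rfl⟩
        have hj1 : j = 1 := by omega
        subst hj1
        fin_cases i <;> rcases x with x | x <;> simp [sm, fl]
      · have hj : j ≠ 1 := by
          rintro rfl; exact hy ⟨Sum.inr y, rfl⟩
        have hj1 : j = 0 := by omega
        subst hj1
        fin_cases i <;> rcases x with x | x <;> simp [sm, fl]
  · rw [cj_apply_left _ _ _ _ (by push Not at hx; exact hx)]
    rcases x with x | x
    · have hi : i ≠ 0 := by
        rintro rfl; exact hx ⟨Sum.inl x, rfl⟩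
      have hi1 : i = 1 := by omega
      subst hi1
      fin_cases j <;> rcases y with y | y <;> simp [sm, fl]
    · have hi : i ≠ 1 := by
        rintro rfl; exact hx ⟨Sum.inr x, rfl⟩
      have hi1 : i = 0 := by omega
      subst hi1
      fin_cases j <;> rcases y with y | y <;> simp [sm, fl]

theorem cj_mS (a : Matrix J J R) (b : Matrix J J' R) (c : Matrix J' J R) (d : Matrix J' J' R) :
    cjH R (mS J J') (fromBlocks a b c d) = fromBlocks a (-b) (-c) d := by
  funext i j
  rw [cj_id_apply (mS J J') (fun _ => rfl)]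
  rcases i with i | i <;> rcases j with j | j <;> simp [mS]

theorem rsumB_cj (x : RPr (Matrix J J R)) (y : RPr (Matrix J' J' R)) :
    (rsumB x y).map (cjH R (mW J J')) =
      sumR (x.map (cjH R (mL J J'))) (y.map (cjH R (mR J J'))) := by
  simp only [rsumB, RPr.map, cj_mW, cj_mL, cj_mR, sumR, pairR, smH_apply]

theorem tsumB_cj (x : Tup (Matrix J J R)) (y : Tup (Matrix J' J' R)) :
    (tsumB x y).map (cjH R (mW J J')) =
      sumT (x.map (cjH R (mL J J'))) (y.map (cjH R (mR J J'))) := by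
  simp only [tsumB, Tup.map, cj_mW, cj_mL, cj_mR, sumT, pairT, smH_apply]

theorem rneg_eq {A : Type*} [Ring A] (x : RPr A) [StarRing A] : rneg x = x.neg := rfl

theorem reR_zero_one_cj (x : RPr (Matrix J J R)) (y : RPr (Matrix J' J' R))
    (α : Matrix J' J R) (k : Matrix J' J' R) (l : Matrix J J R) :
    (reR (0 : ℂ) 1 x y α k l).map (cjH R (mS J J')) = (reR (0 : ℂ) 1 x y α k l).neg := by
  simp [reR, RPr.map, RPr.neg, cj_mS, fromBlocks_neg]

theorem reT_zero_one_cj (x : Tup (Matrix J J R)) (y : Tup (Matrix J' J' R))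
    (α : Matrix J' J R) (k : Matrix J' J' R) (l : Matrix J J R) :
    (reT (0 : ℂ) 1 x y α k l).map (cjH R (mS J J')) = (reT (0 : ℂ) 1 x y α k l).neg := by
  simp [reT, Tup.map, Tup.neg, cj_mS, fromBlocks_neg]

end mon

section objmap

variable {κ : Type*} {R : Type*} [Ring R] [StarRing R] [Algebra ℂ R] [StarModule ℂ R]
variable {J J' : Type} [Fintype J] [DecidableEq J] [Fintype J'] [DecidableEq J']
  {F : Frame κ R} {m : ℕ} {S : Set κ} {deg : J → ℤ} {deg' : J' → ℤ}

theorem dgc_mL {a : Matrix J J R} (h : DgC F a) : DgC F (cjH R (mL J J') a) := by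
  rw [cj_mL]
  obtain ⟨e, rfl, he⟩ := h
  refine ⟨Sum.elim e 0, ?_, ?_⟩
  · rw [← fromBlocks_diagonal]
    simp
  · rintro (j | j) k c
    · exact he j k c
    · simp

theorem dgc_mR {a : Matrix J' J' R} (h : DgC F a) : DgC F (cjH R (mR J J') a) := by
  rw [cj_mR]
  obtain ⟨e, rfl, he⟩ := h
  refine ⟨Sum.elim 0 e, ?_, ?_⟩
  · rw [← fromBlocks_diagonal]
    simp
  · rintro (j | j) k c
    · simp
    · exact he j k c

theorem isOb_mL {x : RPr (Matrix J J R)} (hx : IsOb F m S deg x) :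
    IsOb F m S (Sum.elim deg deg') (x.map (cjH R (mL J J'))) where
  rp := hx.rp.mapN _
  pd := dgc_mL hx.pd
  gd := dgc_mL hx.gd
  hd := by
    simp only [RPr.map, cj_mL]; rw [elim_fun (fun n => n + 1)]
    exact HmR.fb hx.hd HmR.zero HmR.zero HmR.zero
  hf := by
    simp only [RPr.map, cj_mL]; rw [elim_fun (fun n => m - n)]
    exact HmR.fb hx.hf HmR.zero HmR.zero HmR.zero
  hq := by
    simp only [RPr.map, cj_mL]; rw [elim_fun (fun n => m - n)]
    exact HmR.fb hx.hq HmR.zero HmR.zero HmR.zero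
  hh := by
    simp only [RPr.map, cj_mL]; rw [elim_fun (fun n => m + 1 - n)]
    exact HmR.fb hx.hh HmR.zero HmR.zero HmR.zero
  lo := fun k hk => by
    simp only [RPr.map, cj_mL]
    exact BdLo.fb (hx.lo k hk) (by
      obtain ⟨s, h1, _⟩ := hx.lo k hk; exact ⟨s, h1, Matrix.mul_zero _⟩)
  hi := fun k hk => by
    simp only [RPr.map, cj_mL]
    exact BdHi.fb (hx.hi k hk) (by
      obtain ⟨s, h1, _⟩ := hx.hi k hk; exact ⟨s, h1, Matrix.mul_zero _⟩)

theorem isOb_mR {x : RPr (Matrix J' J' R)} (hx : IsOb F m S deg' x) :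
    IsOb F m S (Sum.elim deg deg') (x.map (cjH R (mR J J'))) where
  rp := hx.rp.mapN _
  pd := dgc_mR hx.pd
  gd := dgc_mR hx.gd
  hd := by
    simp only [RPr.map, cj_mR]; rw [elim_fun (fun n => n + 1)]
    exact HmR.fb HmR.zero HmR.zero HmR.zero hx.hd
  hf := by
    simp only [RPr.map, cj_mR]; rw [elim_fun (fun n => m - n)]
    exact HmR.fb HmR.zero HmR.zero HmR.zero hx.hf
  hq := by
    simp only [RPr.map, cj_mR]; rw [elim_fun (fun n => m - n)]
    exact HmR.fb HmR.zero HmR.zero HmR.zero hx.hq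
  hh := by
    simp only [RPr.map, cj_mR]; rw [elim_fun (fun n => m + 1 - n)]
    exact HmR.fb HmR.zero HmR.zero HmR.zero hx.hh
  lo := fun k hk => by
    simp only [RPr.map, cj_mR]
    exact BdLo.fb (by
      obtain ⟨s, h1, _⟩ := hx.lo k hk; exact ⟨s, h1, Matrix.mul_zero _⟩) (hx.lo k hk)
  hi := fun k hk => by
    simp only [RPr.map, cj_mR]
    exact BdHi.fb (by
      obtain ⟨s, h1, _⟩ := hx.hi k hk; exact ⟨s, h1, Matrix.mul_zero _⟩) (hx.hi k hk)

theorem isOT_mL {x : Tup (Matrix J J R)} (hx : IsOT F m S deg x) :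
    IsOT F m S (Sum.elim deg deg') (x.map (cjH R (mL J J'))) where
  pc := hx.pc.mapN _
  pd := dgc_mL hx.pd
  gd := dgc_mL hx.gd
  hd := by
    simp only [Tup.map, cj_mL]; rw [elim_fun (fun n => n + 1)]
    exact HmR.fb hx.hd HmR.zero HmR.zero HmR.zero
  hS := by
    simp only [Tup.map, cj_mL]; rw [elim_fun (fun n => m - n)]
    exact HmR.fb hx.hS HmR.zero HmR.zero HmR.zero
  hT := by
    simp only [Tup.map, cj_mL]; rw [elim_fun (fun n => m - n)]
    exact HmR.fb hx.hT HmR.zero HmR.zero HmR.zero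
  hH := by
    simp only [Tup.map, cj_mL]; rw [elim_fun (fun n => n + 1)]
    exact HmR.fb hx.hH HmR.zero HmR.zero HmR.zero
  lo := fun k hk => by
    simp only [Tup.map, cj_mL]
    exact BdLo.fb (hx.lo k hk) (by
      obtain ⟨s, h1, _⟩ := hx.lo k hk; exact ⟨s, h1, Matrix.mul_zero _⟩)
  hi := fun k hk => by
    simp only [Tup.map, cj_mL]
    exact BdHi.fb (hx.hi k hk) (by
      obtain ⟨s, h1, _⟩ := hx.hi k hk; exact ⟨s, h1, Matrix.mul_zero _⟩)

theorem isOT_mR {x : Tup (Matrix J' J' R)} (hx : IsOT F m S deg' x) :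
    IsOT F m S (Sum.elim deg deg') (x.map (cjH R (mR J J'))) where
  pc := hx.pc.mapN _
  pd := dgc_mR hx.pd
  gd := dgc_mR hx.gd
  hd := by
    simp only [Tup.map, cj_mR]; rw [elim_fun (fun n => n + 1)]
    exact HmR.fb HmR.zero HmR.zero HmR.zero hx.hd
  hS := by
    simp only [Tup.map, cj_mR]; rw [elim_fun (fun n => m - n)]
    exact HmR.fb HmR.zero HmR.zero HmR.zero hx.hS
  hT := by
    simp only [Tup.map, cj_mR]; rw [elim_fun (fun n => m - n)]
    exact HmR.fb HmR.zero HmR.zero HmR.zero hx.hT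
  hH := by
    simp only [Tup.map, cj_mR]; rw [elim_fun (fun n => n + 1)]
    exact HmR.fb HmR.zero HmR.zero HmR.zero hx.hH
  lo := fun k hk => by
    simp only [Tup.map, cj_mR]
    exact BdLo.fb (by
      obtain ⟨s, h1, _⟩ := hx.lo k hk; exact ⟨s, h1, Matrix.mul_zero _⟩) (hx.lo k hk)
  hi := fun k hk => by
    simp only [Tup.map, cj_mR]
    exact BdHi.fb (by
      obtain ⟨s, h1, _⟩ := hx.hi k hk; exact ⟨s, h1, Matrix.mul_zero _⟩) (hx.hi k hk)

theorem IsOT.map' {R' : Type*} [Ring R'] [StarRing R'] [Algebra ℂ R']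
    [StarModule ℂ R'] {F' : Frame κ R'} {ϕ : R →⋆ₙₐ[ℂ] R'} {x : Tup (Matrix J J R)}
    (hx : IsOT F m S deg x)
    (h : ∀ k c, ϕ (F.pu k c) = F'.pu k c) (hlo : F'.lo = F.lo) (hhi : F'.hi = F.hi) :
    IsOT F' m S deg (x.map (mapH J ϕ)) where
  pc := hx.pc.mapN _
  pd := dgc_map h hx.pd
  gd := dgc_map h hx.gd
  hd := hm_map ϕ hx.hd
  hS := hm_map ϕ hx.hS
  hT := hm_map ϕ hx.hT
  hH := hm_map ϕ hx.hH
  lo k hk := bdlo_map h hlo (hx.lo k hk)
  hi k hk := bdhi_map h hhi (hx.hi k hk)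

theorem DegA.map {R' : Type*} [Ring R'] [StarRing R'] [Algebra ℂ R']
    [StarModule ℂ R'] {ϕ : R →⋆ₙₐ[ℂ] R'} {α : Matrix J' J R} {k : Matrix J' J' R}
    {l : Matrix J J R} (h : DegA m deg deg' α k l) :
    DegA m deg deg' (α.map ϕ) (k.map ϕ) (l.map ϕ) where
  hα i j hij := by rw [Matrix.map_apply, h.hα i j hij, map_zero]
  hk i j hij := by rw [Matrix.map_apply, h.hk i j hij, map_zero]
  hl i j hij := by rw [Matrix.map_apply, h.hl i j hij, map_zero]

end objmap

section laws

variable {κ : Type*} {R0 R1 : Type*} [Ring R0] [StarRing R0] [Algebra ℂ R0] [StarModule ℂ R0]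
    [Ring R1] [StarRing R1] [Algebra ℂ R1] [StarModule ℂ R1]
    {F0 : Frame κ R0} {F1 : Frame κ R1} {G : Type*} [AddCommGroup G] (P : SgP F0 F1 G)
    {J J' : Type} [Fintype J] [DecidableEq J] [Fintype J'] [DecidableEq J']
    {S : Set κ} {deg : J → ℤ} {deg' : J' → ℤ}

theorem sig_bsum {l : List (Par κ)} (hl : ∀ a ∈ l, a.Ok F0) {x : RPr (Matrix J J R0)}
    {y : RPr (Matrix J' J' R0)} (hx : IsOb F0 l.length S deg x)
    (hy : IsOb F0 l.length S deg' y) (hc : Cov S l) :
    sig F0 P.L l (ob (Sum.elim deg deg') (rsumB x y)) = sig F0 P.L l (ob deg x)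
      + sig F0 P.L l (ob deg' y) := by
  have h0 := sig_iso P hl (X := ob (Sum.elim deg deg') (rsumB x y))
    (Y := ob (deg2 (Sum.elim deg deg')) (sumR (x.map (cjH R0 (mL J J')))
      (y.map (cjH R0 (mR J J'))))) (rsumB_isOb hx hy) hc
    ⟨mW J J', by rintro (j | j) <;> rfl, (rsumB_cj x y).symm⟩
  rw [← h0, sig_sum P hl (isOb_mL hx) (isOb_mR hy) hc]
  congr 1
  · exact sig_iso P hl (X := ob deg x) (Y := ob _ _) hx hc ⟨mL J J', fun _ => rfl, rfl⟩
  · exact sig_iso P hl (X := ob deg' y) (Y := ob _ _) hy hc ⟨mR J J', fun _ => rfl, rfl⟩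

/-- central cosine -/
def csC : Subring.center R1 := ⟨P.cs, Subring.mem_center_iff.2 fun g => (P.cs_comm g).symm⟩

/-- central sine -/
def snC : Subring.center R1 := ⟨P.sn, Subring.mem_center_iff.2 fun g => (P.sn_comm g).symm⟩

theorem csC_star : star (csC P) = csC P := Subtype.ext P.cs_star
theorem snC_star : star (snC P) = snC P := Subtype.ext P.sn_star
theorem csC_snC : csC P * csC P + snC P * snC P = 1 := Subtype.ext P.cs_sn

include P in
theorem eq_zero_of_neg {g : G} (h : g = -g) : g = 0 := by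
  apply P.L.tf 2 g two_ne_zero
  rw [two_nsmul]
  nth_rewrite 2 [h]
  exact add_neg_cancel g

/-- LEMMA RE at the level of the signature (regular pairs). -/
theorem sig_re {l : List (Par κ)} (hl : ∀ a ∈ l, a.Ok F0) {x : RPr (Matrix J J R0)}
    {y : RPr (Matrix J' J' R0)} (hx : IsOb F0 l.length S deg x)
    (hy : IsOb F0 l.length S deg' y) (hc : Cov S l) {α : Matrix J' J R0}
    {k : Matrix J' J' R0} {q : Matrix J J R0} (h : HypR l.length x y α k q)
    (hd : DegA l.length deg deg' α k q) :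
    sig F0 P.L l (ob deg x) = sig F0 P.L l (ob deg' y) := by
  have hx1 : IsOb F1 l.length S deg (x.map (mapH J P.cst)) := hx.map P.cst_pu P.lo_eq P.hi_eq
  have hy1 : IsOb F1 l.length S deg' (y.map (mapH J' P.cst)) := hy.map P.cst_pu P.lo_eq P.hi_eq
  have h1 : HypR l.length (x.map (mapH J P.cst)) (y.map (mapH J' P.cst)) (α.map P.cst)
      (k.map P.cst) (q.map P.cst) := h.smap (shom P.cst)
  have hZ := reR_isOb hx1 hy1 h1 (DegA.map (ϕ := P.cst) hd) (csC_star P) (snC_star P)
    (csC_snC P)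
  have hpath := sig_path P hl (X := ob (Sum.elim deg deg') (reR (csC P) (snC P)
    (x.map (mapH J P.cst)) (y.map (mapH J' P.cst)) (α.map P.cst) (k.map P.cst)
    (q.map P.cst))) hZ hc
  have e0 : ∀ {I : Type} [Fintype I] [DecidableEq I] (z : RPr (Matrix I I R0)),
      (z.map (mapH I P.cst)).map (mapH I P.ev0) = z := by
    intro I _ _ z
    cases z
    simp only [RPr.map, mapH_apply, Matrix.map_map, RPr.mk.injEq]
    have : (⇑P.ev0 ∘ ⇑P.cst) = id := funext P.ev0_cst
    simp [this]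
  have e1 : ∀ {I : Type} [Fintype I] [DecidableEq I] (z : RPr (Matrix I I R0)),
      (z.map (mapH I P.cst)).map (mapH I P.ev1) = z := by
    intro I _ _ z
    cases z
    simp only [RPr.map, mapH_apply, Matrix.map_map, RPr.mk.injEq]
    have : (⇑P.ev1 ∘ ⇑P.cst) = id := funext P.ev1_cst
    simp [this]
  have m0 : ∀ {I I' : Type} (z : Matrix I I' R0), (z.map P.cst).map P.ev0 = z := by
    intro I I' z; ext i j; simp [P.ev0_cst]
  have m1 : ∀ {I I' : Type} (z : Matrix I I' R0), (z.map P.cst).map P.ev1 = z := by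
    intro I I' z; ext i j; simp [P.ev1_cst]
  have c0 : ∀ r : R1, P.ev0 (csC P • r) = (1 : ℂ) • P.ev0 r := by
    intro r
    rw [show csC P • r = P.cs * r from rfl, map_mul, P.ev0_cs, one_mul, one_smul]
  have s0 : ∀ r : R1, P.ev0 (snC P • r) = (0 : ℂ) • P.ev0 r := by
    intro r
    rw [show snC P • r = P.sn * r from rfl, map_mul, P.ev0_sn, zero_mul, zero_smul]
  have c1 : ∀ r : R1, P.ev1 (csC P • r) = (0 : ℂ) • P.ev1 r := by
    intro r
    rw [show csC P • r = P.cs * r from rfl, map_mul, P.ev1_cs, zero_mul, zero_smul]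
  have s1 : ∀ r : R1, P.ev1 (snC P • r) = (1 : ℂ) • P.ev1 r := by
    intro r
    rw [show snC P • r = P.sn * r from rfl, map_mul, P.ev1_sn, one_mul, one_smul]
  have p0 : mapO P.ev0 (ob (Sum.elim deg deg') (reR (csC P) (snC P)
      (x.map (mapH J P.cst)) (y.map (mapH J' P.cst)) (α.map P.cst) (k.map P.cst)
      (q.map P.cst))) = ob (Sum.elim deg deg') (rsumB x y.neg) := by
    have := reR_map (shom P.ev0) c0 s0 (x.map (mapH J P.cst)) (y.map (mapH J' P.cst))
      (α.map P.cst) (k.map P.cst) (q.map P.cst)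
    have e2 := e0 x
    have e3 := e0 y
    simp only [mapO, ob] at this ⊢
    congr 1
    refine this.trans ?_
    rw [show (x.map (mapH J P.cst)).map (fun M => M.map ⇑P.ev0) = x from e0 x,
      show (y.map (mapH J' P.cst)).map (fun M => M.map ⇑P.ev0) = y from e0 y, m0, m0, m0,
      reR_one_zero]
    rfl
  have p1 : mapO P.ev1 (ob (Sum.elim deg deg') (reR (csC P) (snC P)
      (x.map (mapH J P.cst)) (y.map (mapH J' P.cst)) (α.map P.cst) (k.map P.cst)
      (q.map P.cst))) = ob (Sum.elim deg deg') (reR (0 : ℂ) 1 x y α k q) := by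
    have := reR_map (shom P.ev1) c1 s1 (x.map (mapH J P.cst)) (y.map (mapH J' P.cst))
      (α.map P.cst) (k.map P.cst) (q.map P.cst)
    simp only [mapO, ob] at this ⊢
    congr 1
    refine this.trans ?_
    rw [show (x.map (mapH J P.cst)).map (fun M => M.map ⇑P.ev1) = x from e1 x,
      show (y.map (mapH J' P.cst)).map (fun M => M.map ⇑P.ev1) = y from e1 y, m1, m1, m1]
  rw [p0, p1] at hpath
  have hW : IsOb F0 l.length S (Sum.elim deg deg') (reR (0 : ℂ) 1 x y α k q) :=
    reR_isOb hx hy h hd (by simp) (by simp) (by simp)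
  have n1 : sig F0 P.L l (ob (Sum.elim deg deg') (reR (0 : ℂ) 1 x y α k q).neg)
      = sig F0 P.L l (ob (Sum.elim deg deg') (reR (0 : ℂ) 1 x y α k q)) :=
    sig_iso P hl (X := ob (Sum.elim deg deg') (reR (0 : ℂ) 1 x y α k q)) (Y := ob _ _) hW hc
      ⟨mS J J', fun _ => rfl, (reR_zero_one_cj x y α k q).symm⟩
  have n2 := sig_neg P hl (X := ob (Sum.elim deg deg') (reR (0 : ℂ) 1 x y α k q)) hW hc
  have n3 : sig F0 P.L l (ob (Sum.elim deg deg') (reR (0 : ℂ) 1 x y α k q)) = 0 :=
    eq_zero_of_neg P (n1.symm.trans n2)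
  have n4 := sig_bsum P hl hx hy.neg hc
  have n5 := sig_neg P hl (X := ob deg' y) hy hc
  rw [n3, n4] at hpath
  have n6 : sig F0 P.L l (ob deg' y.neg) = - sig F0 P.L l (ob deg' y) := n5
  rw [n6, ← sub_eq_add_neg, sub_eq_zero] at hpath
  exact hpath

end laws

end Crest.Agent.R217.RE531
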