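import Crest.Agent.R217.RE_531
import Crest.Agent.R217.Frame_52
import Crest.Agent.R217.Obj_52

/-!
Row 217 (S0336), part C1: LEMMA RE, part 2: naturality under star homs, scalars in the centre,
degrees and supports (`Obj52.IsOb`, `Obj52.IsOT`).
-/

set_option autoImplicit false
set_option linter.unusedSectionVars false
set_option linter.unusedSimpArgs false

namespace Crest.Agent.R217.RE531

open Crest.Agent.R217.PC473 Crest.Agent.R217.Frame52 Crest.Agent.R217.Obj52
open Matrix

universe u v v' w w'

section nat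

variable {K : Type v} {R : Type w} [CommRing K] [StarRing K] [Ring R] [StarRing R] [Algebra K R]
  [StarModule K R]
variable {K' : Type v'} {R' : Type w'} [CommRing K'] [StarRing K'] [Ring R'] [StarRing R']
  [Algebra K' R'] [StarModule K' R']
variable [Algebra ℂ R] [Algebra ℂ R']
variable {J J' : Type u} [Fintype J] [DecidableEq J] [Fintype J'] [DecidableEq J']

theorem shom_map_mul {φ : R → R'} (h : SHom φ) {J₁ J₂ J₃ : Type u} [Fintype J₂]
    (a : Matrix J₁ J₂ R) (b : Matrix J₂ J₃ R) : (a * b).map φ = a.map φ * b.map φ := by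
  ext i j
  simp only [Matrix.map_apply, Matrix.mul_apply]
  classical
  have : ∀ s : Finset J₂, φ (∑ k ∈ s, a i k * b k j) = ∑ k ∈ s, φ (a i k) * φ (b k j) := by
    intro s
    induction s using Finset.induction_on with
    | empty => simpa using h.zero
    | insert x s hx ih => rw [Finset.sum_insert hx, Finset.sum_insert hx, h.add, h.mul, ih]
  exact this _

theorem shom_map_ct {φ : R → R'} (h : SHom φ) {J₁ J₂ : Type u} (a : Matrix J₁ J₂ R) :
    (aᴴ).map φ = (a.map φ)ᴴ := by
  ext i j
  simp [conjTranspose_apply, h.star]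

theorem shom_map_sub {φ : R → R'} (h : SHom φ) {J₁ J₂ : Type u} (a b : Matrix J₁ J₂ R) :
    (a - b).map φ = a.map φ - b.map φ := by
  ext i j; simp [h.sub]

theorem shom_map_add {φ : R → R'} (h : SHom φ) {J₁ J₂ : Type u} (a b : Matrix J₁ J₂ R) :
    (a + b).map φ = a.map φ + b.map φ := by
  ext i j; simp [h.add]

theorem shom_map_neg {φ : R → R'} (h : SHom φ) {J₁ J₂ : Type u} (a : Matrix J₁ J₂ R) :
    (-a).map φ = -a.map φ := by
  ext i j; simp [h.neg]

theorem shom_map_zero {φ : R → R'} (h : SHom φ) {J₁ J₂ : Type u} :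
    (0 : Matrix J₁ J₂ R).map φ = 0 := by
  ext i j; simp [h.zero]

theorem shom_map_smul {φ : R → R'} {c : K} {c' : K'} (hc : ∀ r, φ (c • r) = c' • φ r)
    {J₁ J₂ : Type u} (a : Matrix J₁ J₂ R) : (c • a).map φ = c' • a.map φ := by
  ext i j; simp [hc]

theorem reT_map {φ : R → R'} (h : SHom φ) {c s : K} {c' s' : K'}
    (hc : ∀ r, φ (c • r) = c' • φ r) (hs : ∀ r, φ (s • r) = s' • φ r)
    (x : Tup (Matrix J J R)) (y : Tup (Matrix J' J' R)) (α : Matrix J' J R)
    (k : Matrix J' J' R) (l : Matrix J J R) :
    (reT c s x y α k l).map (fun M => M.map φ) =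
      reT c' s' (x.map fun M => M.map φ) (y.map fun M => M.map φ) (α.map φ) (k.map φ)
        (l.map φ) := by
  simp only [reT, Tup.map, fromBlocks_map, shom_map_mul h, shom_map_ct h, shom_map_sub h,
    shom_map_add h, shom_map_neg h, shom_map_zero h, shom_map_smul hc, shom_map_smul hs,
    mul_smul]

theorem reR_map {φ : R → R'} (h : SHom φ) {c s : K} {c' s' : K'}
    (hc : ∀ r, φ (c • r) = c' • φ r) (hs : ∀ r, φ (s • r) = s' • φ r)
    (x : RPr (Matrix J J R)) (y : RPr (Matrix J' J' R)) (α : Matrix J' J R)
    (k : Matrix J' J' R) (l : Matrix J J R) :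
    (reR c s x y α k l).map (fun M => M.map φ) =
      reR c' s' (x.map fun M => M.map φ) (y.map fun M => M.map φ) (α.map φ) (k.map φ)
        (l.map φ) := by
  simp only [reR, RPr.map, fromBlocks_map, shom_map_mul h, shom_map_ct h, shom_map_sub h,
    shom_map_add h, shom_map_neg h, shom_map_zero h, shom_map_smul hc, shom_map_smul hs,
    mul_smul]

theorem shom_map_npow {φ : R → R'} (h : SHom φ) (m : ℕ) (a : Matrix J J R) :
    ((-1 : Matrix J J R) ^ m * a).map φ = (-1 : Matrix J J R') ^ m * a.map φ := by
  rcases Nat.even_or_odd m with hm | hm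
  · simp only [hm.neg_one_pow, Matrix.one_mul]
  · simp only [hm.neg_one_pow, Matrix.neg_mul, Matrix.one_mul, shom_map_neg h]

theorem HypT.smap {φ : R → R'} (h : SHom φ) {m : ℕ} {x : Tup (Matrix J J R)}
    {y : Tup (Matrix J' J' R)} {α : Matrix J' J R} {k : Matrix J' J' R} {l : Matrix J J R}
    (H : HypT m x y α k l) :
    HypT m (x.map fun M => M.map φ) (y.map fun M => M.map φ) (α.map φ) (k.map φ) (l.map φ) where
  hx := H.hx.smap h.mapM
  hy := H.hy.smap h.mapM
  pα := by simp only [Tup.map]; rw [← shom_map_mul h, H.pα]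
  αp := by simp only [Tup.map]; rw [← shom_map_mul h, H.αp]
  gα := by simp only [Tup.map]; rw [← shom_map_mul h, H.gα, shom_map_mul h]
  dα := by simp only [Tup.map]; rw [← shom_map_mul h, H.dα, shom_map_mul h]
  hS := by
    simp only [Tup.map]
    rw [H.hS]
    simp only [shom_map_mul h, shom_map_ct h, shom_map_sub h, shom_map_add h]
  hT := by
    simp only [Tup.map]
    rw [H.hT]
    simp only [shom_map_mul h, shom_map_ct h, shom_map_sub h, shom_map_add h]
  pk := by simp only [Tup.map]; rw [← shom_map_mul h, H.pk]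
  kp := by simp only [Tup.map]; rw [← shom_map_mul h, H.kp]
  gk := by
    simp only [Tup.map]; rw [← shom_map_mul h, H.gk, shom_map_neg h, shom_map_npow h,
      shom_map_mul h]
  pl := by simp only [Tup.map]; rw [← shom_map_mul h, H.pl]
  lp := by simp only [Tup.map]; rw [← shom_map_mul h, H.lp]
  gl := by
    simp only [Tup.map]; rw [← shom_map_mul h, H.gl, shom_map_neg h, shom_map_npow h,
      shom_map_mul h]

theorem HypR.smap {φ : R → R'} (h : SHom φ) {m : ℕ} {x : RPr (Matrix J J R)}
    {y : RPr (Matrix J' J' R)} {α : Matrix J' J R} {k : Matrix J' J' R} {l : Matrix J J R}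
    (H : HypR m x y α k l) :
    HypR m (x.map fun M => M.map φ) (y.map fun M => M.map φ) (α.map φ) (k.map φ) (l.map φ) where
  hx := H.hx.smap h.mapM
  hy := H.hy.smap h.mapM
  pα := by simp only [RPr.map]; rw [← shom_map_mul h, H.pα]
  αp := by simp only [RPr.map]; rw [← shom_map_mul h, H.αp]
  gα := by simp only [RPr.map]; rw [← shom_map_mul h, H.gα, shom_map_mul h]
  dα := by simp only [RPr.map]; rw [← shom_map_mul h, H.dα, shom_map_mul h]
  hf := by
    simp only [RPr.map]
    rw [H.hf]
    simp only [shom_map_mul h, shom_map_ct h, shom_map_sub h, shom_map_add h]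
  hq := by
    simp only [RPr.map]
    rw [H.hq]
    simp only [shom_map_mul h, shom_map_ct h, shom_map_sub h, shom_map_add h]
  pk := by simp only [RPr.map]; rw [← shom_map_mul h, H.pk]
  kp := by simp only [RPr.map]; rw [← shom_map_mul h, H.kp]
  gk := by
    simp only [RPr.map]; rw [← shom_map_mul h, H.gk, shom_map_neg h, shom_map_npow h,
      shom_map_mul h]
  pl := by simp only [RPr.map]; rw [← shom_map_mul h, H.pl]
  lp := by simp only [RPr.map]; rw [← shom_map_mul h, H.lp]
  gl := by
    simp only [RPr.map]; rw [← shom_map_mul h, H.gl, shom_map_neg h, shom_map_npow h,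
      shom_map_mul h]

end nat

section center

variable {R : Type w} [Ring R] [StarRing R]

/-- the centre of a star ring is a star ring -/
instance centerStar : StarRing (Subring.center R) where
  star c := ⟨star (c : R), by
    rw [Subring.mem_center_iff]
    intro g
    have := (Subring.mem_center_iff.1 c.2) (star g)
    have h2 := congrArg star this
    simp only [star_mul, star_star] at h2
    exact h2.symm⟩
  star_involutive c := Subtype.ext (star_star _)
  star_mul a b := Subtype.ext (by
    change star ((a : R) * b) = star (b : R) * star (a : R)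
    exact star_mul _ _)
  star_add a b := Subtype.ext (star_add _ _)

theorem coe_star_center (c : Subring.center R) : ((star c : Subring.center R) : R) = star (c : R) :=
  rfl

instance centerStarModule : StarModule (Subring.center R) R where
  star_smul c r := by
    change star ((c : R) * r) = star (c : R) * star r
    rw [star_mul]
    exact ((Subring.mem_center_iff.1 (star c : Subring.center R).2) (star r))

end center

section obj

variable {κ : Type*} {K : Type v} {R : Type w} [CommRing K] [StarRing K] [Ring R] [StarRing R]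
  [Algebra K R] [StarModule K R]
variable {J J' : Type u} [Fintype J] [DecidableEq J] [Fintype J'] [DecidableEq J']

/-- rectangular homogeneity: `a i j ≠ 0 → α i = β j` -/
def HmR (α : J → ℤ) (β : J' → ℤ) (a : Matrix J J' R) : Prop := ∀ i j, α i ≠ β j → a i j = 0

theorem Hm_iff (α β : J → ℤ) (a : Matrix J J R) : Hm α β a ↔ HmR α β a := Iff.rfl

theorem HmR.zero {α : J → ℤ} {β : J' → ℤ} : HmR α β (0 : Matrix J J' R) := fun _ _ _ => rfl

theorem HmR.add {α : J → ℤ} {β : J' → ℤ} {a b : Matrix J J' R} (ha : HmR α β a)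
    (hb : HmR α β b) : HmR α β (a + b) := fun i j h => by
  rw [Matrix.add_apply, ha i j h, hb i j h, add_zero]

theorem HmR.neg {α : J → ℤ} {β : J' → ℤ} {a : Matrix J J' R} (ha : HmR α β a) :
    HmR α β (-a) := fun i j h => by
  rw [Matrix.neg_apply, ha i j h, neg_zero]

theorem HmR.sub {α : J → ℤ} {β : J' → ℤ} {a b : Matrix J J' R} (ha : HmR α β a)
    (hb : HmR α β b) : HmR α β (a - b) := fun i j h => by
  rw [Matrix.sub_apply, ha i j h, hb i j h, sub_zero]

theorem HmR.smul {α : J → ℤ} {β : J' → ℤ} {a : Matrix J J' R} (c : K) (ha : HmR α β a) :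
    HmR α β (c • a) := fun i j h => by
  rw [Matrix.smul_apply, ha i j h, smul_zero]

theorem HmR.mul {J₂ : Type u} [Fintype J₂] {α : J → ℤ} {β γ : J₂ → ℤ} {δ : J' → ℤ}
    {a : Matrix J J₂ R} {b : Matrix J₂ J' R} (ha : HmR α β a) (hb : HmR γ δ b) (r s : ℤ)
    (h : ∀ j, β j + s = γ j + r) : HmR (fun i => α i + s) (fun j => δ j + r) (a * b) := by
  intro i j hij
  rw [Matrix.mul_apply]
  refine Finset.sum_eq_zero fun x _ => ?_
  by_cases h1 : α i = β x
  · by_cases h2 : γ x = δ j
    · exact absurd (by simp only; rw [h1, h x, h2]) hij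
    · rw [hb x j h2, mul_zero]
  · rw [ha i x h1, zero_mul]

end obj

end Crest.Agent.R217.RE531
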