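import Mathlib
import Crest.Agent.R217.Ind_52
import Crest.Agent.R217.RE2_531
import Crest.Agent.R217.Wall_473

/-!
Row 217 (S0336), part C, module M4: the rotation principle for signatures.
-/

set_option autoImplicit false
set_option linter.unusedSectionVars false

namespace Crest.Agent.R217.Rot52

open Matrix PC473 Obj52 Nat52 Sum52 TForm555 LocF555 Sig52 Ind52 RE531

section isot

variable {κ : Type*} {R : Type*} [Ring R] [StarRing R] [Algebra ℂ R] [StarModule ℂ R]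
  {J J' : Type*} [Fintype J] [DecidableEq J] [Fintype J'] [DecidableEq J']
  {F : Frame κ R} {m : ℕ} {S : Set κ} {deg : J → ℤ} {x y : Tup (Matrix J J R)}

theorem isPC_pair {A : Type*} [Ring A] [StarRing A] {x y : Tup A} (hx : x.IsPC m)
    (hy : y.IsPC m) : (pairT x y).IsPC m := by
  have h1 : ((-1 : A × A) ^ m).1 = (-1) ^ m := by simp
  have h2 : ((-1 : A × A) ^ m).2 = (-1) ^ m := by simp
  constructor <;> apply Prod.ext <;> simp only [pairT, Prod.fst_mul, Prod.snd_mul, Prod.fst_star,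
    Prod.snd_star, Prod.fst_zero, Prod.snd_zero, Prod.fst_add, Prod.snd_add,
    Prod.fst_neg, Prod.snd_neg, h1, h2]
  exacts [hx.pp, hy.pp, hx.sp, hy.sp, hx.gg, hy.gg, hx.sg, hy.sg, hx.pg, hy.pg, hx.pd, hy.pd,
    hx.dp, hy.dp, hx.pS, hy.pS, hx.pT, hy.pT, hx.pH, hy.pH, hx.Hp, hy.Hp, hx.dd, hy.dd, hx.sS,
    hy.sS, hx.sT, hy.sT, hx.dS, hy.dS, hx.Td, hy.Td, hx.ST, hy.ST, hx.gd, hy.gd, hx.gS, hy.gS,
    hx.gT, hy.gT, hx.gH, hy.gH]

theorem _root_.Crest.Agent.R217.Obj52.IsOT.sum (hx : IsOT F m S deg x) (hy : IsOT F m S deg y) :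
    IsOT F m S (deg2 deg) (sumT x y) where
  pc := (isPC_pair hx.pc hy.pc).mapN smH
  pd := hx.pd.fl2c hy.pd
  gd := hx.gd.fl2c hy.gd
  hd := hm_sm hx.hd hy.hd
  hS := hm_sm hx.hS hy.hS
  hT := hm_sm hx.hT hy.hT
  hH := hm_sm hx.hH hy.hH
  lo k hk := BdLo_sm (hx.lo k hk) (hy.lo k hk)
  hi k hk := BdHi_sm (hx.hi k hk) (hy.hi k hk)

end isot

section rot

variable {κ : Type*} {R0 R1 : Type*} [Ring R0] [StarRing R0] [Algebra ℂ R0] [StarModule ℂ R0]
    [Ring R1] [StarRing R1] [Algebra ℂ R1] [StarModule ℂ R1]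
    {F0 : Frame κ R0} {F1 : Frame κ R1} {G : Type*} [AddCommGroup G] (P : SgP F0 F1 G)

include P in
theorem tf2 {a : G} (h : a = -a) : a = 0 := by
  refine P.L.tf 2 a two_ne_zero ?_
  rw [two_smul]
  nth_rw 2 [h]
  exact add_neg_cancel a

/-- an object whose negative is a monomial conjugate of itself has signature zero -/
theorem sig_selfneg {l : List (Par κ)} (hl : ∀ a ∈ l, a.Ok F0) {S : Set κ}
    {J J' : Type} [Fintype J] [DecidableEq J] [Fintype J'] [DecidableEq J']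
    {deg : J → ℤ} {deg' : J' → ℤ} {x : RPr (Matrix J J R0)}
    (hx : IsOb F0 l.length S deg x) (hc : Cov S l) (v w : Mon J J')
    (hv : ∀ j, deg' (v.σ j) = deg j) (hw : ∀ j, deg' (w.σ j) = deg j)
    (h : x.neg.map (cjH R0 v) = x.map (cjH R0 w)) :
    sig F0 P.L l (ob deg x) = 0 := by
  apply tf2 P
  have h1 := sig_neg P hl (X := ob deg x) hx hc
  have h2 : sig F0 P.L l (ob deg' (x.neg.map (cjH R0 v))) = sig F0 P.L l (ob deg x.neg) :=
    sig_iso P hl (X := ob deg x.neg) (Y := ob deg' (x.neg.map (cjH R0 v))) hx.neg hc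
      ⟨v, hv, rfl⟩
  have h3 : sig F0 P.L l (ob deg' (x.map (cjH R0 w))) = sig F0 P.L l (ob deg x) :=
    sig_iso P hl (X := ob deg x) (Y := ob deg' (x.map (cjH R0 w))) hx hc ⟨w, hw, rfl⟩
  rw [h] at h2
  rw [h2] at h3
  rw [← h1]
  exact h3.symm

/-- the rotation principle -/
theorem sig_rot {l : List (Par κ)} (hl : ∀ a ∈ l, a.Ok F0) {S : Set κ}
    {J : Type} [Fintype J] [DecidableEq J] {deg : J → ℤ} {x y : RPr (Matrix J J R0)}
    (hx : IsOb F0 l.length S deg x) (hy : IsOb F0 l.length S deg y) (hc : Cov S l)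
    {J' : Type} [Fintype J'] [DecidableEq J'] {deg' : J' → ℤ}
    {X : RPr (Matrix J' J' R1)} (hX : IsOb F1 l.length S deg' X)
    (u : Mon (Fin 2 × J) J') (hu : ∀ j, deg' (u.σ j) = deg2 deg j)
    (h0 : X.map (mapH J' P.ev0) = (sumR x y.neg).map (cjH R0 u))
    {J'' : Type} [Fintype J''] [DecidableEq J''] {deg'' : J'' → ℤ} (v w : Mon J' J'')
    (hv : ∀ j, deg'' (v.σ j) = deg' j) (hw : ∀ j, deg'' (w.σ j) = deg' j)
    (h1 : (X.map (mapH J' P.ev1)).neg.map (cjH R0 v) = (X.map (mapH J' P.ev1)).map (cjH R0 w)) :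
    sig F0 P.L l (ob deg x) = sig F0 P.L l (ob deg y) := by
  have e1 : sig F0 P.L l (mapO P.ev0 (ob deg' X)) = sig F0 P.L l (mapO P.ev1 (ob deg' X)) :=
    sig_path P hl (X := ob deg' X) hX hc
  have hX1 : IsOb F0 l.length S deg' (X.map (mapH J' P.ev1)) :=
    hX.map P.ev1_pu P.lo_eq.symm P.hi_eq.symm
  have e2 : sig F0 P.L l (mapO P.ev1 (ob deg' X)) = 0 :=
    sig_selfneg P hl hX1 hc v w hv hw h1
  have e3 : sig F0 P.L l (ob deg' ((sumR x y.neg).map (cjH R0 u)))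
      = sig F0 P.L l (ob (deg2 deg) (sumR x y.neg)) :=
    sig_iso P hl (X := ob (deg2 deg) (sumR x y.neg))
      (Y := ob deg' ((sumR x y.neg).map (cjH R0 u))) (hx.sum hy.neg) hc ⟨u, hu, rfl⟩
  have e4 : mapO P.ev0 (ob deg' X) = ob deg' ((sumR x y.neg).map (cjH R0 u)) := by
    rw [← h0]; rfl
  rw [e4, e2, e3, sig_sum P hl hx hy.neg hc] at e1
  have e5 := sig_neg P hl (X := ob deg y) hy hc
  have e6 : sig F0 P.L l (ob deg y.neg) = - sig F0 P.L l (ob deg y) := e5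
  rw [e6] at e1
  exact eq_of_sub_eq_zero (by rw [sub_eq_add_neg]; exact e1)

end rot

end Crest.Agent.R217.Rot52
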