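import Mathlib
import Crest.Agent.R217.Rot_52

/-!
Row 217 (S0336), part C, module M4: the signature of a cut does not depend on the contraction.
-/

set_option autoImplicit false
set_option linter.unusedSectionVars false

namespace Crest.Agent.R217.GPath52

open Matrix PC473 Obj52 Nat52 Sum52 TForm555 LocF555 Sig52 Ind52 RE531 Rot52

section comp

variable {K A : Type*} [CommRing K] [Ring A] [StarRing A] [Algebra K A]

theorem KK_lin (x : Tup A) (G G' : A) (t : K) :
    KK x (G + t • (G' - G)) = KK x G + t • (KK x G' - KK x G) := by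
  unfold KK
  simp only [mul_add, add_mul, mul_smul_comm, smul_mul_assoc, mul_sub, sub_mul, smul_sub]
  abel

theorem isComp_path {x : Tup A} {G G' Q : A} (h : IsComp x G Q) (h' : IsComp x G' Q) (t : K) :
    IsComp x (G + t • (G' - G)) Q where
  pG := by rw [mul_add, mul_smul_comm, mul_sub, h.pG, h'.pG]
  Gp := by rw [add_mul, smul_mul_assoc, sub_mul, h.Gp, h'.Gp]
  gG := by
    rw [mul_add, mul_smul_comm, mul_sub, h.gG, h'.gG, add_mul, smul_mul_assoc, sub_mul, neg_add,
      ← smul_neg]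
    congr 2
    abel
  BB := h.BB
  sB := h.sB
  pB := h.pB
  dB := h.dB
  gB := h.gB
  BK := by rw [KK_lin, mul_add, mul_smul_comm, mul_sub, h.BK, h'.BK]

end comp

section mapadm

variable {κ : Type*} {R : Type*} [Ring R] [StarRing R] [Algebra ℂ R] [StarModule ℂ R]
  {R' : Type*} [Ring R'] [StarRing R'] [Algebra ℂ R'] [StarModule ℂ R']
  {J : Type*} [Fintype J] [DecidableEq J]
  {F : Frame κ R} {F' : Frame κ R'} {m : ℕ} {S : Set κ} {deg : J → ℤ}

theorem isQuot_map (ϕ : R →⋆ₙₐ[ℂ] R') {z : Tup (Matrix J J R)} {P : Matrix J J R}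
    (h : IsQuot z P) : IsQuot (z.map (mapH J ϕ)) (mapH J ϕ P) where
  PP := by rw [← map_mul, h.PP]
  sP := by rw [← map_star, h.sP]
  pP := by simp only [Tup.map]; rw [← map_mul, h.pP]
  Pd := by simp only [Tup.map]; rw [← map_mul, ← map_mul, h.Pd]
  gP := by simp only [Tup.map]; rw [← map_mul, ← map_mul, h.gP]

theorem isComp_map {A B : Type*} [Ring A] [StarRing A] [Algebra ℂ A] [StarModule ℂ A] [Ring B]
    [StarRing B] [Algebra ℂ B] [StarModule ℂ B] (ϕ : A →⋆ₙₐ[ℂ] B) {x : Tup A} {G Q : A}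
    (h : IsComp x G Q) : IsComp (x.map ϕ) (ϕ G) (ϕ Q) where
  pG := by simp only [Tup.map]; rw [← map_mul, h.pG]
  Gp := by simp only [Tup.map]; rw [← map_mul, h.Gp]
  gG := by simp only [Tup.map]; rw [← map_mul, ← map_mul, ← map_neg, h.gG]
  BB := by rw [← map_mul, h.BB]
  sB := by rw [← map_star, h.sB]
  pB := by simp only [Tup.map]; rw [← map_mul, h.pB]
  dB := by simp only [Tup.map]; rw [← map_mul, ← map_mul, ← map_mul, h.dB]
  gB := by simp only [Tup.map]; rw [← map_mul, ← map_mul, h.gB]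
  BK := by
    simp only [KK, Tup.map]
    rw [← map_mul, ← map_mul, ← map_sub, ← map_sub, ← map_mul]
    exact congrArg ϕ h.BK

theorem adm_map {ϕ : R →⋆ₙₐ[ℂ] R'} (h : ∀ k c, ϕ (F.pu k c) = F'.pu k c) (hlo : F'.lo = F.lo)
    (hhi : F'.hi = F.hi) {k : κ} {z : Tup (Matrix J J R)} {P : Matrix J J R}
    {G Q : Matrix (Fin 2) (Fin 2) (Matrix J J R)} (ha : Adm F k m deg z P G Q) :
    Adm F' k m deg (z.map (mapH J ϕ)) (mapH J ϕ P) (G.map (mapH J ϕ)) (Q.map (mapH J ϕ)) where
  quot := isQuot_map ϕ ha.quot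
  Pd := dgc_map h ha.Pd
  wlo := bdlo_map h hlo ha.wlo
  whi := by
    have := bdhi_map h hhi ha.whi
    rwa [map_sub] at this
  comp := by
    have := isComp_map (mapH (Fin 2) (mapH J ϕ)) ha.comp
    rw [← bdry_map]
    exact this
  hG := hm_map ϕ ha.hG
  Qd := dgc_map h ha.Qd
  qhi := bdhi_map h hhi ha.qhi

end mapadm

section gpath

variable {κ : Type*} {R0 R1 : Type*} [Ring R0] [StarRing R0] [Algebra ℂ R0] [StarModule ℂ R0]
    [Ring R1] [StarRing R1] [Algebra ℂ R1] [StarModule ℂ R1]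
    {F0 : Frame κ R0} {F1 : Frame κ R1} {G : Type*} [AddCommGroup G] (P : SgP F0 F1 G)
  {J : Type} [Fintype J] [DecidableEq J] {S : Set κ} {deg : J → ℤ}

/-- the central parameter `t` -/
def tK : Subring.center R1 := ⟨P.tt, Subring.mem_center_iff.2 fun a => (P.tt_comm a).symm⟩

theorem ev_smul {I : Type*} (M : Matrix I I R1) (ev : R1 →⋆ₙₐ[ℂ] R0) (i j : I) :
    ev ((tK P • M) i j) = ev P.tt * ev (M i j) := by
  rw [Matrix.smul_apply]
  exact map_mul ev P.tt (M i j)

/-- the path of contractions -/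
noncomputable def gp (A B : Matrix (Fin 2) (Fin 2) (Matrix J J R0)) :
    Matrix (Fin 2) (Fin 2) (Matrix J J R1) :=
  A.map (mapH J P.cst) + tK P • (B.map (mapH J P.cst) - A.map (mapH J P.cst))

theorem gp_ev0 (A B : Matrix (Fin 2) (Fin 2) (Matrix J J R0)) :
    (gp P A B).map (mapH J P.ev0) = A := by
  ext i j x y
  have : ((gp P A B).map (mapH J P.ev0)) i j x y = P.ev0 (P.cst (A i j x y) +
      P.tt * (P.cst (B i j x y) - P.cst (A i j x y))) := rfl
  rw [this, map_add, map_mul, P.ev0_tt, zero_mul, add_zero, P.ev0_cst]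

theorem gp_ev1 (A B : Matrix (Fin 2) (Fin 2) (Matrix J J R0)) :
    (gp P A B).map (mapH J P.ev1) = B := by
  ext i j x y
  have : ((gp P A B).map (mapH J P.ev1)) i j x y = P.ev1 (P.cst (A i j x y) +
      P.tt * (P.cst (B i j x y) - P.cst (A i j x y))) := rfl
  rw [this, map_add, map_mul, P.ev1_tt, one_mul, map_sub, P.ev1_cst, P.ev1_cst]
  abel

theorem map_ev_cst {I : Type*} [Fintype I] [DecidableEq I] (ev : R1 →⋆ₙₐ[ℂ] R0)
    (h : ∀ a, ev (P.cst a) = a) (M : Matrix I I R0) : mapH I ev (mapH I P.cst M) = M := by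
  ext i j
  exact h _

theorem tmap_ev_cst {I : Type*} [Fintype I] [DecidableEq I] (ev : R1 →⋆ₙₐ[ℂ] R0)
    (h : ∀ a, ev (P.cst a) = a) (z : Tup (Matrix I I R0)) :
    (z.map (mapH I P.cst)).map (mapH I ev) = z := by
  simp only [Tup.map, map_ev_cst P ev h]

theorem adm_gp {m : ℕ} {z : Tup (Matrix J J R0)} {k : κ} {W : Matrix J J R0}
    {A B Q : Matrix (Fin 2) (Fin 2) (Matrix J J R0)}
    (h : Adm F0 k m deg z W A Q) (h' : Adm F0 k m deg z W B Q) :
    Adm F1 k m deg (z.map (mapH J P.cst)) (mapH J P.cst W) (gp P A B) (Q.map (mapH J P.cst)) := by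
  have a1 := adm_map P.cst_pu P.lo_eq P.hi_eq h
  have a2 := adm_map P.cst_pu P.lo_eq P.hi_eq h'
  refine { a1 with comp := isComp_path a1.comp a2.comp (tK P), hG := ?_ }
  intro i j hij
  have e1 := a1.hG i j hij
  have e2 := a2.hG i j hij
  have : fl (gp P A B) i j = fl (A.map (mapH J P.cst)) i j +
    P.tt * (fl (B.map (mapH J P.cst)) i j - fl (A.map (mapH J P.cst)) i j) := rfl
  rw [this, e1, e2]
  simp

/-- the signature of the cut does not depend on the contraction (same strip) -/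
theorem sig_gpath {l : List (Par κ)} (hl : ∀ a ∈ l, a.Ok F0) {k : κ} (hc : Cov (insert k S) l)
    {z : Tup (Matrix J J R0)} (hz : IsOT F0 (l.length + 1) S deg z) {W : Matrix J J R0}
    {A B Q : Matrix (Fin 2) (Fin 2) (Matrix J J R0)}
    (h : Adm F0 k l.length deg z W A Q) (h' : Adm F0 k l.length deg z W B Q) :
    sig F0 P.L l (ob (degB l.length deg) (cutR l.length z W A Q)) =
      sig F0 P.L l (ob (degB l.length deg) (cutR l.length z W B Q)) := by
  have hz1 : IsOT F1 (l.length + 1) S deg (z.map (mapH J P.cst)) :=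
    hz.map P.cst_pu P.lo_eq P.hi_eq
  have hX := Cut1x473.T2 hz1 (adm_gp P h h')
  have e := sig_path P hl (X := ob _ _) hX hc
  have k0 := (compat_map (J := J) P.ev0).cutR l.length (z.map (mapH J P.cst)) (mapH J P.cst W)
    (gp P A B) (Q.map (mapH J P.cst))
  have k1 := (compat_map (J := J) P.ev1).cutR l.length (z.map (mapH J P.cst)) (mapH J P.cst W)
    (gp P A B) (Q.map (mapH J P.cst))
  have q0 : (Q.map (mapH J P.cst)).map (mapH J P.ev0) = Q := by
    ext i j : 1
    exact map_ev_cst P P.ev0 P.ev0_cst _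
  have q1 : (Q.map (mapH J P.cst)).map (mapH J P.ev1) = Q := by
    ext i j : 1
    exact map_ev_cst P P.ev1 P.ev1_cst _
  rw [tmap_ev_cst P P.ev0 P.ev0_cst, map_ev_cst P P.ev0 P.ev0_cst, gp_ev0, q0] at k0
  rw [tmap_ev_cst P P.ev1 P.ev1_cst, map_ev_cst P P.ev1 P.ev1_cst, gp_ev1, q1] at k1
  rw [k0, k1]
  exact e

end gpath

end Crest.Agent.R217.GPath52
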