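import Crest.Agent.R217.RE3_531
import Crest.Agent.R217.Cut1_473
import Crest.Agent.R217.Sig_52

/-!
Row 217 (S0336), part C1: LEMMA RE at the level of objects (`IsOb`, `IsOT`), on `J ⊕ J'`.
-/

set_option autoImplicit false
set_option linter.unusedSectionVars false
set_option linter.unusedSimpArgs false

namespace Crest.Agent.R217.RE531

open Crest.Agent.R217.PC473 Crest.Agent.R217.Frame52 Crest.Agent.R217.Obj52
open Matrix

universe u v w

section rect

variable {R : Type w} [Ring R] [StarRing R]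
variable {J J' J'' : Type u} [Fintype J] [DecidableEq J] [Fintype J'] [DecidableEq J']
  [Fintype J''] [DecidableEq J'']

theorem HmR.congrc {α α' : J → ℤ} {β β' : J' → ℤ} {a : Matrix J J' R} (h : HmR α β a)
    (hh : ∀ i j, α' i ≠ β' j → α i ≠ β j) : HmR α' β' a := fun i j hij => h i j (hh i j hij)

theorem HmR.mulc {α : J → ℤ} {β : J' → ℤ} {γ : J'' → ℤ} {a : Matrix J J' R}
    {b : Matrix J' J'' R} (ha : HmR α β a) (hb : HmR β γ b) : HmR α γ (a * b) := by
  intro i j hij
  rw [Matrix.mul_apply]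
  refine Finset.sum_eq_zero fun x _ => ?_
  by_cases h1 : α i = β x
  · have h2 : β x ≠ γ j := fun h => hij (h1.trans h)
    rw [hb x j h2, mul_zero]
  · rw [ha i x h1, zero_mul]

theorem HmR.ct {α : J → ℤ} {β : J' → ℤ} {a : Matrix J J' R} (ha : HmR α β a) :
    HmR β α aᴴ := fun i j hij => by
  rw [conjTranspose_apply, ha j i (Ne.symm hij), star_zero]

theorem HmR.fb {α β : J → ℤ} {α' β' : J' → ℤ} {a : Matrix J J R} {b : Matrix J J' R}
    {c : Matrix J' J R} {d : Matrix J' J' R} (ha : HmR α β a) (hb : HmR α β' b)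
    (hc : HmR α' β c) (hd : HmR α' β' d) :
    Hm (Sum.elim α α') (Sum.elim β β') (fromBlocks a b c d) := by
  rintro (i | i) (j | j) hij
  · exact ha i j hij
  · exact hb i j hij
  · exact hc i j hij
  · exact hd i j hij

variable {κ : Type*} {F : Frame κ R}

theorem DgC.fb {a : Matrix J J R} {b : Matrix J' J' R} (ha : DgC F a) (hb : DgC F b) :
    DgC F (fromBlocks a 0 0 b) := by
  obtain ⟨e, rfl, he⟩ := ha
  obtain ⟨e', rfl, he'⟩ := hb
  refine ⟨Sum.elim e e', fromBlocks_diagonal .., ?_⟩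
  rintro (j | j) k c
  · exact he j k c
  · exact he' j k c

theorem PU_fb (F : Frame κ R) (k : κ) (s : ℝ) :
    PU F k (fun _ : J ⊕ J' => s) = fromBlocks (PU F k fun _ => s) 0 0 (PU F k fun _ => s) := by
  unfold PU
  rw [fromBlocks_diagonal]
  congr 1
  ext (j | j) <;> rfl

theorem PU_mul_lo (F : Frame κ R) (k : κ) {s t : ℝ} (h : s ≤ t) :
    PU F k (fun _ : J => s) * PU F k (fun _ => t) = PU F k (fun _ => s) := by
  unfold PU
  rw [diagonal_mul_diagonal]
  congr 1; ext j
  exact F.pu_mul k _ _ h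

theorem PU_mul_hi (F : Frame κ R) (k : κ) {s t : ℝ} (h : s ≤ t) :
    PU F k (fun _ : J => t) * PU F k (fun _ => s) = PU F k (fun _ => s) := by
  unfold PU
  rw [diagonal_mul_diagonal]
  congr 1; ext j
  rw [F.pu_comm, F.pu_mul k _ _ h]

theorem BdLo.fb {k : κ} {a : Matrix J J R} {b : Matrix J' J' R} (ha : BdLo F k a)
    (hb : BdLo F k b) : BdLo F k (fromBlocks a 0 0 b) := by
  obtain ⟨s, h1, h2⟩ := ha
  obtain ⟨s', h1', h2'⟩ := hb
  refine ⟨min s s', lt_min h1 h1', ?_⟩
  have a1 : PU F k (fun _ => min s s') * a = 0 := by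
    rw [← PU_mul_lo F k (min_le_left s s'), Matrix.mul_assoc, h2, Matrix.mul_zero]
  have a2 : PU F k (fun _ => min s s') * b = 0 := by
    rw [← PU_mul_lo F k (min_le_right s s'), Matrix.mul_assoc, h2', Matrix.mul_zero]
  rw [PU_fb, fromBlocks_multiply]
  simp [a1, a2]

theorem BdHi.fb {k : κ} {a : Matrix J J R} {b : Matrix J' J' R} (ha : BdHi F k a)
    (hb : BdHi F k b) : BdHi F k (fromBlocks a 0 0 b) := by
  obtain ⟨s, h1, h2⟩ := ha
  obtain ⟨s', h1', h2'⟩ := hb
  refine ⟨max s s', max_lt h1 h1', ?_⟩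
  have a1 : PU F k (fun _ => max s s') * a = a := by
    conv_lhs => rw [← h2, ← Matrix.mul_assoc, PU_mul_hi F k (le_max_left s s'), h2]
  have a2 : PU F k (fun _ => max s s') * b = b := by
    conv_lhs => rw [← h2', ← Matrix.mul_assoc, PU_mul_hi F k (le_max_right s s'), h2']
  rw [PU_fb, fromBlocks_multiply]
  simp [a1, a2]

end rect

section objs

variable {κ : Type*} {R : Type w} [Ring R] [StarRing R]
variable {J J' : Type u} [Fintype J] [DecidableEq J] [Fintype J'] [DecidableEq J']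
  {F : Frame κ R} {m : ℕ} {S : Set κ} {deg : J → ℤ} {deg' : J' → ℤ}

theorem elim_fun (f : ℤ → ℤ) (deg : J → ℤ) (deg' : J' → ℤ) :
    (fun j => f (Sum.elim deg deg' j)) = Sum.elim (fun j => f (deg j)) (fun j => f (deg' j)) := by
  ext (j | j) <;> rfl

theorem rsumB_isOb {x : RPr (Matrix J J R)} {y : RPr (Matrix J' J' R)} (hx : IsOb F m S deg x)
    (hy : IsOb F m S deg' y) : IsOb F m S (Sum.elim deg deg') (rsumB x y) where
  rp := rsumB_isRP hx.rp hy.rp
  pd := DgC.fb hx.pd hy.pd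
  gd := DgC.fb hx.gd hy.gd
  hd := by
    rw [elim_fun (fun n => n + 1)]
    exact HmR.fb hx.hd HmR.zero HmR.zero hy.hd
  hf := by
    rw [elim_fun (fun n => m - n)]
    exact HmR.fb hx.hf HmR.zero HmR.zero hy.hf
  hq := by
    rw [elim_fun (fun n => m - n)]
    exact HmR.fb hx.hq HmR.zero HmR.zero hy.hq
  hh := by
    rw [elim_fun (fun n => m + 1 - n)]
    exact HmR.fb hx.hh HmR.zero HmR.zero hy.hh
  lo := fun k hk => BdLo.fb (hx.lo k hk) (hy.lo k hk)
  hi := fun k hk => BdHi.fb (hx.hi k hk) (hy.hi k hk)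

theorem tsumB_isOT {x : Tup (Matrix J J R)} {y : Tup (Matrix J' J' R)} (hx : IsOT F m S deg x)
    (hy : IsOT F m S deg' y) : IsOT F m S (Sum.elim deg deg') (tsumB x y) where
  pc := tsumB_isPC hx.pc hy.pc
  pd := DgC.fb hx.pd hy.pd
  gd := DgC.fb hx.gd hy.gd
  hd := by
    rw [elim_fun (fun n => n + 1)]
    exact HmR.fb hx.hd HmR.zero HmR.zero hy.hd
  hS := by
    rw [elim_fun (fun n => m - n)]
    exact HmR.fb hx.hS HmR.zero HmR.zero hy.hS
  hT := by
    rw [elim_fun (fun n => m - n)]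
    exact HmR.fb hx.hT HmR.zero HmR.zero hy.hT
  hH := by
    rw [elim_fun (fun n => n + 1)]
    exact HmR.fb hx.hH HmR.zero HmR.zero hy.hH
  lo := fun k hk => BdLo.fb (hx.lo k hk) (hy.lo k hk)
  hi := fun k hk => BdHi.fb (hx.hi k hk) (hy.hi k hk)

variable {K : Type v} [CommRing K] [StarRing K] [Algebra K R] [StarModule K R]

/-- degrees of the data `α, k, l` -/
structure DegA (m : ℕ) (deg : J → ℤ) (deg' : J' → ℤ) (α : Matrix J' J R)
    (k : Matrix J' J' R) (l : Matrix J J R) : Prop where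
  hα : HmR deg' deg α
  hk : HmR deg' (fun j => (m : ℤ) + 1 - deg' j) k
  hl : HmR (fun j => (m : ℤ) - deg j) (fun j => deg j + 1) l

theorem reR_isOb {x : RPr (Matrix J J R)} {y : RPr (Matrix J' J' R)} {α : Matrix J' J R}
    {k : Matrix J' J' R} {l : Matrix J J R} (hx : IsOb F m S deg x) (hy : IsOb F m S deg' y)
    (h : HypR m x y α k l) (hd : DegA m deg deg' α k l) {c s : K} (hc : star c = c)
    (hs : star s = s) (hcs : c * c + s * s = 1) :
    IsOb F m S (Sum.elim deg deg') (reR c s x y α k l) where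
  rp := reR_isRP h hc hs hcs
  pd := DgC.fb hx.pd hy.pd
  gd := DgC.fb hx.gd hy.gd
  hd := by
    rw [elim_fun (fun n => n + 1)]
    exact HmR.fb hx.hd HmR.zero HmR.zero hy.hd
  hf := by
    rw [elim_fun (fun n => m - n)]
    have hf : HmR deg (fun j => (m : ℤ) - deg j) x.f := hx.hf
    have hf' : HmR deg' (fun j => (m : ℤ) - deg' j) y.f := hy.hf
    have hαs : HmR (fun j => (m : ℤ) - deg j) (fun j => (m : ℤ) - deg' j) αᴴ :=
      hd.hα.ct.congrc (by intro i j h; omega)
    exact HmR.fb (hf.smul c) ((hf.mulc hαs).smul s) ((hd.hα.mulc hf).smul s)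
      (hf'.smul c).neg
  hq := by
    rw [elim_fun (fun n => m - n)]
    have hq : HmR (fun j => (m : ℤ) - deg j) deg x.q := hx.hq
    have hq' : HmR (fun j => (m : ℤ) - deg' j) deg' y.q := hy.hq
    have hαs : HmR (fun j => (m : ℤ) - deg j) (fun j => (m : ℤ) - deg' j) αᴴ :=
      hd.hα.ct.congrc (by intro i j h; omega)
    exact HmR.fb (hq.smul c) ((hαs.mulc hq').smul s) ((hq'.mulc hd.hα).smul s)
      (hq'.smul c).neg
  hh := by
    rw [elim_fun (fun n => m + 1 - n)]
    have hf : HmR deg (fun j => (m : ℤ) - deg j) x.f := hx.hf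
    have hf' : HmR deg' (fun j => (m : ℤ) - deg' j) y.f := hy.hf
    have hh : HmR deg (fun j => (m : ℤ) + 1 - deg j) x.h := hx.hh
    have hh' : HmR deg' (fun j => (m : ℤ) + 1 - deg' j) y.h := hy.hh
    have hq' : HmR (fun j => (m : ℤ) - deg' j) deg' y.q := hy.hq
    have hαs : HmR (fun j => (m : ℤ) - deg j) (fun j => (m : ℤ) - deg' j) αᴴ :=
      hd.hα.ct.congrc (by intro i j h; omega)
    have hαs1 : HmR (fun j => (m : ℤ) + 1 - deg j) (fun j => (m : ℤ) + 1 - deg' j) αᴴ :=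
      hd.hα.ct.congrc (by intro i j h; omega)
    have hf1 : HmR (fun j => deg j + 1) (fun j => (m : ℤ) + 1 - deg j) x.f :=
      hf.congrc (by intro i j h; omega)
    have hflf : HmR deg (fun j => (m : ℤ) + 1 - deg j) (x.f * l * x.f) :=
      (hf.mulc hd.hl).mulc hf1
    have hαf : HmR deg' (fun j => (m : ℤ) - deg j) (α * x.f) := hd.hα.mulc hf
    have hαflf : HmR deg' (fun j => (m : ℤ) + 1 - deg j) (α * x.f * l * x.f) :=
      (hαf.mulc hd.hl).mulc hf1
    have hff : HmR deg' (fun j => (m : ℤ) - deg' j) (y.f - α * x.f * αᴴ) :=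
      hf'.sub (hαf.mulc hαs)
    have hkq : HmR deg' (fun j => deg' j + 1) (k * y.q) :=
      hd.hk.mulc (hq'.congrc (by intro i j h; omega))
    have hff1 : HmR (fun j => deg' j + 1) (fun j => (m : ℤ) + 1 - deg' j)
        (y.f - α * x.f * αᴴ) := hff.congrc (by intro i j h; omega)
    refine HmR.fb ((hh.smul c).sub (hflf.smul _)) (((hh.mulc hαs1).smul s).sub
      ((hflf.mulc hαs1).smul _)) (((hd.hα.mulc hh).smul s).sub (hαflf.smul _))
      ((hh'.smul c).neg.add (HmR.smul _ ((hαflf.mulc hαs1).add (hkq.mulc hff1))))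
  lo := fun k hk => BdLo.fb (hx.lo k hk) (hy.lo k hk)
  hi := fun k hk => BdHi.fb (hx.hi k hk) (hy.hi k hk)

theorem reT_isOT {x : Tup (Matrix J J R)} {y : Tup (Matrix J' J' R)} {α : Matrix J' J R}
    {k : Matrix J' J' R} {l : Matrix J J R} (hx : IsOT F m S deg x) (hy : IsOT F m S deg' y)
    (h : HypT m x y α k l) (hd : DegA m deg deg' α k l) {c s : K} (hc : star c = c)
    (hs : star s = s) (hcs : c * c + s * s = 1) :
    IsOT F m S (Sum.elim deg deg') (reT c s x y α k l) where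
  pc := reT_isPC h hc hs hcs
  pd := DgC.fb hx.pd hy.pd
  gd := DgC.fb hx.gd hy.gd
  hd := by
    rw [elim_fun (fun n => n + 1)]
    exact HmR.fb hx.hd HmR.zero HmR.zero hy.hd
  hS := by
    rw [elim_fun (fun n => m - n)]
    have hf : HmR deg (fun j => (m : ℤ) - deg j) x.S := hx.hS
    have hf' : HmR deg' (fun j => (m : ℤ) - deg' j) y.S := hy.hS
    have hαs : HmR (fun j => (m : ℤ) - deg j) (fun j => (m : ℤ) - deg' j) αᴴ :=
      hd.hα.ct.congrc (by intro i j h; omega)
    exact HmR.fb (hf.smul c) ((hf.mulc hαs).smul s) ((hd.hα.mulc hf).smul s)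
      (hf'.smul c).neg
  hT := by
    rw [elim_fun (fun n => m - n)]
    have hq : HmR (fun j => (m : ℤ) - deg j) deg x.T := hx.hT
    have hq' : HmR (fun j => (m : ℤ) - deg' j) deg' y.T := hy.hT
    have hαs : HmR (fun j => (m : ℤ) - deg j) (fun j => (m : ℤ) - deg' j) αᴴ :=
      hd.hα.ct.congrc (by intro i j h; omega)
    exact HmR.fb (hq.smul c) ((hαs.mulc hq').smul s) ((hq'.mulc hd.hα).smul s)
      (hq'.smul c).neg
  hH := by
    rw [elim_fun (fun n => n + 1)]
    have hf : HmR deg (fun j => (m : ℤ) - deg j) x.S := hx.hS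
    have hH : HmR deg (fun j => deg j + 1) x.H := hx.hH
    have hH' : HmR deg' (fun j => deg' j + 1) y.H := hy.hH
    have hq' : HmR (fun j => (m : ℤ) - deg' j) deg' y.T := hy.hT
    have hkq : HmR deg' (fun j => deg' j + 1) (k * y.T) :=
      hd.hk.mulc (hq'.congrc (by intro i j h; omega))
    have hα1 : HmR (fun j => deg' j + 1) (fun j => deg j + 1) α :=
      hd.hα.congrc (by intro i j h; omega)
    refine HmR.fb (hH.sub ((hf.mulc hd.hl).smul _)) HmR.zero
      (HmR.smul _ (((hd.hα.mulc hf).mulc hd.hl).sub (hkq.mulc hα1)))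
      (hH'.sub (hkq.smul _))
  lo := fun k hk => BdLo.fb (hx.lo k hk) (hy.lo k hk)
  hi := fun k hk => BdHi.fb (hx.hi k hk) (hy.hi k hk)

end objs

end Crest.Agent.R217.RE531
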