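import Mathlib
import Crest.Agent.R217.GPath_52
import Crest.Agent.R217.RE4_531

/-!
Row 217 (S0336), part C, module M4: widening of the strip, hypotheses of lemma RE.
-/

set_option autoImplicit false
set_option linter.unusedSectionVars false

namespace Crest.Agent.R217.Strip52

open Matrix PC473 Obj52 Nat52 Sum52 TForm555 LocF555 Sig52 Ind52 RE531 Rot52 GPath52

section ring

variable {A : Type*} [Ring A] [StarRing A]

theorem strip_hypRA {m : ℕ} {D : Tup A} (hD : D.IsPC m) {G Q Q' : A} (h : IsComp D G Q)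
    (h' : IsComp D G Q') (hQ : Q' * Q = Q) :
    HypRA m (compr D G Q) (compr D G Q') Q 0 0 where
  hx := compr_isRP hD h
  hy := compr_isRP hD h'
  pα := hQ
  αp := h.BB
  gα := by
    show Q' * D.g * Q = Q * (Q * D.g)
    rw [mul_assoc, h.gB, ← mul_assoc, ← mul_assoc, hQ, h.BB]
  dα := by
    show D.d * Q' * Q = Q * (D.d * Q)
    rw [mul_assoc, hQ, ← mul_assoc, h.dB]
  hf := by
    have hs : star (KK D G) * Q = star (KK D G) := by
      have := congrArg star h.BK
      rwa [star_mul, h.sB] at this
    show KK D G * D.S * star (KK D G) = Q * (KK D G * D.S * star (KK D G)) * star Q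
      + D.d * Q' * 0 - 0 * star (D.d * Q')
    rw [h.sB, mul_zero, zero_mul, add_zero, sub_zero]
    calc KK D G * D.S * star (KK D G) = (Q * KK D G) * D.S * (star (KK D G) * Q) := by
          rw [h.BK, hs]
      _ = _ := by simp only [mul_assoc]
  hq := by
    have hQ' : Q * Q' = Q := by
      have := congrArg star hQ
      rwa [star_mul, h.sB, h'.sB] at this
    show Q * D.T * Q = star Q * (Q' * D.T * Q') * Q + 0 * (D.d * Q) - star (D.d * Q) * 0
    rw [h.sB, mul_zero, zero_mul, add_zero, sub_zero]
    calc Q * D.T * Q = (Q * Q') * D.T * (Q' * Q) := by rw [hQ, hQ']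
      _ = _ := by simp only [mul_assoc]
  pk := mul_zero _
  kp := zero_mul _
  gk := by rw [mul_zero, zero_mul, mul_zero, neg_zero]
  pl := mul_zero _
  lp := zero_mul _
  gl := by rw [mul_zero, zero_mul, mul_zero, neg_zero]

end ring

section flat

variable {R : Type*} [Ring R] [StarRing R] [Algebra ℂ R] [StarModule ℂ R]
  {J J' : Type*} [Fintype J] [DecidableEq J]

/-- ring level hypotheses give the hypotheses of lemma RE after flattening -/
theorem hypR_fl {m : ℕ} {x y : RPr (Matrix (Fin 2) (Fin 2) (Matrix J J R))}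
    {α k l : Matrix (Fin 2) (Fin 2) (Matrix J J R)} (h : HypRA m x y α k l) :
    HypR m (x.map fl) (y.map fl) (fl α) (fl k) (fl l) where
  hx := h.hx.mapN (flH (R := R) (J := J))
  hy := h.hy.mapN (flH (R := R) (J := J))
  pα := by simp only [RPr.map]; rw [← Nat52.fl_mul, h.pα]
  αp := by simp only [RPr.map]; rw [← Nat52.fl_mul, h.αp]
  gα := by simp only [RPr.map]; rw [← Nat52.fl_mul, ← Nat52.fl_mul, h.gα]
  dα := by simp only [RPr.map]; rw [← Nat52.fl_mul, ← Nat52.fl_mul, h.dα]
  hf := by
    have := congrArg (flH (R := R) (J := J)) h.hf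
    simp only [map_add, map_sub, map_mul, map_star] at this
    exact this
  hq := by
    have := congrArg (flH (R := R) (J := J)) h.hq
    simp only [map_add, map_sub, map_mul, map_star] at this
    exact this
  pk := by simp only [RPr.map]; rw [← Nat52.fl_mul, h.pk]
  kp := by simp only [RPr.map]; rw [← Nat52.fl_mul, h.kp]
  gk := by
    have := congrArg (flH (R := R) (J := J)) h.gk
    rw [map_neg, map_neg_one_pow_mul, map_mul, map_mul] at this
    exact this
  pl := by simp only [RPr.map]; rw [← Nat52.fl_mul, h.pl]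
  lp := by simp only [RPr.map]; rw [← Nat52.fl_mul, h.lp]
  gl := by
    have := congrArg (flH (R := R) (J := J)) h.gl
    rw [map_neg, map_neg_one_pow_mul, map_mul, map_mul] at this
    exact this

end flat

section strip

variable {κ : Type*} {R : Type*} [Ring R] [StarRing R] [Algebra ℂ R] [StarModule ℂ R]
  {J : Type*} [Fintype J] [DecidableEq J] {F : Frame κ R} {m : ℕ} {S : Set κ} {deg : J → ℤ}

theorem strip_hypR {k : κ} {z : Tup (Matrix J J R)} (hz : IsOT F (m + 1) S deg z)
    {W : Matrix J J R} {G Q Q' : Matrix (Fin 2) (Fin 2) (Matrix J J R)}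
    (h : Adm F k m deg z W G Q) (h' : Adm F k m deg z W G Q') (hQ : Q' * Q = Q) :
    HypR m (cutR m z W G Q) (cutR m z W G Q') (fl Q) 0 0 := by
  have hD : (bdry m z W).IsPC m := bdry0_isPC (trunc_isSym hz.pc.isSym h.quot)
  exact hypR_fl (strip_hypRA hD h.comp h'.comp hQ)

theorem strip_degA {k : κ} {z : Tup (Matrix J J R)}
    {W : Matrix J J R} {G Q : Matrix (Fin 2) (Fin 2) (Matrix J J R)}
    (h : Adm F k m deg z W G Q) :
    DegA m (degB m deg) (degB m deg) (fl Q) 0 0 where
  hα := h.Qd.hmc fun _ => rfl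
  hk := HmR.zero
  hl := HmR.zero

end strip

end Crest.Agent.R217.Strip52
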