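import Mathlib
import Crest.Agent.R217.Strip_52
import Crest.Agent.R217.RE5_531

/-!
Row 217 (S0336), part C, module M4: independence of the cut.
-/

set_option autoImplicit false
set_option linter.unusedSectionVars false

namespace Crest.Agent.R217.Indep52

open Matrix PC473 Obj52 Nat52 Sum52 TForm555 LocF555 Sig52 Ind52 RE531 Rot52 GPath52 Strip52

section indep

variable {κ : Type*} {R0 R1 : Type*} [Ring R0] [StarRing R0] [Algebra ℂ R0] [StarModule ℂ R0]
    [Ring R1] [StarRing R1] [Algebra ℂ R1] [StarModule ℂ R1]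
    {F0 : Frame κ R0} {F1 : Frame κ R1} {G : Type*} [AddCommGroup G] (P : SgP F0 F1 G)
  {J : Type} [Fintype J] [DecidableEq J] {S : Set κ} {deg : J → ℤ}

/-- widening of the strip -/
theorem sig_strip {l : List (Par κ)} (hl : ∀ a ∈ l, a.Ok F0) {k : κ} (hc : Cov (insert k S) l)
    {z : Tup (Matrix J J R0)} (hz : IsOT F0 (l.length + 1) S deg z) {W : Matrix J J R0}
    {A Q Q' : Matrix (Fin 2) (Fin 2) (Matrix J J R0)}
    (h : Adm F0 k l.length deg z W A Q) (h' : Adm F0 k l.length deg z W A Q')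
    (hQ : Q' * Q = Q) :
    sig F0 P.L l (ob (degB l.length deg) (cutR l.length z W A Q)) =
      sig F0 P.L l (ob (degB l.length deg) (cutR l.length z W A Q')) :=
  sig_re P hl (Cut1x473.T2 hz h) (Cut1x473.T2 hz h') hc (strip_hypR hz h h' hQ) (strip_degA h)

/-- same wall, arbitrary contractions and strips -/
theorem sig_same_wall {l : List (Par κ)} (hl : ∀ a ∈ l, a.Ok F0) {k : κ}
    (hc : Cov (insert k S) l) {z : Tup (Matrix J J R0)}
    (hz : IsOT F0 (l.length + 1) S deg z) {W : Matrix J J R0}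
    {A A' Q Q' : Matrix (Fin 2) (Fin 2) (Matrix J J R0)}
    (h : Adm F0 k l.length deg z W A Q) (h' : Adm F0 k l.length deg z W A' Q') :
    sig F0 P.L l (ob (degB l.length deg) (cutR l.length z W A Q)) =
      sig F0 P.L l (ob (degB l.length deg) (cutR l.length z W A' Q')) := by
  obtain ⟨t, ht, ht'⟩ := h.qhi
  obtain ⟨s, hs, hs'⟩ := h'.qhi
  set u := max t s with hu
  have hu1 : u < F0.hi k := max_lt ht hs
  set δ := (F0.hi k - u) / 8 with hδ
  have hδ0 : 0 < δ := by rw [hδ]; linarith
  set b := F0.hi k - 3 * δ with hb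
  have h1 := Cut2x473.T5 hz h ht' hδ0 (b := b) (by have := le_max_left t s; rw [hb]; linarith)
    (by rw [hb]; linarith)
  have h2 := Cut2x473.T5 hz h' hs' hδ0 (b := b) (by have := le_max_right t s; rw [hb]; linarith)
    (by rw [hb]; linarith)
  rw [sig_strip P hl hc hz h h1.1 h1.2, sig_strip P hl hc hz h' h2.1 h2.2]
  exact sig_gpath P hl hc hz h1.1 h2.1

end indep

end Crest.Agent.R217.Indep52
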