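import Mathlib
import Crest.Agent.R217.Indep_52

/-!
Row 217 (S0336), part C, module M4: independence of the cut and of the cut parameters.
-/

set_option autoImplicit false
set_option linter.unusedSectionVars false

namespace Crest.Agent.R217.Param52

open Matrix PC473 Obj52 Nat52 Sum52 TForm555 LocF555 Sig52 Ind52 RE531 Rot52 GPath52 Strip52
  Indep52 Wall473

section indep

variable {κ : Type*} {R0 R1 : Type*} [Ring R0] [StarRing R0] [Algebra ℂ R0] [StarModule ℂ R0]
    [Ring R1] [StarRing R1] [Algebra ℂ R1] [StarModule ℂ R1]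
    {F0 : Frame κ R0} {F1 : Frame κ R1} {G : Type*} [AddCommGroup G] (P : SgP F0 F1 G)
  {J : Type} [Fintype J] [DecidableEq J] {S : Set κ} {deg : J → ℤ}

theorem PU_absorb {F : Frame κ R0} {k : κ} {s t : ℝ} (h : s ≤ t) {a : Matrix J J R0}
    (ha : PU F k (fun _ => s) * a = a) : PU F k (fun _ => t) * a = a := by
  rw [← ha, ← mul_assoc, PU_mul_hi F k h]

/-- independence of the cut -/
theorem cut_indep {l : List (Par κ)} (hl : ∀ a ∈ l, a.Ok F0) {k : κ}
    (hc : Cov (insert k S) l) {z : Tup (Matrix J J R0)}
    (hz : IsOT F0 (l.length + 1) S deg z) {W W' : Matrix J J R0}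
    {A A' Q Q' : Matrix (Fin 2) (Fin 2) (Matrix J J R0)}
    (h : Adm F0 k l.length deg z W A Q) (h' : Adm F0 k l.length deg z W' A' Q') :
    sig F0 P.L l (ob (degB l.length deg) (cutR l.length z W A Q)) =
      sig F0 P.L l (ob (degB l.length deg) (cutR l.length z W' A' Q')) := by
  obtain ⟨t, ht, ht'⟩ := h.whi
  obtain ⟨s, hs, hs'⟩ := h'.whi
  set u := max t s with hu
  have hu1 : u < F0.hi k := max_lt ht hs
  set δ := (F0.hi k - u) / 8 with hδ
  have hδ0 : 0 < δ := by rw [hδ]; linarith
  set b := F0.hi k - 3 * δ with hb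
  have c1 := PU_absorb (le_max_left t s) ht'
  have c2 := PU_absorb (le_max_right t s) hs'
  have h1 : u + 2 * δ < b := by rw [hb]; linarith
  have h2 : b + 2 * δ < F0.hi k := by rw [hb]; linarith
  have a1 := Cut2x473.T4 hz h.quot h.Pd h.wlo c1 hδ0 h1 h2
  have a2 := Cut2x473.T4 hz h'.quot h'.Pd h'.wlo c2 hδ0 h1 h2
  rw [sig_same_wall P hl hc hz h a1, sig_same_wall P hl hc hz h' a2]
  exact Wall473.wall_change P hl hz (IsWall.mk h.quot h.Pd h.wlo c1)
    (IsWall.mk h'.quot h'.Pd h'.wlo c2) hδ0 h1 h2 hc

/-- the signature does not depend on the parameters of the cuts -/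
theorem sig_param {l l' : List (Par κ)} (hl : ∀ a ∈ l, a.Ok F0)
    (hl' : ∀ a ∈ l', a.Ok F0) (hk : l.map Par.k = l'.map Par.k) {S : Set κ} (hc : Cov S l)
    {X : Obj R0} (hX : IsOb F0 l.length S X.deg X.x) :
    sig F0 P.L l X = sig F0 P.L l' X := by
  induction l generalizing l' S X with
  | nil =>
    cases l' with
    | nil => rfl
    | cons a l' => simp at hk
  | cons a l ih =>
    cases l' with
    | nil => simp at hk
    | cons a' l' =>
      simp only [List.map_cons, List.cons.injEq] at hk
      obtain ⟨hk1, hk2⟩ := hk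
      have hlen : l.length = l'.length := by
        have := congrArg List.length hk2
        simpa using this
      have hla := hl a List.mem_cons_self
      have hla' := hl' a' List.mem_cons_self
      have hl1 : ∀ b ∈ l, b.Ok F0 := fun b hb => hl b (List.mem_cons_of_mem _ hb)
      have hl1' : ∀ b ∈ l', b.Ok F0 := fun b hb => hl' b (List.mem_cons_of_mem _ hb)
      have e1 : sig F0 P.L (a :: l) X = sig F0 P.L l (cutO F0 a l.length X) := rfl
      have e2 : sig F0 P.L (a' :: l') X = sig F0 P.L l' (cutO F0 a' l'.length X) := rfl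
      have hz := Cut1x473.T1 hX
      have b1 := Cut2x473.canon_adm hla hz
      have b2 := Cut2x473.canon_adm hla' hz
      rw [← hk1] at b2
      have key := cut_indep P hl1 hc.tail hz b1 b2
      have hX' : IsOb F0 l.length (insert a.k S) (cutO F0 a' l.length X).deg
          (cutO F0 a' l.length X).x := by
        have := Cut2x473.T6 hla' hX
        rw [← hk1] at this
        exact this
      rw [e1, e2, ← hlen, ← ih hl1 hl1' hk2 hc.tail hX']
      have hdef : ∀ c : Par κ, cutO F0 c l.length X = ob (degB l.length (degD (l.length + 1)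
        X.deg)) (cutR l.length (dblT (l.length + 1) X.x) (wallP F0 c.k c.c c.δ
          (degD (l.length + 1) X.deg) (dblT (l.length + 1) X.x).p)
          (cutG (dblT (l.length + 1) X.x) (wallP F0 c.k c.c c.δ
          (degD (l.length + 1) X.deg) (dblT (l.length + 1) X.x).p))
          (stripQ F0 c.k c.b c.δ l.length (degD (l.length + 1) X.deg) (wallP F0 c.k c.c c.δ
          (degD (l.length + 1) X.deg) (dblT (l.length + 1) X.x).p))) := fun c => rfl
      rw [hdef, hdef, ← hk1]
      exact key

end indep

end Crest.Agent.R217.Param52
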