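import Mathlib
import Crest.Agent.R217.AsySg_476
import Crest.Agent.R217.Obj_52

/-!
Row 217 (S0336), part C: the asymptotic algebra as a frame (helper52's `Obj52.Frame`).
-/

set_option autoImplicit false
set_option linter.unusedSectionVars false
set_option linter.unusedVariables false

open Filter Topology Matrix

namespace Crest.Agent.R217.Asym476

open Obj52

variable {A : Type} {B : A → Type} [∀ a, Fintype (B a)] [∀ a, DecidableEq (B a)]
variable {K : Type} [CommRing K] [StarRing K] [Algebra ℂ K] [StarModule ℂ K]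
variable {K' : Type} [CommRing K'] [StarRing K'] [Algebra ℂ K'] [StarModule ℂ K']
variable {κ : Type} {J J' : Type} [Fintype J] [DecidableEq J] [Fintype J'] [DecidableEq J']

/-- the asymptotic algebra as a frame: directions `dir : κ → Φ`, open box `lo, hi` -/
noncomputable def frame (C : Ctl B) (K : Type) [CommRing K] [StarRing K] [Algebra ℂ K]
    [StarModule ℂ K] (dir : κ → C.Φ) (lo hi : κ → ℝ) (lt : ∀ k, lo k < hi k) :
    Frame κ (Asy C K) where
  pu k c := pu C K (dir k) c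
  pu_star k c := pu_star _ _
  pu_mul k s t h := pu_mul_pu h
  pu_comm k l s t := ind_comm _ _
  loc k s t h a := pu_mul_mul_one_sub_pu h a
  lo := lo
  hi := hi
  lt := lt

variable {C : Ctl B}

@[simp] lemma frame_pu (dir : κ → C.Φ) (lo hi : κ → ℝ) (lt : ∀ k, lo k < hi k) (k : κ) (c : ℝ) :
    (frame C K dir lo hi lt).pu k c = pu C K (dir k) c := rfl

lemma coef_pu (ρ : K →⋆ₐ[ℂ] K') (φ : C.Φ) (c : ℝ) :
    coef C ρ (pu C K φ c) = pu C K' φ c := coef_ind _ _

lemma ev_pu {P : Type} [TopologicalSpace P] (p : P) (φ : C.Φ) (c : ℝ) :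
    ev C p (pu C C(P, ℂ) φ c) = pu C ℂ φ c := coef_ind _ _

lemma chg_pu {C' : Ctl B} (h : C.Le C') (φ : C.Φ) (φ' : C'.Φ)
    (hφ : ∀ a s, C.u φ a s = C'.u φ' a s) (c : ℝ) :
    chg K h (pu C K φ c) = pu C' K φ' c := by
  unfold pu
  rw [chg_ind]
  congr 1
  funext a s
  rw [hφ]

/-- close control functions have sandwiched control projections -/
lemma pu_mul_pu_close {φ φ' : C.Φ} (hc : ∀ r < (1 : ℝ), ∀ ε > (0 : ℝ), ∀ᶠ a in C.l, ∀ s,
    C.u C.o a s ≤ r → |C.u φ a s - C.u φ' a s| < ε) {s t : ℝ} (hst : s < t) :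
    pu C K φ s * pu C K φ' t = pu C K φ s := by
  refine ind_mul_ind_of_le fun r hr => ?_
  filter_upwards [hc r hr (t - s) (sub_pos.2 hst)] with a h1 x hx h2
  have := abs_lt.1 (h1 x hx)
  linarith

/-- the good part of the box is compactly contained in the good region -/
def Cpt (C : Ctl B) (dir : κ → C.Φ) (lo hi : κ → ℝ) : Prop :=
  ∀ s t : κ → ℝ, (∀ k, lo k < s k) → (∀ k, t k < hi k) → ∃ r < (1 : ℝ), ∀ r' < (1 : ℝ),
    ∀ᶠ a in C.l, ∀ x, C.u C.o a x ≤ r' →
      (∀ k, s k < C.u (dir k) a x ∧ C.u (dir k) a x ≤ t k) → C.u C.o a x ≤ r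

lemma ind_all_mul {ι : Type} (S : Finset ι) (E : ι → ∀ a, B a → Prop) (z : Asy C K)
    (h : ∀ i ∈ S, ind (E i) * z = z) : ind (fun a x => ∀ i ∈ S, E i a x) * z = z := by
  classical
  induction S using Finset.induction_on with
  | empty =>
    have e : (ind (fun a x => ∀ i ∈ (∅ : Finset ι), E i a x) : Asy C K) = 1 := by
      unfold ind
      rw [← map_one (dg C K)]
      congr 1
      funext a s
      simp
    rw [e, one_mul]
  | insert i S hi ih =>
    have e : (ind (fun a x => ∀ j ∈ insert i S, E j a x) : Asy C K) =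
        ind (E i) * ind (fun a x => ∀ j ∈ S, E j a x) := by
      rw [ind_mul]
      congr 1
      funext a x
      simp
    rw [e, mul_assoc, ih fun j hj => h j (Finset.mem_insert_of_mem hj),
      h i (Finset.mem_insert_self i S)]

lemma box_eq [Fintype κ] {dir : κ → C.Φ} {s t : κ → ℝ} {r : ℝ}
    (h3 : ∀ r' < (1 : ℝ), ∀ᶠ a in C.l, ∀ x, C.u C.o a x ≤ r' →
      (∀ k, s k < C.u (dir k) a x ∧ C.u (dir k) a x ≤ t k) → C.u C.o a x ≤ r) :
    (ind (fun a x => ∀ k ∈ Finset.univ, s k < C.u (dir k) a x ∧ C.u (dir k) a x ≤ t k) :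
      Asy C K) = ind (fun a x => (∀ k ∈ Finset.univ, s k < C.u (dir k) a x ∧
        C.u (dir k) a x ≤ t k) ∧ C.u C.o a x ≤ r) := by
  refine ind_congr fun r' hr' => ?_
  filter_upwards [h3 r' hr'] with a h x hx
  exact ⟨fun h' => ⟨h', h x hx fun k => h' k (Finset.mem_univ k)⟩, fun h' => h'.1⟩

/-- elements bounded in all directions are compactly supported -/
theorem exists_box [Fintype κ] {dir : κ → C.Φ} {lo hi : κ → ℝ} {lt : ∀ k, lo k < hi k}
    (hC : Cpt C dir lo hi) {x : Matrix J J (Asy C K)}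
    (h1 : ∀ k, BdLo (frame C K dir lo hi lt) k x) (h2 : ∀ k, BdHi (frame C K dir lo hi lt) k x) :
    ∃ (E : ∀ a, B a → Prop) (r : ℝ), r < 1 ∧ (∀ᶠ a in C.l, ∀ s, E a s → C.u C.o a s ≤ r) ∧
      (Matrix.diagonal fun _ => ind E) * x = x := by
  classical
  choose s hs1 hs2 using h1
  choose t ht1 ht2 using h2
  obtain ⟨r, hr, h3⟩ := hC s t hs1 ht1
  refine ⟨fun a x => (∀ k ∈ Finset.univ, s k < C.u (dir k) a x ∧ C.u (dir k) a x ≤ t k) ∧
    C.u C.o a x ≤ r, r, hr, ?_, ?_⟩
  · exact Eventually.of_forall fun a x hx => hx.2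
  · ext i j
    rw [Matrix.diagonal_mul, ← box_eq (K := K) h3]
    refine ind_all_mul Finset.univ
      (fun k a x => s k < C.u (dir k) a x ∧ C.u (dir k) a x ≤ t k) (x i j) fun k _ => ?_
    have e1 : pu C K (dir k) (s k) * x i j = 0 := by
      have := congrFun (congrFun (hs2 k) i) j
      rw [PU, Matrix.diagonal_mul] at this
      exact this
    have e2 : pu C K (dir k) (t k) * x i j = x i j := by
      have := congrFun (congrFun (ht2 k) i) j
      rw [PU, Matrix.diagonal_mul] at this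
      exact this
    have e3 : (ind (fun a x => s k < C.u (dir k) a x ∧ C.u (dir k) a x ≤ t k) : Asy C K) =
        (1 - pu C K (dir k) (s k)) * pu C K (dir k) (t k) := by
      unfold pu
      rw [one_sub_ind, ind_mul]
      congr 1
      funext a x
      simp [not_le]
    rw [e3, mul_assoc, e2, sub_mul, one_mul, e1, sub_zero]

theorem ok_of_bd [Fintype κ] {dir : κ → C.Φ} {lo hi : κ → ℝ} {lt : ∀ k, lo k < hi k}
    (hC : Cpt C dir lo hi) {x : Matrix J J (Asy C K)}
    (h1 : ∀ k, BdLo (frame C K dir lo hi lt) k x) (h2 : ∀ k, BdHi (frame C K dir lo hi lt) k x) :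
    ok x := by
  obtain ⟨E, r, hr, hE, h⟩ := exists_box hC h1 h2
  exact ok_of_ind hr hE h

/-- the good part of the box for `C` is compactly contained in the good region of `C'` -/
def CptTo (C C' : Ctl B) (dir : κ → C.Φ) (lo hi : κ → ℝ) : Prop :=
  ∀ s t : κ → ℝ, (∀ k, lo k < s k) → (∀ k, t k < hi k) → ∀ r < (1 : ℝ), ∃ r' < (1 : ℝ),
    ∀ᶠ a in C'.l, ∀ x, C.u C.o a x ≤ r →
      (∀ k, s k < C.u (dir k) a x ∧ C.u (dir k) a x ≤ t k) → C'.u C'.o a x ≤ r'

lemma CptTo.of_noise {C C' : Ctl B} {dir : κ → C.Φ} {lo hi : κ → ℝ}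
    (h : ∀ a x, C'.u C'.o a x ≤ C.u C.o a x) : CptTo C C' dir lo hi :=
  fun s t _ _ r hr => ⟨r, hr, Eventually.of_forall fun a x hx _ => (h a x).trans hx⟩

/-- signatures are compatible with restriction -/
theorem sg_chg_of_bd [Fintype κ] {C' : Ctl B} (h : C.Le C') {dir : κ → C.Φ} {lo hi : κ → ℝ}
    {lt : ∀ k, lo k < hi k} (hC : Cpt C dir lo hi) (hC' : CptTo C C' dir lo hi)
    {x : Matrix J J (Asy C ℂ)} (hx : xᴴ = x)
    (h1 : ∀ k, BdLo (frame C ℂ dir lo hi lt) k x) (h2 : ∀ k, BdHi (frame C ℂ dir lo hi lt) k x)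
    (v : A → ℤ) (hv : sg x = (v : Germ C.l ℤ)) : sg (x.map (chg ℂ h)) = (v : Germ C'.l ℤ) := by
  classical
  choose s hs1 hs2 using h1
  choose t ht1 ht2 using h2
  obtain ⟨r, hr, h3⟩ := hC s t hs1 ht1
  obtain ⟨r', hr', h3'⟩ := hC' s t hs1 ht1 r hr
  have hE : ∀ᶠ a in C.l, ∀ x, ((∀ k ∈ Finset.univ, s k < C.u (dir k) a x ∧
      C.u (dir k) a x ≤ t k) ∧ C.u C.o a x ≤ r) → C.u C.o a x ≤ r :=
    Eventually.of_forall fun a x hx => hx.2
  have hE' : ∀ᶠ a in C'.l, ∀ x, ((∀ k ∈ Finset.univ, s k < C.u (dir k) a x ∧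
      C.u (dir k) a x ≤ t k) ∧ C.u C.o a x ≤ r) → C'.u C'.o a x ≤ r' := by
    filter_upwards [h3'] with a h4 x hx
    exact h4 x hx.2 fun k => hx.1 k (Finset.mem_univ k)
  have e1 : (Matrix.diagonal fun _ => ind (fun a x => (∀ k ∈ Finset.univ,
      s k < C.u (dir k) a x ∧ C.u (dir k) a x ≤ t k) ∧ C.u C.o a x ≤ r)) * x = x := by
    ext i j
    rw [Matrix.diagonal_mul, ← box_eq (K := ℂ) h3]
    refine ind_all_mul Finset.univ
      (fun k a x => s k < C.u (dir k) a x ∧ C.u (dir k) a x ≤ t k) (x i j) fun k _ => ?_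
    have e1 : pu C ℂ (dir k) (s k) * x i j = 0 := by
      have := congrFun (congrFun (hs2 k) i) j
      rw [PU, Matrix.diagonal_mul] at this
      exact this
    have e2 : pu C ℂ (dir k) (t k) * x i j = x i j := by
      have := congrFun (congrFun (ht2 k) i) j
      rw [PU, Matrix.diagonal_mul] at this
      exact this
    have e3 : (ind (fun a x => s k < C.u (dir k) a x ∧ C.u (dir k) a x ≤ t k) : Asy C ℂ) =
        (1 - pu C ℂ (dir k) (s k)) * pu C ℂ (dir k) (t k) := by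
      unfold pu
      rw [one_sub_ind, ind_mul]
      congr 1
      funext a x
      simp [not_le]
    rw [e3, mul_assoc, e2, sub_mul, one_mul, e1, sub_zero]
  have e2 : x * (Matrix.diagonal fun _ => ind (fun a x => (∀ k ∈ Finset.univ,
      s k < C.u (dir k) a x ∧ C.u (dir k) a x ≤ t k) ∧ C.u C.o a x ≤ r)) = x := by
    have := congrArg Matrix.conjTranspose e1
    rw [Matrix.conjTranspose_mul, hx, Matrix.diagonal_conjTranspose] at this
    have e4 : (star fun _ : J => (ind (fun a x => (∀ k ∈ Finset.univ,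
      s k < C.u (dir k) a x ∧ C.u (dir k) a x ≤ t k) ∧ C.u C.o a x ≤ r) : Asy C ℂ)) =
        fun _ => ind (fun a x => (∀ k ∈ Finset.univ,
      s k < C.u (dir k) a x ∧ C.u (dir k) a x ≤ t k) ∧ C.u C.o a x ≤ r) := by
      funext j
      exact ind_star _
    rwa [e4] at this
  exact sg_chg h hr hr' hE hE' e1 e2 v hv

end Crest.Agent.R217.Asym476
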