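import Mathlib
import Crest.Agent.R217.PathAsy_476
import Crest.Agent.R217.Sig_52

/-!
Row 217 (S0336), part C: helper52's signature package `SgP` for the asymptotic algebra.
-/

set_option autoImplicit false
set_option linter.unusedSectionVars false
set_option linter.unusedVariables false

open Filter Topology Matrix

namespace Crest.Agent.R217.Asym476

open Obj52 Sig52

variable {A : Type} {B : A → Type} [∀ a, Fintype (B a)] [∀ a, DecidableEq (B a)]
variable {κ : Type} [Fintype κ] {C : Ctl B}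

/-- the signature package of the asymptotic algebra -/
noncomputable def sgP {dir : κ → C.Φ} {lo hi : κ → ℝ} (lt : ∀ k, lo k < hi k)
    (hC : Cpt C dir lo hi) :
    SgP (frame C ℂ dir lo hi lt) (frame C C(unitInterval, ℂ) dir lo hi lt) (Germ C.l ℤ) where
  L := sgLaws C
  ev0 := (ev C (0 : unitInterval)).toNonUnitalStarAlgHom
  ev1 := (ev C (1 : unitInterval)).toNonUnitalStarAlgHom
  cst := (cst C unitInterval).toNonUnitalStarAlgHom
  ev0_cst a := ev_cst _ a
  ev1_cst a := ev_cst _ a
  ev0_pu k c := ev_pu _ _ c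
  ev1_pu k c := ev_pu _ _ c
  cst_pu k c := cst_pu _ c
  cst_one := map_one (cst C unitInterval)
  lo_eq := rfl
  hi_eq := rfl
  tt := sc C ttF
  cs := sc C csF
  sn := sc C snF
  tt_star := by rw [sc_star, star_ttF]
  cs_star := by rw [sc_star, star_csF]
  sn_star := by rw [sc_star, star_snF]
  tt_comm := sc_comm _
  cs_comm := sc_comm _
  sn_comm := sc_comm _
  cs_sn := by rw [← sc_mul, ← sc_mul, ← sc_add, cs_sn, sc_one]
  ev0_tt := (ev_sc _ _).trans (by rw [ttF_zero, sc_zero])
  ev0_cs := (ev_sc _ _).trans (by rw [csF_zero, sc_one])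
  ev0_sn := (ev_sc _ _).trans (by rw [snF_zero, sc_zero])
  ev1_tt := (ev_sc _ _).trans (by rw [ttF_one, sc_one])
  ev1_cs := (ev_sc _ _).trans (by rw [csF_one, sc_zero])
  ev1_sn := (ev_sc _ _).trans (by rw [snF_one, sc_one])
  ok_cpt e M _ _ _ h1 h2 hM := ok_cpt hC h1 h2 hM
  sg_iso V M hV _ hM := sg_iso hM V hV
  sg_path e M M' _ hee he h1 h2 hM hMM sM sM' :=
    sg_path_cpt hC h1 h2 hee he hM hMM sM sM' 0 1

end Crest.Agent.R217.Asym476
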