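import Crest.Agent.R217.Cpt_559
import Crest.Agent.R217.SgPAsy_476
import Crest.Agent.R217.Param_52
import Crest.Agent.R217.Boxes_559

/-!
Row 217 (S0336), part C (helper970), step (a) of the fine frame: the signature of an object over
column `k` does not depend on the box in `U_k`.
-/

set_option autoImplicit false
set_option linter.unusedSectionVars false
set_option linter.unusedVariables false

open Filter Topology Metric Set

namespace Crest.Agent.R217.Box970

open Crest.Agent.R217.Asym476 Crest.Agent.R217.Obj52 Crest.Agent.R217.Sig52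
open Crest.Agent.R217.Ind52 Crest.Agent.R217.PC473 Crest.Agent.R217.Nat52
open Crest.Agent.R217.LocF555 Crest.Agent.R217.Glob559 Crest.Agent.R217.Ctl559
open Crest.Agent.R217.Coarse889

universe u

section column

variable {n : ℕ} (D : ∀ k, KDat.{u} n (cs k)) (k : ℕ)

/-- the frame of column `k` with box `lo, hi` -/
noncomputable abbrev frK (lo hi : Fin n → ℝ) (lt : ∀ i, lo i < hi i) :
    Frame (Fin n) (Asy (CF D (lk k)) ℂ) :=
  frame (CF D (lk k)) ℂ (dirF D (lk k)) lo hi lt

/-- the signature in column `k` -/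
noncomputable def vK (X : Obj (Asy (CF D (lk k)) ℂ)) (l : List (Par (Fin n))) : Germ (lk k) ℤ :=
  sig (frK D k (fun _ => 0) (fun _ => 1) (fun _ => zero_lt_one)) (sgLaws (CF D (lk k))) l X

theorem sig_frK (lo hi : Fin n → ℝ) (lt : ∀ i, lo i < hi i) (X : Obj (Asy (CF D (lk k)) ℂ))
    (l : List (Par (Fin n))) :
    sig (frK D k lo hi lt) (sgLaws (CF D (lk k))) l X = vK D k X l := by
  induction l generalizing X with
  | nil => rfl
  | cons a l ih => exact ih (cutO (frK D k lo hi lt) a l.length X)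

/-- admissible parameters inside the box `s, t` -/
def OkIn (s t : Fin n → ℝ) (a : Par (Fin n)) : Prop :=
  0 < a.δ ∧ s a.k < a.c - 2 * a.δ ∧ a.c + 2 * a.δ < a.b - 2 * a.δ ∧ a.b + 2 * a.δ < t a.k

theorem OkIn.ok {s t : Fin n → ℝ} {a : Par (Fin n)} (h : OkIn s t a) (lt : ∀ i, s i < t i) :
    a.Ok (frK D k s t lt) := ⟨h.1, h.2.1, h.2.2.1, h.2.2.2⟩

theorem OkIn.mono {s t s' t' : Fin n → ℝ} {a : Par (Fin n)} (h : OkIn s t a)
    (hs : ∀ i, s' i ≤ s i) (ht : ∀ i, t i ≤ t' i) : OkIn s' t' a :=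
  ⟨h.1, lt_of_le_of_lt (hs _) h.2.1, h.2.2.1, lt_of_lt_of_le h.2.2.2 (ht _)⟩

/-- a standard list of parameters in a box -/
noncomputable def stdPar (s t : Fin n → ℝ) : List (Par (Fin n)) :=
  (List.finRange n).map fun i =>
    { k := i, c := s i + 3 * ((t i - s i) / 12), b := s i + 9 * ((t i - s i) / 12),
      δ := (t i - s i) / 12 }

theorem stdPar_k (s t : Fin n → ℝ) : (stdPar s t).map Par.k = List.finRange n := by
  unfold stdPar
  rw [List.map_map]
  exact List.map_id _

theorem stdPar_ok {s t : Fin n → ℝ} (h : ∀ i, s i < t i) : ∀ a ∈ stdPar s t, OkIn s t a := by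
  intro a ha
  unfold stdPar at ha
  rw [List.mem_map] at ha
  obtain ⟨i, -, rfl⟩ := ha
  have h1 : 0 < (t i - s i) / 12 := by linarith [h i]
  have h2 : t i = s i + 12 * ((t i - s i) / 12) := by ring
  refine ⟨h1, ?_, ?_, ?_⟩
  · show s i < s i + 3 * ((t i - s i) / 12) - 2 * ((t i - s i) / 12)
    linarith
  · show s i + 3 * ((t i - s i) / 12) + 2 * ((t i - s i) / 12) <
      s i + 9 * ((t i - s i) / 12) - 2 * ((t i - s i) / 12)
    linarith
  · show s i + 9 * ((t i - s i) / 12) + 2 * ((t i - s i) / 12) < t i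
    linarith

theorem cov_of_k {l : List (Par (Fin n))} (h : l.map Par.k = List.finRange n) :
    Cov (∅ : Set (Fin n)) l := by
  intro i
  right
  have h1 : i ∈ l.map Par.k := by rw [h]; exact List.mem_finRange i
  rw [List.mem_map] at h1
  exact h1

/-- **Step (a)**: independence of the box. -/
theorem box_indep {X : Obj (Asy (CF D (lk k)) ℂ)}
    (hX : ∀ (lo hi : Fin n → ℝ) (lt : ∀ i, lo i < hi i), IsOb (frK D k lo hi lt) n ∅ X.deg X.x)
    {s t s' t' : Fin n → ℝ} (hst : ∀ i, s i < t i) (hst' : ∀ i, s' i < t' i)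
    (hB : Icc s t ⊆ (D k).U) (hB' : Icc s' t' ⊆ (D k).U) {l l' : List (Par (Fin n))}
    (hd : l.map Par.k = List.finRange n) (hd' : l'.map Par.k = List.finRange n)
    (hl : ∀ a ∈ l, OkIn s t a) (hl' : ∀ a ∈ l', OkIn s' t' a) : vK D k X l = vK D k X l' := by
  have hlen : ∀ {l : List (Par (Fin n))}, l.map Par.k = List.finRange n → l.length = n := by
    intro l hd
    have := congrArg List.length hd
    rwa [List.length_map, List.length_finRange] at this
  refine Boxes559.const_of_boxes (D k).U_open (D k).U_conv.isPreconnected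
    (fun s t v => ∃ l : List (Par (Fin n)), l.map Par.k = List.finRange n ∧
      (∀ a ∈ l, OkIn s t a) ∧ v = vK D k X l) ?_ ?_ ?_ hst hst' hB hB'
      ⟨l, hd, hl, rfl⟩ ⟨l', hd', hl', rfl⟩
  · intro s t hst hB
    exact ⟨_, stdPar s t, stdPar_k s t, stdPar_ok hst, rfl⟩
  · rintro s t s' t' hst hs ht hB v v' ⟨l, h1, h2, rfl⟩ ⟨l', h1', h2', rfl⟩
    have hsub : Icc s t ⊆ (D k).U := (Icc_subset_Icc (fun i => (hs i).le)
      (fun i => (ht i).le)).trans hB
    rw [← sig_frK D k s t hst, ← sig_frK D k s t hst]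
    refine Param52.sig_param (sgP hst (cpt_k D k hsub)) (fun a ha => (h2 a ha).ok D k hst)
      (fun a ha => (h2' a ha).ok D k hst) (h1.trans h1'.symm) (S := ∅) (cov_of_k h1) ?_
    rw [hlen h1]
    exact hX s t hst
  · rintro s t s' t' hst hs ht hB v ⟨l, h1, h2, rfl⟩
    exact ⟨l, h1, fun a ha => (h2 a ha).mono hs ht, rfl⟩

end column

end Crest.Agent.R217.Box970
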