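import Mathlib
import Crest.Agent.R217.ChainSpec_373

/-! Row 217, M7a: geometry of torus cells in real coordinates; `MB2`, `MB3` in real units. -/

set_option autoImplicit false

open Metric Set
open Crest.Agent.R217.PC473 Crest.Agent.R217.Flow373 Crest.Agent.R217.Carrier834

namespace Crest.Agent.R217.Chain373

variable {n N : ℕ}

/-- non-wrapping window -/
def InW (s : CellZ n N) : Prop := ∀ i, 2 * |(s i).1.valMinAbs| + 4 ≤ (N : ℤ)

theorem vma_pred [NeZero N] {a b : ZMod N} (hb : 2 * |b.valMinAbs| + 4 ≤ (N : ℤ)) (h : b = a + 1) :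
    a.valMinAbs = b.valMinAbs - 1 := by
  have ha : a = b - 1 := by rw [h]; ring
  rw [ha, ZMod.valMinAbs_spec]
  have h3 := le_abs_self b.valMinAbs
  have h4 := neg_abs_le b.valMinAbs
  refine ⟨by push_cast; rfl, ?_⟩
  constructor <;> omega

theorem adj_vma [NeZero N] {t s : CellZ n N} (h : Adj t s) (hs : InW s) (i : Fin n) :
    |((t i).1.valMinAbs : ℝ) - ((s i).1.valMinAbs : ℝ)| ≤ 1 := by
  rcases h i with h | h | h
  · rw [h]; simp
  · rw [(succ_iff (hs i)).1 h]; push_cast; simp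
  · rw [vma_pred (hs i) h]; push_cast; simp

theorem adj_dist [NeZero N] {μ : ℝ} (hμ : 0 ≤ μ) {t s : CellZ n N} (h : Adj t s) (hs : InW s) :
    dist (pos μ t) (pos μ s) ≤ μ := by
  rw [dist_pi_le_iff hμ]
  intro i
  rw [Real.dist_eq]
  unfold pos
  rw [← mul_sub, abs_mul, abs_of_nonneg hμ]
  calc μ * _ ≤ μ * 1 := mul_le_mul_of_nonneg_left (adj_vma h hs i) hμ
    _ = μ := mul_one μ

theorem adj_symm {t s : CellZ n N} (h : Adj t s) : Adj s t := fun i => by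
  rcases h i with h | h | h
  · exact Or.inl h.symm
  · exact Or.inr (Or.inr h)
  · exact Or.inr (Or.inl h)

theorem inW_of_le {μ R : ℝ} (hμ : 0 < μ) (hN : 2 * R + 4 * μ ≤ μ * N) {s : CellZ n N}
    (hs : dist (pos μ s) 0 ≤ R) : InW s := by
  intro i
  have h1 : |μ * ((s i).1.valMinAbs : ℝ)| ≤ R := by
    have := (dist_le_pi_dist (pos μ s) 0 i).trans hs
    simpa [pos, Real.dist_eq] using this
  rw [abs_mul, abs_of_pos hμ] at h1
  have h2 : μ * (2 * |((s i).1.valMinAbs : ℝ)| + 4) ≤ μ * N := by nlinarith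
  have h3 := le_of_mul_le_mul_left h2 hμ
  exact_mod_cast h3

/-- the closed cell -/
def cc (μ : ℝ) (s : CellZ n N) : Set (Fin n → ℝ) :=
  {x | ∀ i, μ * ((s i).1.valMinAbs : ℝ) ≤ x i ∧
    x i ≤ μ * (((s i).1.valMinAbs : ℝ) + (if (s i).2 then 1 else 0))}

theorem pos_mem_cc {μ : ℝ} (hμ : 0 ≤ μ) (s : CellZ n N) : pos μ s ∈ cc μ s := fun i => by
  refine ⟨le_rfl, ?_⟩
  unfold pos
  apply mul_le_mul_of_nonneg_left _ hμ
  split_ifs <;> linarith

theorem cc_dist {μ : ℝ} (hμ : 0 ≤ μ) {s : CellZ n N} {x : Fin n → ℝ} (hx : x ∈ cc μ s) :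
    dist x (pos μ s) ≤ μ := by
  rw [dist_pi_le_iff hμ]
  intro i
  rw [Real.dist_eq]
  obtain ⟨h1, h2⟩ := hx i
  unfold pos
  have h3 : μ * (((s i).1.valMinAbs : ℝ) + (if (s i).2 then 1 else 0)) ≤
      μ * ((s i).1.valMinAbs : ℝ) + μ := by
    split_ifs
    · linarith
    · linarith
  rw [abs_of_nonneg (by linarith)]
  linarith

/-- cells whose closed cell lies in `C` -/
def KK (μ : ℝ) (C : Set (Fin n → ℝ)) : Set (CellZ n N) := {s | cc μ s ⊆ C}

theorem pos_mem_of_KK {μ : ℝ} (hμ : 0 ≤ μ) {C : Set (Fin n → ℝ)} {s : CellZ n N}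
    (hs : s ∈ KK μ C) : pos μ s ∈ C := hs (pos_mem_cc hμ s)

theorem mem_KK_of {μ κ : ℝ} (hμ : 0 ≤ μ) (hμκ : μ < κ) {C : Set (Fin n → ℝ)} {s : CellZ n N}
    (h : ∀ x, dist x (pos μ s) < κ → x ∈ C) : s ∈ KK μ C :=
  fun _ hx => h _ ((cc_dist hμ hx).trans_lt hμκ)

theorem face_cc [NeZero N] {μ : ℝ} (hμ : 0 ≤ μ) {t s : CellZ n N}
    (h : IsFace (lift t) (lift s)) : cc μ t ⊆ cc μ s := by
  obtain ⟨j, hj, h⟩ := h
  have hj' : (s j).2 = true := hj
  intro x hx i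
  obtain ⟨h1, h2⟩ := hx i
  rcases h with h | h
  · have hi := congrFun h i
    by_cases hij : i = j
    · subst hij
      rw [Function.update_self] at hi
      have e1 : (t i).1.valMinAbs = (s i).1.valMinAbs := congrArg Prod.fst hi
      have e2 : (t i).2 = false := congrArg Prod.snd hi
      rw [e1] at h1 h2
      rw [e2] at h2
      simp only [Bool.false_eq_true, if_false, add_zero] at h2
      refine ⟨h1, h2.trans ?_⟩
      apply mul_le_mul_of_nonneg_left _ hμ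
      rw [hj']
      simp
    · rw [Function.update_of_ne hij] at hi
      have e1 : (t i).1.valMinAbs = (s i).1.valMinAbs := congrArg Prod.fst hi
      have e2 : (t i).2 = (s i).2 := congrArg (fun p : ℤ × Bool => p.2) hi
      rw [e1] at h1 h2
      rw [e2] at h2
      exact ⟨h1, h2⟩
  · have hi := congrFun h i
    by_cases hij : i = j
    · subst hij
      rw [Function.update_self] at hi
      have e1 : (t i).1.valMinAbs = (s i).1.valMinAbs + 1 := congrArg Prod.fst hi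
      have e2 : (t i).2 = false := congrArg Prod.snd hi
      rw [e1] at h1 h2
      rw [e2] at h2
      simp only [Bool.false_eq_true, if_false, add_zero] at h2
      push_cast at h1 h2
      rw [hj']
      simp only [if_true]
      refine ⟨?_, h2⟩
      nlinarith
    · rw [Function.update_of_ne hij] at hi
      have e1 : (t i).1.valMinAbs = (s i).1.valMinAbs := congrArg Prod.fst hi
      have e2 : (t i).2 = (s i).2 := congrArg (fun p : ℤ × Bool => p.2) hi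
      rw [e1] at h1 h2
      rw [e2] at h2
      exact ⟨h1, h2⟩

theorem face_KK [NeZero N] {μ : ℝ} (hμ : 0 ≤ μ) {C : Set (Fin n → ℝ)} {t s : CellZ n N}
    (hs : s ∈ KK μ C) (h : IsFace (lift t) (lift s)) : t ∈ KK μ C :=
  (face_cc hμ h).trans hs

theorem face_dist [NeZero N] {μ : ℝ} (hμ : 0 ≤ μ) {t s : CellZ n N}
    (h : IsFace (lift t) (lift s)) : dist (pos μ t) (pos μ s) ≤ μ :=
  cc_dist hμ (face_cc hμ h (pos_mem_cc hμ t))

theorem dist_of_inBall {μ : ℝ} (hμ : 0 < μ) {y : Fin n → ℝ} {r : ℝ} (hr : 0 ≤ r)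
    {t : CellZ n N} (h : InBall (fun a => y a / μ) r (lift t)) : dist (pos μ t) y ≤ μ * r := by
  rw [dist_pi_le_iff (by positivity)]
  intro i
  obtain ⟨h1, h2⟩ := h i
  rw [Real.dist_eq]
  unfold pos
  have h3 : ((lift t i).1 : ℝ) = ((t i).1.valMinAbs : ℝ) := rfl
  rw [h3] at h1 h2
  have h4 : (0 : ℝ) ≤ (if (lift t i).2 = true then 1 else 0) := by split_ifs <;> norm_num
  have e : μ * ((t i).1.valMinAbs : ℝ) - y i = μ * (((t i).1.valMinAbs : ℝ) - y i / μ) := by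
    field_simp
  rw [e, abs_mul, abs_of_pos hμ]
  apply mul_le_mul_of_nonneg_left _ hμ.le
  rw [abs_le]
  constructor <;> linarith

theorem inBall_of_dist {μ : ℝ} (hμ : 0 < μ) {y : Fin n → ℝ} {r : ℝ}
    {t : CellZ n N} (h : dist (pos μ t) y ≤ r) : InBall (fun a => y a / μ) (r / μ + 1) (lift t) := by
  intro i
  have h1 := (dist_le_pi_dist (pos μ t) y i).trans h
  rw [Real.dist_eq] at h1
  unfold pos at h1
  have e : μ * ((t i).1.valMinAbs : ℝ) - y i = μ * (((t i).1.valMinAbs : ℝ) - y i / μ) := by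
    field_simp
  rw [e, abs_mul, abs_of_pos hμ] at h1
  have h2 : |((t i).1.valMinAbs : ℝ) - y i / μ| ≤ r / μ := by
    rw [le_div_iff₀ hμ, mul_comm]; exact h1
  rw [abs_le] at h2
  have h3 : ((lift t i).1 : ℝ) = ((t i).1.valMinAbs : ℝ) := rfl
  rw [h3]
  constructor
  · linarith
  · split_ifs <;> linarith

/-- augmentation of a column -/
noncomputable def aug0 [NeZero N] (A : Matrix (CellZ n N) (CellZ n N) ℂ) (s : CellZ n N) : ℂ :=
  ∑ t, (if dim (lift t) = 0 then A t s else 0)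

/-- **MB2** in real units -/
theorem real_map [NeZero N] {dd : Matrix (CellZ n N) (CellZ n N) ℂ} (hdd : IsBd dd)
    {μ : ℝ} (hμ : 0 < μ) {C : Set (Fin n → ℝ)} {R : ℝ} (hC : ∀ v ∈ C, dist v 0 ≤ R)
    (T : (Fin n → ℝ) → (Fin n → ℝ)) {e0 : ℝ} (he0 : 0 ≤ e0)
    (hT : ∀ v ∈ C, ∀ w ∈ C, dist w v ≤ μ → dist (T w) (T v) ≤ e0)
    (hTC : ∀ v ∈ C, dist (T v) 0 ≤ R) (hN : 2 * R + 6 * μ + 2 * n * e0 ≤ μ * N) :
    ∃ η : Matrix (CellZ n N) (CellZ n N) ℂ, (∀ s ∉ KK μ C, ∀ t, η t s = 0) ∧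
      ∀ s ∈ KK μ C, (∀ t, η t s ≠ 0 → dimZ t = dimZ s ∧
          dist (pos μ t) (T (pos μ s)) ≤ μ + n * e0) ∧
        (∀ t, (dd * η) t s = (η * dd) t s) ∧ (dimZ s = 0 → aug0 η s = 1) := by
  have hne : (0 : ℝ) ≤ n * e0 := by positivity
  have hW : ∀ s ∈ KK (n := n) (N := N) μ C, Win N (lift s) := fun s hs =>
    inW_of_le hμ (by linarith) (hC _ (pos_mem_of_KK hμ.le hs))
  obtain ⟨η, h1, h2⟩ := matrix_map hdd (KK μ C) (fun s hs t ht => face_KK hμ.le hs ht)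
    (fun s a => T (pos μ s) a / μ) (ρ := e0 / μ) (by positivity)
    (fun s hs t ht i => by
      have h3 := hT _ (pos_mem_of_KK hμ.le hs) _ (pos_mem_of_KK hμ.le (face_KK hμ.le hs ht))
        (face_dist hμ.le ht)
      have h4 := (dist_le_pi_dist (T (pos μ t)) (T (pos μ s)) i).trans h3
      rw [Real.dist_eq] at h4
      rw [← sub_div, abs_div, abs_of_pos hμ]
      exact div_le_div_of_nonneg_right h4 hμ.le)
    hW
    (fun s hs i => by
      have h3 := (dist_le_pi_dist (T (pos μ s)) 0 i).trans (hTC _ (pos_mem_of_KK hμ.le hs))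
      rw [Real.dist_eq, Pi.zero_apply, sub_zero] at h3
      rw [abs_div, abs_of_pos hμ]
      have h4 : |T (pos μ s) i| / μ ≤ R / μ := div_le_div_of_nonneg_right h3 hμ.le
      have h5 : (2 * R + 6 * μ + 2 * n * e0) / μ ≤ N := by
        rw [div_le_iff₀ hμ]; linarith [mul_comm μ (N : ℝ)]
      have h6 : (2 * R + 6 * μ + 2 * n * e0) / μ = 2 * (R / μ) + 6 + 2 * (n * (e0 / μ)) := by
        field_simp
      linarith)
  refine ⟨η, h1, fun s hs => ?_⟩
  obtain ⟨h3, h4, h5⟩ := h2 s hs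
  refine ⟨fun t ht => ⟨(h3 t ht).1, ?_⟩, h4, h5⟩
  have h6 := dist_of_inBall hμ (by positivity) (h3 t ht).2
  have h7 : μ * (1 + n * (e0 / μ)) = μ + n * e0 := by field_simp
  rwa [h7] at h6

/-- **MB3** in real units -/
theorem real_homotopy [NeZero N] {dd : Matrix (CellZ n N) (CellZ n N) ℂ} (hdd : IsBd dd)
    {μ : ℝ} (hμ : 0 < μ) {C : Set (Fin n → ℝ)} {R : ℝ} (hC : ∀ v ∈ C, dist v 0 ≤ R)
    (T : (Fin n → ℝ) → (Fin n → ℝ)) {e0 r : ℝ} (he0 : 0 ≤ e0) (hr : 0 ≤ r)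
    (hT : ∀ v ∈ C, ∀ w ∈ C, dist w v ≤ μ → dist (T w) (T v) ≤ e0)
    (hTC : ∀ v ∈ C, dist (T v) 0 ≤ R) (hN : 2 * R + 2 * r + 6 * μ + 2 * n * e0 ≤ μ * N)
    (F : Matrix (CellZ n N) (CellZ n N) ℂ)
    (hF : ∀ s ∈ KK μ C, (∀ t, F t s ≠ 0 → dimZ t = dimZ s ∧
        dist (pos μ t) (T (pos μ s)) ≤ r) ∧ (∀ t, (dd * F) t s = (F * dd) t s) ∧
        (dimZ s = 0 → aug0 F s = 0)) :
    ∃ h : Matrix (CellZ n N) (CellZ n N) ℂ, (∀ s ∉ KK μ C, ∀ t, h t s = 0) ∧
      ∀ s ∈ KK μ C, (∀ t, h t s ≠ 0 → dimZ t = dimZ s + 1 ∧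
          dist (pos μ t) (T (pos μ s)) ≤ r + μ + n * e0) ∧
        (∀ t, (dd * h + h * dd) t s = F t s) := by
  have hne : (0 : ℝ) ≤ n * e0 := by positivity
  have hW : ∀ s ∈ KK (n := n) (N := N) μ C, Win N (lift s) := fun s hs =>
    inW_of_le hμ (by linarith) (hC _ (pos_mem_of_KK hμ.le hs))
  obtain ⟨h, h1, h2⟩ := matrix_homotopy hdd (KK μ C) (fun s hs t ht => face_KK hμ.le hs ht)
    (fun s a => T (pos μ s) a / μ) (ρ := e0 / μ) (R0 := r / μ + 1) (by positivity)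
    (by have : 0 ≤ r / μ := by positivity
        linarith)
    (fun s hs t ht i => by
      have h3 := hT _ (pos_mem_of_KK hμ.le hs) _ (pos_mem_of_KK hμ.le (face_KK hμ.le hs ht))
        (face_dist hμ.le ht)
      have h4 := (dist_le_pi_dist (T (pos μ t)) (T (pos μ s)) i).trans h3
      rw [Real.dist_eq] at h4
      rw [← sub_div, abs_div, abs_of_pos hμ]
      exact div_le_div_of_nonneg_right h4 hμ.le)
    hW
    (fun s hs i => by
      have h3 := (dist_le_pi_dist (T (pos μ s)) 0 i).trans (hTC _ (pos_mem_of_KK hμ.le hs))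
      rw [Real.dist_eq, Pi.zero_apply, sub_zero] at h3
      rw [abs_div, abs_of_pos hμ]
      have h4 : |T (pos μ s) i| / μ ≤ R / μ := div_le_div_of_nonneg_right h3 hμ.le
      have h5 : (2 * R + 2 * r + 6 * μ + 2 * n * e0) / μ ≤ N := by
        rw [div_le_iff₀ hμ]; linarith [mul_comm μ (N : ℝ)]
      have h6 : (2 * R + 2 * r + 6 * μ + 2 * n * e0) / μ =
          2 * (R / μ) + 2 * (r / μ) + 6 + 2 * (n * (e0 / μ)) := by
        field_simp
      linarith)
    F (fun s hs => by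
      obtain ⟨h3, h4, h5⟩ := hF s hs
      exact ⟨fun t ht => ⟨(h3 t ht).1, inBall_of_dist hμ (h3 t ht).2⟩, h4, h5⟩)
  refine ⟨h, h1, fun s hs => ?_⟩
  obtain ⟨h3, h4⟩ := h2 s hs
  refine ⟨fun t ht => ⟨(h3 t ht).1, ?_⟩, h4⟩
  have h6 := dist_of_inBall hμ (by positivity) (h3 t ht).2
  have h7 : μ * (r / μ + 1 + n * (e0 / μ)) = r + μ + n * e0 := by field_simp
  rwa [h7] at h6

end Crest.Agent.R217.Chain373
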