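import Mathlib

/-! Row 217, M7a: calculus of local matrices (`Loc`) and matrices vanishing near a region (`Vn`),
and the word identities behind the chain package. -/

set_option autoImplicit false

namespace Crest.Agent.R217.VanCalc373

variable {I : Type*}

/-- `A` moves the levels of the tower `Z` by at most `k` -/
def Loc (Z : ℕ → Set I) (k : ℕ) (A : Matrix I I ℂ) : Prop :=
  ∀ t s, A t s ≠ 0 → ∀ j, (t ∈ Z j → s ∈ Z (j + k)) ∧ (s ∈ Z j → t ∈ Z (j + k))

/-- `A` vanishes on rows and columns in `Z j` -/
def Vn (Z : ℕ → Set I) (j : ℕ) (A : Matrix I I ℂ) : Prop :=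
  ∀ t s, (t ∈ Z j ∨ s ∈ Z j) → A t s = 0

variable {Z : ℕ → Set I} {A B : Matrix I I ℂ} {j j' k l : ℕ}

theorem Loc.mono (hZ : Monotone Z) (h : Loc Z k A) (hk : k ≤ l) : Loc Z l A := fun t s hts j =>
  ⟨fun ht => hZ (by omega) ((h t s hts j).1 ht), fun hs => hZ (by omega) ((h t s hts j).2 hs)⟩

theorem Loc.zero : Loc Z k 0 := fun _ _ h => absurd rfl h

theorem Loc.one [DecidableEq I] (hZ : Monotone Z) : Loc Z k (1 : Matrix I I ℂ) := fun t s h j => by
  have : t = s := by
    by_contra hne
    exact h (Matrix.one_apply_ne hne)
  subst this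
  exact ⟨fun ht => hZ (by omega) ht, fun ht => hZ (by omega) ht⟩

theorem Loc.neg (h : Loc Z k A) : Loc Z k (-A) := fun t s hts => h t s (by simpa using hts)

theorem Loc.add (hA : Loc Z k A) (hB : Loc Z k B) : Loc Z k (A + B) := fun t s hts => by
  by_cases h : A t s = 0
  · exact hB t s (by
      rw [Matrix.add_apply, h, zero_add] at hts
      exact hts)
  · exact hA t s h

theorem Loc.sub (hA : Loc Z k A) (hB : Loc Z k B) : Loc Z k (A - B) := by
  rw [sub_eq_add_neg]; exact hA.add hB.neg

theorem Loc.smul (c : ℂ) (hA : Loc Z k A) : Loc Z k (c • A) := fun t s hts => hA t s fun h => by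
  apply hts
  rw [Matrix.smul_apply, h, smul_zero]

theorem Loc.mul [Fintype I] (hA : Loc Z k A) (hB : Loc Z l B) : Loc Z (k + l) (A * B) := by
  intro t s hts j
  rw [Matrix.mul_apply] at hts
  obtain ⟨r, -, hr⟩ := Finset.exists_ne_zero_of_sum_ne_zero hts
  have h1 : A t r ≠ 0 := left_ne_zero_of_mul hr
  have h2 : B r s ≠ 0 := right_ne_zero_of_mul hr
  refine ⟨fun ht => ?_, fun hs => ?_⟩
  · have := (hB r s h2 (j + k)).1 ((hA t r h1 j).1 ht)
    rwa [add_assoc] at this
  · have := (hA t r h1 (j + l)).2 ((hB r s h2 j).2 hs)
    rwa [add_assoc, add_comm l k] at this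

theorem Loc.star (h : Loc Z k A) : Loc Z k (star A) := fun t s hts j => by
  have h1 : A s t ≠ 0 := fun h0 => hts (by rw [Matrix.star_apply, h0, star_zero])
  exact ⟨(h s t h1 j).2, (h s t h1 j).1⟩

theorem Vn.mono (hZ : Monotone Z) (h : Vn Z j' A) (hj : j ≤ j') : Vn Z j A := fun t s hts =>
  h t s (hts.imp (fun ht => hZ hj ht) (fun hs => hZ hj hs))

theorem Vn.zero : Vn Z j 0 := fun _ _ _ => rfl

theorem Vn.neg (h : Vn Z j A) : Vn Z j (-A) := fun t s hts => by
  rw [Matrix.neg_apply, h t s hts, neg_zero]

theorem Vn.add (hA : Vn Z j A) (hB : Vn Z j B) : Vn Z j (A + B) := fun t s hts => by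
  rw [Matrix.add_apply, hA t s hts, hB t s hts, add_zero]

theorem Vn.sub (hA : Vn Z j A) (hB : Vn Z j B) : Vn Z j (A - B) := fun t s hts => by
  rw [Matrix.sub_apply, hA t s hts, hB t s hts, sub_zero]

theorem Vn.smul (c : ℂ) (hA : Vn Z j A) : Vn Z j (c • A) := fun t s hts => by
  rw [Matrix.smul_apply, hA t s hts, smul_zero]

theorem Vn.star (hA : Vn Z j A) : Vn Z j (star A) := fun t s hts => by
  rw [Matrix.star_apply, hA s t hts.symm, star_zero]

theorem Vn.mul_right [Fintype I] (hZ : Monotone Z) (hA : Vn Z (j + k) A) (hB : Loc Z k B) :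
    Vn Z j (A * B) := by
  intro t s hts
  rw [Matrix.mul_apply]
  refine Finset.sum_eq_zero fun r _ => ?_
  by_cases h : B r s = 0
  · rw [h, mul_zero]
  · rw [hA t r, zero_mul]
    rcases hts with ht | hs
    · exact Or.inl (hZ (by omega) ht)
    · exact Or.inr ((hB r s h j).2 hs)

theorem Vn.mul_left [Fintype I] (hZ : Monotone Z) (hA : Vn Z (j + k) A) (hB : Loc Z k B) :
    Vn Z j (B * A) := by
  intro t s hts
  rw [Matrix.mul_apply]
  refine Finset.sum_eq_zero fun r _ => ?_
  by_cases h : B t r = 0
  · rw [h, zero_mul]
  · rw [hA r s, mul_zero]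
    rcases hts with ht | hs
    · exact Or.inl ((hB t r h j).1 ht)
    · exact Or.inr (hZ (by omega) hs)

theorem vn_of_col (hZ : Monotone Z) (hA : Loc Z k A) (h : ∀ s ∈ Z (j + k), ∀ t, A t s = 0) :
    Vn Z j A := by
  intro t s hts
  by_contra hne
  rcases hts with ht | hs
  · exact hne (h s ((hA t s hne j).1 ht) t)
  · exact hne (h s (hZ (by omega) hs) t)

/-! ### word identities -/

section words

variable {R : Type*} [Ring R] [StarRing R] {d S T H e e' e'' k U h : R}

omit [StarRing R] in
theorem word_comp :
    d * (e * e' - e'') - (e * e' - e'') * d =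
      (d * e - e * d) * e' + e * (d * e' - e' * d) - (d * e'' - e'' * d) := by noncomm_ring

theorem word_F (hdS : d * S + S * star d = 0) (hTd : T * d + star d * T = 0) :
    d * (e * S * star e * T) - (e * S * star e * T) * d =
      (d * e - e * d) * S * star e * T + e * S * star (d * e - e * d) * T := by
  have h1 : star (d * e - e * d) = star e * star d - star d * star e := by
    rw [star_sub, star_mul, star_mul]
  rw [h1]
  linear_combination (norm := noncomm_ring) e * hdS * (star e * T) - (e * S * star e) * hTd

theorem word_coarse (hdS : d * S + S * star d = 0) (hTd : T * d + star d * T = 0)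
    (hST : S * T = 1 + d * H + H * d) :
    e * S * star e * T - 1 - (d * (k + e * H - e * S * star k * T) +
        (k + e * H - e * S * star k * T) * d) =
      (e - 1 - (d * k + k * d)) - (d * e - e * d) * H + (d * e - e * d) * S * star k * T +
        e * S * star (e - 1 - (d * k + k * d)) * T := by
  have h1 : star (e - 1 - (d * k + k * d)) =
      star e - 1 - (star k * star d + star d * star k) := by
    simp only [star_sub, star_one, star_add, star_mul]
  rw [h1]
  linear_combination (norm := noncomm_ring) e * hST + (e * S * star k) * hTd +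
    e * hdS * (star k * T)

theorem word_dual (hdS : d * S + S * star d = 0)
    (hTS : T * S = 1 + star H * star d + star d * star H) :
    e * S * star e - S - (d * (h * S + e * S * star e * star H) -
        (h * S + e * S * star e * star H) * star d) =
      (e * S * star e * T - 1 - (d * h + h * d)) * S -
        (d * e - e * d) * S * star e * star H - e * S * star (d * e - e * d) * star H := by
  have h1 : star (d * e - e * d) = star e * star d - star d * star e := by
    rw [star_sub, star_mul, star_mul]
  rw [h1]
  linear_combination (norm := noncomm_ring) -(e * S * star e) * hTS + h * hdS -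
    e * hdS * (star e * star H)

theorem word_commS (hdS : d * S + S * star d = 0) :
    e * S - S * star e' - (d * (U * star e' + e * S * star k) -
        (U * star e' + e * S * star k) * star d) =
      U * star (d * e' - e' * d) + (e * S * star e - S - (d * U - U * star d)) * star e' -
        (d * e - e * d) * S * star k - e * S * star (e' * e - 1 - (d * k + k * d)) := by
  have h1 : star (d * e' - e' * d) = star e' * star d - star d * star e' := by
    rw [star_sub, star_mul, star_mul]
  have h2 : star (e' * e - 1 - (d * k + k * d)) =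
      star e * star e' - 1 - (star k * star d + star d * star k) := by
    simp only [star_sub, star_one, star_add, star_mul]
  rw [h1, h2]
  linear_combination (norm := noncomm_ring) -(e * hdS * star k)

end words

end Crest.Agent.R217.VanCalc373
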