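import Mathlib
import Crest.Agent.R217.Geo_373
import Crest.Agent.R217.VanCalc_373

/-! Row 217, M7a: the context (tower, scales, mesh) of the chain package and its basic calculus. -/

set_option autoImplicit false

open Metric Set
open Crest.Agent.R217.PC473 Crest.Agent.R217.Flow373 Crest.Agent.R217.Carrier834
open Crest.Agent.R217.VanCalc373

namespace Crest.Agent.R217.Chain373

/-- all the data and constants, for one mesh -/
structure Ctx (n N : ℕ) [NeZero N] where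
  D : Flow n
  L : ℕ → Set (Fin n → ℝ)
  Kc : Set (Fin n → ℝ)
  κ : ℝ
  R : ℝ
  e : ℕ → ℝ
  ε : ℝ
  μ : ℝ
  x : Tup (Matrix (CellZ n N) (CellZ n N) ℂ)
  grid : IsGrid x
  hc : D.c ≤ 1 / 100
  tower : ∀ j < 40, ∀ v ∈ D.ovr (L j), ∀ v', dist v' v < κ → v' ∈ D.ovr (L (j + 1))
  bound : ∀ v ∈ D.ovr (L 40), dist v 0 ≤ R
  Kc_pre : IsPreconnected Kc
  Kc_ball : closedBall 0 1 ⊆ Kc
  Kc_lo : D.ovr (L 10) ⊆ Kc
  Kc_hi : ∀ v ∈ Kc, ∀ v', dist v' v < κ → v' ∈ D.ovr (L 11)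
  κ_pos : 0 < κ
  κ_one : κ ≤ 1
  e_pos : ∀ k, 0 < e k
  e_succ : ∀ k, e (k + 1) ≤ e k / (4 * (n + 1))
  unif : ∀ k, ∀ v ∈ D.ovr (L 40), ∀ v', dist v' v < e (k + 1) →
    v' ∈ D.V ∧ ∀ i : ℤ, dist (D.T i v') (D.T i v) < e k / (4 * (n + 1))
  e_small : e 0 ≤ 1 / 1000
  e_ε : e 0 ≤ ε / 8
  ε_κ : ε ≤ κ / 2
  μ_pos : 0 < μ
  μ_lt : μ < e 20
  win : 2 * R + 2 * n + 20 ≤ μ * N

namespace Ctx

variable {n N : ℕ} [NeZero N] (X : Ctx n N)

/-- the invariant compact regions -/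
def C (j : ℕ) : Set (Fin n → ℝ) := X.D.ovr (X.L j)

theorem C_sub (j : ℕ) : X.C j ⊆ X.D.V := X.D.ovr_sub _

theorem C_step {j : ℕ} (hj : j < 40) {v v' : Fin n → ℝ} (hv : v ∈ X.C j)
    (h : dist v' v < X.κ) : v' ∈ X.C (j + 1) := X.tower j hj v hv v' h

theorem C_succ {j : ℕ} (hj : j < 40) : X.C j ⊆ X.C (j + 1) := fun v hv =>
  X.C_step hj hv (by rw [dist_self]; exact X.κ_pos)

theorem C_mono {j k : ℕ} (hjk : j ≤ k) (hk : k ≤ 40) : X.C j ⊆ X.C k := by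
  induction k, hjk using Nat.le_induction with
  | base => exact subset_rfl
  | succ k _ ih => exact (ih (by omega)).trans (X.C_succ (by omega))

theorem T_C {j : ℕ} (i : ℤ) {v : Fin n → ℝ} (hv : v ∈ X.C j) : X.D.T i v ∈ X.C j :=
  X.D.T_ovr i hv

theorem of_T_C {j : ℕ} (i : ℤ) {v : Fin n → ℝ} (hv : v ∈ X.D.V) (h : X.D.T i v ∈ X.C j) :
    v ∈ X.C j := by
  have := X.T_C (-i) h
  rwa [X.D.T_neg_T i hv] at this

theorem n1 : (1 : ℝ) ≤ n + 1 := by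
  have : (0 : ℝ) ≤ n := Nat.cast_nonneg n
  linarith

theorem e_div (k : ℕ) : X.e k / (4 * (n + 1)) ≤ X.e k / 4 := by
  have h1 := X.e_pos k
  have h2 : (1 : ℝ) ≤ n + 1 := n1
  apply div_le_div_of_nonneg_left h1.le (by norm_num)
  linarith

theorem e_n (k : ℕ) : (n : ℝ) * (X.e k / (4 * (n + 1))) ≤ X.e k / 4 := by
  have h1 := X.e_pos k
  have h2 : (1 : ℝ) ≤ n + 1 := n1
  have h3 : (n : ℝ) * (X.e k / (4 * (n + 1))) = (X.e k / 4) * (n / (n + 1)) := by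
    field_simp
  rw [h3]
  have h4 : (n : ℝ) / (n + 1) ≤ 1 := by
    rw [div_le_one (by linarith)]
    linarith
  calc _ ≤ X.e k / 4 * 1 := mul_le_mul_of_nonneg_left h4 (by linarith)
    _ = _ := mul_one _

theorem e_quarter (k : ℕ) : X.e (k + 1) ≤ X.e k / 4 := (X.e_succ k).trans (X.e_div k)

theorem e_anti {k l : ℕ} (h : k ≤ l) : X.e l ≤ X.e k := by
  induction l, h using Nat.le_induction with
  | base => exact le_rfl
  | succ l _ ih =>
    have h1 := X.e_quarter l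
    have h2 := X.e_pos l
    linarith

theorem e_κ (k : ℕ) : X.e k < X.κ := by
  have h1 := X.e_anti (Nat.zero_le k)
  have h2 := X.e_ε
  have h3 := X.ε_κ
  have h4 := X.κ_pos
  have h5 := X.e_pos 0
  linarith

theorem e_ε' (k : ℕ) : X.e k ≤ X.ε / 8 := (X.e_anti (Nat.zero_le k)).trans X.e_ε

theorem ε_pos : 0 < X.ε := by
  have h2 := X.e_ε
  have h5 := X.e_pos 0
  linarith

theorem μ_e {k : ℕ} (hk : k ≤ 20) : X.μ < X.e k := lt_of_lt_of_le X.μ_lt (X.e_anti hk)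

theorem μ_κ : X.μ < X.κ := (X.μ_e (k := 0) (by omega)).trans (X.e_κ 0)

theorem μ_one : X.μ ≤ 1 / 1000 := (X.μ_e (k := 0) (by omega)).le.trans X.e_small

theorem R_nonneg {v : Fin n → ℝ} (hv : v ∈ X.C 40) : 0 ≤ X.R :=
  dist_nonneg.trans (X.bound v hv)

theorem inW {s : CellZ n N} (hs : pos X.μ s ∈ X.C 40) : InW s := by
  apply inW_of_le X.μ_pos (R := X.R) _ (X.bound _ hs)
  have := X.win
  have h1 := X.μ_one
  have h2 : (0 : ℝ) ≤ n := Nat.cast_nonneg n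
  linarith

theorem adj_dist' {t s : CellZ n N} (hs : pos X.μ s ∈ X.C 40) (h : Adj t s) :
    dist (pos X.μ t) (pos X.μ s) ≤ X.μ := adj_dist X.μ_pos.le h (X.inW hs)

/-- the levels of the tower -/
def Z (j : ℕ) : Set (CellZ n N) := if j ≤ 40 then {s | pos X.μ s ∈ X.C j} else univ

theorem mem_Z {j : ℕ} (hj : j ≤ 40) {s : CellZ n N} : s ∈ X.Z j ↔ pos X.μ s ∈ X.C j := by
  unfold Z
  rw [if_pos hj]
  exact Iff.rfl

theorem mem_Z' {j : ℕ} (hj : 40 < j) (s : CellZ n N) : s ∈ X.Z j := by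
  unfold Z
  rw [if_neg (by omega)]
  exact mem_univ s

theorem Z_mono : Monotone X.Z := by
  intro j k hjk s hs
  by_cases hk : k ≤ 40
  · rw [X.mem_Z hk]
    rw [X.mem_Z (hjk.trans hk)] at hs
    exact X.C_mono hjk hk hs
  · exact X.mem_Z' (by omega) s

theorem mem_KK {j : ℕ} (hj : j < 40) {s : CellZ n N} (hs : s ∈ X.Z j) :
    s ∈ KK X.μ (X.C (j + 1)) := by
  rw [X.mem_Z hj.le] at hs
  exact mem_KK_of X.μ_pos.le X.μ_κ fun x hx => X.C_step hj hs hx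

theorem Z_of_KK {j : ℕ} (hj : j ≤ 40) {s : CellZ n N} (hs : s ∈ KK X.μ (X.C j)) : s ∈ X.Z j := by
  rw [X.mem_Z hj]
  exact pos_mem_of_KK X.μ_pos.le hs

/-- matrices with entries between neighbours only -/
def AdjM (A : Matrix (CellZ n N) (CellZ n N) ℂ) : Prop := ∀ t s, A t s ≠ 0 → Adj t s

omit [NeZero N] in
theorem AdjM.star {A : Matrix (CellZ n N) (CellZ n N) ℂ} (h : AdjM A) : AdjM (star A) :=
  fun t s hts => adj_symm (h s t fun h0 => hts (by rw [Matrix.star_apply, h0, star_zero]))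

theorem loc_adj {A : Matrix (CellZ n N) (CellZ n N) ℂ} (h : AdjM A) : Loc X.Z 1 A := by
  intro t s hts j
  have hadj := h t s hts
  by_cases hj : j < 40
  · rw [X.mem_Z hj.le, X.mem_Z hj.le, X.mem_Z (by omega), X.mem_Z (by omega)]
    constructor
    · intro ht
      exact X.C_step hj ht ((X.adj_dist' (X.C_mono hj.le le_rfl ht) (adj_symm hadj)).trans_lt X.μ_κ)
    · intro hs
      exact X.C_step hj hs ((X.adj_dist' (X.C_mono hj.le le_rfl hs) hadj).trans_lt X.μ_κ)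
  · exact ⟨fun _ => X.mem_Z' (by omega) s, fun _ => X.mem_Z' (by omega) t⟩

/-- near the graph of `T i`, columns in `C c` -/
def Nr (c : ℕ) (i : ℤ) (δ : ℝ) (A : Matrix (CellZ n N) (CellZ n N) ℂ) : Prop :=
  ∀ t s, A t s ≠ 0 → pos X.μ s ∈ X.C c ∧ dist (pos X.μ t) (X.D.T i (pos X.μ s)) < δ

variable {X}

theorem Nr.mono {c c' : ℕ} {i : ℤ} {δ δ' : ℝ} {A : Matrix (CellZ n N) (CellZ n N) ℂ}
    (h : X.Nr c i δ A) (hc : c ≤ c') (hc' : c' ≤ 40) (hδ : δ ≤ δ') : X.Nr c' i δ' A :=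
  fun t s hts => ⟨X.C_mono hc hc' (h t s hts).1, (h t s hts).2.trans_le hδ⟩

theorem Nr.add {c : ℕ} {i : ℤ} {δ : ℝ} {A B : Matrix (CellZ n N) (CellZ n N) ℂ}
    (hA : X.Nr c i δ A) (hB : X.Nr c i δ B) : X.Nr c i δ (A + B) := fun t s hts => by
  by_cases h : A t s = 0
  · exact hB t s (by
      rw [Matrix.add_apply, h, zero_add] at hts
      exact hts)
  · exact hA t s h

theorem Nr.neg {c : ℕ} {i : ℤ} {δ : ℝ} {A : Matrix (CellZ n N) (CellZ n N) ℂ}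
    (hA : X.Nr c i δ A) : X.Nr c i δ (-A) := fun t s hts => hA t s (by simpa using hts)

theorem Nr.loc {c : ℕ} {i : ℤ} {δ : ℝ} {A : Matrix (CellZ n N) (CellZ n N) ℂ}
    (h : X.Nr c i δ A) (hδ : δ ≤ X.κ) : Loc X.Z 1 A := by
  intro t s hts j
  obtain ⟨h1, h2⟩ := h t s hts
  by_cases hj : j < 40
  · rw [X.mem_Z hj.le, X.mem_Z hj.le, X.mem_Z (by omega), X.mem_Z (by omega)]
    constructor
    · intro ht
      refine X.of_T_C i (X.C_sub _ h1) (X.C_step hj ht ?_)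
      rw [dist_comm]
      exact h2.trans_le hδ
    · intro hs
      exact X.C_step hj (X.T_C i hs) (h2.trans_le hδ)
  · exact ⟨fun _ => X.mem_Z' (by omega) s, fun _ => X.mem_Z' (by omega) t⟩

/-- the row is in the next region -/
theorem Nr.row {c : ℕ} {i : ℤ} {δ : ℝ} {A : Matrix (CellZ n N) (CellZ n N) ℂ}
    (h : X.Nr c i δ A) (hδ : δ ≤ X.κ) (hc : c < 40) {t s : CellZ n N} (hts : A t s ≠ 0) :
    pos X.μ t ∈ X.C (c + 1) := by
  obtain ⟨h1, h2⟩ := h t s hts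
  exact X.C_step hc (X.T_C i h1) (h2.trans_le hδ)

theorem Nr.mul {c c' k : ℕ} {i j : ℤ} {A B : Matrix (CellZ n N) (CellZ n N) ℂ}
    (hA : X.Nr c i (X.e (k + 1)) A) (hB : X.Nr c' j (X.e (k + 1)) B) (hc' : c' ≤ 40) :
    X.Nr c' (i + j) (X.e k) (A * B) := by
  intro t s hts
  rw [Matrix.mul_apply] at hts
  obtain ⟨r, -, hr⟩ := Finset.exists_ne_zero_of_sum_ne_zero hts
  obtain ⟨-, h1⟩ := hA t r (left_ne_zero_of_mul hr)
  obtain ⟨h2, h3⟩ := hB r s (right_ne_zero_of_mul hr)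
  refine ⟨h2, ?_⟩
  rw [X.D.T_add i j _ (X.C_sub _ h2)]
  have h4 := (X.unif k _ (X.T_C j (X.C_mono hc' le_rfl h2)) _ h3).2 i
  have h5 := dist_triangle (pos X.μ t) (X.D.T i (pos X.μ r)) (X.D.T i (X.D.T j (pos X.μ s)))
  have h6 := X.e_div k
  have h7 := X.e_quarter k
  have h8 := X.e_pos k
  linarith

theorem Nr.star {c k : ℕ} {i : ℤ} {A : Matrix (CellZ n N) (CellZ n N) ℂ}
    (hA : X.Nr c i (X.e (k + 1)) A) (hc : c < 40) : X.Nr (c + 1) (-i) (X.e k) (star A) := by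
  intro t s hts
  have hst : A s t ≠ 0 := fun h0 => hts (by rw [Matrix.star_apply, h0, star_zero])
  obtain ⟨h1, h2⟩ := hA s t hst
  refine ⟨X.C_step hc (X.T_C i h1) (h2.trans (X.e_κ _)), ?_⟩
  have h4 := (X.unif k _ (X.T_C i (X.C_mono hc.le le_rfl h1)) _ h2).2 (-i)
  rw [X.D.T_neg_T i (X.C_sub _ h1)] at h4
  rw [dist_comm]
  have h6 := X.e_div k
  have h8 := X.e_pos k
  linarith

theorem Nr.adj_mul {c k : ℕ} {i : ℤ} {A B : Matrix (CellZ n N) (CellZ n N) ℂ}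
    (hB : X.Nr c i (X.e (k + 1)) B) (hA : AdjM A) (hc : c < 40) (hk : k ≤ 19) :
    X.Nr c i (X.e k) (A * B) := by
  intro t s hts
  rw [Matrix.mul_apply] at hts
  obtain ⟨r, -, hr⟩ := Finset.exists_ne_zero_of_sum_ne_zero hts
  have h0 := hA t r (left_ne_zero_of_mul hr)
  obtain ⟨h2, h3⟩ := hB r s (right_ne_zero_of_mul hr)
  refine ⟨h2, ?_⟩
  have hr' : pos X.μ r ∈ X.C 40 := X.C_mono (by omega) le_rfl
    (hB.row (X.e_κ _).le hc (right_ne_zero_of_mul hr))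
  have h1 := X.adj_dist' hr' h0
  have h5 := dist_triangle (pos X.μ t) (pos X.μ r) (X.D.T i (pos X.μ s))
  have h6 := X.μ_e (k := k + 1) (by omega)
  have h7 := X.e_quarter k
  have h8 := X.e_pos k
  linarith

theorem Nr.mul_adj {c k : ℕ} {i : ℤ} {A B : Matrix (CellZ n N) (CellZ n N) ℂ}
    (hB : X.Nr c i (X.e (k + 1)) B) (hA : AdjM A) (hc : c < 40) (hk : k ≤ 19) :
    X.Nr (c + 1) i (X.e k) (B * A) := by
  intro t s hts
  rw [Matrix.mul_apply] at hts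
  obtain ⟨r, -, hr⟩ := Finset.exists_ne_zero_of_sum_ne_zero hts
  have h0 := hA r s (right_ne_zero_of_mul hr)
  obtain ⟨h2, h3⟩ := hB t r (left_ne_zero_of_mul hr)
  have h1 := X.adj_dist' (X.C_mono hc.le le_rfl h2) (adj_symm h0)
  refine ⟨X.C_step hc h2 (h1.trans_lt X.μ_κ), ?_⟩
  have h4 := (X.unif k _ (X.C_mono hc.le le_rfl h2) _
    (h1.trans_lt (X.μ_e (k := k + 1) (by omega)))).2 i
  have h5 := dist_triangle (pos X.μ t) (X.D.T i (pos X.μ r)) (X.D.T i (pos X.μ s))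
  rw [dist_comm (X.D.T i (pos X.μ r))] at h5
  have h6 := X.e_div k
  have h7 := X.e_quarter k
  have h8 := X.e_pos k
  linarith

variable (X)

theorem near_of_nr {c : ℕ} {i : ℤ} {δ : ℝ} {A : Matrix (CellZ n N) (CellZ n N) ℂ}
    (h : X.Nr c i δ A) (hc : c ≤ 35) (hδ : δ ≤ X.ε) :
    Near X.D (X.C 36) X.μ i X.ε A := fun t s hts => by
  have h1 := X.ε_κ
  have h2 := X.κ_pos
  refine ⟨X.C_mono (by omega) (by omega) (h t s hts).1,
    X.C_mono (by omega) (by omega) (h.row (by linarith) (by omega) hts),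
    (h t s hts).2.trans_le hδ⟩

theorem van_of_vn {j : ℕ} {A : Matrix (CellZ n N) (CellZ n N) ℂ} (h : Vn X.Z j A) (hj : j ≤ 40) :
    Van X.μ (X.C 0) A := fun t s hts => by
  apply h t s
  rw [X.mem_Z hj, X.mem_Z hj]
  exact hts.imp (fun h => X.C_mono (Nat.zero_le _) hj h) (fun h => X.C_mono (Nat.zero_le _) hj h)

end Ctx

end Crest.Agent.R217.Chain373
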