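import Mathlib
import Crest.Agent.R217.Ctx_373

/-! Row 217, M7a: the chain maps `η i`, their composition homotopies. -/

set_option autoImplicit false

open Metric Set
open Crest.Agent.R217.PC473 Crest.Agent.R217.Flow373 Crest.Agent.R217.Carrier834
open Crest.Agent.R217.VanCalc373

namespace Crest.Agent.R217.Chain373

section rel

variable {n N : ℕ}

/-- degree of a matrix `D → D` -/
def Dg (a : ℤ) (A : Matrix (CellZ n N) (CellZ n N) ℂ) : Prop :=
  ∀ t s, A t s ≠ 0 → (dimZ t : ℤ) - dimZ s = a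

/-- degree of a matrix `D* → D` or `D → D*` -/
def Db (m : ℤ) (A : Matrix (CellZ n N) (CellZ n N) ℂ) : Prop :=
  ∀ t s, A t s ≠ 0 → (dimZ t : ℤ) + dimZ s = m

variable {A B : Matrix (CellZ n N) (CellZ n N) ℂ} {a b : ℤ}

theorem Dg.star (h : Dg a A) : Dg (-a) (star A) := fun t s hts => by
  have := h s t fun h0 => hts (by rw [Matrix.star_apply, h0, star_zero])
  omega

theorem Db.star (h : Db a A) : Db a (star A) := fun t s hts => by
  have := h s t fun h0 => hts (by rw [Matrix.star_apply, h0, star_zero])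
  omega

theorem Dg.neg (h : Dg a A) : Dg a (-A) := fun t s hts => h t s (by simpa using hts)

theorem Dg.add (hA : Dg a A) (hB : Dg a B) : Dg a (A + B) := fun t s hts => by
  by_cases h : A t s = 0
  · exact hB t s (by rw [Matrix.add_apply, h, zero_add] at hts; exact hts)
  · exact hA t s h

theorem Db.neg (h : Db a A) : Db a (-A) := fun t s hts => h t s (by simpa using hts)

theorem Db.add (hA : Db a A) (hB : Db a B) : Db a (A + B) := fun t s hts => by
  by_cases h : A t s = 0
  · exact hB t s (by rw [Matrix.add_apply, h, zero_add] at hts; exact hts)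
  · exact hA t s h

theorem Dg.sub (hA : Dg a A) (hB : Dg a B) : Dg a (A - B) := by
  rw [sub_eq_add_neg]; exact hA.add hB.neg

theorem Dg.one : Dg 0 (1 : Matrix (CellZ n N) (CellZ n N) ℂ) := fun t s h => by
  have : t = s := by
    by_contra hne
    exact h (Matrix.one_apply_ne hne)
  subst this
  omega

variable [NeZero N]

theorem Dg.mul {c : ℤ} (hA : Dg a A) (hB : Dg b B) (h : a + b = c) : Dg c (A * B) := by
  intro t s hts
  rw [Matrix.mul_apply] at hts
  obtain ⟨r, -, hr⟩ := Finset.exists_ne_zero_of_sum_ne_zero hts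
  have h1 := hA t r (left_ne_zero_of_mul hr)
  have h2 := hB r s (right_ne_zero_of_mul hr)
  omega

theorem Dg.mul_db {c : ℤ} (hA : Dg a A) (hB : Db b B) (h : a + b = c) : Db c (A * B) := by
  intro t s hts
  rw [Matrix.mul_apply] at hts
  obtain ⟨r, -, hr⟩ := Finset.exists_ne_zero_of_sum_ne_zero hts
  have h1 := hA t r (left_ne_zero_of_mul hr)
  have h2 := hB r s (right_ne_zero_of_mul hr)
  omega

theorem Db.mul_dg {c : ℤ} (hA : Db a A) (hB : Dg b B) (h : a - b = c) : Db c (A * B) := by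
  intro t s hts
  rw [Matrix.mul_apply] at hts
  obtain ⟨r, -, hr⟩ := Finset.exists_ne_zero_of_sum_ne_zero hts
  have h1 := hA t r (left_ne_zero_of_mul hr)
  have h2 := hB r s (right_ne_zero_of_mul hr)
  omega

theorem Db.mul {c : ℤ} (hA : Db a A) (hB : Db b B) (h : a - b = c) : Dg c (A * B) := by
  intro t s hts
  rw [Matrix.mul_apply] at hts
  obtain ⟨r, -, hr⟩ := Finset.exists_ne_zero_of_sum_ne_zero hts
  have h1 := hA t r (left_ne_zero_of_mul hr)
  have h2 := hB r s (right_ne_zero_of_mul hr)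
  omega

/-! ### augmentation -/

theorem aug0_sub (A B : Matrix (CellZ n N) (CellZ n N) ℂ) (s : CellZ n N) :
    aug0 (A - B) s = aug0 A s - aug0 B s := by
  unfold aug0
  rw [← Finset.sum_sub_distrib]
  refine Finset.sum_congr rfl fun t _ => ?_
  split_ifs
  · rfl
  · rw [sub_zero]

theorem aug0_add (A B : Matrix (CellZ n N) (CellZ n N) ℂ) (s : CellZ n N) :
    aug0 (A + B) s = aug0 A s + aug0 B s := by
  unfold aug0
  rw [← Finset.sum_add_distrib]
  refine Finset.sum_congr rfl fun t _ => ?_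
  split_ifs
  · rfl
  · rw [add_zero]

theorem aug0_one {s : CellZ n N} (hs : dimZ s = 0) :
    aug0 (1 : Matrix (CellZ n N) (CellZ n N) ℂ) s = 1 := by
  unfold aug0
  rw [Finset.sum_eq_single s]
  · have h1 : dim (lift s) = 0 := hs
    rw [if_pos h1, Matrix.one_apply_eq]
  · intro t _ hts
    rw [Matrix.one_apply_ne hts, ite_self]
  · intro h; exact absurd (Finset.mem_univ s) h

theorem aug0_mul (A B : Matrix (CellZ n N) (CellZ n N) ℂ) (s : CellZ n N) :
    aug0 (A * B) s = ∑ r, aug0 A r * B r s := by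
  unfold aug0
  have h1 : ∀ t, (if dim (lift t) = 0 then (A * B) t s else 0) =
      ∑ r, (if dim (lift t) = 0 then A t r else 0) * B r s := by
    intro t
    rw [Matrix.mul_apply]
    split_ifs
    · rfl
    · simp
  rw [Finset.sum_congr rfl fun t _ => h1 t, Finset.sum_comm]
  refine Finset.sum_congr rfl fun r _ => ?_
  rw [Finset.sum_mul]

/-- if the columns `r` hit by column `s` of `B` have augmentation `1` -/
theorem aug0_mul_one {s : CellZ n N} (hs : dimZ s = 0)
    (hB : Dg 0 B) (h : ∀ r, B r s ≠ 0 → dimZ r = 0 → aug0 A r = 1) :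
    aug0 (A * B) s = aug0 B s := by
  rw [aug0_mul]
  unfold aug0
  refine Finset.sum_congr rfl fun r _ => ?_
  by_cases hr : B r s = 0
  · rw [hr, mul_zero, ite_self]
  · have h1 := hB r s hr
    have h2 : dimZ r = 0 := by omega
    have h3 : dim (lift r) = 0 := h2
    have h4 := h r hr h2
    unfold aug0 at h4
    rw [h4, one_mul, if_pos h3]

end rel

namespace Ctx

variable {n N : ℕ} [NeZero N] (X : Ctx n N)

theorem dg_d : Dg (-1) X.x.d := fun t s h => by
  have := X.grid.deg_d t s h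
  omega

theorem dg_H : Dg 1 X.x.H := fun t s h => by
  have := X.grid.deg_H t s h
  omega

theorem db_S : Db n X.x.S := fun t s h => by
  have := X.grid.deg_S t s h
  omega

theorem db_T : Db n X.x.T := fun t s h => by
  have := X.grid.deg_T t s h
  omega

theorem adjM_d : AdjM X.x.d := X.grid.adj_d
theorem adjM_S : AdjM X.x.S := X.grid.adj_S
theorem adjM_T : AdjM X.x.T := X.grid.adj_T
theorem adjM_H : AdjM X.x.H := X.grid.adj_H

theorem loc_d : Loc X.Z 1 X.x.d := X.loc_adj X.adjM_d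
theorem loc_S : Loc X.Z 1 X.x.S := X.loc_adj X.adjM_S
theorem loc_T : Loc X.Z 1 X.x.T := X.loc_adj X.adjM_T
theorem loc_H : Loc X.Z 1 X.x.H := X.loc_adj X.adjM_H

theorem dS : X.x.d * X.x.S + X.x.S * star X.x.d = 0 := X.grid.pc.dS

theorem Td : X.x.T * X.x.d + star X.x.d * X.x.T = 0 := X.grid.pc.Td

theorem ST : X.x.S * X.x.T = 1 + X.x.d * X.x.H + X.x.H * X.x.d := by
  rw [X.grid.pc.ST, X.grid.p_one]

theorem TS : X.x.T * X.x.S = 1 + star X.x.H * star X.x.d + star X.x.d * star X.x.H := by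
  have := congrArg star X.ST
  rw [star_mul, X.grid.pc.sS, X.grid.pc.sT, star_add, star_add, star_one, star_mul, star_mul] at this
  exact this

theorem aug0_d_mul (A : Matrix (CellZ n N) (CellZ n N) ℂ) (s : CellZ n N) :
    aug0 (X.x.d * A) s = 0 := by
  rw [aug0_mul]
  refine Finset.sum_eq_zero fun r _ => ?_
  have : aug0 X.x.d r = 0 := X.grid.haug r
  rw [this, zero_mul]

theorem aug0_mul_d (A : Matrix (CellZ n N) (CellZ n N) ℂ) {s : CellZ n N} (hs : dimZ s = 0) :
    aug0 (A * X.x.d) s = 0 := by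
  rw [aug0_mul]
  refine Finset.sum_eq_zero fun r _ => ?_
  by_cases h : X.x.d r s = 0
  · rw [h, mul_zero]
  · have := X.grid.deg_d r s h
    omega

/-- the properties of one chain map over `T i` -/
structure IsEta (i : ℤ) (A : Matrix (CellZ n N) (CellZ n N) ℂ) : Prop where
  nr : X.Nr 30 i (X.e 18) A
  dg : Dg 0 A
  out : ∀ s, s ∉ KK X.μ (X.C 30) → ∀ t, A t s = 0
  comm : ∀ s ∈ KK X.μ (X.C 30), ∀ t, (X.x.d * A) t s = (A * X.x.d) t s
  aug : ∀ s ∈ KK X.μ (X.C 30), dimZ s = 0 → aug0 A s = 1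

theorem hC {j : ℕ} (hj : j ≤ 40) : ∀ v ∈ X.C j, dist v 0 ≤ X.R := fun v hv =>
  X.bound v (X.C_mono hj le_rfl hv)

theorem hTC {j : ℕ} (hj : j ≤ 40) (i : ℤ) : ∀ v ∈ X.C j, dist (X.D.T i v) 0 ≤ X.R := fun _ hv =>
  X.bound _ (X.C_mono hj le_rfl (X.T_C i hv))

theorem hT {j : ℕ} (hj : j ≤ 40) (i : ℤ) : ∀ v ∈ X.C j, ∀ w ∈ X.C j, dist w v ≤ X.μ →
    dist (X.D.T i w) (X.D.T i v) ≤ X.e 18 / (4 * (n + 1)) := fun v hv w _ h =>
  ((X.unif 18 v (X.C_mono hj le_rfl hv) w (h.trans_lt (X.μ_e (by omega)))).2 i).le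

theorem hN {r : ℝ} (hr : r ≤ 1) :
    2 * X.R + 2 * r + 6 * X.μ + 2 * n * (X.e 18 / (4 * (n + 1))) ≤ X.μ * N := by
  have h1 := X.win
  have h2 := X.μ_one
  have h3 := X.e_div 18
  have h4 := X.e_pos 18
  have h5 := X.e_anti (Nat.zero_le 18)
  have h6 := X.e_small
  have h7 : (0 : ℝ) ≤ n := Nat.cast_nonneg n
  have h8 := X.e_n 18
  have h9 : 2 * (n : ℝ) * (X.e 18 / (4 * (n + 1))) = 2 * (n * (X.e 18 / (4 * (n + 1)))) := by ring
  rw [h9]
  linarith

theorem e0_nonneg : 0 ≤ X.e 18 / (4 * (n + 1)) := by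
  have h4 := X.e_pos 18
  positivity

theorem exists_eta (i : ℤ) : ∃ A, X.IsEta i A := by
  obtain ⟨A, h1, h2⟩ := real_map X.grid.isBd X.μ_pos (C := X.C 30) (X.hC (by omega)) (X.D.T i)
    X.e0_nonneg (X.hT (by omega) i) (X.hTC (by omega) i)
    (by have := X.hN (r := 0) zero_le_one
        linarith)
  have hin : ∀ t s, A t s ≠ 0 → s ∈ KK X.μ (X.C 30) := fun t s h => by
    by_contra hs
    exact h (h1 s hs t)
  refine ⟨A, ?_, ?_, h1, fun s hs => (h2 s hs).2.1, fun s hs => (h2 s hs).2.2⟩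
  · intro t s hts
    have hs := hin t s hts
    refine ⟨pos_mem_of_KK X.μ_pos.le hs, ?_⟩
    have h3 := ((h2 s hs).1 t hts).2
    have h4 := X.e_n 18
    have h5 := X.μ_e (k := 19) (by omega)
    have h6 := X.e_quarter 18
    have h7 := X.e_pos 18
    linarith
  · intro t s hts
    have h3 := ((h2 s (hin t s hts)).1 t hts).1
    omega

open Classical in
/-- the truncated identity -/
noncomputable def id0 : Matrix (CellZ n N) (CellZ n N) ℂ :=
  Matrix.diagonal fun s => if s ∈ KK X.μ (X.C 30) then 1 else 0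

theorem isEta_id0 : X.IsEta 0 X.id0 := by
  classical
  have h0 : ∀ t s, X.id0 t s ≠ 0 → t = s ∧ s ∈ KK X.μ (X.C 30) := by
    intro t s h
    have hts : t = s := by
      by_contra hne
      exact h (Matrix.diagonal_apply_ne _ hne)
    subst hts
    refine ⟨rfl, ?_⟩
    by_contra hs
    apply h
    unfold id0
    rw [Matrix.diagonal_apply_eq, if_neg hs]
  refine ⟨?_, ?_, ?_, ?_, ?_⟩
  · intro t s h
    obtain ⟨rfl, hs⟩ := h0 t s h
    have h1 := pos_mem_of_KK X.μ_pos.le hs
    refine ⟨h1, ?_⟩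
    rw [X.D.T_zero _ (X.C_sub _ h1), dist_self]
    exact X.e_pos 18
  · intro t s h
    obtain ⟨rfl, -⟩ := h0 t s h
    omega
  · intro s hs t
    by_contra h
    exact hs (h0 t s h).2
  · intro s hs t
    unfold id0
    rw [Matrix.mul_diagonal, Matrix.diagonal_mul, if_pos hs, mul_one]
    by_cases hd : X.x.d t s = 0
    · rw [hd, mul_zero]
    · have hW : Win N (lift s) := X.inW (X.C_mono (by omega) le_rfl (pos_mem_of_KK X.μ_pos.le hs))
      have hf : IsFace (lift t) (lift s) := by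
        apply isFace_of_mem_bd (R := ℂ)
        rw [Finsupp.mem_support_iff, ← X.grid.isBd s t hW]
        exact hd
      rw [if_pos (face_KK X.μ_pos.le hs hf), one_mul]
  · intro s hs hd
    unfold aug0
    rw [Finset.sum_eq_single s]
    · have h1 : dim (lift s) = 0 := hd
      rw [if_pos h1]
      unfold id0
      rw [Matrix.diagonal_apply_eq, if_pos hs]
    · intro t _ hts
      have : X.id0 t s = 0 := Matrix.diagonal_apply_ne _ hts
      rw [this, ite_self]
    · intro h; exact absurd (Finset.mem_univ s) h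

theorem vn_id0 : Vn X.Z 29 (X.id0 - 1) := by
  classical
  intro t s hts
  by_cases h : t = s
  · subst h
    have hs : t ∈ X.Z 29 := by tauto
    unfold id0
    rw [Matrix.sub_apply, Matrix.diagonal_apply_eq, if_pos (X.mem_KK (by omega) hs),
      Matrix.one_apply_eq, sub_self]
  · unfold id0
    rw [Matrix.sub_apply, Matrix.diagonal_apply_ne _ h, Matrix.one_apply_ne h, sub_self]

variable {X}
variable {i j l : ℤ} {A B E : Matrix (CellZ n N) (CellZ n N) ℂ}

theorem IsEta.loc (h : X.IsEta i A) : Loc X.Z 1 A := h.nr.loc (X.e_κ _).le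

theorem IsEta.vn (h : X.IsEta i A) : Vn X.Z 27 (X.x.d * A - A * X.x.d) := by
  refine vn_of_col (k := 2) X.Z_mono ((X.loc_d.mul h.loc).sub (h.loc.mul X.loc_d)) ?_
  intro s hs t
  rw [Matrix.sub_apply, h.comm s (X.mem_KK (by omega) hs) t, sub_self]

/-- composition homotopy -/
theorem exists_mul (hA : X.IsEta i A) (hB : X.IsEta j B) (hE : X.IsEta l E)
    {δ : ℝ} (hδ0 : 0 ≤ δ) (hδ : δ ≤ 1 / 2)
    (hT : ∀ v ∈ X.C 36, dist (X.D.T (i + j) v) (X.D.T l v) < δ) :
    ∃ k, X.Nr 25 l (δ + X.e 16) k ∧ Dg 1 k ∧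
      (∀ s ∉ KK X.μ (X.C 25), ∀ t, k t s = 0) ∧
      (∀ s ∈ KK X.μ (X.C 25), ∀ t, (X.x.d * k + k * X.x.d) t s = (A * B - E) t s) := by
  have hAB : X.Nr 30 (i + j) (X.e 17) (A * B) :=
    hA.nr.mul hB.nr (by omega)
  have h17 := X.e_pos 17
  have h17' : X.e 17 ≤ 1 / 1000 := (X.e_anti (Nat.zero_le 17)).trans X.e_small
  obtain ⟨k, h1, h2⟩ := real_homotopy X.grid.isBd X.μ_pos (C := X.C 25) (X.hC (by omega))
    (X.D.T l) (r := δ + X.e 17) X.e0_nonneg (by linarith) (X.hT (by omega) l) (X.hTC (by omega) l)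
    (X.hN (by linarith)) (A * B - E)
    (fun s hs => by
      have hs25 : pos X.μ s ∈ X.C 25 := pos_mem_of_KK X.μ_pos.le hs
      have hs30 : s ∈ KK X.μ (X.C 30) :=
        (show cc X.μ s ⊆ X.C 25 from hs).trans (X.C_mono (by omega) (by omega))
      refine ⟨fun t hts => ?_, fun t => ?_, fun hd => ?_⟩
      · by_cases hAB0 : (A * B) t s = 0
        · have hEt : E t s ≠ 0 := fun h => hts (by rw [Matrix.sub_apply, hAB0, h, sub_self])
          refine ⟨?_, ?_⟩
          · have := hE.dg t s hEt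
            omega
          · have h3 := (hE.nr t s hEt).2
            have h4 := X.e_anti (show 17 ≤ 18 by omega)
            linarith
        · refine ⟨?_, ?_⟩
          · have := (hA.dg.mul hB.dg (c := 0) (by omega)) t s hAB0
            omega
          · have h3 := (hAB t s hAB0).2
            have h4 := hT _ (X.C_mono (by omega) (by omega) hs25)
            have h5 := dist_triangle (pos X.μ t) (X.D.T (i + j) (pos X.μ s)) (X.D.T l (pos X.μ s))
            linarith
      · have h3 : X.x.d * (A * B - E) - (A * B - E) * X.x.d =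
            (X.x.d * A - A * X.x.d) * B + A * (X.x.d * B - B * X.x.d) -
              (X.x.d * E - E * X.x.d) := word_comp
        have h4 : Vn X.Z 26 (X.x.d * (A * B - E) - (A * B - E) * X.x.d) := by
          rw [h3]
          exact (((hA.vn.mul_right X.Z_mono hB.loc).add (hB.vn.mul_left X.Z_mono hA.loc)).sub
            (hE.vn.mono X.Z_mono (by omega)))
        have h5 := h4 t s (Or.inr ((X.mem_Z (by omega)).2 (X.C_mono (by omega) (by omega) hs25)))
        rw [Matrix.sub_apply, sub_eq_zero] at h5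
        exact h5
      · rw [aug0_sub, hE.aug s hs30 hd, aug0_mul_one hd hB.dg, hB.aug s hs30 hd, sub_self]
        intro r hr hr0
        refine hA.aug r ?_ hr0
        have h6 : r ∈ X.Z 26 := (hB.loc r s hr 25).2 ((X.mem_Z (by omega)).2 hs25)
        have h7 := X.mem_KK (by omega) h6
        exact (show cc X.μ r ⊆ X.C 27 from h7).trans (X.C_mono (by omega) (by omega)))
  have hin : ∀ t s, k t s ≠ 0 → s ∈ KK X.μ (X.C 25) := fun t s h => by
    by_contra hs
    exact h (h1 s hs t)
  refine ⟨k, ?_, ?_, h1, fun s hs => (h2 s hs).2⟩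
  · intro t s hts
    have hs := hin t s hts
    refine ⟨pos_mem_of_KK X.μ_pos.le hs, ?_⟩
    have h3 := ((h2 s hs).1 t hts).2
    have h4 := X.e_n 18
    have h5 := X.μ_e (k := 19) (by omega)
    have h6 := X.e_quarter 18
    have h7 := X.e_quarter 17
    have h8 := X.e_quarter 16
    have h9 := X.e_pos 18
    linarith
  · intro t s hts
    have h3 := ((h2 s (hin t s hts)).1 t hts).1
    omega

/-- the relation of the composition homotopy, rows and columns -/
theorem mul_vn (hA : X.IsEta i A) (hB : X.IsEta j B) (hE : X.IsEta l E)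
    {k : Matrix (CellZ n N) (CellZ n N) ℂ} (hk : Loc X.Z 1 k)
    (h : ∀ s ∈ KK X.μ (X.C 25), ∀ t, (X.x.d * k + k * X.x.d) t s = (A * B - E) t s) :
    Vn X.Z 22 (A * B - E - (X.x.d * k + k * X.x.d)) := by
  refine vn_of_col (k := 2) X.Z_mono ?_ ?_
  · exact ((hA.loc.mul hB.loc).sub (hE.loc.mono X.Z_mono (by omega))).sub
      ((X.loc_d.mul hk).add (hk.mul X.loc_d))
  · intro s hs t
    rw [Matrix.sub_apply, h s (X.mem_KK (by omega) hs) t, sub_self]

end Ctx

end Crest.Agent.R217.Chain373
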