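import Mathlib
import Crest.Agent.R217.Eta_373

/-! Row 217, M7a: coarse homotopy near `0`, constancy of the augmentation, duality homotopies. -/

set_option autoImplicit false

open Metric Set
open Crest.Agent.R217.PC473 Crest.Agent.R217.Flow373 Crest.Agent.R217.Carrier834
open Crest.Agent.R217.VanCalc373

namespace Crest.Agent.R217.Chain373

namespace Ctx

variable {n N : ℕ} [NeZero N] (X : Ctx n N)

theorem c_nonneg : 0 ≤ X.D.c :=
  dist_nonneg.trans (X.D.disp 0 0 (mem_closedBall_self zero_le_one))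

theorem ball_C {j : ℕ} (hj : 11 ≤ j) (hj' : j ≤ 40) : closedBall (0 : Fin n → ℝ) 1 ⊆ X.C j :=
  fun _ hv => X.C_mono hj hj' (X.Kc_hi _ (X.Kc_ball hv) _ (by rw [dist_self]; exact X.κ_pos))

/-- the coarse tower near `0` -/
def Zc (j : ℕ) : Set (CellZ n N) :=
  if j ≤ 9 then {s | dist (pos X.μ s) 0 ≤ 1 / 2 + j / 20} else univ

theorem mem_Zc {j : ℕ} (hj : j ≤ 9) {s : CellZ n N} :
    s ∈ X.Zc j ↔ dist (pos X.μ s) 0 ≤ 1 / 2 + j / 20 := by
  unfold Zc
  rw [if_pos hj]
  exact Iff.rfl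

theorem mem_Zc' {j : ℕ} (hj : 9 < j) (s : CellZ n N) : s ∈ X.Zc j := by
  unfold Zc
  rw [if_neg (by omega)]
  exact mem_univ s

theorem Zc_mono : Monotone X.Zc := by
  intro j k hjk s hs
  by_cases hk : k ≤ 9
  · rw [X.mem_Zc hk]
    rw [X.mem_Zc (hjk.trans hk)] at hs
    have : (j : ℝ) ≤ k := by exact_mod_cast hjk
    linarith
  · exact X.mem_Zc' (by omega) s

theorem Zc_ball {j : ℕ} (hj : j ≤ 9) {s : CellZ n N} (hs : s ∈ X.Zc j) :
    pos X.μ s ∈ closedBall (0 : Fin n → ℝ) 1 := by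
  rw [X.mem_Zc hj] at hs
  rw [mem_closedBall]
  have : (j : ℝ) ≤ 9 := by exact_mod_cast hj
  linarith

theorem Zc_KK {j : ℕ} (hj : j ≤ 9) {s : CellZ n N} (hs : s ∈ X.Zc j) :
    s ∈ KK X.μ (closedBall (0 : Fin n → ℝ) 1) := by
  intro x hx
  rw [X.mem_Zc hj] at hs
  rw [mem_closedBall]
  have : (j : ℝ) ≤ 9 := by exact_mod_cast hj
  have h1 := cc_dist X.μ_pos.le hx
  have h2 := dist_triangle x (pos X.μ s) 0
  have h3 := X.μ_one
  linarith

theorem locc {A : Matrix (CellZ n N) (CellZ n N) ℂ}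
    (h : ∀ t s, A t s ≠ 0 → ∀ j ≤ 8, (t ∈ X.Zc j ∨ s ∈ X.Zc j) →
      dist (pos X.μ t) (pos X.μ s) ≤ 1 / 20) : Loc X.Zc 1 A := by
  intro t s hts j
  by_cases hj : j < 9
  · have h0 := h t s hts j (by omega)
    have e : (1 : ℝ) / 2 + ((j + 1 : ℕ) : ℝ) / 20 = 1 / 2 + j / 20 + 1 / 20 := by
      push_cast
      ring
    constructor
    · intro ht
      have h1 := h0 (Or.inl ht)
      rw [X.mem_Zc (by omega)] at ht
      rw [X.mem_Zc (by omega), e]
      have h2 := dist_triangle (pos X.μ s) (pos X.μ t) 0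
      rw [dist_comm (pos X.μ s) (pos X.μ t)] at h2
      linarith
    · intro hs
      have h1 := h0 (Or.inr hs)
      rw [X.mem_Zc (by omega)] at hs
      rw [X.mem_Zc (by omega), e]
      have h2 := dist_triangle (pos X.μ t) (pos X.μ s) 0
      linarith
  · exact ⟨fun _ => X.mem_Zc' (by omega) s, fun _ => X.mem_Zc' (by omega) t⟩

theorem locc_adj {A : Matrix (CellZ n N) (CellZ n N) ℂ} (h : AdjM A) : Loc X.Zc 1 A := by
  refine X.locc fun t s hts j hj hts' => ?_
  have hadj := h t s hts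
  have h3 := X.μ_one
  rcases hts' with ht | hs
  · have h1 := X.adj_dist' (X.ball_C (by omega) le_rfl (X.Zc_ball (by omega) ht)) (adj_symm hadj)
    rw [dist_comm]
    linarith
  · have h1 := X.adj_dist' (X.ball_C (by omega) le_rfl (X.Zc_ball (by omega) hs)) hadj
    linarith

theorem vnc_of_vn {A : Matrix (CellZ n N) (CellZ n N) ℂ} {j : ℕ} (h : Vn X.Z j A) (hj : 11 ≤ j)
    (hj' : j ≤ 40) : Vn X.Zc 9 A := by
  intro t s hts
  apply h t s
  rw [X.mem_Z hj', X.mem_Z hj']
  exact hts.imp (fun h => X.ball_C hj hj' (X.Zc_ball le_rfl h))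
    (fun h => X.ball_C hj hj' (X.Zc_ball le_rfl h))

variable {X}
variable {i j : ℤ} {A B : Matrix (CellZ n N) (CellZ n N) ℂ}

theorem IsEta.locc (h : X.IsEta i A) : Loc X.Zc 1 A := by
  refine X.locc fun t s hts j hj hts' => ?_
  obtain ⟨h1, h2⟩ := h.nr t s hts
  have hc := X.hc
  have he : X.e 18 ≤ 1 / 1000 := (X.e_anti (Nat.zero_le 18)).trans X.e_small
  have hsV : pos X.μ s ∈ X.D.V := X.C_sub _ h1
  rcases hts' with ht | hs
  · -- `T i (pos s)` is in the unit ball
    have h3 : X.D.T i (pos X.μ s) ∈ closedBall (0 : Fin n → ℝ) 1 := by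
      rw [mem_closedBall]
      rw [X.mem_Zc (by omega)] at ht
      have h4 := dist_triangle (X.D.T i (pos X.μ s)) (pos X.μ t) 0
      rw [dist_comm (X.D.T i (pos X.μ s)) (pos X.μ t)] at h4
      have : (j : ℝ) ≤ 8 := by exact_mod_cast hj
      linarith
    have h5 := X.D.disp (-i) _ h3
    rw [X.D.T_neg_T i hsV] at h5
    have h6 := dist_triangle (pos X.μ t) (X.D.T i (pos X.μ s)) (pos X.μ s)
    rw [dist_comm (X.D.T i (pos X.μ s)) (pos X.μ s)] at h6
    linarith
  · have h5 := X.D.disp i _ (X.Zc_ball (by omega) hs)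
    have h6 := dist_triangle (pos X.μ t) (X.D.T i (pos X.μ s)) (pos X.μ s)
    linarith

/-- coarse homotopy near `0` -/
theorem exists_coarse (hA : X.IsEta i A) :
    ∃ k, (∀ t s, k t s ≠ 0 → pos X.μ s ∈ closedBall (0 : Fin n → ℝ) 1 ∧
        dist (pos X.μ t) (pos X.μ s) < X.D.c + X.e 16) ∧ Dg 1 k ∧
      Vn X.Zc 7 (A - 1 - (X.x.d * k + k * X.x.d)) := by
  have he : X.e 18 ≤ 1 / 1000 := (X.e_anti (Nat.zero_le 18)).trans X.e_small
  have he' := X.e_pos 18
  have hc := X.hc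
  have hc0 := X.c_nonneg
  have hμ : X.μ ≤ X.e 18 / (4 * (n + 1)) := (X.μ_e (k := 19) (by omega)).le.trans (X.e_succ 18)
  have hb : ∀ v ∈ closedBall (0 : Fin n → ℝ) 1, dist v 0 ≤ X.R := fun v hv =>
    X.bound v (X.ball_C (by omega) le_rfl hv)
  have hKK : ∀ s ∈ KK (n := n) (N := N) X.μ (closedBall (0 : Fin n → ℝ) 1), s ∈ KK X.μ (X.C 30) :=
    fun s hs => (show cc X.μ s ⊆ closedBall 0 1 from hs).trans (X.ball_C (by omega) (by omega))
  obtain ⟨k, h1, h2⟩ := real_homotopy X.grid.isBd X.μ_pos (C := closedBall (0 : Fin n → ℝ) 1) hb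
    id (r := X.D.c + X.e 18) X.e0_nonneg (by linarith) (fun v _ w _ h => h.trans hμ) hb
    (X.hN (by linarith)) (A - 1)
    (fun s hs => by
      have hs1 : pos X.μ s ∈ closedBall (0 : Fin n → ℝ) 1 := pos_mem_of_KK X.μ_pos.le hs
      refine ⟨fun t hts => ?_, fun t => ?_, fun hd => ?_⟩
      · by_cases hA0 : A t s = 0
        · have h1t : (1 : Matrix (CellZ n N) (CellZ n N) ℂ) t s ≠ 0 := fun h =>
            hts (by rw [Matrix.sub_apply, hA0, h, sub_self])
          have : t = s := by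
            by_contra hne
            exact h1t (Matrix.one_apply_ne hne)
          subst this
          refine ⟨rfl, ?_⟩
          simp only [id, dist_self]
          linarith
        · refine ⟨by have := hA.dg t s hA0; omega, ?_⟩
          have h3 := (hA.nr t s hA0).2
          have h4 := X.D.disp i _ hs1
          have h5 := dist_triangle (pos X.μ t) (X.D.T i (pos X.μ s)) (pos X.μ s)
          simp only [id]
          linarith
      · have := hA.comm s (hKK s hs) t
        rw [mul_sub, sub_mul, mul_one, one_mul, Matrix.sub_apply, Matrix.sub_apply, this]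
      · rw [aug0_sub, hA.aug s (hKK s hs) hd, aug0_one hd, sub_self])
  have hin : ∀ t s, k t s ≠ 0 → s ∈ KK X.μ (closedBall (0 : Fin n → ℝ) 1) := fun t s h => by
    by_contra hs
    exact h (h1 s hs t)
  have hk1 : ∀ t s, k t s ≠ 0 → pos X.μ s ∈ closedBall (0 : Fin n → ℝ) 1 ∧
        dist (pos X.μ t) (pos X.μ s) < X.D.c + X.e 16 := by
    intro t s hts
    have hs := hin t s hts
    refine ⟨pos_mem_of_KK X.μ_pos.le hs, ?_⟩
    have h3 := ((h2 s hs).1 t hts).2
    simp only [id] at h3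
    have h4 := X.e_n 18
    have h5 := X.μ_e (k := 19) (by omega)
    have h6 := X.e_quarter 18
    have h7 := X.e_quarter 17
    have h8 := X.e_quarter 16
    linarith
  have hkl : Loc X.Zc 1 k := by
    refine X.locc fun t s hts j hj hts' => ?_
    have h3 := (hk1 t s hts).2
    have he : X.e 16 ≤ 1 / 1000 := (X.e_anti (Nat.zero_le 16)).trans X.e_small
    linarith
  refine ⟨k, hk1, ?_, ?_⟩
  · intro t s hts
    have h3 := ((h2 s (hin t s hts)).1 t hts).1
    omega
  · refine vn_of_col (k := 2) X.Zc_mono ?_ ?_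
    · have hd := X.locc_adj X.adjM_d
      exact ((hA.locc.mono X.Zc_mono (by omega)).sub (Loc.one X.Zc_mono)).sub
        ((hd.mul hkl).add (hkl.mul hd))
    · intro s hs t
      rw [Matrix.sub_apply, (h2 s (X.Zc_KK (by omega) hs)).2 t, sub_self]

/-- the near-diagonal chain map `A S A* T` -/
noncomputable def FF (X : Ctx n N) (A : Matrix (CellZ n N) (CellZ n N) ℂ) :
    Matrix (CellZ n N) (CellZ n N) ℂ := A * X.x.S * star A * X.x.T

theorem FF_loc (hA : X.IsEta i A) : Loc X.Z 4 (X.FF A) :=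
  ((hA.loc.mul X.loc_S).mul hA.loc.star).mul X.loc_T

theorem ASA_nr (hA : X.IsEta i A) {P : Matrix (CellZ n N) (CellZ n N) ℂ} (hP : AdjM P) :
    X.Nr 32 0 (X.e 14) (A * X.x.S * star A * P) := by
  have h1 : X.Nr 31 (-i) (X.e 17) (star A) := hA.nr.star (by omega)
  have h2 : X.Nr 32 (-i) (X.e 16) (star A * P) := h1.mul_adj hP (by omega) (by omega)
  have h3 : X.Nr 32 (-i) (X.e 15) (X.x.S * (star A * P)) :=
    h2.adj_mul X.adjM_S (by omega) (by omega)
  have h4 : X.Nr 32 (i + -i) (X.e 14) (A * (X.x.S * (star A * P))) :=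
    (hA.nr.mono (c' := 30) (by omega) (by omega) (X.e_anti (by omega : 15 ≤ 18))).mul h3 (by omega)
  rw [add_neg_cancel] at h4
  have e : A * X.x.S * star A * P = A * (X.x.S * (star A * P)) := by noncomm_ring
  rw [e]
  exact h4

theorem FF_dg (hA : X.IsEta i A) : Dg 0 (X.FF A) := by
  have h1 : Db n (A * X.x.S) := hA.dg.mul_db X.db_S (by omega)
  have h2 : Db n (A * X.x.S * star A) := h1.mul_dg (b := -0) hA.dg.star (by omega)
  exact h2.mul X.db_T (by omega)

theorem FF_vn (hA : X.IsEta i A) : Vn X.Z 24 (X.x.d * X.FF A - X.FF A * X.x.d) := by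
  unfold FF
  rw [word_F X.dS X.Td]
  refine Vn.add ?_ ?_
  · exact ((hA.vn.mul_right X.Z_mono X.loc_S).mul_right X.Z_mono hA.loc.star).mul_right X.Z_mono
      X.loc_T
  · have h1 : Vn X.Z 26 (X.x.S * star (X.x.d * A - A * X.x.d)) :=
      hA.vn.star.mul_left X.Z_mono X.loc_S
    have h2 : Vn X.Z 25 (A * (X.x.S * star (X.x.d * A - A * X.x.d))) :=
      h1.mul_left X.Z_mono hA.loc
    have h3 := h2.mul_right (j := 24) X.Z_mono X.loc_T
    rw [← mul_assoc] at h3
    exact h3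

/-- the base vertex -/
def v0 (n N : ℕ) : CellZ n N := fun _ => (0, false)

omit [NeZero N] in
theorem pos_v0 (μ : ℝ) : pos μ (v0 n N) = 0 := by
  funext i
  simp [pos, v0]

omit [NeZero N] in
theorem dim_v0 : dimZ (v0 n N) = 0 := by
  simp [dimZ, dim, v0, lift]

/-- the augmentation of `F` is `1` at `0` -/
theorem aug_FF_zero (hA : X.IsEta i A) : aug0 (X.FF A) (v0 n N) = 1 := by
  obtain ⟨k, hk1, hk2, hk3⟩ := exists_coarse hA
  have he : X.e 16 ≤ 1 / 1000 := (X.e_anti (Nat.zero_le 16)).trans X.e_small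
  have hc := X.hc
  have hkl : Loc X.Zc 1 k := by
    refine X.locc fun t s hts j hj hts' => ?_
    have h3 := (hk1 t s hts).2
    linarith
  have hS := X.locc_adj X.adjM_S
  have hT := X.locc_adj X.adjM_T
  have hH := X.locc_adj X.adjM_H
  have hE := X.vnc_of_vn hA.vn (by omega) (by omega)
  set Y := k + A * X.x.H - A * X.x.S * star k * X.x.T with hY
  have hw : X.FF A - 1 - (X.x.d * Y + Y * X.x.d) = _ := word_coarse (e := A) (k := k) X.dS X.Td X.ST
  have hv : Vn X.Zc 4 (X.FF A - 1 - (X.x.d * Y + Y * X.x.d)) := by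
    rw [hw]
    refine ((Vn.sub ?_ ?_).add ?_).add ?_
    · exact hk3.mono X.Zc_mono (by omega)
    · exact ((hE.mono X.Zc_mono (by omega : 5 ≤ 9)).mul_right X.Zc_mono hH)
    · have h1 : Vn X.Zc 6 ((X.x.d * A - A * X.x.d) * X.x.S) :=
        (hE.mono X.Zc_mono (by omega : 7 ≤ 9)).mul_right X.Zc_mono hS
      exact (h1.mul_right (j := 5) X.Zc_mono hkl.star).mul_right X.Zc_mono hT
    · have h1 : Vn X.Zc 6 (X.x.S * star (A - 1 - (X.x.d * k + k * X.x.d))) :=
        hk3.star.mul_left X.Zc_mono hS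
      have h2 : Vn X.Zc 5 (A * (X.x.S * star (A - 1 - (X.x.d * k + k * X.x.d)))) :=
        h1.mul_left X.Zc_mono hA.locc
      have h3 := h2.mul_right (j := 4) X.Zc_mono hT
      rw [← mul_assoc] at h3
      exact h3
  have h0 : (v0 n N) ∈ X.Zc 4 := by
    rw [X.mem_Zc (by omega), pos_v0, dist_self]
    positivity
  have h1 : aug0 (X.FF A - 1 - (X.x.d * Y + Y * X.x.d)) (v0 n N) = 0 := by
    unfold aug0
    refine Finset.sum_eq_zero fun t _ => ?_
    rw [hv t _ (Or.inr h0), ite_self]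
  rw [aug0_sub, aug0_sub, aug0_add, X.aug0_d_mul, X.aug0_mul_d _ dim_v0, aug0_one dim_v0] at h1
  linear_combination h1

end Ctx

end Crest.Agent.R217.Chain373
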