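import Mathlib
import Crest.Agent.R217.Dual_373

/-! Row 217, M7a: constancy of the augmentation along the connected compact set `Kc`, the duality
homotopies. -/

set_option autoImplicit false

open Metric Set
open Crest.Agent.R217.PC473 Crest.Agent.R217.Flow373 Crest.Agent.R217.Carrier834
open Crest.Agent.R217.VanCalc373

namespace Crest.Agent.R217.Chain373

namespace Ctx

variable {n N : ℕ} [NeZero N] (X : Ctx n N)

theorem Kc_C {v : Fin n → ℝ} (hv : v ∈ X.Kc) : v ∈ X.C 11 :=
  X.Kc_hi v hv v (by rw [dist_self]; exact X.κ_pos)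

/-- the vertex below a point -/
noncomputable def vert (x : Fin n → ℝ) : CellZ n N := fun i => ((⌊x i / X.μ⌋ : ZMod N), false)

theorem vert_vma {x : Fin n → ℝ} (hx : dist x 0 ≤ X.R) (i : Fin n) :
    (X.vert x i).1.valMinAbs = ⌊x i / X.μ⌋ := by
  have h1 : |x i| ≤ X.R := by
    have := (dist_le_pi_dist x 0 i).trans hx
    simpa [Real.dist_eq] using this
  have h2 : |x i / X.μ| ≤ X.R / X.μ := by
    rw [abs_div, abs_of_pos X.μ_pos]
    exact div_le_div_of_nonneg_right h1 X.μ_pos.le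
  rw [abs_le] at h2
  have h3 := Int.floor_le (x i / X.μ)
  have h4 := Int.lt_floor_add_one (x i / X.μ)
  have h5 : 2 * (X.R / X.μ) + 4 ≤ N := by
    have h6 := X.win
    have h7 := X.μ_one
    have h8 : (0 : ℝ) ≤ n := Nat.cast_nonneg n
    have h9 : 2 * (X.R / X.μ) + 4 = (2 * X.R + 4 * X.μ) / X.μ := by
      have := X.μ_pos.ne'
      field_simp
    rw [h9, div_le_iff₀ X.μ_pos]
    linarith [mul_comm X.μ (N : ℝ)]
  have h6 : -((N : ℤ) : ℝ) < 2 * (⌊x i / X.μ⌋ : ℝ) ∧ 2 * (⌊x i / X.μ⌋ : ℝ) < ((N : ℤ) : ℝ) := by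
    push_cast
    constructor <;> linarith
  have h7 : -(N : ℤ) < 2 * ⌊x i / X.μ⌋ := by exact_mod_cast h6.1
  have h8 : 2 * ⌊x i / X.μ⌋ < (N : ℤ) := by exact_mod_cast h6.2
  unfold vert
  rw [ZMod.valMinAbs_spec]
  exact ⟨rfl, by constructor <;> omega⟩

theorem vert_dim (x : Fin n → ℝ) : dimZ (X.vert x) = 0 := by
  simp [dimZ, dim, vert, lift]

theorem vert_dist {x : Fin n → ℝ} (hx : dist x 0 ≤ X.R) : dist (pos X.μ (X.vert x)) x ≤ X.μ := by
  rw [dist_pi_le_iff X.μ_pos.le]
  intro i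
  unfold pos
  rw [X.vert_vma hx i, Real.dist_eq]
  have h3 := Int.floor_le (x i / X.μ)
  have h4 := Int.lt_floor_add_one (x i / X.μ)
  have e : X.μ * (⌊x i / X.μ⌋ : ℝ) - x i = X.μ * ((⌊x i / X.μ⌋ : ℝ) - x i / X.μ) := by
    have := X.μ_pos.ne'
    field_simp
  rw [e, abs_mul, abs_of_pos X.μ_pos]
  calc X.μ * _ ≤ X.μ * 1 := by
        apply mul_le_mul_of_nonneg_left _ X.μ_pos.le
        rw [abs_le]
        constructor <;> linarith
    _ = X.μ := mul_one _

theorem vert_pos {s : CellZ n N} (hs : dimZ s = 0) : X.vert (pos X.μ s) = s := by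
  funext i
  have h1 : (s i).2 = false := by
    by_contra hcon
    have h2 : (1 : ℕ) ≤ dim (lift s) := by
      unfold dim
      calc (1 : ℕ) = if (lift s i).2 = true then 1 else 0 := by
            have : (lift s i).2 = true := by
              show (s i).2 = true
              simpa using hcon
            rw [if_pos this]
        _ ≤ _ := Finset.single_le_sum (f := fun i => if (lift s i).2 = true then 1 else 0)
          (fun _ _ => Nat.zero_le _) (Finset.mem_univ i)
    have h3 : dim (lift s) = 0 := hs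
    omega
  unfold vert pos
  refine Prod.ext ?_ h1.symm
  have h2 : X.μ * ((s i).1.valMinAbs : ℝ) / X.μ = ((s i).1.valMinAbs : ℝ) := by
    have := X.μ_pos.ne'
    field_simp
  simp only [h2, Int.floor_intCast]
  exact ZMod.coe_valMinAbs _

variable {X}
variable {i j : ℤ} {A B F : Matrix (CellZ n N) (CellZ n N) ℂ}

/-- equal augmentation at close vertices -/
theorem aug_close (hF : Vn X.Z 24 (X.x.d * F - F * X.x.d)) {u v : CellZ n N}
    (hu : pos X.μ u ∈ X.C 12) (hu0 : dimZ u = 0) (hv : pos X.μ v ∈ X.C 12) (hv0 : dimZ v = 0)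
    (huv : ∀ i, |(u i).1.valMinAbs - (v i).1.valMinAbs| ≤ 1) : aug0 F u = aug0 F v := by
  have hWu := X.inW (X.C_mono (by omega) le_rfl hu)
  have hWv := X.inW (X.C_mono (by omega) le_rfl hv)
  have e1 : ∀ s : CellZ n N, dimZ s = 0 → ∀ i, (lift s i).2 = false := by
    intro s hs i
    by_contra hcon
    have h2 : (1 : ℕ) ≤ dim (lift s) := by
      unfold dim
      calc (1 : ℕ) = if (lift s i).2 = true then 1 else 0 := by simp [hcon]
        _ ≤ _ := Finset.single_le_sum (f := fun i => if (lift s i).2 = true then 1 else 0)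
          (fun _ _ => Nat.zero_le _) (Finset.mem_univ i)
    have h3 : dim (lift s) = 0 := hs
    omega
  have hp : 2 * X.μ < X.κ := by
    have h1 := X.μ_e (k := 1) (by omega)
    have h2 := X.e_quarter 0
    have h3 := X.e_κ 0
    have h4 := X.e_pos 0
    linarith
  refine matrix_aug X.grid.isBd X.grid.haug
    (fun i => min (u i).1.valMinAbs (v i).1.valMinAbs)
    (fun i => max (u i).1.valMinAbs (v i).1.valMinAbs) (fun i => ?_) F (fun e he _ t => ?_)
    (fun i => ?_) hu0 (fun i => ?_) hv0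
  · have h1 := hWu i
    have h2 := hWv i
    rcases min_choice (u i).1.valMinAbs (v i).1.valMinAbs with h3 | h3 <;>
    rcases max_choice (u i).1.valMinAbs (v i).1.valMinAbs with h4 | h4 <;>
    simp only [h3, h4] <;> constructor <;> omega
  · have hpe : dist (pos X.μ e) (pos X.μ u) ≤ 2 * X.μ := by
      rw [dist_pi_le_iff (by have := X.μ_pos; linarith)]
      intro i
      obtain ⟨h1, h2⟩ := he i
      have h0 : (0 : ℤ) ≤ (if (lift e i).2 = true then 1 else 0) := by split_ifs <;> omega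
      have h3 := huv i
      have hmin : (v i).1.valMinAbs - 1 ≤ min (u i).1.valMinAbs (v i).1.valMinAbs ∧
          (u i).1.valMinAbs - 1 ≤ min (u i).1.valMinAbs (v i).1.valMinAbs := by
        rw [abs_le] at h3
        constructor
        · exact le_min (by omega) (by omega)
        · exact le_min (by omega) (by omega)
      have hmax : max (u i).1.valMinAbs (v i).1.valMinAbs ≤ (u i).1.valMinAbs + 1 := by
        rw [abs_le] at h3
        exact max_le (by omega) (by omega)
      have h4 : |((e i).1.valMinAbs : ℤ) - (u i).1.valMinAbs| ≤ 1 := by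
        have h5 : (lift e i).1 = (e i).1.valMinAbs := rfl
        rw [h5] at h1 h2
        simp only at h1 h2
        rw [abs_le]
        omega
      rw [Real.dist_eq]
      unfold pos
      rw [← mul_sub, abs_mul, abs_of_pos X.μ_pos]
      have h6 : |((e i).1.valMinAbs : ℝ) - ((u i).1.valMinAbs : ℝ)| ≤ 1 := by exact_mod_cast h4
      have := X.μ_pos
      nlinarith
    have h1 := hF t e (Or.inr ((X.mem_Z (by omega)).2 (X.C_mono (by omega) (by omega)
      (X.C_step (j := 12) (by omega) hu (hpe.trans_lt hp)))))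
    rw [Matrix.sub_apply, sub_eq_zero] at h1
    exact h1
  · rw [e1 u hu0 i]
    simp only [Bool.false_eq_true, if_false, add_zero]
    exact ⟨min_le_left _ _, le_max_left _ _⟩
  · rw [e1 v hv0 i]
    simp only [Bool.false_eq_true, if_false, add_zero]
    exact ⟨min_le_right _ _, le_max_right _ _⟩

/-- the augmentation is constant along `Kc` -/
theorem aug_const (hF : Vn X.Z 24 (X.x.d * F - F * X.x.d)) {x y : Fin n → ℝ}
    (hx : x ∈ X.Kc) (hy : y ∈ X.Kc) : aug0 F (X.vert x) = aug0 F (X.vert y) := by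
  classical
  have hR : ∀ z ∈ X.Kc, dist z 0 ≤ X.R := fun z hz => X.hC (by omega) z (X.Kc_C hz)
  have hC12 : ∀ z ∈ X.Kc, pos X.μ (X.vert z) ∈ X.C 12 := fun z hz =>
    X.C_step (by omega) (X.Kc_C hz) ((X.vert_dist (hR z hz)).trans_lt X.μ_κ)
  have hloc : ∀ z ∈ X.Kc, ∀ w ∈ X.Kc, dist w z < X.μ → aug0 F (X.vert w) = aug0 F (X.vert z) := by
    intro z hz w hw hd
    refine aug_close hF (hC12 w hw) (X.vert_dim w) (hC12 z hz) (X.vert_dim z) fun i => ?_
    rw [X.vert_vma (hR w hw) i, X.vert_vma (hR z hz) i]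
    have h1 : |w i / X.μ - z i / X.μ| < 1 := by
      rw [← sub_div, abs_div, abs_of_pos X.μ_pos, div_lt_one X.μ_pos]
      have := (dist_le_pi_dist w z i).trans_lt hd
      rwa [Real.dist_eq] at this
    rw [abs_lt] at h1
    have h3 := Int.floor_le (w i / X.μ)
    have h4 := Int.lt_floor_add_one (w i / X.μ)
    have h5 := Int.floor_le (z i / X.μ)
    have h6 := Int.lt_floor_add_one (z i / X.μ)
    have h7 : ((⌊w i / X.μ⌋ : ℤ) : ℝ) - ((⌊z i / X.μ⌋ : ℤ) : ℝ) < 2 := by linarith
    have h8 : (-2 : ℝ) < ((⌊w i / X.μ⌋ : ℤ) : ℝ) - ((⌊z i / X.μ⌋ : ℤ) : ℝ) := by linarith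
    have h9 : ⌊w i / X.μ⌋ - ⌊z i / X.μ⌋ < 2 := by exact_mod_cast h7
    have h10 : -2 < ⌊w i / X.μ⌋ - ⌊z i / X.μ⌋ := by exact_mod_cast h8
    rw [abs_le]
    omega
  have hcont : ContinuousOn (fun z => decide (aug0 F (X.vert z) = aug0 F (X.vert y))) X.Kc := by
    intro z hz
    refine (continuousWithinAt_const (b := decide (aug0 F (X.vert z) =
      aug0 F (X.vert y)))).congr_of_eventuallyEq ?_ rfl
    have : ball z X.μ ∈ nhdsWithin z X.Kc := mem_nhdsWithin_of_mem_nhds (ball_mem_nhds z X.μ_pos)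
    filter_upwards [this, self_mem_nhdsWithin] with w hw hwK
    rw [hloc z hz w hwK hw]
  have := X.Kc_pre.constant hcont hx hy
  simpa using this

theorem aug_FF (hA : X.IsEta i A) {s : CellZ n N} (hs : pos X.μ s ∈ X.C 10) (hd : dimZ s = 0) :
    aug0 (X.FF A) s = 1 := by
  have h1 := aug_const (FF_vn hA) (X.Kc_lo hs)
    (X.Kc_ball (mem_closedBall_self (x := (0 : Fin n → ℝ)) zero_le_one))
  rw [X.vert_pos hd] at h1
  rw [h1]
  have h2 : X.vert (0 : Fin n → ℝ) = v0 n N := by
    funext i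
    simp [vert, v0]
  rw [h2]
  exact aug_FF_zero hA

/-- the fine homotopy `F = 1 + d h + h d` -/
theorem exists_fine (hA : X.IsEta i A) :
    ∃ h, X.Nr 10 0 (X.e 13) h ∧ Dg 1 h ∧ Vn X.Z 5 (X.FF A - 1 - (X.x.d * h + h * X.x.d)) := by
  have hnr := ASA_nr hA X.adjM_T
  have he : X.e 14 ≤ 1 / 1000 := (X.e_anti (Nat.zero_le 14)).trans X.e_small
  have he' := X.e_pos 14
  have hμ : X.μ ≤ X.e 18 / (4 * (n + 1)) := (X.μ_e (k := 19) (by omega)).le.trans (X.e_succ 18)
  obtain ⟨h, h1, h2⟩ := real_homotopy X.grid.isBd X.μ_pos (C := X.C 10) (X.hC (by omega))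
    id (r := X.e 14) X.e0_nonneg he'.le (fun v _ w _ h => h.trans hμ) (X.hC (by omega))
    (X.hN (by linarith)) (X.FF A - 1)
    (fun s hs => by
      have hs1 : pos X.μ s ∈ X.C 10 := pos_mem_of_KK X.μ_pos.le hs
      have hsZ : s ∈ X.Z 24 := (X.mem_Z (by omega)).2 (X.C_mono (by omega) (by omega) hs1)
      refine ⟨fun t hts => ?_, fun t => ?_, fun hd => ?_⟩
      · by_cases hA0 : X.FF A t s = 0
        · have h1t : (1 : Matrix (CellZ n N) (CellZ n N) ℂ) t s ≠ 0 := fun h =>
            hts (by rw [Matrix.sub_apply, hA0, h, sub_self])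
          have : t = s := by
            by_contra hne
            exact h1t (Matrix.one_apply_ne hne)
          subst this
          refine ⟨rfl, ?_⟩
          simp only [id, dist_self]
          exact he'.le
        · refine ⟨by have := FF_dg hA t s hA0; omega, ?_⟩
          have h3 := (hnr t s hA0).2
          rw [X.D.T_zero _ (X.C_sub _ hs1)] at h3
          exact h3.le
      · have h3 := FF_vn hA t s (Or.inr hsZ)
        rw [Matrix.sub_apply, sub_eq_zero] at h3
        rw [mul_sub, sub_mul, mul_one, one_mul, Matrix.sub_apply, Matrix.sub_apply, h3]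
      · rw [aug0_sub, aug_FF hA hs1 hd, aug0_one hd, sub_self])
  have hin : ∀ t s, h t s ≠ 0 → s ∈ KK X.μ (X.C 10) := fun t s hh => by
    by_contra hs
    exact hh (h1 s hs t)
  have hnrh : X.Nr 10 0 (X.e 13) h := by
    intro t s hts
    have hs := hin t s hts
    have hs1 : pos X.μ s ∈ X.C 10 := pos_mem_of_KK X.μ_pos.le hs
    refine ⟨hs1, ?_⟩
    rw [X.D.T_zero _ (X.C_sub _ hs1)]
    have h3 := ((h2 s hs).1 t hts).2
    simp only [id] at h3
    have h4 := X.e_n 18
    have h5 := X.μ_e (k := 19) (by omega)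
    have h6 := X.e_quarter 18
    have h7 := X.e_quarter 13
    have h8 := X.e_anti (show 14 ≤ 18 by omega)
    have h9 := X.e_pos 18
    linarith
  have hl : Loc X.Z 1 h := hnrh.loc (X.e_κ _).le
  refine ⟨h, hnrh, ?_, ?_⟩
  · intro t s hts
    have h3 := ((h2 s (hin t s hts)).1 t hts).1
    omega
  · refine vn_of_col (k := 4) X.Z_mono ?_ ?_
    · exact ((FF_loc hA).sub (Loc.one X.Z_mono)).sub
        (((X.loc_d.mul hl).mono X.Z_mono (by omega)).add
          ((hl.mul X.loc_d).mono X.Z_mono (by omega)))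
    · intro s hs t
      rw [Matrix.sub_apply, (h2 s (X.mem_KK (by omega) hs)).2 t, sub_self]

/-- **duality homotopy** `η S η* ~ S` -/
theorem exists_dual (hA : X.IsEta i A) :
    ∃ U, X.Nr 32 0 (X.e 12) U ∧ Db (n + 1) U ∧
      Vn X.Z 4 (A * X.x.S * star A - X.x.S - (X.x.d * U - U * star X.x.d)) := by
  obtain ⟨h, h1, h2, h3⟩ := exists_fine hA
  refine ⟨h * X.x.S + A * X.x.S * star A * star X.x.H, ?_, ?_, ?_⟩
  · refine Nr.add ?_ ?_
    · exact (h1.mul_adj X.adjM_S (by omega) (by omega)).mono (by omega) (by omega) le_rfl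
    · exact (ASA_nr hA X.adjM_H.star).mono le_rfl (by omega) (X.e_anti (by omega))
  · refine Db.add ?_ ?_
    · exact h2.mul_db X.db_S (by omega)
    · have h4 : Db n (A * X.x.S) := hA.dg.mul_db X.db_S (by omega)
      have h5 : Db n (A * X.x.S * star A) := h4.mul_dg (b := -0) hA.dg.star (by omega)
      exact h5.mul_dg (b := -1) X.dg_H.star (by omega)
  · rw [word_dual X.dS X.TS]
    refine Vn.sub (Vn.sub ?_ ?_) ?_
    · exact h3.mul_right X.Z_mono X.loc_S
    · have h5 := ((hA.vn.mul_right (j := 26) X.Z_mono X.loc_S).mul_right (j := 25) X.Z_mono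
        hA.loc.star).mul_right (j := 24) X.Z_mono X.loc_H.star
      exact h5.mono X.Z_mono (by omega)
    · have h5 : Vn X.Z 26 (X.x.S * star (X.x.d * A - A * X.x.d)) :=
        hA.vn.star.mul_left X.Z_mono X.loc_S
      have h6 : Vn X.Z 25 (A * (X.x.S * star (X.x.d * A - A * X.x.d))) :=
        h5.mul_left X.Z_mono hA.loc
      have h7 := h6.mul_right (j := 24) X.Z_mono X.loc_H.star
      rw [← mul_assoc] at h7
      exact h7.mono X.Z_mono (by omega)

/-- `η_i S ~ S η_j*` -/
theorem exists_commS (hA : X.IsEta i A) (hB : X.IsEta j B)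
    (hT : ∀ v ∈ X.C 36, dist (X.D.T (i + j) v) v < X.e 12) :
    ∃ Y, X.Nr 32 i (X.e 8) Y ∧ Db (n + 1) Y ∧
      Vn X.Z 3 (A * X.x.S - X.x.S * star B - (X.x.d * Y - Y * star X.x.d)) := by
  obtain ⟨U, hU1, hU2, hU3⟩ := exists_dual hA
  have he : X.e 12 ≤ 1 / 1000 := (X.e_anti (Nat.zero_le 12)).trans X.e_small
  obtain ⟨k, hk1, hk2, hk3, hk4⟩ := exists_mul hB hA X.isEta_id0 (X.e_pos 12).le (by linarith)
    (fun v hv => by
      rw [X.D.T_zero _ (X.C_sub _ hv), add_comm j i]
      exact hT v hv)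
  have hk1' : X.Nr 25 0 (X.e 11) k := hk1.mono le_rfl (by omega) (by
    have h1 := X.e_anti (show 12 ≤ 16 by omega)
    have h2 := X.e_quarter 11
    have h3 := X.e_pos 11
    linarith)
  have hkl : Loc X.Z 1 k := hk1'.loc (X.e_κ _).le
  have hkv := mul_vn hB hA X.isEta_id0 hkl hk4
  have hkv' : Vn X.Z 22 (B * A - 1 - (X.x.d * k + k * X.x.d)) := by
    have e : B * A - 1 - (X.x.d * k + k * X.x.d) =
        (B * A - X.id0 - (X.x.d * k + k * X.x.d)) + (X.id0 - 1) := by noncomm_ring
    rw [e]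
    exact hkv.add (X.vn_id0.mono X.Z_mono (by omega))
  have hUl : Loc X.Z 1 U := hU1.loc (X.e_κ _).le
  refine ⟨U * star B + A * X.x.S * star k, ?_, ?_, ?_⟩
  · refine Nr.add ?_ ?_
    · have h1 : X.Nr 31 (-j) (X.e 12) (star B) :=
        (hB.nr.star (by omega)).mono le_rfl (by omega) (X.e_anti (by omega))
      have h2 : X.Nr 31 (0 + -j) (X.e 11) (U * star B) := hU1.mul h1 (by omega)
      rw [zero_add] at h2
      intro t s hts
      obtain ⟨h3, h4⟩ := h2 t s hts
      refine ⟨X.C_mono (by omega) (by omega) h3, ?_⟩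
      have h5 := hT _ (X.T_C (-j) (X.C_mono (by omega) (by omega) h3))
      rw [← X.D.T_add _ _ _ (X.C_sub _ h3), add_neg_cancel_right] at h5
      have h6 := dist_triangle (pos X.μ t) (X.D.T (-j) (pos X.μ s)) (X.D.T i (pos X.μ s))
      rw [dist_comm (X.D.T i (pos X.μ s)) (X.D.T (-j) (pos X.μ s))] at h5
      have h7 := X.e_anti (show 11 ≤ 12 by omega)
      have h8 := X.e_quarter 10
      have h9 := X.e_anti (show 8 ≤ 10 by omega)
      have h10 := X.e_pos 10
      linarith
    · have h1 : X.Nr 26 (-0) (X.e 10) (star k) := hk1'.star (by omega)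
      have h2 : X.Nr 26 (-0) (X.e 9) (X.x.S * star k) := h1.adj_mul X.adjM_S (by omega) (by omega)
      have h3 : X.Nr 26 (i + -0) (X.e 8) (A * (X.x.S * star k)) :=
        (hA.nr.mono (c' := 30) (by omega) (by omega) (X.e_anti (by omega : 9 ≤ 18))).mul h2
          (by omega)
      rw [neg_zero, add_zero, ← mul_assoc] at h3
      exact h3.mono (by omega) (by omega) le_rfl
  · refine Db.add ?_ ?_
    · exact hU2.mul_dg (b := -0) hB.dg.star (by omega)
    · have h4 : Db n (A * X.x.S) := hA.dg.mul_db X.db_S (by omega)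
      exact h4.mul_dg (b := -1) hk2.star (by omega)
  · rw [word_commS X.dS]
    refine Vn.sub (Vn.sub (Vn.add ?_ ?_) ?_) ?_
    · have h5 : Vn X.Z 26 (U * star (X.x.d * B - B * X.x.d)) :=
        hB.vn.star.mul_left X.Z_mono hUl
      exact h5.mono X.Z_mono (by omega)
    · exact hU3.mul_right X.Z_mono hB.loc.star
    · have h5 := (hA.vn.mul_right (j := 26) X.Z_mono X.loc_S).mul_right (j := 25) X.Z_mono hkl.star
      exact h5.mono X.Z_mono (by omega)
    · have h5 : Vn X.Z 21 (X.x.S * star (B * A - 1 - (X.x.d * k + k * X.x.d))) :=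
        hkv'.star.mul_left X.Z_mono X.loc_S
      have h6 : Vn X.Z 20 (A * (X.x.S * star (B * A - 1 - (X.x.d * k + k * X.x.d)))) :=
        h5.mul_left X.Z_mono hA.loc
      rw [← mul_assoc] at h6
      exact h6.mono X.Z_mono (by omega)

end Ctx

end Crest.Agent.R217.Chain373
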