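import Mathlib
import Crest.Agent.R217.Conn_373

/-! Row 217, M7a: existence of the chain package, `chainExists : Equi D → D.c ≤ 1/100 →
ChainExists D`. -/

set_option autoImplicit false

open Metric Set
open Crest.Agent.R217.PC473 Crest.Agent.R217.Flow373 Crest.Agent.R217.Carrier834
open Crest.Agent.R217.VanCalc373

namespace Crest.Agent.R217.Chain373

namespace Ctx

variable {n N : ℕ} [NeZero N] (X : Ctx n N)

theorem van_half {A : Matrix (CellZ n N) (CellZ n N) ℂ} {j : ℕ} (h : Vn X.Zc j A) :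
    Van X.μ (closedBall 0 (1 / 2)) A := fun t s hts => by
  apply h.mono X.Zc_mono (Nat.zero_le j) t s
  rw [X.mem_Zc (by omega), X.mem_Zc (by omega)]
  rcases hts with h1 | h1
  · left
    rw [mem_closedBall] at h1
    simpa using h1
  · right
    rw [mem_closedBall] at h1
    simpa using h1

/-- the package -/
theorem pkg (M : ℕ) : ∃ η, ChainPkg X.D (X.C 0) (X.C 36) M X.ε (X.e 12) X.μ X.x η := by
  classical
  choose η' hη' using X.exists_eta
  let η : ℤ → Matrix (CellZ n N) (CellZ n N) ℂ := fun i => if i = 0 then X.id0 else η' i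
  have hη : ∀ i, X.IsEta i (η i) := by
    intro i
    by_cases hi : i = 0
    · subst hi
      simp only [η, if_true]
      exact X.isEta_id0
    · simp only [η, if_neg hi]
      exact hη' i
  have hη0 : η 0 = X.id0 := by simp [η]
  have heε : ∀ k, X.e k ≤ X.ε := fun k => by
    have h1 := X.e_ε' k
    have h2 := X.ε_pos
    linarith
  have he12 : X.e 12 ≤ 1 / 2 := by
    have := (X.e_anti (Nat.zero_le 12)).trans X.e_small
    linarith
  refine ⟨η, ?_, ?_, ?_, ?_, ?_, ?_, ?_, ?_⟩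
  · intro i _
    exact X.near_of_nr (hη i).nr (by omega) (heε _)
  · intro i _ t s hts
    have := (hη i).dg t s hts
    omega
  · rw [hη0]
    exact X.van_of_vn X.vn_id0 (by omega)
  · intro i _
    exact X.van_of_vn (hη i).vn (by omega)
  · intro i j l _ _ _ hT
    obtain ⟨k, hk1, hk2, hk3, hk4⟩ := exists_mul (hη i) (hη j) (hη l) (X.e_pos 12).le he12 hT
    have hδ : X.e 12 + X.e 16 ≤ X.ε := by
      have h1 := X.e_ε' 12
      have h2 := X.e_ε' 16
      have h3 := X.ε_pos
      linarith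
    have hδκ : X.e 12 + X.e 16 ≤ X.κ := by
      have h1 := X.ε_κ
      have h2 := X.κ_pos
      linarith
    refine ⟨k, X.near_of_nr hk1 (by omega) hδ, ?_, ?_⟩
    · intro t s hts
      have := hk2 t s hts
      omega
    · exact X.van_of_vn (mul_vn (hη i) (hη j) (hη l) (hk1.loc hδκ) hk4) (by omega)
  · intro i _
    obtain ⟨U, hU1, hU2, hU3⟩ := exists_dual (hη i)
    refine ⟨U, X.near_of_nr hU1 (by omega) (heε _), ?_, X.van_of_vn hU3 (by omega)⟩
    intro t s hts
    have := hU2 t s hts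
    omega
  · intro i j _ _ hT
    obtain ⟨Y, hY1, hY2, hY3⟩ := exists_commS (hη i) (hη j) hT
    refine ⟨Y, X.near_of_nr hY1 (by omega) (heε _), ?_, X.van_of_vn hY3 (by omega)⟩
    intro t s hts
    have := hY2 t s hts
    omega
  · intro i _
    obtain ⟨k, hk1, hk2, hk3⟩ := exists_coarse (hη i)
    refine ⟨k, fun t s hts => ?_, fun t s hts => ?_, X.van_half hk3⟩
    · obtain ⟨h1, h2⟩ := hk1 t s hts
      exact ⟨h1, h2.trans_le (by have := heε 16; linarith)⟩
    · have := hk2 t s hts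
      omega

end Ctx

/-- the scales -/
theorem exists_scales {n : ℕ} {D : Flow n} (hE : Equi D) {K : Set (Fin n → ℝ)} (hK : IsCompact K)
    (hKO : K ⊆ D.Om) {a : ℝ} (ha : 0 < a) :
    ∃ e : ℕ → ℝ, e 0 = a ∧ (∀ k, 0 < e k) ∧ (∀ k, e (k + 1) ≤ e k / (4 * (n + 1))) ∧
      ∀ k, ∀ v ∈ D.ovr K, ∀ v', dist v' v < e (k + 1) →
        v' ∈ D.V ∧ ∀ i : ℤ, dist (D.T i v') (D.T i v) < e k / (4 * (n + 1)) := by
  have h4 : ∀ b : ℝ, 0 < b → 0 < b / (4 * (n + 1)) := fun b hb => by positivity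
  have hex : ∀ b : {b : ℝ // 0 < b}, ∃ δ : {b : ℝ // 0 < b}, δ.1 ≤ b.1 / (4 * (n + 1)) ∧
      ∀ v ∈ D.ovr K, ∀ v', dist v' v < δ.1 →
        v' ∈ D.V ∧ ∀ i : ℤ, dist (D.T i v') (D.T i v) < b.1 / (4 * (n + 1)) := by
    rintro ⟨b, hb⟩
    obtain ⟨δ, hδ, h⟩ := hE K hKO hK _ (h4 b hb)
    refine ⟨⟨min δ (b / (4 * (n + 1))), lt_min hδ (h4 b hb)⟩, min_le_right _ _, ?_⟩
    intro v hv v' hv'
    exact h v hv v' (hv'.trans_le (min_le_left _ _))
  choose F hF1 hF2 using hex
  let e : ℕ → {b : ℝ // 0 < b} := fun k => Nat.rec ⟨a, ha⟩ (fun _ b => F b) k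
  exact ⟨fun k => (e k).1, rfl, fun k => (e k).2, fun k => hF1 (e k), fun k => hF2 (e k)⟩

/-- **M7a** -/
theorem chainExists {n : ℕ} {D : Flow n} (hE : Equi D) (hc : D.c ≤ 1 / 100) : ChainExists D := by
  intro K hK hKO
  obtain ⟨LA, κA, hκA, hA0, hAc, hAO, hAm, hAt⟩ := D.exists_tower hK hKO 10
  have hCA : IsCompact (D.ovr (LA 10)) := D.proper _ (hAO 10 le_rfl) (hAc 10 le_rfl)
  obtain ⟨Kc, hKc, hKcp, hKcV, hKcC, hKcB⟩ := D.exists_conn hCA (D.ovr_sub _)
  set K1 : Set (Fin n → ℝ) := LA 10 ∪ D.f '' Kc with hK1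
  have hK1c : IsCompact K1 := (hAc 10 le_rfl).union (hKc.image_of_continuousOn (D.f_cont.mono hKcV))
  have hK1O : K1 ⊆ D.Om := union_subset (hAO 10 le_rfl) (by
    rintro _ ⟨v, hv, rfl⟩
    exact D.f_mem v (hKcV hv))
  obtain ⟨LB, κB, hκB, hB0, hBc, hBO, hBm, hBt⟩ := D.exists_tower hK1c hK1O 40
  have hKcK1 : Kc ⊆ D.ovr (LB 0) := fun v hv => by
    rw [hB0]
    exact ⟨hKcV hv, Or.inr ⟨v, hv, rfl⟩⟩
  set L : ℕ → Set (Fin n → ℝ) := fun j => if j ≤ 10 then LA j else LB (j - 10) with hL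
  have hLA : ∀ j, j ≤ 10 → L j = LA j := fun j hj => by simp only [hL, if_pos hj]
  have hLB : ∀ j, 10 < j → L j = LB (j - 10) := fun j hj => by
    simp only [hL, if_neg (by omega : ¬ j ≤ 10)]
  set κ : ℝ := min (min κA κB) 1 with hκ
  have hκ0 : 0 < κ := lt_min (lt_min hκA hκB) one_pos
  have hκA' : κ ≤ κA := (min_le_left _ _).trans (min_le_left _ _)
  have hκB' : κ ≤ κB := (min_le_left _ _).trans (min_le_right _ _)
  have htower : ∀ j < 40, ∀ v ∈ D.ovr (L j), ∀ v', dist v' v < κ → v' ∈ D.ovr (L (j + 1)) := by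
    intro j hj v hv v' hv'
    by_cases h1 : j < 10
    · rw [hLA j h1.le] at hv
      rw [hLA (j + 1) (by omega)]
      exact hAt j h1 v hv v' (hv'.trans_le hκA')
    · by_cases h2 : j = 10
      · subst h2
        rw [hLA 10 le_rfl] at hv
        rw [hLB (10 + 1) (by omega)]
        have hv0 : v ∈ D.ovr (LB 0) := by
          rw [hB0]
          exact D.ovr_mono subset_union_left hv
        exact hBt 0 (by omega) v hv0 v' (hv'.trans_le hκB')
      · rw [hLB j (by omega)] at hv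
        rw [hLB (j + 1) (by omega), show j + 1 - 10 = (j - 10) + 1 by omega]
        exact hBt (j - 10) (by omega) v hv v' (hv'.trans_le hκB')
  have hLc : ∀ j ≤ 40, IsCompact (L j) := fun j hj => by
    by_cases h1 : j ≤ 10
    · rw [hLA j h1]; exact hAc j h1
    · rw [hLB j (by omega)]; exact hBc _ (by omega)
  have hLO : ∀ j ≤ 40, L j ⊆ D.Om := fun j hj => by
    by_cases h1 : j ≤ 10
    · rw [hLA j h1]; exact hAO j h1
    · rw [hLB j (by omega)]; exact hBO _ (by omega)
  have hC40 : IsCompact (D.ovr (L 40)) := D.proper _ (hLO 40 le_rfl) (hLc 40 le_rfl)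
  obtain ⟨R, hR⟩ := hC40.isBounded.subset_closedBall (0 : Fin n → ℝ)
  have hAmono : ∀ j, K ⊆ LA j := fun j => by
    induction j with
    | zero => rw [hA0]
    | succ j ih => exact ih.trans (hAm j)
  have hBmono : ∀ j, K1 ⊆ LB j := fun j => by
    induction j with
    | zero => rw [hB0]
    | succ j ih => exact ih.trans (hBm j)
  have hKL : K ⊆ L 36 := by
    rw [hLB 36 (by omega)]
    exact (hAmono 10).trans (subset_union_left.trans (hBmono _))
  refine ⟨L 36, hLc 36 (by omega), hLO 36 (by omega), hKL, κ / 2, by linarith,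
    2 * R + 2 * n + 20, fun ε hε hε0 => ?_⟩
  obtain ⟨e, he0, hepos, hesucc, heunif⟩ := exists_scales hE (hLc 40 le_rfl) (hLO 40 le_rfl)
    (a := min (ε / 8) (1 / 1000)) (lt_min (by linarith) (by norm_num))
  refine ⟨e 12, hepos 12, fun M => ⟨e 20, hepos 20, fun μ hμ hμ0 N _ hN x hx => ?_⟩⟩
  let X : Ctx n N :=
    { D := D
      L := L
      Kc := Kc
      κ := κ
      R := R
      e := e
      ε := ε
      μ := μ
      x := x
      grid := hx
      hc := hc
      tower := htower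
      bound := fun v hv => hR hv
      Kc_pre := hKcp
      Kc_ball := hKcB
      Kc_lo := by rw [hLA 10 le_rfl]; exact hKcC
      Kc_hi := fun v hv v' hv' => by
        rw [hLB 11 (by omega)]
        exact hBt 0 (by omega) v (hKcK1 hv) v' (hv'.trans_le hκB')
      κ_pos := hκ0
      κ_one := min_le_right _ _
      e_pos := hepos
      e_succ := hesucc
      unif := heunif
      e_small := by rw [he0]; exact min_le_right _ _
      e_ε := by rw [he0]; exact min_le_left _ _
      ε_κ := hε0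
      μ_pos := hμ
      μ_lt := hμ0
      win := hN }
  have h0 : X.C 0 = D.ovr K := by
    show D.ovr (L 0) = D.ovr K
    rw [hLA 0 (by omega), hA0]
  have := X.pkg M
  rw [h0] at this
  exact this

end Crest.Agent.R217.Chain373
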