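import Mathlib
import Crest.Agent.R217.SpecC_478

/-!
Row 217 (S0336): the normalised crux `CruxN n` (sup norm, `V` preconnected, `y0 = 0`, `r0 = 1`)
implies helper478's `SpecC478.Crux n`.
-/

set_option autoImplicit false

open Filter Topology Metric Set

namespace Crest.Agent.R217.CruxN559

open Crest.Agent.R217.SpecC478

/-- Normalised system on `Fin n → ℝ` (sup norm): `G` acts continuously on the preconnected open
set `V`, `f : V → Om` is continuous, `G`-invariant and proper over the open convex set `Om`. -/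
structure Sys.{u} (n : ℕ) (G : Type u) [Group G] [TopologicalSpace G] where
  V : Set (Fin n → ℝ)
  Om : Set (Fin n → ℝ)
  isOpen_V : IsOpen V
  preconn_V : IsPreconnected V
  isOpen_Om : IsOpen Om
  convex_Om : Convex ℝ Om
  act : G → (Fin n → ℝ) → (Fin n → ℝ)
  act_mem : ∀ g, ∀ v ∈ V, act g v ∈ V
  act_one : ∀ v ∈ V, act 1 v = v
  act_mul : ∀ g h, ∀ v ∈ V, act (g * h) v = act g (act h v)
  act_cont : ContinuousOn (fun p : G × (Fin n → ℝ) => act p.1 p.2) (univ ×ˢ V)
  f : (Fin n → ℝ) → (Fin n → ℝ)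
  f_cont : ContinuousOn f V
  f_inv : ∀ g, ∀ v ∈ V, f (act g v) = f v
  f_mem : ∀ v ∈ V, f v ∈ Om
  proper : ∀ K ⊆ Om, IsCompact K → IsCompact {v | v ∈ V ∧ f v ∈ K}

/-- THE NORMALISED CRUX -/
def CruxN.{u} (n : ℕ) : Prop :=
  ∃ c : ℝ, 0 < c ∧ ∀ (G : Type u) [Group G] [TopologicalSpace G] [IsTopologicalGroup G]
    [CompactSpace G] [T2Space G] [SecondCountableTopology G]
    (x : G), Dense (range fun k : ℤ => x ^ k) →
    ∀ q : ℕ, q.Prime → ∀ χ : G →* ℂ, Continuous χ → (∀ g, χ g ^ q = 1) → χ x ≠ 1 →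
    ∀ (D : Sys n G), closedBall 0 1 ⊆ D.Om → closedBall 0 1 ⊆ D.V →
    (∀ v ∈ D.V, (v ∈ closedBall (0 : Fin n → ℝ) 1 ∨ D.f v ∈ closedBall (0 : Fin n → ℝ) 1) →
      (∀ g, dist (D.act g v) v ≤ c) ∧ dist (D.f v) v ≤ c) →
    ∀ y1 ∈ D.Om,
    (∀ v ∈ D.V, D.f v = y1 → ∀ g, χ g ≠ 1 → D.act g v ≠ v) → False

section affine

variable {n : ℕ}

/-- `u ↦ y0 + ρ u` -/
noncomputable def psi (y0 : E n) (ρ : ℝ) (u : Fin n → ℝ) : E n := WithLp.toLp 2 (fun i => y0 i + ρ * u i)

/-- `v ↦ (v - y0) / ρ` -/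
noncomputable def phi (y0 : E n) (ρ : ℝ) (v : E n) : Fin n → ℝ := fun i => (v i - y0 i) / ρ

theorem psi_phi (y0 : E n) {ρ : ℝ} (hρ : ρ ≠ 0) (v : E n) : psi y0 ρ (phi y0 ρ v) = v := by
  ext i
  simp only [psi, phi]
  field_simp
  ring

theorem phi_psi (y0 : E n) {ρ : ℝ} (hρ : ρ ≠ 0) (u : Fin n → ℝ) :
    phi y0 ρ (psi y0 ρ u) = u := by
  ext i
  simp only [psi, phi]
  field_simp
  ring

theorem continuous_psi (y0 : E n) (ρ : ℝ) : Continuous (psi y0 ρ) := by
  unfold psi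
  refine (PiLp.continuous_toLp 2 _).comp ?_
  fun_prop

theorem continuous_phi (y0 : E n) (ρ : ℝ) : Continuous (phi y0 ρ) := by
  unfold phi
  refine continuous_pi fun i => ?_
  have : Continuous fun v : E n => v i := by fun_prop
  exact (this.sub continuous_const).div_const _

theorem psi_zero (y0 : E n) (ρ : ℝ) : psi y0 ρ 0 = y0 := by
  ext i
  simp [psi]

theorem psi_convex (y0 : E n) (ρ : ℝ) (a b : ℝ) (hab : a + b = 1) (u v : Fin n → ℝ) :
    psi y0 ρ (a • u + b • v) = a • psi y0 ρ u + b • psi y0 ρ v := by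
  ext i
  have : b = 1 - a := by linarith
  subst this
  simp only [psi, PiLp.add_apply, PiLp.smul_apply, smul_eq_mul, Pi.add_apply, Pi.smul_apply]
  ring

theorem dist_phi_le (y0 : E n) {ρ : ℝ} (hρ : 0 < ρ) (v w : E n) :
    dist (phi y0 ρ v) (phi y0 ρ w) ≤ dist v w / ρ := by
  rw [dist_pi_le_iff (by positivity)]
  intro i
  have h1 : |v i - w i| ≤ dist v w := by
    have := PiLp.norm_apply_le (v - w) i
    rw [dist_eq_norm]
    simpa [Real.norm_eq_abs] using this
  rw [Real.dist_eq]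
  have h2 : phi y0 ρ v i - phi y0 ρ w i = (v i - w i) / ρ := by
    simp only [phi]
    ring
  rw [h2, abs_div, abs_of_pos hρ]
  gcongr

theorem dist_psi_le (y0 : E n) {ρ : ℝ} (hρ : 0 < ρ) (u : Fin n → ℝ)
    (hu : u ∈ closedBall (0 : Fin n → ℝ) 1) :
    dist (psi y0 ρ u) y0 ≤ ρ * Real.sqrt n := by
  rw [EuclideanSpace.dist_eq]
  have h1 : ∀ i, dist (psi y0 ρ u i) (y0 i) ^ 2 ≤ ρ ^ 2 := by
    intro i
    have h2 : |u i| ≤ 1 := by
      have := norm_le_pi_norm u i
      rw [mem_closedBall_zero_iff] at hu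
      rw [Real.norm_eq_abs] at this
      linarith
    have h3 : dist (psi y0 ρ u i) (y0 i) = ρ * |u i| := by
      rw [Real.dist_eq]
      simp only [psi]
      rw [add_sub_cancel_left, abs_mul, abs_of_pos hρ]
    rw [h3]
    have : 0 ≤ |u i| := abs_nonneg _
    nlinarith [mul_nonneg hρ.le this, mul_nonneg hρ.le (sub_nonneg.2 h2)]
  calc Real.sqrt (∑ i, dist (psi y0 ρ u i) (y0 i) ^ 2)
      ≤ Real.sqrt (∑ _i : Fin n, ρ ^ 2) := Real.sqrt_le_sqrt (Finset.sum_le_sum fun i _ => h1 i)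
    _ = ρ * Real.sqrt n := by
        simp only [Finset.sum_const, Finset.card_univ, Fintype.card_fin, nsmul_eq_mul]
        rw [Real.sqrt_mul (by positivity), Real.sqrt_sq hρ.le, mul_comm]

end affine

section red

variable {n : ℕ} {G : Type*} [Group G] [TopologicalSpace G]

/-- the region `{u | ψ u ∈ V, f (ψ u) ∈ ball w R}` -/
def regU (D : Setup n G) (y0 : E n) (ρ : ℝ) : Set (Fin n → ℝ) :=
  {u | psi y0 ρ u ∈ D.V ∧ D.f (psi y0 ρ u) ∈ ball D.w D.R}

theorem isOpen_regU (D : Setup n G) (y0 : E n) (ρ : ℝ) : IsOpen (regU D y0 ρ) := by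
  have h1 : IsOpen (D.V ∩ D.f ⁻¹' ball D.w D.R) := D.f_cont.isOpen_inter_preimage D.isOpen_V
    isOpen_ball
  exact h1.preimage (continuous_psi y0 ρ)

/-- the transported action -/
noncomputable def act' (D : Setup n G) (y0 : E n) (ρ : ℝ) (g : G) (u : Fin n → ℝ) : Fin n → ℝ :=
  phi y0 ρ (D.act g (psi y0 ρ u))

theorem psi_act' (D : Setup n G) (y0 : E n) {ρ : ℝ} (hρ : ρ ≠ 0) (g : G) (u : Fin n → ℝ) :
    psi y0 ρ (act' D y0 ρ g u) = D.act g (psi y0 ρ u) := psi_phi y0 hρ _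

theorem act'_mem_regU (D : Setup n G) (y0 : E n) {ρ : ℝ} (hρ : ρ ≠ 0) (g : G)
    {u : Fin n → ℝ} (hu : u ∈ regU D y0 ρ) : act' D y0 ρ g u ∈ regU D y0 ρ := by
  refine ⟨?_, ?_⟩
  · rw [psi_act' D y0 hρ]
    exact D.act_mem g _ hu.1
  · rw [psi_act' D y0 hρ, D.f_inv g _ hu.1]
    exact hu.2

theorem act'_cont (D : Setup n G) (y0 : E n) (ρ : ℝ) :
    ContinuousOn (fun p : G × (Fin n → ℝ) => act' D y0 ρ p.1 p.2) (univ ×ˢ regU D y0 ρ) := by
  have h1 : ContinuousOn (fun p : G × (Fin n → ℝ) => D.act p.1 (psi y0 ρ p.2))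
      (univ ×ˢ regU D y0 ρ) := by
    refine D.act_cont.comp (f := fun p : G × (Fin n → ℝ) => (p.1, psi y0 ρ p.2))
      (Continuous.continuousOn ?_) ?_
    · exact continuous_fst.prodMk ((continuous_psi y0 ρ).comp continuous_snd)
    · intro p hp
      exact ⟨mem_univ _, hp.2.1⟩
  exact (continuous_phi y0 ρ).comp_continuousOn h1

/-- The reduction to the component. -/
theorem exists_sys (D : Setup n G) (y0 : E n) (r0 c : ℝ) (hr0 : 0 < r0)
    (hc2 : c ≤ 1 / 4) (hball : ball y0 r0 ⊆ ball D.w D.R) (hV : ball y0 r0 ⊆ D.V)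
    (hsmall : ∀ v ∈ D.V, (v ∈ ball y0 r0 ∨ D.f v ∈ ball y0 r0) →
      (∀ g, dist (D.act g v) v ≤ c * r0) ∧ dist (D.f v) v ≤ c * r0)
    (y1 : E n) (hy1 : y1 ∈ ball D.w D.R) (χ : G →* ℂ)
    (hfree : ∀ v ∈ D.V, D.f v = y1 → ∀ g, χ g ≠ 1 → D.act g v ≠ v) :
    ∃ (S : Sys n G), closedBall 0 1 ⊆ S.Om ∧ closedBall 0 1 ⊆ S.V ∧
      (∀ v ∈ S.V, (v ∈ closedBall (0 : Fin n → ℝ) 1 ∨ S.f v ∈ closedBall (0 : Fin n → ℝ) 1) →
        (∀ g, dist (S.act g v) v ≤ c * (2 * (Real.sqrt n + 1))) ∧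
          dist (S.f v) v ≤ c * (2 * (Real.sqrt n + 1))) ∧
      ∃ y ∈ S.Om, ∀ v ∈ S.V, S.f v = y → ∀ g, χ g ≠ 1 → S.act g v ≠ v := by
  set ρ : ℝ := r0 / (2 * (Real.sqrt n + 1)) with hρdef
  have hsq : 0 ≤ Real.sqrt n := Real.sqrt_nonneg _
  have hρ : 0 < ρ := by positivity
  have hρ0 : ρ ≠ 0 := hρ.ne'
  have hρr : ρ * Real.sqrt n < r0 / 2 := by
    rw [hρdef, div_mul_eq_mul_div, div_lt_div_iff₀ (by positivity) (by norm_num)]
    nlinarith
  have hψball : ∀ u ∈ closedBall (0 : Fin n → ℝ) 1, psi y0 ρ u ∈ ball y0 (r0 / 2) := by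
    intro u hu
    exact lt_of_le_of_lt (dist_psi_le y0 hρ u hu) hρr
  have hhalf : ball y0 (r0 / 2) ⊆ ball y0 r0 := ball_subset_ball (by linarith)
  -- the convex set `{u | ψ u ∈ ball y0 (r0/2)}`
  set P : Set (Fin n → ℝ) := {u : Fin n → ℝ | psi y0 ρ u ∈ ball y0 (r0 / 2)} with hPdef
  have hPconv : Convex ℝ P := by
    intro u hu v hv a b ha hb hab
    simp only [hPdef, mem_ofPred_eq] at hu hv ⊢
    rw [psi_convex y0 ρ a b hab]
    exact convex_ball y0 (r0 / 2) hu hv ha hb hab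
  have hPsub : P ⊆ regU D y0 ρ := by
    intro u hu
    have h1 : psi y0 ρ u ∈ ball y0 (r0 / 2) := hu
    have h2 := hhalf h1
    refine ⟨hV h2, hball ?_⟩
    have h3 := (hsmall _ (hV h2) (Or.inl h2)).2
    rw [mem_ball] at h1 ⊢
    calc dist (D.f (psi y0 ρ u)) y0 ≤ dist (D.f (psi y0 ρ u)) (psi y0 ρ u)
          + dist (psi y0 ρ u) y0 := dist_triangle _ _ _
      _ < c * r0 + r0 / 2 := by linarith
      _ ≤ r0 := by nlinarith
  have h0P : (0 : Fin n → ℝ) ∈ P := by
    change psi y0 ρ 0 ∈ ball y0 (r0 / 2)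
    rw [psi_zero]
    exact mem_ball_self (by linarith)
  set C : Set (Fin n → ℝ) := connectedComponentIn (regU D y0 ρ) 0 with hCdef
  have hCsub : C ⊆ regU D y0 ρ := connectedComponentIn_subset _ _
  have hCpre : IsPreconnected C := isPreconnected_connectedComponentIn
  have hPC : P ⊆ C := hPconv.isPreconnected.subset_connectedComponentIn h0P hPsub
  have hclosedC : closedBall (0 : Fin n → ℝ) 1 ⊆ C := fun u hu => hPC (hψball u hu)
  have hCopen : IsOpen C := (isOpen_regU D y0 ρ).connectedComponentIn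
  have h0C : (0 : Fin n → ℝ) ∈ C := hPC h0P
  have hact0 : ∀ g, act' D y0 ρ g 0 ∈ C := by
    intro g
    apply hPC
    change psi y0 ρ (act' D y0 ρ g 0) ∈ ball y0 (r0 / 2)
    rw [psi_act' D y0 hρ0, psi_zero]
    have hy0 : y0 ∈ ball y0 r0 := mem_ball_self hr0
    have := (hsmall y0 (hV hy0) (Or.inl hy0)).1 g
    rw [mem_ball]
    nlinarith
  have hactC : ∀ g, ∀ u ∈ C, act' D y0 ρ g u ∈ C := by
    intro g u hu
    have hcont : ContinuousOn (fun u => act' D y0 ρ g u) C := by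
      refine (act'_cont D y0 ρ).comp (f := fun u : Fin n → ℝ => (g, u))
        (Continuous.continuousOn (by fun_prop)) ?_
      intro v hv
      exact ⟨mem_univ _, hCsub hv⟩
    have hpre : IsPreconnected ((fun u => act' D y0 ρ g u) '' C) := hCpre.image _ hcont
    have hsub : (fun u => act' D y0 ρ g u) '' C ⊆ regU D y0 ρ := by
      rintro _ ⟨v, hv, rfl⟩
      exact act'_mem_regU D y0 hρ0 g (hCsub hv)
    have h1 := hpre.subset_connectedComponentIn (mem_image_of_mem _ h0C) hsub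
    have h2 : connectedComponentIn (regU D y0 ρ) (act' D y0 ρ g 0) = C :=
      (connectedComponentIn_eq (hact0 g)).symm
    rw [h2] at h1
    exact h1 (mem_image_of_mem _ hu)
  have hOmconv : Convex ℝ {u : Fin n → ℝ | psi y0 ρ u ∈ ball D.w D.R} := by
    intro u hu v hv a b ha hb hab
    simp only [mem_ofPred_eq] at hu hv ⊢
    rw [psi_convex y0 ρ a b hab]
    exact convex_ball _ _ hu hv ha hb hab
  have hproper : ∀ K ⊆ {u : Fin n → ℝ | psi y0 ρ u ∈ ball D.w D.R}, IsCompact K →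
      IsCompact {v | v ∈ C ∧ phi y0 ρ (D.f (psi y0 ρ v)) ∈ K} := by
    intro K hK hKc
    -- the image of `K` lies in a smaller closed ball
    have hK' : IsCompact (psi y0 ρ '' K) := hKc.image (continuous_psi y0 ρ)
    obtain ⟨ρ', hρ'R, hρ'⟩ : ∃ ρ' < D.R, psi y0 ρ '' K ⊆ closedBall D.w ρ' := by
      rcases (psi y0 ρ '' K).eq_empty_or_nonempty with he | hne
      · exact ⟨D.R - 1, by linarith, by rw [he]; exact empty_subset _⟩
      · obtain ⟨z, hz, hmax⟩ := hK'.exists_isMaxOn hne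
          (continuous_id.dist continuous_const : Continuous fun v : E n => dist v D.w).continuousOn
        obtain ⟨k, hk, rfl⟩ := hz
        exact ⟨dist (psi y0 ρ k) D.w, hK hk, fun v hv => hmax hv⟩
    have hcomp := D.proper ρ' hρ'R
    -- preimage under psi
    have hcomp2 : IsCompact {u : Fin n → ℝ | psi y0 ρ u ∈ D.V ∧
        D.f (psi y0 ρ u) ∈ closedBall D.w ρ'} := by
      have : {u : Fin n → ℝ | psi y0 ρ u ∈ D.V ∧ D.f (psi y0 ρ u) ∈ closedBall D.w ρ'}
          = phi y0 ρ '' {v | v ∈ D.V ∧ D.f v ∈ closedBall D.w ρ'} := by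
        ext u
        constructor
        · intro hu
          exact ⟨psi y0 ρ u, hu, phi_psi y0 hρ0 u⟩
        · rintro ⟨v, hv, rfl⟩
          simp only [mem_ofPred_eq]
          rw [psi_phi y0 hρ0]
          exact hv
      rw [this]
      exact hcomp.image (continuous_phi y0 ρ)
    set K2 : Set (Fin n → ℝ) := {u : Fin n → ℝ | psi y0 ρ u ∈ D.V ∧
        D.f (psi y0 ρ u) ∈ closedBall D.w ρ'} with hK2
    have hK2sub : K2 ⊆ regU D y0 ρ := by
      intro u hu
      exact ⟨hu.1, lt_of_le_of_lt hu.2 hρ'R⟩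
    -- `K2 ∩ C` is compact : `C` is relatively closed in `regU`
    have hK2C : IsCompact (K2 ∩ C) := by
      have hopen : IsOpen (⋃ v ∈ regU D y0 ρ \ C, connectedComponentIn (regU D y0 ρ) v) :=
        isOpen_biUnion fun v _ => (isOpen_regU D y0 ρ).connectedComponentIn
      have heq : K2 ∩ C = K2 \ (⋃ v ∈ regU D y0 ρ \ C, connectedComponentIn (regU D y0 ρ) v) := by
        ext u
        constructor
        · rintro ⟨hu, huC⟩
          refine ⟨hu, ?_⟩
          intro hmem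
          rw [mem_iUnion₂] at hmem
          obtain ⟨v, hv, huv⟩ := hmem
          have h1 := connectedComponentIn_eq huv
          have h2 := connectedComponentIn_eq huC
          rw [← h2] at h1
          exact hv.2 (by rw [hCdef, ← h1]; exact mem_connectedComponentIn hv.1)
        · rintro ⟨hu, hnu⟩
          refine ⟨hu, ?_⟩
          by_contra huC
          apply hnu
          rw [mem_iUnion₂]
          exact ⟨u, ⟨hK2sub hu, huC⟩, mem_connectedComponentIn (hK2sub hu)⟩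
      rw [heq]
      exact hcomp2.diff hopen
    -- closed subset
    have hfcont : ContinuousOn (fun v => phi y0 ρ (D.f (psi y0 ρ v))) (K2 ∩ C) := by
      refine (continuous_phi y0 ρ).comp_continuousOn ?_
      refine D.f_cont.comp (continuous_psi y0 ρ).continuousOn ?_
      intro u hu
      exact hu.1.1
    have hclosed := hfcont.preimage_isClosed_of_isClosed hK2C.isClosed hKc.isClosed
    have heq2 : {v | v ∈ C ∧ phi y0 ρ (D.f (psi y0 ρ v)) ∈ K}
        = (K2 ∩ C) ∩ (fun v => phi y0 ρ (D.f (psi y0 ρ v))) ⁻¹' K := by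
      ext u
      constructor
      · rintro ⟨huC, huK⟩
        refine ⟨⟨⟨(hCsub huC).1, ?_⟩, huC⟩, huK⟩
        apply hρ'
        exact ⟨_, huK, psi_phi y0 hρ0 _⟩
      · rintro ⟨⟨_, huC⟩, huK⟩
        exact ⟨huC, huK⟩
    rw [heq2]
    exact hK2C.of_isClosed_subset hclosed inter_subset_left
  refine ⟨{ V := C
            Om := {u | psi y0 ρ u ∈ ball D.w D.R}
            isOpen_V := hCopen
            preconn_V := hCpre
            isOpen_Om := isOpen_ball.preimage (continuous_psi y0 ρ)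
            convex_Om := hOmconv
            act := act' D y0 ρ
            act_mem := hactC
            act_one := ?_
            act_mul := ?_
            act_cont := (act'_cont D y0 ρ).mono (prod_mono_right hCsub)
            f := fun u => phi y0 ρ (D.f (psi y0 ρ u))
            f_cont := ?_
            f_inv := ?_
            f_mem := ?_
            proper := hproper }, ?_, hclosedC, ?_, phi y0 ρ y1, ?_, ?_⟩
  · intro v hv
    change phi y0 ρ (D.act 1 (psi y0 ρ v)) = v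
    rw [D.act_one _ (hCsub hv).1, phi_psi y0 hρ0]
  · intro g h v hv
    change phi y0 ρ (D.act (g * h) (psi y0 ρ v)) = phi y0 ρ (D.act g (psi y0 ρ (act' D y0 ρ h v)))
    rw [psi_act' D y0 hρ0, D.act_mul _ _ _ (hCsub hv).1]
  · refine (continuous_phi y0 ρ).comp_continuousOn ?_
    exact D.f_cont.comp (continuous_psi y0 ρ).continuousOn (fun u hu => (hCsub hu).1)
  · intro g v hv
    rw [psi_act' D y0 hρ0, D.f_inv _ _ (hCsub hv).1]
  · intro v hv
    change psi y0 ρ (phi y0 ρ (D.f (psi y0 ρ v))) ∈ ball D.w D.R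
    rw [psi_phi y0 hρ0]
    exact (hCsub hv).2
  · intro u hu
    change psi y0 ρ u ∈ ball D.w D.R
    exact hball (hhalf (hψball u hu))
  · -- smallness
    intro v hv hor
    have hv' : psi y0 ρ v ∈ D.V := (hCsub hv).1
    have hor' : psi y0 ρ v ∈ ball y0 r0 ∨ D.f (psi y0 ρ v) ∈ ball y0 r0 := by
      rcases hor with h | h
      · exact Or.inl (hhalf (hψball v h))
      · right
        have := hψball _ h
        change psi y0 ρ (phi y0 ρ (D.f (psi y0 ρ v))) ∈ ball y0 (r0 / 2) at this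
        rw [psi_phi y0 hρ0] at this
        exact hhalf this
    have hs := hsmall _ hv' hor'
    have hconst : ∀ t, t ≤ c * r0 → t / ρ ≤ c * (2 * (Real.sqrt n + 1)) := by
      intro t ht
      rw [hρdef, div_div_eq_mul_div, div_le_iff₀ hr0]
      have h2 : 0 < 2 * (Real.sqrt n + 1) := by positivity
      nlinarith
    constructor
    · intro g
      have h1 := dist_phi_le y0 hρ (D.act g (psi y0 ρ v)) (psi y0 ρ v)
      rw [phi_psi y0 hρ0] at h1
      exact h1.trans (hconst _ (hs.1 g))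
    · have h1 := dist_phi_le y0 hρ (D.f (psi y0 ρ v)) (psi y0 ρ v)
      rw [phi_psi y0 hρ0] at h1
      exact h1.trans (hconst _ hs.2)
  · change psi y0 ρ (phi y0 ρ y1) ∈ ball D.w D.R
    rw [psi_phi y0 hρ0]
    exact hy1
  · intro v hv hfv g hg hfix
    have h1 : D.f (psi y0 ρ v) = y1 := by
      have := congrArg (psi y0 ρ) hfv
      change psi y0 ρ (phi y0 ρ (D.f (psi y0 ρ v))) = psi y0 ρ (phi y0 ρ y1) at this
      rwa [psi_phi y0 hρ0, psi_phi y0 hρ0] at this
    apply hfree _ (hCsub hv).1 h1 g hg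
    have := congrArg (psi y0 ρ) hfix
    change psi y0 ρ (act' D y0 ρ g v) = psi y0 ρ v at this
    rwa [psi_act' D y0 hρ0] at this

end red

/-- The normalised crux implies the crux. -/
theorem crux_of_cruxN.{u} (n : ℕ) (h : CruxN.{u} n) : SpecC478.Crux.{u} n := by
  obtain ⟨c, hc, H⟩ := h
  have hsq : 0 ≤ Real.sqrt n := Real.sqrt_nonneg _
  have hK : 0 < 2 * (Real.sqrt n + 1) := by positivity
  refine ⟨min (1 / 4) (c / (2 * (Real.sqrt n + 1))), by positivity, ?_⟩
  intro G _ _ _ _ _ _ x hx q hq χ hχ hχq hχx D y0 r0 hr0 hball hV hsmall y1 hy1 hfree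
  obtain ⟨S, h1, h2, h3, y, hy, h4⟩ := exists_sys D y0 r0 _ hr0 (min_le_left _ _) hball hV hsmall
    y1 hy1 χ hfree
  refine H G x hx q hq χ hχ hχq hχx S h1 h2 ?_ y hy h4
  intro v hv hor
  have h5 := h3 v hv hor
  have h6 : min (1 / 4) (c / (2 * (Real.sqrt n + 1))) * (2 * (Real.sqrt n + 1)) ≤ c := by
    have := min_le_right (1 / 4) (c / (2 * (Real.sqrt n + 1)))
    calc _ ≤ c / (2 * (Real.sqrt n + 1)) * (2 * (Real.sqrt n + 1)) := by gcongr
      _ = c := by field_simp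
  exact ⟨fun g => (h5.1 g).trans h6, h5.2.trans h6⟩

end Crest.Agent.R217.CruxN559
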