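import Mathlib
import Crest.Agent.R217.CruxN_559

/-!
Row 217 (S0336): filters on `ℕ × ℕ` for the two-scale argument and the bundled counterexample
to `CruxN559.CruxN`.
-/

set_option autoImplicit false

open Filter Topology Metric Set

namespace Crest.Agent.R217.Coarse889

open Crest.Agent.R217.CruxN559

/-! ### (b) filters -/

/-- the filter of the `k`-th column: `j → ∞` -/
def lk (k : ℕ) : Filter (ℕ × ℕ) := map (fun j => (k, j)) atTop

/-- fine filter: for all `k`, `j → ∞` -/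
def lf : Filter (ℕ × ℕ) := ⨆ k, lk k

/-- coarse filter: eventually in `k`, eventually in `j` -/
def lc : Filter (ℕ × ℕ) := (atTop : Filter ℕ).curry (atTop : Filter ℕ)

section

variable {p : ℕ × ℕ → Prop} {S : Set (ℕ × ℕ)} {k : ℕ}

theorem mem_lk : S ∈ lk k ↔ ∀ᶠ j in atTop, (k, j) ∈ S := Iff.rfl

theorem mem_lf : S ∈ lf ↔ ∀ k, ∀ᶠ j in atTop, (k, j) ∈ S := by
  simp only [lf, mem_iSup, mem_lk]

theorem mem_lc : S ∈ lc ↔ ∀ᶠ k in atTop, ∀ᶠ j in atTop, (k, j) ∈ S := mem_curry_iff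

theorem eventually_lk : (∀ᶠ x in lk k, p x) ↔ ∀ᶠ j in atTop, p (k, j) := Iff.rfl

theorem eventually_lf : (∀ᶠ x in lf, p x) ↔ ∀ k, ∀ᶠ j in atTop, p (k, j) := mem_lf

theorem eventually_lc : (∀ᶠ x in lc, p x) ↔ ∀ᶠ k in atTop, ∀ᶠ j in atTop, p (k, j) := mem_lc

theorem eventually_lf_iff : (∀ᶠ x in lf, p x) ↔ ∀ k, ∀ᶠ x in lk k, p x := eventually_lf

/-- a property of `k` only holds coarsely as soon as it holds for large `k` -/
theorem eventually_lc_fst {r : ℕ → Prop} (h : ∀ᶠ k in atTop, r k) : ∀ᶠ x in lc, r x.1 :=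
  eventually_lc.2 (h.mono fun _ hk => Eventually.of_forall fun _ => hk)

theorem eventually_lc_of_lf (h : ∀ᶠ x in lf, p x) : ∀ᶠ x in lc, p x :=
  eventually_lc.2 (Eventually.of_forall (eventually_lf.1 h))

theorem lk_le_lf (k : ℕ) : lk k ≤ lf := le_iSup lk k

theorem lc_le_lf : lc ≤ lf := fun _ hS => eventually_lc_of_lf hS

instance lk_neBot (k : ℕ) : (lk k).NeBot := map_neBot

instance lf_neBot : lf.NeBot := (lk_neBot 0).mono (lk_le_lf 0)

instance lc_neBot : lc.NeBot := by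
  rw [neBot_iff, Ne, ← empty_mem_iff_bot]
  intro h
  have h1 := mem_lc.1 h
  obtain ⟨k, hk⟩ := h1.exists
  obtain ⟨j, hj⟩ := hk.exists
  exact hj

/-- if a property holds coarsely then it holds for some `(k, j)` with `k ≥ K` and `j ≥ J k` -/
theorem exists_of_lc (h : ∀ᶠ x in lc, p x) (K : ℕ) (J : ℕ → ℕ) :
    ∃ k j, K ≤ k ∧ J k ≤ j ∧ p (k, j) := by
  have h1 := eventually_lc.1 h
  obtain ⟨k, hk1, hk2⟩ := (h1.and (eventually_ge_atTop K)).exists
  obtain ⟨j, hj1, hj2⟩ := (hk1.and (eventually_ge_atTop (J k))).exists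
  exact ⟨k, j, hk2, hj2, hj1⟩

/-- a coarse property holds along the `k`-th column for all large `k` -/
theorem eventually_lk_of_lc (h : ∀ᶠ x in lc, p x) : ∀ᶠ k in atTop, ∀ᶠ x in lk k, p x :=
  eventually_lc.1 h

theorem lc_of_eventually_lk (h : ∀ᶠ k in atTop, ∀ᶠ x in lk k, p x) : ∀ᶠ x in lc, p x :=
  eventually_lc.2 h

/-- real valued: `|u| ≤ ε` coarsely for all `ε` if it is so in every column with an error
`→ 0` in `k`. -/
theorem eventually_lc_le {u : ℕ × ℕ → ℝ} {a : ℕ → ℝ} (ha : Tendsto a atTop (𝓝 0))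
    (h : ∀ k, ∀ᶠ j in atTop, u (k, j) ≤ a k) {ε : ℝ} (hε : 0 < ε) : ∀ᶠ x in lc, u x ≤ ε := by
  refine eventually_lc.2 ?_
  have h1 : ∀ᶠ k in atTop, a k < ε := ha.eventually (gt_mem_nhds hε)
  refine h1.mono fun k hk => (h k).mono fun j hj => ?_
  linarith

end

section germs

variable {α : Type*} {u v : ℕ × ℕ → α}

theorem germ_lf_eq_iff : (u : Germ lf α) = (v : Germ lf α) ↔
    ∀ k, (u : Germ (lk k) α) = (v : Germ (lk k) α) := by
  simp only [Germ.coe_eq]
  exact eventually_lf_iff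

theorem germ_lf_eq_iff' : (u : Germ lf α) = (v : Germ lf α) ↔
    ∀ k, ∀ᶠ j in atTop, u (k, j) = v (k, j) := by
  simp only [Germ.coe_eq]
  exact eventually_lf

theorem germ_lk_eq_iff {k : ℕ} : (u : Germ (lk k) α) = (v : Germ (lk k) α) ↔
    ∀ᶠ j in atTop, u (k, j) = v (k, j) := by
  simp only [Germ.coe_eq]
  exact eventually_lk

theorem germ_lc_eq_iff : (u : Germ lc α) = (v : Germ lc α) ↔
    ∀ᶠ k in atTop, ∀ᶠ j in atTop, u (k, j) = v (k, j) := by
  simp only [Germ.coe_eq]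
  exact eventually_lc

theorem germ_lc_eq_of_lf (h : (u : Germ lf α) = (v : Germ lf α)) :
    (u : Germ lc α) = (v : Germ lc α) := by
  rw [Germ.coe_eq] at h ⊢
  exact lc_le_lf h

theorem germ_lc_eq_of_lk (h : ∀ k, (u : Germ (lk k) α) = (v : Germ (lk k) α)) :
    (u : Germ lc α) = (v : Germ lc α) :=
  germ_lc_eq_of_lf (germ_lf_eq_iff.2 h)

/-- Final contradiction pattern: two functions which agree in every column can not be
coarsely equal to two different constants. -/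
theorem false_of_germs (a b : α) (hab : a ≠ b)
    (h : ∀ k, ∀ᶠ j in atTop, u (k, j) = v (k, j))
    (hu : ∀ᶠ x in lc, u x = a) (hv : ∀ᶠ x in lc, v x = b) : False := by
  have h1 : ∀ᶠ x in lc, u x = v x := eventually_lc_of_lf (eventually_lf.2 h)
  obtain ⟨x, hx⟩ := ((h1.and hu).and hv).exists
  exact hab (hx.1.2.symm.trans (hx.1.1.trans hx.2))

end germs

/-! ### (c) the bundled counterexample -/

/-- All the data of a counterexample to the body of `CruxN n` with constant `c`. -/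
structure CE.{u} (n : ℕ) (c : ℝ) : Type (u + 1) where
  G : Type u
  [grp : Group G]
  [top : TopologicalSpace G]
  [tgrp : IsTopologicalGroup G]
  [cpt : CompactSpace G]
  [t2 : T2Space G]
  [sc : SecondCountableTopology G]
  x : G
  dense : Dense (range fun k : ℤ => x ^ k)
  q : ℕ
  prime : q.Prime
  χ : G →* ℂ
  χ_cont : Continuous χ
  χ_pow : ∀ g, χ g ^ q = 1
  χ_x : χ x ≠ 1
  D : Sys n G
  ball_Om : closedBall 0 1 ⊆ D.Om
  ball_V : closedBall 0 1 ⊆ D.V
  disp : ∀ v ∈ D.V, (v ∈ closedBall (0 : Fin n → ℝ) 1 ∨ D.f v ∈ closedBall (0 : Fin n → ℝ) 1) →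
      (∀ g, dist (D.act g v) v ≤ c) ∧ dist (D.f v) v ≤ c
  y1 : Fin n → ℝ
  y1_mem : y1 ∈ D.Om
  free : ∀ v ∈ D.V, D.f v = y1 → ∀ g, χ g ≠ 1 → D.act g v ≠ v

attribute [instance] CE.grp CE.top CE.tgrp CE.cpt CE.t2 CE.sc

theorem CE.q_ne_zero.{u} {n : ℕ} {c : ℝ} (X : CE.{u} n c) : X.q ≠ 0 := X.prime.ne_zero

/-- a counterexample for a small constant is one for a larger constant -/
def CE.mono.{u} {n : ℕ} {c c' : ℝ} (h : c ≤ c') (X : CE.{u} n c) : CE.{u} n c' where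
  G := X.G
  x := X.x
  dense := X.dense
  q := X.q
  prime := X.prime
  χ := X.χ
  χ_cont := X.χ_cont
  χ_pow := X.χ_pow
  χ_x := X.χ_x
  D := X.D
  ball_Om := X.ball_Om
  ball_V := X.ball_V
  disp := fun v hv hb => ⟨fun g => ((X.disp v hv hb).1 g).trans h, (X.disp v hv hb).2.trans h⟩
  y1 := X.y1
  y1_mem := X.y1_mem
  free := X.free

theorem nonempty_ce.{u} {n : ℕ} (h : ¬ CruxN.{u} n) {c : ℝ} (hc : 0 < c) :
    Nonempty (CE.{u} n c) := by
  by_contra hne
  apply h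
  refine ⟨c, hc, ?_⟩
  intro G _ _ _ _ _ _ x hx q hq χ h1 h2 h3 D h4 h5 h6 y1 hy1 h7
  exact hne ⟨{
    G := G
    x := x
    dense := hx
    q := q
    prime := hq
    χ := χ
    χ_cont := h1
    χ_pow := h2
    χ_x := h3
    D := D
    ball_Om := h4
    ball_V := h5
    disp := h6
    y1 := y1
    y1_mem := hy1
    free := h7 }⟩

/-- a sequence of counterexamples with constants `1 / (k + 1)` -/
theorem nonempty_seq.{u} {n : ℕ} (h : ¬ CruxN.{u} n) :
    Nonempty (∀ k : ℕ, CE.{u} n (1 / ((k : ℝ) + 1))) :=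
  ⟨fun k => (nonempty_ce h (by positivity : (0 : ℝ) < 1 / ((k : ℝ) + 1))).some⟩

/-- `CruxN n` follows if there is no sequence of counterexamples. -/
theorem cruxN_of_no_seq.{u} {n : ℕ}
    (h : (∀ k : ℕ, CE.{u} n (1 / ((k : ℝ) + 1))) → False) : CruxN.{u} n := by
  by_contra hn
  exact h (nonempty_seq hn).some

end Crest.Agent.R217.Coarse889
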