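import Crest.Agent.R217.SpecC_478
import Crest.Agent.R217.Act_970

/-!
Row 217 (S0336), part C, piece M7b-1 (helper970): control functions, gauges and return times
for a `Setup` (SpecC_478).
-/

set_option autoImplicit false
set_option linter.unusedSectionVars false
set_option linter.unusedVariables false

open Filter Topology Metric Set
open Crest.Agent.R217.SpecC478 Crest.Agent.R217.Act970

namespace Crest.Agent.R217.Ctrl970

universe u

section Ext

/-- Extension by zero: if `φ` is continuous on the open set `V` and vanishes on `V` outside of a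
closed set `K ⊆ V` then `V.indicator φ` is continuous. -/
theorem continuous_indicator_of_closed {X Y : Type*} [TopologicalSpace X] [TopologicalSpace Y]
    [Zero Y] {V K : Set X} (hV : IsOpen V) (hK : IsClosed K) (hKV : K ⊆ V) {φ : X → Y}
    (hφ : ContinuousOn φ V) (h0 : ∀ v ∈ V, v ∉ K → φ v = 0) : Continuous (V.indicator φ) := by
  rw [continuous_iff_continuousAt]
  intro v
  by_cases hv : v ∈ V
  · have h1 : ContinuousAt φ v := hφ.continuousAt (hV.mem_nhds hv)
    refine h1.congr ?_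
    filter_upwards [hV.mem_nhds hv] with y hy
    rw [Set.indicator_of_mem hy]
  · have h2 : v ∉ K := fun h => hv (hKV h)
    have h3 : ContinuousAt (fun _ : X => (0 : Y)) v := continuousAt_const
    refine h3.congr ?_
    filter_upwards [hK.isOpen_compl.mem_nhds h2] with y hy
    by_cases hyV : y ∈ V
    · rw [Set.indicator_of_mem hyV, h0 y hyV hy]
    · rw [Set.indicator_of_notMem hyV]

end Ext

variable {n : ℕ} {G : Type u} [Group G] [TopologicalSpace G]

/-- The subtype on which `G` acts. -/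
def Vt (D : Setup n G) : Type := {v : E n // v ∈ D.V}

noncomputable instance (D : Setup n G) : MetricSpace (Vt D) :=
  inferInstanceAs (MetricSpace {v : E n // v ∈ D.V})

/-- constructor -/
def mk (D : Setup n G) (v : E n) (hv : v ∈ D.V) : Vt D := ⟨v, hv⟩

instance (D : Setup n G) : LocallyCompactSpace (Vt D) := D.isOpen_V.locallyCompactSpace

instance (D : Setup n G) : MulAction G (Vt D) where
  smul g v := ⟨D.act g v.1, D.act_mem g v.1 v.2⟩
  one_smul v := Subtype.ext (D.act_one v.1 v.2)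
  mul_smul g h v := Subtype.ext (D.act_mul g h v.1 v.2)

theorem smul_val (D : Setup n G) (g : G) (v : Vt D) : (g • v).1 = D.act g v.1 := rfl

theorem continuous_val (D : Setup n G) : Continuous fun v : Vt D => v.1 :=
  continuous_subtype_val

instance (D : Setup n G) : ContinuousSMul G (Vt D) where
  continuous_smul := by
    have h1 : Continuous fun p : G × Vt D => (p.1, p.2.1) :=
      continuous_fst.prodMk ((continuous_val D).comp continuous_snd)
    have h2 : Continuous fun p : G × Vt D => D.act p.1 p.2.1 :=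
      D.act_cont.comp_continuous h1 fun p => ⟨mem_univ _, p.2.2⟩
    exact Continuous.subtype_mk h2 _

theorem dist_val (D : Setup n G) (u v : Vt D) : dist u v = dist u.1 v.1 := rfl

/-- `f` on the subtype. -/
def ft (D : Setup n G) (v : Vt D) : E n := D.f v.1

theorem continuous_ft (D : Setup n G) : Continuous (ft D) :=
  D.f_cont.comp_continuous (continuous_val D) fun v => v.2

theorem ft_smul (D : Setup n G) (g : G) (v : Vt D) : ft D (g • v) = ft D v :=
  D.f_inv g v.1 v.2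

/-- The compact invariant regions. -/
def reg (D : Setup n G) (c : E n) (ρ : ℝ) : Set (E n) := {v | v ∈ D.V ∧ D.f v ∈ closedBall c ρ}

theorem reg_subset (D : Setup n G) (c : E n) (ρ : ℝ) : reg D c ρ ⊆ D.V := fun _ h => h.1

theorem act_mem_reg (D : Setup n G) {c : E n} {ρ : ℝ} (g : G) {v : E n} (hv : v ∈ reg D c ρ) :
    D.act g v ∈ reg D c ρ := by
  refine ⟨D.act_mem g v hv.1, ?_⟩
  rw [D.f_inv g v hv.1]
  exact hv.2

theorem isCompact_reg (D : Setup n G) {c : E n} {ρ : ℝ} (h : dist c D.w + ρ < D.R) :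
    IsCompact (reg D c ρ) := by
  have h1 := D.proper _ h
  have h2 : reg D c ρ = {v | v ∈ D.V ∧ D.f v ∈ closedBall D.w (dist c D.w + ρ)} ∩ reg D c ρ := by
    refine (Set.inter_eq_right.2 ?_).symm
    intro v hv
    refine ⟨hv.1, ?_⟩
    have h3 : dist (D.f v) c ≤ ρ := hv.2
    have h4 := dist_triangle (D.f v) c D.w
    simp only [mem_closedBall]
    linarith
  rw [h2]
  -- closedness inside a compact set on which `f` is continuous
  have h5 : ContinuousOn D.f {v | v ∈ D.V ∧ D.f v ∈ closedBall D.w (dist c D.w + ρ)} :=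
    D.f_cont.mono fun v hv => hv.1
  have h6 := h5.preimage_isClosed_of_isClosed h1.isClosed (isClosed_closedBall (x := c) (ε := ρ))
  have h7 : {v | v ∈ D.V ∧ D.f v ∈ closedBall D.w (dist c D.w + ρ)} ∩ reg D c ρ =
      {v | v ∈ D.V ∧ D.f v ∈ closedBall D.w (dist c D.w + ρ)} ∩ D.f ⁻¹' closedBall c ρ := by
    ext v
    constructor
    · rintro ⟨a, b⟩
      exact ⟨a, b.2⟩
    · rintro ⟨a, b⟩
      exact ⟨a, a.1, b⟩
  rw [h7]
  exact h1.of_isClosed_subset h6 Set.inter_subset_left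

theorem isCompact_reg_w (D : Setup n G) {ρ : ℝ} (h : ρ < D.R) : IsCompact (reg D D.w ρ) :=
  isCompact_reg D (by simpa using h)

/-- The regions in the subtype. -/
def regt (D : Setup n G) (c : E n) (ρ : ℝ) : Set (Vt D) := {v | ft D v ∈ closedBall c ρ}

theorem val_image_regt (D : Setup n G) (c : E n) (ρ : ℝ) :
    (fun v : Vt D => v.1) '' regt D c ρ = reg D c ρ := by
  ext v
  constructor
  · rintro ⟨u, hu, rfl⟩
    exact ⟨u.2, hu⟩
  · rintro ⟨h1, h2⟩
    exact ⟨⟨v, h1⟩, h2, rfl⟩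

theorem isCompact_regt (D : Setup n G) {c : E n} {ρ : ℝ} (h : dist c D.w + ρ < D.R) :
    IsCompact (regt D c ρ) := by
  have h1 := isCompact_reg D h
  rw [← val_image_regt] at h1
  exact (Subtype.isCompact_iff (p := fun v => v ∈ D.V) (s := regt D c ρ)).2 h1

theorem smul_mem_regt (D : Setup n G) {c : E n} {ρ : ℝ} (g : G) {v : Vt D}
    (hv : v ∈ regt D c ρ) : g • v ∈ regt D c ρ := by
  show ft D (g • v) ∈ closedBall c ρ
  rw [ft_smul]
  exact hv

/-! ### Uniform continuity of invariant control functions -/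

/-- An invariant continuous `u : E n → Y` is uniformly invariant under "near an orbit". -/
theorem exists_control (D : Setup n G) {Y : Type*} [PseudoMetricSpace Y] {u : E n → Y}
    (hu : Continuous u) (hinv : ∀ g, ∀ v ∈ D.V, u (D.act g v) = u v) {c : E n} {ρ : ℝ}
    (hρ : dist c D.w + ρ < D.R) {ε : ℝ} (hε : 0 < ε) :
    ∃ δ > 0, ∀ v ∈ reg D c ρ, ∀ g : G, ∀ v', dist v' (D.act g v) < δ → dist (u v') (u v) < ε := by
  have h := (isCompact_reg D hρ).uniformContinuousAt_of_continuousAt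
    (r := {p : Y × Y | dist p.1 p.2 < ε}) u (fun a _ => hu.continuousAt)
    (Metric.dist_mem_uniformity hε)
  obtain ⟨δ, hδ, hd⟩ := Metric.mem_uniformity_dist.1 h
  refine ⟨δ, hδ, fun v hv g v' hv' => ?_⟩
  have h1 := hd (show dist (D.act g v) v' < δ by rwa [dist_comm]) (act_mem_reg D g hv)
  have h2 : dist (u (D.act g v)) (u v') < ε := h1
  rwa [hinv g v hv.1, dist_comm] at h2

/-! ### The extended map and the noise function -/

/-- cut-off: `1` for `t ≤ R1`, `0` for `t ≥ R2`. -/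
noncomputable def tau (R1 R2 t : ℝ) : ℝ := max 0 (min 1 ((R2 - t) / (R2 - R1)))

theorem continuous_tau (R1 R2 : ℝ) : Continuous (tau R1 R2) := by
  unfold tau
  fun_prop

theorem tau_eq_one {R1 R2 t : ℝ} (h : R1 < R2) (ht : t ≤ R1) : tau R1 R2 t = 1 := by
  unfold tau
  have h1 : 1 ≤ (R2 - t) / (R2 - R1) := by
    rw [le_div_iff₀ (by linarith)]
    linarith
  rw [min_eq_left h1]
  simp

theorem tau_eq_zero {R1 R2 t : ℝ} (h : R1 < R2) (ht : R2 ≤ t) : tau R1 R2 t = 0 := by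
  unfold tau
  have h1 : (R2 - t) / (R2 - R1) ≤ 0 := div_nonpos_of_nonpos_of_nonneg (by linarith) (by linarith)
  rw [max_eq_left]
  exact (min_le_right _ _).trans h1

theorem tau_nonneg (R1 R2 t : ℝ) : 0 ≤ tau R1 R2 t := le_max_left _ _

theorem tau_le_one (R1 R2 t : ℝ) : tau R1 R2 t ≤ 1 := max_le zero_le_one (min_le_left _ _)

theorem continuousOn_distf (D : Setup n G) : ContinuousOn (fun v => dist (D.f v) D.w) D.V :=
  (continuous_id.dist continuous_const).comp_continuousOn D.f_cont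

/-- Extension of `f` to all of `E n`: equal to `f` where `dist (f v) w ≤ R1`. -/
noncomputable def Fext (D : Setup n G) (R1 R2 : ℝ) (v : E n) : E n :=
  D.w + D.V.indicator (fun v => tau R1 R2 (dist (D.f v) D.w) • (D.f v - D.w)) v

theorem continuous_Fext (D : Setup n G) {R1 R2 : ℝ} (h12 : R1 < R2) (h2 : R2 < D.R) :
    Continuous (Fext D R1 R2) := by
  unfold Fext
  refine continuous_const.add ?_
  refine continuous_indicator_of_closed D.isOpen_V (isCompact_reg_w D h2).isClosed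
    (reg_subset D _ _) ?_ ?_
  · exact ((continuous_tau R1 R2).comp_continuousOn (continuousOn_distf D)).smul
      (ContinuousOn.sub D.f_cont continuousOn_const)
  · intro v hv hvn
    have h4 : R2 < dist (D.f v) D.w := by
      by_contra hcon
      exact hvn ⟨hv, mem_closedBall.2 (not_lt.1 hcon)⟩
    simp only [tau_eq_zero h12 h4.le, zero_smul]

theorem Fext_eq (D : Setup n G) {R1 R2 : ℝ} (h12 : R1 < R2) {v : E n} (hv : v ∈ D.V)
    (h : dist (D.f v) D.w ≤ R1) : Fext D R1 R2 v = D.f v := by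
  unfold Fext
  rw [Set.indicator_of_mem hv, tau_eq_one h12 h]
  simp

theorem Fext_act (D : Setup n G) {R1 R2 : ℝ} (g : G) {v : E n} (hv : v ∈ D.V) :
    Fext D R1 R2 (D.act g v) = Fext D R1 R2 v := by
  unfold Fext
  rw [Set.indicator_of_mem hv, Set.indicator_of_mem (D.act_mem g v hv), D.f_inv g v hv]

/-- The noise function: `< 1` exactly over `ball w R1`. -/
noncomputable def noise (D : Setup n G) (R1 : ℝ) (v : E n) : ℝ :=
  1 - D.V.indicator (fun v => max 0 (1 - dist (D.f v) D.w / R1)) v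

theorem continuous_noise (D : Setup n G) {R1 : ℝ} (h0 : 0 < R1) (h1 : R1 < D.R) :
    Continuous (noise D R1) := by
  unfold noise
  refine continuous_const.sub ?_
  refine continuous_indicator_of_closed D.isOpen_V (isCompact_reg_w D h1).isClosed
    (reg_subset D _ _) ?_ ?_
  · have h4 : Continuous fun t : ℝ => max 0 (1 - t / R1) := by fun_prop
    exact h4.comp_continuousOn (continuousOn_distf D)
  · intro v hv hvn
    have h4 : R1 < dist (D.f v) D.w := by
      by_contra hcon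
      exact hvn ⟨hv, mem_closedBall.2 (not_lt.1 hcon)⟩
    have h5 : 1 < dist (D.f v) D.w / R1 := by rwa [one_lt_div h0]
    simp only [max_eq_left_iff]
    linarith

theorem noise_act (D : Setup n G) {R1 : ℝ} (g : G) {v : E n} (hv : v ∈ D.V) :
    noise D R1 (D.act g v) = noise D R1 v := by
  unfold noise
  rw [Set.indicator_of_mem hv, Set.indicator_of_mem (D.act_mem g v hv), D.f_inv g v hv]

theorem noise_le_iff (D : Setup n G) {R1 : ℝ} (h0 : 0 < R1) {r : ℝ} (hr : r < 1) {v : E n} :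
    noise D R1 v ≤ r ↔ v ∈ D.V ∧ dist (D.f v) D.w ≤ r * R1 := by
  unfold noise
  by_cases hv : v ∈ D.V
  · rw [Set.indicator_of_mem hv]
    simp only [hv, true_and]
    constructor
    · intro h
      have h1 : 0 < max 0 (1 - dist (D.f v) D.w / R1) := by linarith
      rcases lt_max_iff.1 h1 with h2 | h2
      · exact absurd h2 (lt_irrefl _)
      · rw [max_eq_right h2.le] at h
        have h3 : dist (D.f v) D.w / R1 ≤ r := by linarith
        rwa [div_le_iff₀ h0] at h3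
    · intro h
      have h3 : dist (D.f v) D.w / R1 ≤ r := by rwa [div_le_iff₀ h0]
      have h4 := le_max_right 0 (1 - dist (D.f v) D.w / R1)
      linarith
  · rw [Set.indicator_of_notMem hv]
    simp only [hv, false_and, iff_false]
    linarith

theorem noise_le_one (D : Setup n G) {R1 : ℝ} (v : E n) : noise D R1 v ≤ 1 := by
  unfold noise
  by_cases hv : v ∈ D.V
  · rw [Set.indicator_of_mem hv]
    have := le_max_left 0 (1 - dist (D.f v) D.w / R1)
    linarith
  · rw [Set.indicator_of_notMem hv]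
    linarith

/-! ### Return times -/

theorem exists_return_time (D : Setup n G) [IsTopologicalGroup G] [CompactSpace G] (x : G) {q : ℕ}
    (hq : 0 < q) {c : E n} {ρ : ℝ} (hρ : dist c D.w + ρ < D.R) {ε : ℝ} (hε : 0 < ε) :
    ∃ N : ℕ, 0 < N ∧ q ∣ N ∧ ∀ v ∈ reg D c ρ, ∀ g : G, dist (D.act (x ^ N * g) v) (D.act g v) < ε := by
  obtain ⟨m, hm, h⟩ := exists_return (V := Vt D) x hq (isCompact_regt D hρ) hε 0
  refine ⟨q * m, Nat.mul_pos hq hm, Dvd.intro m rfl, fun v hv g => ?_⟩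
  have hmem : g • mk D v hv.1 ∈ regt D c ρ := smul_mem_regt D g (v := mk D v hv.1) hv.2
  have h1 : rho G (x ^ (q * m) • g • mk D v hv.1) (g • mk D v hv.1) < ε := h _ hmem
  have h2 : dist (x ^ (q * m) • g • mk D v hv.1) (g • mk D v hv.1) < ε :=
    lt_of_le_of_lt (dist_le_rho G _ _) h1
  rw [← mul_smul] at h2
  exact h2

/-! ### Roots of unity -/

section Root

open Classical in
/-- discrete logarithm: `dlog ζ q z = i` if `z = ζ ^ i`. -/
noncomputable def dlog (ζ : ℂ) (q : ℕ) (z : ℂ) : ZMod q :=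
  if h : ∃ i : ℕ, ζ ^ i = z then (h.choose : ZMod q) else 0

theorem orderOf_eq {ζ : ℂ} {q : ℕ} (hq : q.Prime) (h1 : ζ ^ q = 1) (h2 : ζ ≠ 1) :
    orderOf ζ = q := by
  have := Fact.mk hq
  exact orderOf_eq_prime h1 h2

theorem isPrimitiveRoot {ζ : ℂ} {q : ℕ} (hq : q.Prime) (h1 : ζ ^ q = 1) (h2 : ζ ≠ 1) :
    IsPrimitiveRoot ζ q := by
  have h := IsPrimitiveRoot.orderOf ζ
  rwa [orderOf_eq hq h1 h2] at h

theorem dlog_pow {ζ : ℂ} {q : ℕ} (hq : q.Prime) (h1 : ζ ^ q = 1) (h2 : ζ ≠ 1) (i : ℕ) :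
    dlog ζ q (ζ ^ i) = (i : ZMod q) := by
  have hex : ∃ j : ℕ, ζ ^ j = ζ ^ i := ⟨i, rfl⟩
  unfold dlog
  rw [dif_pos hex]
  have h3 := hex.choose_spec
  have hz : ζ ≠ 0 := by
    rintro rfl
    rw [zero_pow hq.ne_zero] at h1
    exact zero_ne_one h1
  have hprim := isPrimitiveRoot hq h1 h2
  have h4 : (hex.choose : ℕ) ≡ i [MOD q] := by
    have h5 := pow_eq_pow_iff_modEq (x := Units.mk0 ζ hz) (n := hex.choose) (m := i)
    have h6 : orderOf (Units.mk0 ζ hz) = q := by
      rw [← orderOf_units]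
      exact orderOf_eq hq h1 h2
    rw [h6] at h5
    refine h5.1 ?_
    apply Units.ext
    simpa using h3
  exact (ZMod.natCast_eq_natCast_iff _ _ _).2 h4

theorem exists_pow_eq {ζ : ℂ} {q : ℕ} (hq : q.Prime) (h1 : ζ ^ q = 1) (h2 : ζ ≠ 1) {z : ℂ}
    (hz : z ^ q = 1) : ∃ i : ℕ, ζ ^ i = z := by
  have : NeZero q := ⟨hq.ne_zero⟩
  obtain ⟨i, _, hi⟩ := (isPrimitiveRoot hq h1 h2).eq_pow_of_pow_eq_one hz
  exact ⟨i, hi⟩

theorem norm_eq_one {q : ℕ} (hq : 0 < q) {z : ℂ} (hz : z ^ q = 1) : ‖z‖ = 1 := by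
  have h1 : ‖z‖ ^ q = 1 := by rw [← norm_pow, hz, norm_one]
  exact (pow_eq_one_iff_of_nonneg (norm_nonneg z) hq.ne').1 h1

/-- the circle valued version of `χ`. -/
noncomputable def circ (χ : G →* ℂ) {q : ℕ} (hq : 0 < q) (hχ : ∀ g, χ g ^ q = 1) : G →* Circle where
  toFun g := ⟨χ g, mem_sphere_zero_iff_norm.2 (norm_eq_one hq (hχ g))⟩
  map_one' := by
    apply Circle.ext
    exact χ.map_one
  map_mul' a b := by
    apply Circle.ext
    exact χ.map_mul a b

@[simp] theorem circ_coe (χ : G →* ℂ) {q : ℕ} (hq : 0 < q) (hχ : ∀ g, χ g ^ q = 1) (g : G) :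
    ((circ χ hq hχ g : Circle) : ℂ) = χ g := rfl

theorem circ_continuous {χ : G →* ℂ} (hc : Continuous χ) {q : ℕ} (hq : 0 < q)
    (hχ : ∀ g, χ g ^ q = 1) : Continuous (circ χ hq hχ) :=
  Continuous.subtype_mk hc _

theorem circ_pow {χ : G →* ℂ} {q : ℕ} (hq : 0 < q) (hχ : ∀ g, χ g ^ q = 1) (g : G) :
    circ χ hq hχ g ^ q = 1 := by
  apply Circle.ext
  rw [Circle.coe_pow, circ_coe, hχ g, Circle.coe_one]

theorem circ_eq_one_iff {χ : G →* ℂ} {q : ℕ} (hq : 0 < q) (hχ : ∀ g, χ g ^ q = 1) (g : G) :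
    circ χ hq hχ g = 1 ↔ χ g = 1 := by
  constructor
  · intro h
    have := congrArg (fun z : Circle => (z : ℂ)) h
    simpa using this
  · intro h
    apply Circle.ext
    simpa using h

end Root

/-! ### Gauges, abstract version -/

section Abstract

variable [IsTopologicalGroup G] [CompactSpace G]
variable {V : Type*} [MetricSpace V] [MulAction G V] [ContinuousSMul G V]
variable {Y : Type*} [PseudoMetricSpace Y]

/-- Freeness persists on a small closed ball around `y1`. -/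
theorem exists_radius_abs {F : V → Y} (hF : Continuous F) {U : Set V} (hU : IsOpen U) {y1 : Y}
    {r1 : ℝ} (hr1 : 0 < r1) (hK : IsCompact {v | dist (F v) y1 ≤ r1})
    (h : ∀ v, dist (F v) y1 = 0 → v ∈ U) :
    ∃ r > 0, r ≤ r1 ∧ ∀ v, dist (F v) y1 ≤ r → v ∈ U := by
  have hK' : IsCompact ({v | dist (F v) y1 ≤ r1} \ U) := hK.diff hU
  rcases ({v | dist (F v) y1 ≤ r1} \ U).eq_empty_or_nonempty with he | hne
  · exact ⟨r1, hr1, le_rfl, fun v hv => Set.sdiff_eq_empty.1 he hv⟩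
  · have hc : Continuous fun v : V => dist (F v) y1 := hF.dist continuous_const
    obtain ⟨v0, hv0, hmin⟩ := hK'.exists_isMinOn hne hc.continuousOn
    have hm : 0 < dist (F v0) y1 := by
      refine lt_of_le_of_ne dist_nonneg fun hcon => ?_
      exact hv0.2 (h v0 hcon.symm)
    refine ⟨min r1 (dist (F v0) y1 / 2), lt_min hr1 (by linarith), min_le_left _ _, ?_⟩
    intro v hv
    by_contra hvU
    have h1 : v ∈ {v | dist (F v) y1 ≤ r1} \ U := ⟨hv.trans (min_le_left _ _), hvU⟩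
    have h2 : dist (F v0) y1 ≤ dist (F v) y1 := hmin h1
    have h3 := min_le_right r1 (dist (F v0) y1 / 2)
    linarith

/-- bump function -/
noncomputable def bump (F : V → Y) (y1 : Y) (r c : ℝ) (v0 v : V) : ℝ :=
  max 0 (min (r - dist (F v) y1) (c / 2 - rhoX G v0 v))

theorem continuous_bump {F : V → Y} (hF : Continuous F) (y1 : Y) (r c : ℝ) (v0 : V) :
    Continuous (bump (G := G) F y1 r c v0) := by
  have h1 : Continuous fun v : V => dist (F v) y1 := hF.dist continuous_const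
  have h2 : Continuous fun v : V => rhoX G v0 v := cont_rhoX G continuous_const continuous_id
  exact continuous_const.max ((continuous_const.sub h1).min (continuous_const.sub h2))

theorem bump_nonneg (F : V → Y) (y1 : Y) (r c : ℝ) (v0 v : V) :
    0 ≤ bump (G := G) F y1 r c v0 v := le_max_left _ _

theorem bump_smul {F : V → Y} (hinv : ∀ (g : G) v, F (g • v) = F v) (y1 : Y) (r c : ℝ) (v0 v : V)
    (g : G) : bump (G := G) F y1 r c v0 (g • v) = bump (G := G) F y1 r c v0 v := by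
  unfold bump
  rw [hinv, rhoX_smul_right]

theorem of_bump_pos {F : V → Y} {y1 : Y} {r c : ℝ} {v0 v : V}
    (h : 0 < bump (G := G) F y1 r c v0 v) : dist (F v) y1 < r ∧ rhoX G v0 v < c / 2 := by
  rcases lt_max_iff.1 h with h2 | h2
  · exact absurd h2 (lt_irrefl _)
  · rw [lt_min_iff] at h2
    constructor <;> linarith [h2.1, h2.2]

theorem le_bump {F : V → Y} {y1 : Y} {r c : ℝ} {v0 v : V} (h1 : dist (F v) y1 ≤ r / 2)
    (h2 : rhoX G v0 v ≤ c / 4) : min (r / 2) (c / 4) ≤ bump (G := G) F y1 r c v0 v := by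
  refine le_trans ?_ (le_max_right _ _)
  exact min_le_min (by linarith) (by linarith)

/-- label -/
noncomputable def lab (χ : G →* Circle) (ζ : ℂ) (q : ℕ) (c : ℝ) (v0 v : V) : ZMod q :=
  dlog ζ q ((deg χ c v v0 : Circle) : ℂ)

/-- The labels are equivariant. -/
theorem lab_eq {x : G} {q : ℕ} (hq : q.Prime) {χ : G →* ℂ} (hχq : ∀ g, χ g ^ q = 1)
    (hx : χ x ≠ 1) {K : Set V} (hKinv : ∀ g : G, ∀ v ∈ K, g • v ∈ K) {δ c η : ℝ}
    (hsep : Sep (circ χ hq.pos hχq) K δ)
    (hcc : c + c ≤ δ) (hη : ∀ u ∈ K, ∀ v, dist u v < η → rho G u v < c / 2) {v0 v v' : V}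
    (h0 : v0 ∈ K) (hv : v ∈ K) (hc : rhoX G v0 v < c / 2) {i : ℕ}
    (hd : dist v' (x ^ i • v) < η) :
    lab (circ χ hq.pos hχq) (χ x) q c v0 v' = lab (circ χ hq.pos hχq) (χ x) q c v0 v + (i : ZMod q) := by
  have hcpos : 0 ≤ c / 2 := (rhoX_nonneg G v0 v).trans hc.le
  have h2 : rho G (x ^ i • v) v' < c / 2 := hη _ (hKinv _ _ hv) _ (by rwa [dist_comm])
  have h3 : deg (circ χ hq.pos hχq) c v' v = (circ χ hq.pos hχq) (x ^ i) :=
    deg_eq _ hsep hcc hv (by linarith)
  have h4 : rhoX G v v' < c / 2 := lt_of_le_of_lt (rhoX_le_smul G _ _ _) h2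
  have h5 := deg_gauge (circ χ hq.pos hχq) hsep hcc h0 hv h4 hc
  rw [h3] at h5
  have h6 : deg (circ χ hq.pos hχq) c v' v0 =
      (circ χ hq.pos hχq) (x ^ i) * deg (circ χ hq.pos hχq) c v v0 := by
    rw [h5, inv_mul_cancel_right]
  obtain ⟨g, hg⟩ := exists_smul_lt G (show rhoX G v0 v < c by linarith)
  have h7 : deg (circ χ hq.pos hχq) c v v0 = (circ χ hq.pos hχq) g := deg_eq _ hsep hcc h0 hg
  obtain ⟨j, hj⟩ := exists_pow_eq hq (hχq x) hx (hχq g)
  unfold lab
  rw [h6, h7, Circle.coe_mul, circ_coe, circ_coe, ← hj, map_pow, ← pow_add,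
    dlog_pow hq (hχq x) hx, dlog_pow hq (hχq x) hx]
  push_cast
  ring

/-- abstract gauge package -/
theorem exists_gauges_abs (x : G) {q : ℕ} (hq : q.Prime) (χ : G →* ℂ) (hχc : Continuous χ)
    (hχq : ∀ g, χ g ^ q = 1) (hx : χ x ≠ 1) {F : V → Y} (hF : Continuous F)
    (hinv : ∀ (g : G) v, F (g • v) = F v) {y1 : Y} {r1 : ℝ} (hr1 : 0 < r1)
    (hK : IsCompact {v | dist (F v) y1 ≤ r1})
    (hfree : ∀ v, dist (F v) y1 = 0 → ∀ g, χ g ≠ 1 → g • v ≠ v) :
    ∃ r > 0, r ≤ r1 ∧ ∃ (m : ℕ) (κ : Fin m → V → ℝ) (θ : Fin m → V → ZMod q) (c0 : ℝ) (η : ℝ),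
      0 < c0 ∧ 0 < η ∧ (∀ l, Continuous (κ l)) ∧ (∀ l (g : G) v, κ l (g • v) = κ l v) ∧
      (∀ l v, 0 ≤ κ l v) ∧ (∀ l v, 0 < κ l v → dist (F v) y1 < r) ∧
      (∀ v, dist (F v) y1 ≤ r / 2 → ∃ l, c0 ≤ κ l v) ∧
      (∀ l v v', 0 < κ l v → 0 < κ l v' → ∀ i : ℕ, dist v' (x ^ i • v) < η →
        θ l v' = θ l v + (i : ZMod q)) := by
  classical
  have hq0 : 0 < q := hq.pos
  have hχ'c : Continuous (circ χ hq0 hχq) := circ_continuous hχc hq0 hχq
  have hχ'q : ∀ g, (circ χ hq0 hχq) g ^ q = 1 := circ_pow hq0 hχq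
  have hUopen : IsOpen {v : V | ∀ g : G, (circ χ hq0 hχq) g ≠ 1 → g • v ≠ v} :=
    isOpen_free hχ'c hq0 hχ'q
  obtain ⟨r, hr, hr1', hrU⟩ := exists_radius_abs hF hUopen hr1 hK (fun v hv g hg => by
    refine hfree v hv g ?_
    intro h
    exact hg ((circ_eq_one_iff hq0 hχq g).2 h))
  have hKc : IsCompact {v : V | dist (F v) y1 ≤ r} := by
    have hcl : IsClosed {v : V | dist (F v) y1 ≤ r} :=
      isClosed_le (hF.dist continuous_const) continuous_const
    exact hK.of_isClosed_subset hcl fun v hv => le_trans hv hr1'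
  have hKinv : ∀ g : G, ∀ v ∈ {v : V | dist (F v) y1 ≤ r}, g • v ∈ {v : V | dist (F v) y1 ≤ r} := by
    intro g v hv
    show dist (F (g • v)) y1 ≤ r
    rw [hinv]
    exact hv
  obtain ⟨δ, hδ, hsep⟩ := exists_sep hχ'c hq0 hχ'q hKc (fun v hv g hg => hrU v hv g hg)
  have hcpos : 0 < δ / 2 := by linarith
  have hcc : δ / 2 + δ / 2 ≤ δ := by linarith
  obtain ⟨t, htK, htcov⟩ := exists_gauge_cover (G := G) hKc (c := (δ / 2) / 4) (by linarith)
  obtain ⟨η, hη, hηrho⟩ := exists_rho_lt G hKc (ε := (δ / 2) / 2) (by linarith)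
  refine ⟨r, hr, hr1', t.card,
    fun l => bump (G := G) F y1 r (δ / 2) (t.equivFin.symm l).1,
    fun l => lab (circ χ hq0 hχq) (χ x) q (δ / 2) (t.equivFin.symm l).1,
    min (r / 2) ((δ / 2) / 4), η, lt_min (by linarith) (by linarith), hη,
    fun l => continuous_bump hF _ _ _ _, fun l g v => bump_smul hinv _ _ _ _ _ _,
    fun l v => bump_nonneg _ _ _ _ _ _, fun l v h => (of_bump_pos h).1, ?_, ?_⟩
  · intro v hv
    obtain ⟨v0, hv0, h2⟩ := htcov v (show dist (F v) y1 ≤ r by linarith)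
    refine ⟨t.equivFin ⟨v0, hv0⟩, ?_⟩
    have h4 : (t.equivFin.symm (t.equivFin ⟨v0, hv0⟩)).1 = v0 := by
      rw [Equiv.symm_apply_apply]
    show _ ≤ bump (G := G) F y1 r (δ / 2) (t.equivFin.symm (t.equivFin ⟨v0, hv0⟩)).1 v
    rw [h4]
    exact le_bump hv h2.le
  · intro l v v' hv hv' i hd
    exact lab_eq hq hχq hx hKinv hsep hcc hηrho (htK _ (t.equivFin.symm l).2)
      (of_bump_pos hv).1.le (of_bump_pos hv).2 hd

end Abstract

/-! ### Gauges near `y1` for a `Setup` -/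

theorem ext_eq {D : Setup n G} {Y : Type*} [Zero Y] (φ : Vt D → Y) (v : Vt D) :
    (fun u : E n => open Classical in if hu : u ∈ D.V then φ (mk D u hu) else 0) v.1 = φ v := by
  classical
  show (if hu : v.1 ∈ D.V then φ (mk D v.1 hu) else 0) = φ v
  rw [dif_pos v.2]
  rfl

open Classical in
/-- extension by zero from the subtype -/
noncomputable def ext0 {D : Setup n G} {Y : Type*} [Zero Y] (φ : Vt D → Y) (u : E n) : Y :=
  if hu : u ∈ D.V then φ (mk D u hu) else 0

theorem ext0_mk {D : Setup n G} {Y : Type*} [Zero Y] (φ : Vt D → Y) {u : E n} (hu : u ∈ D.V) :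
    ext0 φ u = φ (mk D u hu) := by
  unfold ext0
  rw [dif_pos hu]

theorem ext0_not {D : Setup n G} {Y : Type*} [Zero Y] (φ : Vt D → Y) {u : E n} (hu : u ∉ D.V) :
    ext0 φ u = 0 := by
  unfold ext0
  rw [dif_neg hu]

theorem continuous_ext0 {D : Setup n G} {φ : Vt D → ℝ} (hφ : Continuous φ) {K : Set (E n)}
    (hK : IsClosed K) (hKV : K ⊆ D.V) (h : ∀ v : Vt D, v.1 ∉ K → φ v = 0) :
    Continuous (ext0 φ) := by
  have h1 : ext0 φ = D.V.indicator (ext0 φ) := by
    funext v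
    by_cases hv : v ∈ D.V
    · rw [Set.indicator_of_mem hv]
    · rw [Set.indicator_of_notMem hv, ext0_not φ hv]
  rw [h1]
  refine continuous_indicator_of_closed D.isOpen_V hK hKV ?_ ?_
  · rw [continuousOn_iff_continuous_domRestrict]
    have h2 : D.V.domRestrict (ext0 φ) = φ := by
      funext v
      exact ext0_mk φ v.2
    rw [h2]
    exact hφ
  · intro v hv hvn
    rw [ext0_mk φ hv]
    exact h (mk D v hv) hvn

/-- The gauge package near `y1`: finitely many invariant bump functions `κ l`, labels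
`θ l : E n → ZMod q`, such that `θ l` increases by `i` along "near `x ^ i`", and the `κ l ≥ c0`
cover everything over `closedBall y1 (r/2)`. -/
theorem exists_gauges (D : Setup n G) [IsTopologicalGroup G] [CompactSpace G] (x : G) {q : ℕ}
    (hq : q.Prime) (χ : G →* ℂ) (hχc : Continuous χ) (hχq : ∀ g, χ g ^ q = 1) (hx : χ x ≠ 1)
    {y1 : E n} (hy1 : y1 ∈ ball D.w D.R)
    (hfree : ∀ v ∈ D.V, D.f v = y1 → ∀ g, χ g ≠ 1 → D.act g v ≠ v) :
    ∃ r > 0, dist y1 D.w + r < D.R ∧ ∃ (m : ℕ) (κ : Fin m → E n → ℝ) (θ : Fin m → E n → ZMod q)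
      (c0 : ℝ) (η : ℝ), 0 < c0 ∧ 0 < η ∧ (∀ l, Continuous (κ l)) ∧
      (∀ l g, ∀ v ∈ D.V, κ l (D.act g v) = κ l v) ∧ (∀ l v, 0 ≤ κ l v) ∧
      (∀ l v, 0 < κ l v → v ∈ D.V ∧ dist (D.f v) y1 < r) ∧
      (∀ v ∈ D.V, dist (D.f v) y1 ≤ r / 2 → ∃ l, c0 ≤ κ l v) ∧
      (∀ l v v', 0 < κ l v → 0 < κ l v' → ∀ i : ℕ, dist v' (D.act (x ^ i) v) < η →
        θ l v' = θ l v + (i : ZMod q)) := by
  have hy1' : dist y1 D.w < D.R := hy1
  have hr1pos : 0 < (D.R - dist y1 D.w) / 2 := by linarith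
  have hr1lt : dist y1 D.w + (D.R - dist y1 D.w) / 2 < D.R := by linarith
  obtain ⟨r, hr, hr1, m, κ, θ, c0, η, hc0, hη, h1, h2, h3, h4, h5, h6⟩ :=
    exists_gauges_abs (V := Vt D) x hq χ hχc hχq hx (continuous_ft D) (ft_smul D)
      hr1pos (y1 := y1) (isCompact_regt D hr1lt) (fun v hv g hg hgv =>
        hfree v.1 v.2 (dist_eq_zero.1 hv) g hg (congrArg (fun w : Vt D => w.1) hgv))
  have hpos : ∀ l v, 0 < ext0 (κ l) v → ∃ hv : v ∈ D.V, 0 < κ l (mk D v hv) := by
    intro l v h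
    by_cases hv : v ∈ D.V
    · exact ⟨hv, by rwa [ext0_mk _ hv] at h⟩
    · rw [ext0_not _ hv] at h
      exact absurd h (lt_irrefl _)
  refine ⟨r, hr, by linarith, m, fun l => ext0 (κ l), fun l => ext0 (θ l), c0, η, hc0, hη,
    ?_, ?_, ?_, ?_, ?_, ?_⟩
  · intro l
    refine continuous_ext0 (h1 l) (isCompact_reg D (c := y1) (ρ := r) (by linarith)).isClosed
      (reg_subset D _ _) ?_
    intro v hv
    by_contra hne
    have h7 := h4 l v (lt_of_le_of_ne (h3 l v) (Ne.symm hne))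
    exact hv ⟨v.2, mem_closedBall.2 h7.le⟩
  · intro l g v hv
    show ext0 (κ l) (D.act g v) = ext0 (κ l) v
    rw [ext0_mk _ hv, ext0_mk _ (D.act_mem g v hv)]
    exact h2 l g (mk D v hv)
  · intro l v
    show 0 ≤ ext0 (κ l) v
    by_cases hv : v ∈ D.V
    · rw [ext0_mk _ hv]; exact h3 _ _
    · rw [ext0_not _ hv]
  · intro l v h
    obtain ⟨hv, h7⟩ := hpos l v h
    have h8 := h4 l (mk D v hv) h7
    exact ⟨hv, h8⟩
  · intro v hv hvr
    have h8 : dist (ft D (mk D v hv)) y1 ≤ r / 2 := hvr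
    obtain ⟨l, hl⟩ := h5 (mk D v hv) h8
    refine ⟨l, ?_⟩
    show c0 ≤ ext0 (κ l) v
    rw [ext0_mk _ hv]
    exact hl
  · intro l v v' hv hv' i hd
    obtain ⟨hvV, h7⟩ := hpos l v hv
    obtain ⟨hvV', h7'⟩ := hpos l v' hv'
    show ext0 (θ l) v' = ext0 (θ l) v + (i : ZMod q)
    rw [ext0_mk _ hvV, ext0_mk _ hvV']
    exact h6 l (mk D v hvV) (mk D v' hvV') h7 h7' i hd

end Crest.Agent.R217.Ctrl970
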