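import Crest.Agent.R217.CruxN_559
import Crest.Agent.R217.Ctrl_970
import Crest.Agent.R217.Flow_373

/-!
Row 217 (S0336), part C, piece M7b-1 (helper970): control functions, gauges and return times
for a normalised system `CruxN559.Sys`.
-/

set_option autoImplicit false
set_option linter.unusedSectionVars false
set_option linter.unusedVariables false

open Filter Topology Metric Set
open Crest.Agent.R217.CruxN559 Crest.Agent.R217.Act970
open Crest.Agent.R217.Ctrl970 (continuous_indicator_of_closed exists_gauges_abs)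

namespace Crest.Agent.R217.CtrlS970

universe u

variable {n : ℕ} {G : Type u} [Group G] [TopologicalSpace G]

/-- The subtype on which `G` acts. -/
def Vt (D : Sys n G) : Type := {v : Fin n → ℝ // v ∈ D.V}

noncomputable instance (D : Sys n G) : MetricSpace (Vt D) :=
  inferInstanceAs (MetricSpace {v : Fin n → ℝ // v ∈ D.V})

/-- constructor -/
def mk (D : Sys n G) (v : Fin n → ℝ) (hv : v ∈ D.V) : Vt D := ⟨v, hv⟩

instance (D : Sys n G) : LocallyCompactSpace (Vt D) := D.isOpen_V.locallyCompactSpace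

instance (D : Sys n G) : MulAction G (Vt D) where
  smul g v := ⟨D.act g v.1, D.act_mem g v.1 v.2⟩
  one_smul v := Subtype.ext (D.act_one v.1 v.2)
  mul_smul g h v := Subtype.ext (D.act_mul g h v.1 v.2)

theorem smul_val (D : Sys n G) (g : G) (v : Vt D) : (g • v).1 = D.act g v.1 := rfl

theorem continuous_val (D : Sys n G) : Continuous fun v : Vt D => v.1 :=
  continuous_subtype_val

instance (D : Sys n G) : ContinuousSMul G (Vt D) where
  continuous_smul := by
    have h1 : Continuous fun p : G × Vt D => (p.1, p.2.1) :=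
      continuous_fst.prodMk ((continuous_val D).comp continuous_snd)
    have h2 : Continuous fun p : G × Vt D => D.act p.1 p.2.1 :=
      D.act_cont.comp_continuous h1 fun p => ⟨mem_univ _, p.2.2⟩
    exact Continuous.subtype_mk h2 _

theorem dist_val (D : Sys n G) (u v : Vt D) : dist u v = dist u.1 v.1 := rfl

/-- `f` on the subtype. -/
def ft (D : Sys n G) (v : Vt D) : Fin n → ℝ := D.f v.1

theorem continuous_ft (D : Sys n G) : Continuous (ft D) :=
  D.f_cont.comp_continuous (continuous_val D) fun v => v.2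

theorem ft_smul (D : Sys n G) (g : G) (v : Vt D) : ft D (g • v) = ft D v :=
  D.f_inv g v.1 v.2

/-- The invariant set over `K`. -/
def ovr (D : Sys n G) (K : Set (Fin n → ℝ)) : Set (Fin n → ℝ) := {v | v ∈ D.V ∧ D.f v ∈ K}

theorem ovr_subset (D : Sys n G) (K : Set (Fin n → ℝ)) : ovr D K ⊆ D.V := fun _ h => h.1

theorem act_mem_ovr (D : Sys n G) {K : Set (Fin n → ℝ)} (g : G) {v : Fin n → ℝ}
    (hv : v ∈ ovr D K) : D.act g v ∈ ovr D K := by
  refine ⟨D.act_mem g v hv.1, ?_⟩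
  rw [D.f_inv g v hv.1]
  exact hv.2

theorem isCompact_ovr (D : Sys n G) {K : Set (Fin n → ℝ)} (hK : IsCompact K) (h : K ⊆ D.Om) :
    IsCompact (ovr D K) := D.proper K h hK

/-- The regions in the subtype. -/
def ovrt (D : Sys n G) (K : Set (Fin n → ℝ)) : Set (Vt D) := {v | ft D v ∈ K}

theorem val_image_ovrt (D : Sys n G) (K : Set (Fin n → ℝ)) :
    (fun v : Vt D => v.1) '' ovrt D K = ovr D K := by
  ext v
  constructor
  · rintro ⟨u, hu, rfl⟩
    exact ⟨u.2, hu⟩
  · rintro ⟨h1, h2⟩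
    exact ⟨⟨v, h1⟩, h2, rfl⟩

theorem isCompact_ovrt (D : Sys n G) {K : Set (Fin n → ℝ)} (hK : IsCompact K) (h : K ⊆ D.Om) :
    IsCompact (ovrt D K) := by
  have h1 := isCompact_ovr D hK h
  rw [← val_image_ovrt] at h1
  exact (Subtype.isCompact_iff (p := fun v => v ∈ D.V) (s := ovrt D K)).2 h1

theorem smul_mem_ovrt (D : Sys n G) {K : Set (Fin n → ℝ)} (g : G) {v : Vt D}
    (hv : v ∈ ovrt D K) : g • v ∈ ovrt D K := by
  show ft D (g • v) ∈ K
  rw [ft_smul]
  exact hv

/-! ### Uniform continuity of invariant control functions -/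

/-- An invariant continuous `u` is uniformly invariant under "near an orbit". -/
theorem exists_control (D : Sys n G) {Y : Type*} [PseudoMetricSpace Y] {u : (Fin n → ℝ) → Y}
    (hu : Continuous u) (hinv : ∀ g, ∀ v ∈ D.V, u (D.act g v) = u v) {K : Set (Fin n → ℝ)}
    (hK : IsCompact K) (hKO : K ⊆ D.Om) {ε : ℝ} (hε : 0 < ε) :
    ∃ δ > 0, ∀ v ∈ ovr D K, ∀ g : G, ∀ v', dist v' (D.act g v) < δ → dist (u v') (u v) < ε := by
  have h := (isCompact_ovr D hK hKO).uniformContinuousAt_of_continuousAt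
    (r := {p : Y × Y | dist p.1 p.2 < ε}) u (fun a _ => hu.continuousAt)
    (Metric.dist_mem_uniformity hε)
  obtain ⟨δ, hδ, hd⟩ := Metric.mem_uniformity_dist.1 h
  refine ⟨δ, hδ, fun v hv g v' hv' => ?_⟩
  have h1 := hd (show dist (D.act g v) v' < δ by rwa [dist_comm]) (act_mem_ovr D g hv)
  have h2 : dist (u (D.act g v)) (u v') < ε := h1
  rwa [hinv g v hv.1, dist_comm] at h2

/-! ### Extension of functions on `V` -/

open Classical in
/-- extension by zero from the subtype -/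
noncomputable def ext0 {D : Sys n G} {Y : Type*} [Zero Y] (φ : Vt D → Y) (u : Fin n → ℝ) : Y :=
  if hu : u ∈ D.V then φ (mk D u hu) else 0

theorem ext0_mk {D : Sys n G} {Y : Type*} [Zero Y] (φ : Vt D → Y) {u : Fin n → ℝ}
    (hu : u ∈ D.V) : ext0 φ u = φ (mk D u hu) := by
  unfold ext0
  rw [dif_pos hu]

theorem ext0_not {D : Sys n G} {Y : Type*} [Zero Y] (φ : Vt D → Y) {u : Fin n → ℝ}
    (hu : u ∉ D.V) : ext0 φ u = 0 := by
  unfold ext0
  rw [dif_neg hu]

theorem continuous_ext0 {D : Sys n G} {Y : Type*} [Zero Y] [TopologicalSpace Y] {φ : Vt D → Y}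
    (hφ : Continuous φ) {K : Set (Fin n → ℝ)}
    (hK : IsClosed K) (hKV : K ⊆ D.V) (h : ∀ v : Vt D, v.1 ∉ K → φ v = 0) :
    Continuous (ext0 φ) := by
  have h1 : ext0 φ = D.V.indicator (ext0 φ) := by
    funext v
    by_cases hv : v ∈ D.V
    · rw [Set.indicator_of_mem hv]
    · rw [Set.indicator_of_notMem hv, ext0_not φ hv]
  rw [h1]
  refine continuous_indicator_of_closed D.isOpen_V hK hKV ?_ ?_
  · rw [continuousOn_iff_continuous_domRestrict]
    have h2 : D.V.domRestrict (ext0 φ) = φ := by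
      funext v
      exact ext0_mk φ v.2
    rw [h2]
    exact hφ
  · intro v hv hvn
    rw [ext0_mk φ hv]
    exact h (mk D v hv) hvn

theorem ext0_act {D : Sys n G} {Y : Type*} [Zero Y] {φ : Vt D → Y}
    (h : ∀ (g : G) v, φ (g • v) = φ v) (g : G) {v : Fin n → ℝ} (hv : v ∈ D.V) :
    ext0 φ (D.act g v) = ext0 φ v := by
  rw [ext0_mk _ hv, ext0_mk _ (D.act_mem g v hv)]
  exact h g (mk D v hv)

/-- `v ↦ lam (f v) • φ v`, extended by zero. -/
noncomputable def lift {D : Sys n G} {Y : Type*} [Zero Y] [SMul ℝ Y] (lam : (Fin n → ℝ) → ℝ)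
    (φ : Vt D → Y) : (Fin n → ℝ) → Y := ext0 fun v => lam (ft D v) • φ v

theorem continuous_lift {D : Sys n G} {Y : Type*} [AddCommGroup Y] [Module ℝ Y]
    [TopologicalSpace Y] [ContinuousSMul ℝ Y] {lam : (Fin n → ℝ) → ℝ} (hlam : Continuous lam)
    {K : Set (Fin n → ℝ)} (hK : IsCompact K) (hKO : K ⊆ D.Om) (h0 : ∀ y, y ∉ K → lam y = 0)
    {φ : Vt D → Y} (hφ : Continuous φ) : Continuous (lift lam φ) := by
  refine continuous_ext0 ((hlam.comp (continuous_ft D)).smul hφ) (isCompact_ovr D hK hKO).isClosed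
    (ovr_subset D K) ?_
  intro v hv
  have h1 : ft D v ∉ K := fun h => hv ⟨v.2, h⟩
  simp only [h0 _ h1, zero_smul]

/-- The package of control functions attached to compact sets `L ⊆ Om`:
`F` is a globally continuous invariant extension of `f` (equal to `f` over `L`), with compact
support contained in `V`. -/
theorem exists_Fext (D : Sys n G) {L : Set (Fin n → ℝ)} (hL : IsCompact L) (hLO : L ⊆ D.Om) :
    ∃ (F : (Fin n → ℝ) → (Fin n → ℝ)) (C : Set (Fin n → ℝ)), Continuous F ∧ IsCompact C ∧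
      C ⊆ D.V ∧ (∀ v, v ∉ C → F v = 0) ∧ (∀ v ∈ ovr D L, F v = D.f v) ∧
      (∀ (g : G), ∀ v ∈ D.V, F (D.act g v) = F v) := by
  obtain ⟨lam, h1, h2, h3, h4⟩ := exists_continuousMap_one_of_isCompact_subset_isOpen hL
    D.isOpen_Om hLO
  have h0 : ∀ y, y ∉ tsupport lam → lam y = 0 := fun y hy => image_eq_zero_of_notMem_tsupport hy
  refine ⟨lift (D := D) lam (ft D), ovr D (tsupport lam),
    continuous_lift lam.continuous h2 h3 h0 (continuous_ft D), isCompact_ovr D h2 h3,
    ovr_subset D _, ?_, ?_, ?_⟩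
  · intro v hv
    by_cases hvV : v ∈ D.V
    · have h5 : ft D (mk D v hvV) ∉ tsupport lam := fun h => hv ⟨hvV, h⟩
      show ext0 _ v = 0
      rw [ext0_mk _ hvV, h0 _ h5, zero_smul]
    · exact ext0_not _ hvV
  · intro v hv
    have h5 : lam (ft D (mk D v hv.1)) = 1 := h1 hv.2
    show ext0 _ v = _
    rw [ext0_mk _ hv.1, h5, one_smul]
    rfl
  · intro g v hv
    refine ext0_act (fun g v => ?_) g hv
    rw [ft_smul]

/-- The noise function attached to a relatively compact open `U ⊆ Om`: it is `< 1` exactly over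
`U`, and `≤ r < 1` only over compact subsets of `U`. -/
noncomputable def noise (D : Sys n G) (U : Set (Fin n → ℝ)) (v : Fin n → ℝ) : ℝ :=
  1 - ext0 (D := D) (fun v => min 1 (infDist (ft D v) Uᶜ)) v

theorem continuous_noise (D : Sys n G) {U : Set (Fin n → ℝ)} (hU : IsOpen U)
    (hUc : IsCompact (closure U)) (hUO : closure U ⊆ D.Om) : Continuous (noise D U) := by
  refine continuous_const.sub (continuous_ext0 ?_ (isCompact_ovr D hUc hUO).isClosed
    (ovr_subset D _) ?_)
  · exact continuous_const.min ((continuous_infDist_pt _).comp (continuous_ft D))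
  · intro v hv
    have h1 : ft D v ∉ closure U := fun h => hv ⟨v.2, h⟩
    have h2 : ft D v ∈ Uᶜ := fun h => h1 (subset_closure h)
    rw [infDist_zero_of_mem h2]
    simp

theorem noise_act (D : Sys n G) (U : Set (Fin n → ℝ)) (g : G) {v : Fin n → ℝ} (hv : v ∈ D.V) :
    noise D U (D.act g v) = noise D U v := by
  unfold noise
  rw [ext0_act (D := D) (φ := fun v => min 1 (infDist (ft D v) Uᶜ)) (fun g v => by
    rw [ft_smul]) g hv]

theorem noise_le_one (D : Sys n G) (U : Set (Fin n → ℝ)) (v : Fin n → ℝ) : noise D U v ≤ 1 := by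
  unfold noise
  by_cases hv : v ∈ D.V
  · rw [ext0_mk _ hv]
    have : 0 ≤ min 1 (infDist (ft D (mk D v hv)) Uᶜ) := le_min zero_le_one infDist_nonneg
    linarith
  · rw [ext0_not _ hv]
    linarith

theorem noise_nonneg (D : Sys n G) (U : Set (Fin n → ℝ)) (v : Fin n → ℝ) : 0 ≤ noise D U v := by
  unfold noise
  by_cases hv : v ∈ D.V
  · rw [ext0_mk _ hv]
    have : min 1 (infDist (ft D (mk D v hv)) Uᶜ) ≤ 1 := min_le_left _ _
    linarith
  · rw [ext0_not _ hv]
    linarith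

/-- Points with `noise < 1` lie over `U`. -/
theorem mem_ovr_of_noise_lt (D : Sys n G) {U : Set (Fin n → ℝ)} {v : Fin n → ℝ}
    (h : noise D U v < 1) : v ∈ ovr D U := by
  unfold noise at h
  by_cases hv : v ∈ D.V
  · refine ⟨hv, ?_⟩
    by_contra hU
    rw [ext0_mk _ hv] at h
    have h2 : ft D (mk D v hv) ∈ Uᶜ := hU
    rw [infDist_zero_of_mem h2] at h
    simp at h
  · rw [ext0_not _ hv] at h
    simp at h

/-- Compact subsets of `U` lie in some `noise ≤ r < 1`. -/
theorem exists_noise_le (D : Sys n G) {U K : Set (Fin n → ℝ)} (hU : IsOpen U) (hne : Uᶜ.Nonempty)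
    (hK : IsCompact K) (hKU : K ⊆ U) : ∃ r < 1, ∀ v ∈ ovr D K, noise D U v ≤ r := by
  rcases K.eq_empty_or_nonempty with he | hKne
  · exact ⟨0, by norm_num, fun v hv => by
      rw [he] at hv
      exact absurd hv.2 (Set.notMem_empty _)⟩
  · have hcont : ContinuousOn (fun y => min 1 (infDist y Uᶜ)) K :=
      (continuous_const.min (continuous_infDist_pt _)).continuousOn
    obtain ⟨y0, hy0, hmin⟩ := hK.exists_isMinOn hKne hcont
    have hpos : 0 < min 1 (infDist y0 Uᶜ) := by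
      refine lt_min one_pos ?_
      rw [← (hU.isClosed_compl).notMem_iff_infDist_pos hne]
      exact fun h => h (hKU hy0)
    refine ⟨1 - min 1 (infDist y0 Uᶜ), by linarith, fun v hv => ?_⟩
    unfold noise
    rw [ext0_mk _ hv.1]
    have h1 : min 1 (infDist y0 Uᶜ) ≤ min 1 (infDist (D.f v) Uᶜ) := hmin hv.2
    have h2 : min 1 (infDist (ft D (mk D v hv.1)) Uᶜ) = min 1 (infDist (D.f v) Uᶜ) := rfl
    rw [h2]
    linarith

/-! ### Return times -/

theorem exists_return_time (D : Sys n G) [IsTopologicalGroup G] [CompactSpace G] (x : G) {q : ℕ}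
    (hq : 0 < q) {K : Set (Fin n → ℝ)} (hK : IsCompact K) (hKO : K ⊆ D.Om) {ε : ℝ} (hε : 0 < ε) :
    ∃ N : ℕ, 0 < N ∧ q ∣ N ∧ ∀ v ∈ ovr D K, ∀ g : G,
      dist (D.act (x ^ N * g) v) (D.act g v) < ε := by
  obtain ⟨m, hm, h⟩ := exists_return (V := Vt D) x hq (isCompact_ovrt D hK hKO) hε 0
  refine ⟨q * m, Nat.mul_pos hq hm, Dvd.intro m rfl, fun v hv g => ?_⟩
  have hmem : g • mk D v hv.1 ∈ ovrt D K := smul_mem_ovrt D g (v := mk D v hv.1) hv.2
  have h1 : rho G (x ^ (q * m) • g • mk D v hv.1) (g • mk D v hv.1) < ε := h _ hmem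
  have h2 : dist (x ^ (q * m) • g • mk D v hv.1) (g • mk D v hv.1) < ε :=
    lt_of_le_of_lt (dist_le_rho G _ _) h1
  rw [← mul_smul] at h2
  exact h2

/-! ### Gauges near `y1` -/

/-- The gauge package near `y1`: finitely many invariant bump functions `κ l`, labels
`θ l`, such that `θ l` increases by `i` along "near `x ^ i`", and the `κ l ≥ c0`
cover everything over `closedBall y1 (r/2)`. -/
theorem exists_gauges (D : Sys n G) [IsTopologicalGroup G] [CompactSpace G] (x : G) {q : ℕ}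
    (hq : q.Prime) (χ : G →* ℂ) (hχc : Continuous χ) (hχq : ∀ g, χ g ^ q = 1) (hx : χ x ≠ 1)
    {y1 : Fin n → ℝ} (hy1 : y1 ∈ D.Om)
    (hfree : ∀ v ∈ D.V, D.f v = y1 → ∀ g, χ g ≠ 1 → D.act g v ≠ v) :
    ∃ r > 0, closedBall y1 r ⊆ D.Om ∧ ∃ (m : ℕ) (κ : Fin m → (Fin n → ℝ) → ℝ)
      (θ : Fin m → (Fin n → ℝ) → ZMod q)
      (c0 : ℝ) (η : ℝ), 0 < c0 ∧ 0 < η ∧ (∀ l, Continuous (κ l)) ∧
      (∀ l g, ∀ v ∈ D.V, κ l (D.act g v) = κ l v) ∧ (∀ l v, 0 ≤ κ l v) ∧
      (∀ l v, 0 < κ l v → v ∈ D.V ∧ dist (D.f v) y1 < r) ∧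
      (∀ v ∈ D.V, dist (D.f v) y1 ≤ r / 2 → ∃ l, c0 ≤ κ l v) ∧
      (∀ l v v', 0 < κ l v → 0 < κ l v' → ∀ i : ℕ, dist v' (D.act (x ^ i) v) < η →
        θ l v' = θ l v + (i : ZMod q)) := by
  obtain ⟨r1, hr1, hr1O⟩ : ∃ r > 0, closedBall y1 r ⊆ D.Om :=
    Metric.nhds_basis_closedBall.mem_iff.1 (D.isOpen_Om.mem_nhds hy1)
  have hcomp : IsCompact {v : Vt D | dist (ft D v) y1 ≤ r1} :=
    isCompact_ovrt D (isCompact_closedBall y1 r1) hr1O
  obtain ⟨r, hr, hr1', m, κ, θ, c0, η, hc0, hη, h1, h2, h3, h4, h5, h6⟩ :=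
    exists_gauges_abs (V := Vt D) x hq χ hχc hχq hx (continuous_ft D) (ft_smul D)
      hr1 (y1 := y1) hcomp (fun v hv g hg hgv =>
        hfree v.1 v.2 (dist_eq_zero.1 hv) g hg (congrArg (fun w : Vt D => w.1) hgv))
  have hrO : closedBall y1 r ⊆ D.Om := (closedBall_subset_closedBall hr1').trans hr1O
  have hpos : ∀ l v, 0 < ext0 (κ l) v → ∃ hv : v ∈ D.V, 0 < κ l (mk D v hv) := by
    intro l v h
    by_cases hv : v ∈ D.V
    · exact ⟨hv, by rwa [ext0_mk _ hv] at h⟩
    · rw [ext0_not _ hv] at h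
      exact absurd h (lt_irrefl _)
  refine ⟨r, hr, hrO, m, fun l => ext0 (κ l), fun l => ext0 (θ l), c0, η, hc0, hη,
    ?_, ?_, ?_, ?_, ?_, ?_⟩
  · intro l
    refine continuous_ext0 (h1 l) (isCompact_ovr D (isCompact_closedBall y1 r) hrO).isClosed
      (ovr_subset D _) ?_
    intro v hv
    by_contra hne
    have h7 := h4 l v (lt_of_le_of_ne (h3 l v) (Ne.symm hne))
    exact hv ⟨v.2, mem_closedBall.2 h7.le⟩
  · intro l g v hv
    exact ext0_act (h2 l) g hv
  · intro l v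
    show 0 ≤ ext0 (κ l) v
    by_cases hv : v ∈ D.V
    · rw [ext0_mk _ hv]; exact h3 _ _
    · rw [ext0_not _ hv]
  · intro l v h
    obtain ⟨hv, h7⟩ := hpos l v h
    have h8 := h4 l (mk D v hv) h7
    exact ⟨hv, h8⟩
  · intro v hv hvr
    have h8 : dist (ft D (mk D v hv)) y1 ≤ r / 2 := hvr
    obtain ⟨l, hl⟩ := h5 (mk D v hv) h8
    refine ⟨l, ?_⟩
    show c0 ≤ ext0 (κ l) v
    rw [ext0_mk _ hv]
    exact hl
  · intro l v v' hv hv' i hd
    obtain ⟨hvV, h7⟩ := hpos l v hv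
    obtain ⟨hvV', h7'⟩ := hpos l v' hv'
    show ext0 (θ l) v' = ext0 (θ l) v + (i : ZMod q)
    rw [ext0_mk _ hvV, ext0_mk _ hvV']
    exact h6 l (mk D v hvV) (mk D v' hvV') h7 h7' i hd

/-! ### The flow of the generator -/

/-- 373's `Flow` of the generator `x`. -/
noncomputable def toFlow (D : Sys n G) (x : G) (c : ℝ) (hball : closedBall 0 1 ⊆ D.V)
    (hdisp : ∀ v ∈ closedBall (0 : Fin n → ℝ) 1, ∀ g, dist (D.act g v) v ≤ c) :
    Flow373.Flow n where
  V := D.V
  Om := D.Om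
  T i := D.act (x ^ i)
  f := D.f
  c := c
  isOpen_V := D.isOpen_V
  preconn_V := D.preconn_V
  isOpen_Om := D.isOpen_Om
  T_mem i v hv := D.act_mem _ v hv
  T_zero v hv := by rw [zpow_zero]; exact D.act_one v hv
  T_add i j v hv := by rw [zpow_add]; exact D.act_mul _ _ v hv
  T_cont i := by
    have h1 : ContinuousOn (fun v : Fin n → ℝ => ((x ^ i : G), v)) D.V :=
      (continuous_const.prodMk continuous_id).continuousOn
    exact D.act_cont.comp h1 fun v hv => ⟨mem_univ _, hv⟩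
  f_cont := D.f_cont
  f_T i v hv := D.f_inv _ v hv
  f_mem := D.f_mem
  proper := D.proper
  ball_V := hball
  disp i v hv := hdisp v hv _

end Crest.Agent.R217.CtrlS970
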