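import Crest.Agent.R217.FinePkg_970
import Crest.Agent.R217.ChainSpec_373

/-!
Row 217 (S0336), part C, piece M7: statement of the averaging step (373's chain package
`ChainExists` implies the existence of `FinePkg`).
-/

set_option autoImplicit false

open Metric Set Matrix

namespace Crest.Agent.R217.FinePkg970

open Crest.Agent.R217.Flow373 Crest.Agent.R217.Chain373

/-- return times divisible by `q` -/
def Returns {n : ℕ} (D : Flow n) (q : ℕ) : Prop :=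
  ∀ K ⊆ D.Om, IsCompact K → ∀ ε > 0, ∃ L : ℕ, 0 < L ∧ q ∣ L ∧
    ∀ v ∈ D.ovr K, ∀ i : ℤ, dist (D.T (L + i) v) (D.T i v) < ε

/-- THE AVERAGING STEP: `E r = (1/L) ∑_{a < L, a ≡ r} η a` etc. -/
def FineOfChain : Prop :=
  ∀ (n : ℕ) (D : Flow n) (q : ℕ) [NeZero q], ChainExists D → Returns D q →
    ∀ K, IsCompact K → K ⊆ D.Om → ∃ K1, IsCompact K1 ∧ K1 ⊆ D.Om ∧ K ⊆ K1 ∧
      ∃ ε0 > 0, ∀ ε, 0 < ε → ε ≤ ε0 → ∀ Rw : ℝ, Nonempty (FinePkg D q K K1 Rw ε)

end Crest.Agent.R217.FinePkg970
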