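import Mathlib
import Crest.Agent.R217.Coarse_889
import Crest.Agent.R217.CtrlS_970
import Crest.Agent.R217.FineSpec_970

/-!
Row 217 (S0336), part C: the global data of the two-scale argument.

* `KDat n c` : a counterexample `CE n c` together with a relatively compact convex open
  `U ⊆ Om` (containing the unit ball and `y1`), the extended invariant map `F`, the noise function
  `w` (`< 1` exactly over `U`, `≤ 0` over the unit ball), the gauges near `y1` and the sequence of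
  fine packages.
* `exists_kdat` : existence of `KDat`.
-/

set_option autoImplicit false
set_option linter.unusedSectionVars false
set_option linter.unusedVariables false

open Filter Topology Metric Set

namespace Crest.Agent.R217.Glob559

open Crest.Agent.R217.CruxN559 Crest.Agent.R217.Coarse889 Crest.Agent.R217.CtrlS970
open Crest.Agent.R217.FinePkg970 Crest.Agent.R217.Flow373 Crest.Agent.R217.Chain373

universe u

instance {n : ℕ} {c : ℝ} (X : CE.{u} n c) : NeZero X.q := ⟨X.q_ne_zero⟩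

theorem disp' {n : ℕ} {c : ℝ} (X : CE.{u} n c) :
    ∀ v ∈ closedBall (0 : Fin n → ℝ) 1, ∀ g, dist (X.D.act g v) v ≤ c :=
  fun v hv g => (X.disp v (X.ball_V hv) (Or.inl hv)).1 g

/-- the flow of the generator -/
noncomputable def flow {n : ℕ} {c : ℝ} (X : CE.{u} n c) : Flow n :=
  toFlow X.D X.x c X.ball_V (disp' X)

theorem flow_ovr {n : ℕ} {c : ℝ} (X : CE.{u} n c) (K : Set (Fin n → ℝ)) :
    (flow X).ovr K = ovr X.D K := rfl

theorem flow_T {n : ℕ} {c : ℝ} (X : CE.{u} n c) (i : ℤ) : (flow X).T i = X.D.act (X.x ^ i) := rfl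

/-- the local data of one counterexample -/
structure KDat (n : ℕ) (c : ℝ) : Type (u + 1) where
  X : CE.{u} n c
  U : Set (Fin n → ℝ)
  U_open : IsOpen U
  U_conv : Convex ℝ U
  U_cpt : IsCompact (closure U)
  U_sub : closure U ⊆ X.D.Om
  ball_U : closedBall 0 1 ⊆ U
  y1_U : X.y1 ∈ U
  F : (Fin n → ℝ) → (Fin n → ℝ)
  F_cont : Continuous F
  F_eq : ∀ v ∈ ovr X.D (closure U), F v = X.D.f v
  F_act : ∀ g, ∀ v ∈ X.D.V, F (X.D.act g v) = F v
  w : (Fin n → ℝ) → ℝ
  w_cont : Continuous w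
  w_act : ∀ g, ∀ v ∈ X.D.V, w (X.D.act g v) = w v
  w_lt : ∀ v, w v < 1 → v ∈ ovr X.D U
  w_cpt : ∀ r < (1 : ℝ), ∃ K, IsCompact K ∧ K ⊆ U ∧ ∀ v, w v ≤ r → v ∈ ovr X.D K
  w_le : ∀ K, IsCompact K → K ⊆ U → ∃ r < (1 : ℝ), ∀ v ∈ ovr X.D K, w v ≤ r
  w_ball : ∀ v ∈ ovr X.D (closedBall 0 1), w v ≤ 0
  K1 : Set (Fin n → ℝ)
  K1_cpt : IsCompact K1
  K1_sub : K1 ⊆ X.D.Om
  Rw : ℝ
  Rw_one : 1 ≤ Rw
  Rw_U : ∀ v ∈ ovr X.D (closure U), ‖v‖ ≤ Rw
  eps : ℕ → ℝ
  eps_pos : ∀ j, 0 < eps j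
  eps_le : ∀ j, eps j ≤ 1 / ((j : ℝ) + 1)
  P : ∀ j, FinePkg (flow X) X.q (closure U) K1 Rw (eps j)
  /-- radius of the gauges -/
  gr : ℝ
  gr_pos : 0 < gr
  gr_sub : closedBall X.y1 gr ⊆ X.D.Om
  /-- number of gauges -/
  gm : ℕ
  gκ : ℕ → (Fin n → ℝ) → ℝ
  gθ : ℕ → (Fin n → ℝ) → ZMod X.q
  gc : ℝ
  gη : ℝ
  gc_pos : 0 < gc
  gη_pos : 0 < gη
  gκ_cont : ∀ l, Continuous (gκ l)
  gκ_act : ∀ l g, ∀ v ∈ X.D.V, gκ l (X.D.act g v) = gκ l v
  gκ_nonneg : ∀ l v, 0 ≤ gκ l v
  gκ_pos : ∀ l v, 0 < gκ l v → v ∈ X.D.V ∧ dist (X.D.f v) X.y1 < gr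
  gκ_cov : ∀ v ∈ X.D.V, dist (X.D.f v) X.y1 ≤ gr / 2 → ∃ l < gm, gc ≤ gκ l v
  gθ_lab : ∀ l v v', 0 < gκ l v → 0 < gκ l v' → ∀ i : ℕ, dist v' (X.D.act (X.x ^ i) v) < gη →
    gθ l v' = gθ l v + (i : ZMod X.q)

/-- existence of `U` -/
theorem exists_U {n : ℕ} {c : ℝ} (X : CE.{u} n c) : ∃ U : Set (Fin n → ℝ), IsOpen U ∧
    Convex ℝ U ∧ IsCompact (closure U) ∧ closure U ⊆ X.D.Om ∧ closedBall 0 1 ⊆ U ∧ X.y1 ∈ U := by
  set K0 : Set (Fin n → ℝ) := convexJoin ℝ (closedBall 0 1) {X.y1} with hK0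
  have hconv : Convex ℝ K0 := (convex_closedBall _ _).convexJoin (convex_singleton _)
  have hc0 : IsCompact K0 := by
    have h1 : K0 = (fun p : (Fin n → ℝ) × ℝ => (1 - p.2) • p.1 + p.2 • X.y1) ''
        (closedBall (0 : Fin n → ℝ) 1 ×ˢ Icc (0 : ℝ) 1) := by
      ext v
      rw [hK0, mem_convexJoin]
      constructor
      · rintro ⟨a, ha, b, hb, hv⟩
        rw [mem_singleton_iff] at hb
        subst hb
        rw [segment_eq_image] at hv
        obtain ⟨t, ht, rfl⟩ := hv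
        exact ⟨(a, t), ⟨ha, ht⟩, rfl⟩
      · rintro ⟨⟨a, t⟩, ⟨ha, ht⟩, rfl⟩
        refine ⟨a, ha, X.y1, rfl, ?_⟩
        rw [segment_eq_image]
        exact ⟨t, ht, rfl⟩
    rw [h1]
    refine ((isCompact_closedBall (0 : Fin n → ℝ) 1).prod isCompact_Icc).image ?_
    fun_prop
  have hsub : K0 ⊆ X.D.Om := by
    intro v hv
    rw [hK0, mem_convexJoin] at hv
    obtain ⟨a, ha, b, hb, hv⟩ := hv
    rw [mem_singleton_iff] at hb
    subst hb
    exact X.D.convex_Om.segment_subset (X.ball_Om ha) X.y1_mem hv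
  obtain ⟨δ, hδ, hthick⟩ := hc0.exists_cthickening_subset_open X.D.isOpen_Om hsub
  have hcl : closure (thickening δ K0) ⊆ cthickening δ K0 := closure_thickening_subset_cthickening _ _
  refine ⟨thickening δ K0, isOpen_thickening, hconv.thickening δ, ?_,
    hcl.trans hthick, ?_, ?_⟩
  · exact hc0.cthickening.of_isClosed_subset isClosed_closure hcl
  · intro v hv
    refine self_subset_thickening hδ _ ?_
    rw [hK0, mem_convexJoin]
    exact ⟨v, hv, X.y1, rfl, left_mem_segment ℝ _ _⟩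
  · refine self_subset_thickening hδ _ ?_
    rw [hK0, mem_convexJoin]
    exact ⟨0, mem_closedBall_self zero_le_one, X.y1, rfl, right_mem_segment ℝ _ _⟩

theorem compl_nonempty {n : ℕ} (hn : 0 < n) {U : Set (Fin n → ℝ)} (hU : IsCompact (closure U)) :
    Uᶜ.Nonempty := by
  rw [nonempty_compl]
  intro h
  rw [h, closure_univ] at hU
  obtain ⟨R, hR⟩ := hU.isBounded.exists_norm_le
  have h1 := hR (fun _ => R + 1) (mem_univ _)
  have h2 := norm_le_pi_norm (fun _ : Fin n => R + 1) ⟨0, hn⟩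
  have h3 : |R + 1| ≤ R := h2.trans h1
  have h4 := le_abs_self (R + 1)
  linarith

/-- return times of the flow -/
theorem returns_flow {n : ℕ} {c : ℝ} (X : CE.{u} n c) : Returns (flow X) X.q := by
  intro K hK hKc ε hε
  obtain ⟨N, h1, h2, h3⟩ := exists_return_time X.D X.x X.prime.pos hKc hK hε
  refine ⟨N, h1, h2, fun v hv i => ?_⟩
  have h4 := h3 v hv (X.x ^ i)
  rw [flow_T, flow_T, zpow_add, zpow_natCast]
  exact h4

theorem exists_kdat {n : ℕ} (hn : 0 < n) {c : ℝ} (X : CE.{u} n c)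
    (hch : ChainExists (flow X)) (hfine : FineOfChain) : ∃ K : KDat.{u} n c, K.X = X := by
  obtain ⟨U, hUo, hUc, hUk, hUs, hUb, hUy⟩ := exists_U X
  obtain ⟨F, C, hF1, hF2, hF3, hF4, hF5, hF6⟩ := exists_Fext X.D hUk hUs
  have hne := compl_nonempty hn hUk
  obtain ⟨r0, hr0, hr0'⟩ := exists_noise_le X.D hUo hne (isCompact_closedBall 0 1) hUb
  obtain ⟨K1, hK1a, hK1b, hK1c, ε0, hε0, hP⟩ := hfine n (flow X) X.q hch (returns_flow X)
    (closure U) hUk hUs
  obtain ⟨R, hR⟩ := (isCompact_ovr X.D hUk hUs).isBounded.exists_norm_le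
  obtain ⟨gr, hgr, hgr2, m, κ, θ, c0, η, hc0, hη, g1, g2, g3, g4, g5, g6⟩ :=
    exists_gauges X.D X.x X.prime X.χ X.χ_cont X.χ_pow X.χ_x X.y1_mem X.free
  have hpos : 0 < 1 - r0 := by linarith
  have hPk : ∀ j : ℕ, Nonempty (FinePkg (flow X) X.q (closure U) K1 (max R 1)
      (min ε0 (1 / ((j : ℝ) + 1)))) := fun j =>
    hP _ (lt_min hε0 (by positivity)) (min_le_left _ _) _
  refine ⟨{
    X := X
    U := U
    U_open := hUo
    U_conv := hUc
    U_cpt := hUk
    U_sub := hUs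
    ball_U := hUb
    y1_U := hUy
    F := F
    F_cont := hF1
    F_eq := hF5
    F_act := hF6
    w := fun v => (noise X.D U v - r0) / (1 - r0)
    w_cont := ((continuous_noise X.D hUo hUk hUs).sub continuous_const).div_const _
    w_act := fun g v hv => by rw [noise_act X.D U g hv]
    w_lt := fun v hv => by
      rw [div_lt_one hpos] at hv
      exact mem_ovr_of_noise_lt X.D (by linarith)
    w_cpt := ?_
    w_le := ?_
    w_ball := fun v hv => div_nonpos_of_nonpos_of_nonneg (by linarith [hr0' v hv]) hpos.le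
    K1 := K1
    K1_cpt := hK1a
    K1_sub := hK1b
    Rw := max R 1
    Rw_one := le_max_right _ _
    Rw_U := fun v hv => (hR v hv).trans (le_max_left _ _)
    eps := fun j => min ε0 (1 / ((j : ℝ) + 1))
    eps_pos := fun j => lt_min hε0 (by positivity)
    eps_le := fun j => min_le_right _ _
    P := fun j => (hPk j).some
    gr := gr
    gr_pos := hgr
    gr_sub := hgr2
    gm := m
    gκ := fun l => if h : l < m then κ ⟨l, h⟩ else fun _ => 0
    gθ := fun l => if h : l < m then θ ⟨l, h⟩ else fun _ => 0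
    gc := c0
    gη := η
    gc_pos := hc0
    gη_pos := hη
    gκ_cont := ?_
    gκ_act := ?_
    gκ_nonneg := ?_
    gκ_pos := ?_
    gκ_cov := ?_
    gθ_lab := ?_ }, rfl⟩
  · -- w_cpt
    intro r hr
    set r' : ℝ := r0 + (1 - r0) * r with hr'
    have hr'1 : r' < 1 := by
      rw [hr']
      nlinarith
    refine ⟨closure U ∩ {y | 1 - r' ≤ infDist y Uᶜ}, ?_, ?_, ?_⟩
    · exact hUk.inter_right (isClosed_le continuous_const (continuous_infDist_pt _))
    · intro y hy
      have h1 : 0 < infDist y Uᶜ := lt_of_lt_of_le (by linarith) hy.2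
      by_contra h
      have h2 : y ∈ Uᶜ := h
      rw [infDist_zero_of_mem h2] at h1
      exact lt_irrefl _ h1
    · intro v hv
      have h1 : noise X.D U v ≤ r' := by
        rw [div_le_iff₀ hpos] at hv
        rw [hr']
        linarith
      have h2 := mem_ovr_of_noise_lt X.D (lt_of_le_of_lt h1 hr'1)
      refine ⟨h2.1, subset_closure h2.2, ?_⟩
      unfold noise at h1
      rw [ext0_mk _ h2.1] at h1
      have h3 : min 1 (infDist (ft X.D (mk X.D v h2.1)) Uᶜ) ≤ infDist (X.D.f v) Uᶜ := min_le_right _ _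
      show 1 - r' ≤ infDist (X.D.f v) Uᶜ
      linarith
  · -- w_le
    intro K hK hKU
    obtain ⟨r, hr, h⟩ := exists_noise_le X.D hUo hne hK hKU
    refine ⟨(r - r0) / (1 - r0), ?_, fun v hv => ?_⟩
    · rw [div_lt_one hpos]
      linarith
    · have := h v hv
      gcongr
  · intro l
    by_cases h : l < m
    · simp only [h, dif_pos]
      exact g1 _
    · simp only [h, dif_neg, not_false_eq_true]
      exact continuous_const
  · intro l g v hv
    by_cases h : l < m
    · simp only [h, dif_pos]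
      exact g2 _ g v hv
    · simp only [h, dif_neg, not_false_eq_true]
  · intro l v
    by_cases h : l < m
    · simp only [h, dif_pos]
      exact g3 _ v
    · simp only [h, dif_neg, not_false_eq_true]
      exact le_refl _
  · intro l v
    by_cases h : l < m
    · simp only [h, dif_pos]
      exact g4 _ v
    · simp only [h, dif_neg, not_false_eq_true]
      intro h0
      exact absurd h0 (lt_irrefl _)
  · intro v hv hd
    obtain ⟨l, hl⟩ := g5 v hv hd
    refine ⟨l.1, l.2, ?_⟩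
    simp only [l.2, dif_pos]
    exact hl
  · intro l v v'
    by_cases h : l < m
    · simp only [h, dif_pos]
      exact g6 _ v v'
    · simp only [h, dif_neg, not_false_eq_true]
      intro h0
      exact absurd h0 (lt_irrefl _)

end Crest.Agent.R217.Glob559
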