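import Mathlib
import Crest.Agent.R217.Glob_559
import Crest.Agent.R217.Grid3_897
import Crest.Agent.R217.FrameAsy_476

/-!
Row 217 (S0336), part C: control data of the two-scale argument on `A = ℕ × ℕ`.

* `CF l` : fine control data (controls `F i`, the noise `w`, the gauge bumps), filter `l`
  (`lf` = all columns, `lk k` = column `k`).
* `CC` : coarse control data (controls `x i`, `F i`, noise `2 ‖x‖`), filter `lc`.
* `le_CF`, `le_CC` : restrictions.
-/

set_option autoImplicit false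
set_option linter.unusedSectionVars false
set_option linter.unusedVariables false

open Filter Topology Metric Set

namespace Crest.Agent.R217.Ctl559

open Crest.Agent.R217.CruxN559 Crest.Agent.R217.Coarse889 Crest.Agent.R217.CtrlS970
open Crest.Agent.R217.FinePkg970 Crest.Agent.R217.Flow373 Crest.Agent.R217.Glob559
open Crest.Agent.R217.Grid897 Crest.Agent.R217.Asym476

universe u

/-- the constants of the sequence of counterexamples -/
noncomputable def cs (k : ℕ) : ℝ := 1 / (100 * ((k : ℝ) + 1))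

theorem cs_pos (k : ℕ) : 0 < cs k := by unfold cs; positivity

theorem cs_le (k : ℕ) : cs k ≤ 1 / 100 := by
  unfold cs
  rw [div_le_div_iff₀ (by positivity) (by norm_num)]
  have : (0 : ℝ) ≤ k := Nat.cast_nonneg k
  linarith

theorem tendsto_cs : Tendsto cs atTop (𝓝 0) := by
  have h1 : Tendsto (fun k : ℕ => (1 / 100 : ℝ) * (1 / ((k : ℝ) + 1))) atTop (𝓝 (1 / 100 * 0)) :=
    tendsto_one_div_add_atTop_nhds_zero_nat.const_mul _
  rw [mul_zero] at h1
  refine h1.congr fun k => ?_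
  unfold cs
  field_simp

variable {n : ℕ} (D : ∀ k, KDat.{u} n (cs k))

/-- the package at level `a = (k, j)` -/
noncomputable abbrev pk (a : ℕ × ℕ) : FinePkg (flow (D a.1).X) (D a.1).X.q (closure (D a.1).U)
    (D a.1).K1 (D a.1).Rw ((D a.1).eps a.2) := (D a.1).P a.2

/-- size of the torus at level `a` -/
noncomputable abbrev NN (a : ℕ × ℕ) : ℕ := (pk D a).N

/-- the mesh at level `a` -/
noncomputable abbrev mu (a : ℕ × ℕ) : ℝ := (pk D a).s

/-- the vertices at level `a` -/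
abbrev BV (a : ℕ × ℕ) : Type := VV n (NN D a)

/-- the position of a vertex -/
noncomputable def xv (a : ℕ × ℕ) (v : BV D a) : Fin n → ℝ :=
  fun i => mu D a * (((v i).valMinAbs : ℤ) : ℝ)

theorem mu_pos (a : ℕ × ℕ) : 0 < mu D a := (pk D a).s_pos

theorem mu_lt (a : ℕ × ℕ) : mu D a < 1 / ((a.2 : ℝ) + 1) :=
  (pk D a).s_lt.trans_le ((D a.1).eps_le a.2)

theorem pos_cellEquiv (a : ℕ × ℕ) (j : JJ n) (v : BV D a) :
    pos (mu D a) (cellEquiv n (NN D a) (j, v)) = xv D a v := rfl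

/-- names of the fine control functions -/
inductive PhiF (n : ℕ) : Type
  | f (i : Fin n) : PhiF n
  | o : PhiF n
  | kap (l : ℕ) : PhiF n

/-- fine control functions on positions -/
noncomputable def uF : PhiF n → ∀ a : ℕ × ℕ, (Fin n → ℝ) → ℝ
  | .f i, a, x => (D a.1).F x i
  | .o, a, x => (D a.1).w x
  | .kap l, a, x => (D a.1).gκ l x

/-- the fine control data with filter `l` -/
noncomputable def CF (l : Filter (ℕ × ℕ)) : Ctl (BV D) where
  l := l
  Φ := PhiF n
  o := .o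
  u φ a v := uF D φ a (xv D a v)

/-- names of the coarse control functions -/
inductive PhiC (n : ℕ) : Type
  | x (i : Fin n) : PhiC n
  | f (i : Fin n) : PhiC n
  | o : PhiC n

/-- coarse control functions on positions -/
noncomputable def uC : PhiC n → ∀ a : ℕ × ℕ, (Fin n → ℝ) → ℝ
  | .x i, a, x => x i
  | .f i, a, x => (D a.1).F x i
  | .o, a, x => 2 * ‖x‖

/-- the coarse control data -/
noncomputable def CC : Ctl (BV D) where
  l := lc
  Φ := PhiC n
  o := .o
  u φ a v := uC D φ a (xv D a v)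

theorem CF_u (l : Filter (ℕ × ℕ)) (φ : PhiF n) (a : ℕ × ℕ) (v : BV D a) :
    (CF D l).u φ a v = uF D φ a (xv D a v) := rfl

theorem CC_u (φ : PhiC n) (a : ℕ × ℕ) (v : BV D a) : (CC D).u φ a v = uC D φ a (xv D a v) := rfl

/-! ### continuity of the controls -/

theorem uF_cont (φ : PhiF n) (a : ℕ × ℕ) : Continuous (uF D φ a) := by
  cases φ with
  | f i => exact (continuous_apply i).comp (D a.1).F_cont
  | o => exact (D a.1).w_cont
  | kap l => exact (D a.1).gκ_cont l

theorem uF_act (φ : PhiF n) (a : ℕ × ℕ) (g : (D a.1).X.G) {v : Fin n → ℝ}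
    (hv : v ∈ (D a.1).X.D.V) : uF D φ a ((D a.1).X.D.act g v) = uF D φ a v := by
  cases φ with
  | f i => exact congrFun ((D a.1).F_act g v hv) i
  | o => exact (D a.1).w_act g v hv
  | kap l => exact (D a.1).gκ_act l g v hv

theorem uF_fst (φ : PhiF n) (k j j' : ℕ) : uF D φ (k, j) = uF D φ (k, j') := by
  cases φ <;> rfl

theorem uC_fst (φ : PhiC n) (k j j' : ℕ) : uC D φ (k, j) = uC D φ (k, j') := by
  cases φ <;> rfl

theorem uC_cont (φ : PhiC n) (a : ℕ × ℕ) : Continuous (uC D φ a) := by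
  cases φ with
  | x i => exact continuous_apply i
  | f i => exact (continuous_apply i).comp (D a.1).F_cont
  | o => exact continuous_const.mul continuous_norm

/-! ### geometry near the unit ball -/

/-- points of the closed unit ball of radius `1/2` lie over the closed unit ball -/
theorem mem_ovr_ball (k : ℕ) {x : Fin n → ℝ} (hx : ‖x‖ ≤ 1 / 2) :
    x ∈ ovr (D k).X.D (closedBall 0 1) := by
  have h1 : x ∈ closedBall (0 : Fin n → ℝ) 1 := by
    rw [mem_closedBall_zero_iff]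
    linarith
  have h2 := (D k).X.ball_V h1
  refine ⟨h2, ?_⟩
  have h3 := ((D k).X.disp x h2 (Or.inl h1)).2
  rw [mem_closedBall_zero_iff]
  have h4 := cs_le k
  have h5 : ‖(D k).X.D.f x‖ ≤ dist ((D k).X.D.f x) x + ‖x‖ := by
    rw [dist_eq_norm]
    calc ‖(D k).X.D.f x‖ = ‖((D k).X.D.f x - x) + x‖ := by rw [sub_add_cancel]
      _ ≤ _ := norm_add_le _ _
  linarith

theorem ovr_ball_sub (k : ℕ) : ovr (D k).X.D (closedBall 0 1) ⊆ ovr (D k).X.D (closure (D k).U) :=
  fun _ hv => ⟨hv.1, subset_closure ((D k).ball_U hv.2)⟩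

theorem ovr_U_sub (k : ℕ) : ovr (D k).X.D (D k).U ⊆ ovr (D k).X.D (closure (D k).U) :=
  fun _ hv => ⟨hv.1, subset_closure hv.2⟩

/-- near the unit ball, `F` is close to the identity -/
theorem dist_F_le (k : ℕ) {x : Fin n → ℝ} (hx : x ∈ ovr (D k).X.D (closedBall 0 1)) :
    dist ((D k).F x) x ≤ cs k := by
  rw [(D k).F_eq x (ovr_ball_sub D k hx)]
  exact ((D k).X.disp x hx.1 (Or.inr hx.2)).2

/-- If `x` is in the ball of radius `1/2` and `F`, `w` at `y` are close to the values at `x`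
then `y` is close to `x`. -/
theorem close_of_F (k : ℕ) {x y : Fin n → ℝ} (hx : ‖x‖ ≤ 1 / 2) {δ : ℝ} (hδ : δ ≤ 1 / 4)
    (hδ0 : 0 < δ)
    (hF : ∀ i, |(D k).F x i - (D k).F y i| < δ) (hw : |(D k).w x - (D k).w y| < δ) :
    y ∈ ovr (D k).X.D (closedBall 0 1) ∧ dist x y ≤ 2 * cs k + δ := by
  have h1 := mem_ovr_ball D k hx
  have h2 := (D k).w_ball x h1
  have h3 : (D k).w y < 1 := by
    have := (abs_lt.1 hw).1
    linarith
  have h4 := (D k).w_lt y h3
  have h5 := (D k).F_eq y (ovr_U_sub D k h4)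
  have h6 := dist_F_le D k h1
  have h7 : dist ((D k).F x) ((D k).F y) ≤ δ := by
    rw [dist_pi_le_iff hδ0.le]
    intro i
    rw [Real.dist_eq]
    exact (hF i).le
  have h8 := cs_le k
  have h9 : y ∈ ovr (D k).X.D (closedBall 0 1) := by
    refine ⟨h4.1, ?_⟩
    rw [← h5, mem_closedBall]
    calc dist ((D k).F y) 0 ≤ dist ((D k).F y) ((D k).F x) + dist ((D k).F x) x + dist x 0 :=
          dist_triangle4 _ _ _ _
      _ ≤ δ + cs k + 1 / 2 := by
          rw [dist_comm ((D k).F y), dist_zero_right]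
          linarith
      _ ≤ 1 := by linarith
  have h10 := dist_F_le D k h9
  refine ⟨h9, ?_⟩
  calc dist x y ≤ dist x ((D k).F x) + dist ((D k).F x) ((D k).F y) + dist ((D k).F y) y :=
        dist_triangle4 _ _ _ _
    _ ≤ cs k + δ + cs k := by
        rw [dist_comm x]
        linarith
    _ = 2 * cs k + δ := by ring

/-! ### restrictions -/

theorem le_CF {l l' : Filter (ℕ × ℕ)} (h : l' ≤ l) : (CF D l).Le (CF D l') where
  le := h
  region r hr := ⟨r, hr, Eventually.of_forall fun a s h => h⟩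
  ctl φ r hr ε hε := ⟨({(φ : PhiF n)} : Finset (PhiF n)), ε, hε,
    Eventually.of_forall fun a s t _ h => h (φ : PhiF n) (Finset.mem_singleton_self (φ : PhiF n))⟩

theorem le_CC : (CF D lf).Le (CC D) where
  le := lc_le_lf
  region r' hr' := by
    refine ⟨1 / 2, by norm_num, Eventually.of_forall fun a s hs => ?_⟩
    have h1 : 2 * ‖xv D a s‖ ≤ r' := hs
    have h2 : ‖xv D a s‖ ≤ 1 / 2 := by linarith
    have h3 := (D a.1).w_ball _ (mem_ovr_ball D a.1 h2)
    show (D a.1).w (xv D a s) ≤ 1 / 2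
    linarith
  ctl φ' r' hr' ε hε := by
    classical
    have key : ∀ ε > (0 : ℝ), ∃ (S : Finset (PhiF n)), ∃ δ > (0 : ℝ), ∀ᶠ a in lc,
        ∀ s t, 2 * ‖xv D a s‖ ≤ r' → (∀ φ ∈ S, |uF D φ a (xv D a s) - uF D φ a (xv D a t)| < δ) →
          dist (xv D a s) (xv D a t) < ε := by
      intro ε hε
      refine ⟨insert .o (Finset.univ.image PhiF.f), min (ε / 2) (1 / 4), by positivity, ?_⟩
      have h1 : ∀ᶠ k in atTop, cs k < ε / 4 :=
        tendsto_cs.eventually (gt_mem_nhds (by positivity))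
      filter_upwards [eventually_lc_fst h1] with a ha s t hs hφ
      have h2 : ‖xv D a s‖ ≤ 1 / 2 := by linarith
      have h3 := close_of_F D a.1 h2 (min_le_right _ _) (by positivity)
        (fun i => hφ (.f i) (by simp)) (hφ .o (by simp))
      have h4 := min_le_left (ε / 2) (1 / 4)
      linarith [h3.2]
    cases φ' with
    | x i =>
      obtain ⟨S, δ, hδ, h⟩ := key ε hε
      refine ⟨S, δ, hδ, ?_⟩
      filter_upwards [h] with a ha s t hs hφ
      have h1 := ha s t hs hφ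
      have h2 := dist_le_pi_dist (xv D a s) (xv D a t) i
      rw [Real.dist_eq] at h2
      exact lt_of_le_of_lt h2 h1
    | f i =>
      exact ⟨({.f i} : Finset (PhiF n)), ε, hε, Eventually.of_forall fun a s t _ h =>
        h (PhiF.f i) (Finset.mem_singleton_self _)⟩
    | o =>
      obtain ⟨S, δ, hδ, h⟩ := key (ε / 2) (by positivity)
      refine ⟨S, δ, hδ, ?_⟩
      filter_upwards [h] with a ha s t hs hφ
      have h1 := ha s t hs hφ
      have h2 : |‖xv D a s‖ - ‖xv D a t‖| ≤ dist (xv D a s) (xv D a t) := by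
        rw [dist_eq_norm]
        exact abs_norm_sub_norm_le _ _
      show |2 * ‖xv D a s‖ - 2 * ‖xv D a t‖| < ε
      rw [← mul_sub, abs_mul, abs_two]
      linarith

/-! ### closeness of `x` and `F`, grid continuity -/

theorem abs_F_sub_le (k : ℕ) {x : Fin n → ℝ} (hx : ‖x‖ ≤ 1 / 2) (i : Fin n) :
    |(D k).F x i - x i| ≤ cs k := by
  have h1 := dist_F_le D k (mem_ovr_ball D k hx)
  have h2 := dist_le_pi_dist ((D k).F x) x i
  rw [Real.dist_eq] at h2
  exact h2.trans h1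

/-- in the coarse region the controls `x i` and `f i` are close -/
theorem close_xf (i : Fin n) : ∀ r < (1 : ℝ), ∀ ε > (0 : ℝ), ∀ᶠ a in (CC D).l, ∀ s,
    (CC D).u (CC D).o a s ≤ r → |(CC D).u (PhiC.x i) a s - (CC D).u (PhiC.f i) a s| < ε := by
  intro r hr ε hε
  have h1 : ∀ᶠ k in atTop, cs k < ε := tendsto_cs.eventually (gt_mem_nhds hε)
  filter_upwards [eventually_lc_fst h1] with a ha s hs
  have hs' : 2 * ‖xv D a s‖ ≤ r := hs
  have h2 := abs_F_sub_le D a.1 (x := xv D a s) (by linarith) i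
  rw [abs_sub_comm]
  exact lt_of_le_of_lt h2 ha

theorem norm_le_Rw_of_w (k : ℕ) {x : Fin n → ℝ} (h : (D k).w x < 1) : ‖x‖ ≤ (D k).Rw :=
  (D k).Rw_U x (ovr_U_sub D k ((D k).w_lt x h))

/-- neighbouring cells are close, if one of them is in the window -/
theorem nb_dist (a : ℕ × ℕ) {c c' : Cell n (NN D a)} (h : nb (NN D a) c' c)
    (hc : ‖pos (mu D a) c‖ ≤ (D a.1).Rw ∨ ‖pos (mu D a) c'‖ ≤ (D a.1).Rw) :
    dist (pos (mu D a) c') (pos (mu D a) c) ≤ mu D a :=
  dist_pos_le (pk D a).s_pos (pk D a).window h hc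

theorem eventually_mu_lf {δ : ℝ} (hδ : 0 < δ) : ∀ᶠ a in lf, mu D a < δ := by
  rw [eventually_lf]
  intro k
  have h1 : ∀ᶠ j : ℕ in atTop, 1 / ((j : ℝ) + 1) < δ :=
    tendsto_one_div_add_atTop_nhds_zero_nat.eventually (gt_mem_nhds hδ)
  filter_upwards [h1] with j hj
  exact (mu_lt D (k, j)).trans hj

/-- uniform continuity of the fine controls near the good region of column `k` -/
theorem uF_unif (φ : PhiF n) (k : ℕ) {r ε : ℝ} (hr : r < 1) (hε : 0 < ε) :
    ∃ δ > 0, ∀ j, ∀ x y, (D k).w x ≤ r → dist y x < δ →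
      |uF D φ (k, j) x - uF D φ (k, j) y| < ε := by
  obtain ⟨K, hK, hKU, hKw⟩ := (D k).w_cpt r hr
  have hcomp : IsCompact (ovr (D k).X.D K) :=
    isCompact_ovr (D k).X.D hK ((hKU.trans subset_closure).trans (D k).U_sub)
  obtain ⟨δ, hδ, h⟩ := Unif373.unif_one (T := uF D φ (k, 0)) isOpen_univ hcomp (subset_univ _)
    (uF_cont D φ (k, 0)).continuousOn hε
  refine ⟨δ, hδ, fun j x y hx hxy => ?_⟩
  rw [uF_fst D φ k j 0, abs_sub_comm]
  exact (h x (hKw x hx) y hxy).2

/-- uniform continuity of the coarse controls near the coarse good region in column `k` -/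
theorem uC_unif (φ : PhiC n) (k : ℕ) {ε : ℝ} (hε : 0 < ε) :
    ∃ δ > 0, ∀ j, ∀ x y : Fin n → ℝ, ‖x‖ ≤ 1 → dist y x < δ →
      |uC D φ (k, j) x - uC D φ (k, j) y| < ε := by
  obtain ⟨δ, hδ, h⟩ := Unif373.unif_one (T := uC D φ (k, 0)) isOpen_univ
    (isCompact_closedBall (0 : Fin n → ℝ) 1) (subset_univ _)
    (uC_cont D φ (k, 0)).continuousOn hε
  refine ⟨δ, hδ, fun j x y hx hxy => ?_⟩
  rw [uC_fst D φ k j 0, abs_sub_comm]
  exact (h x (mem_closedBall_zero_iff.2 hx) y hxy).2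

/-- matrices whose entries connect points at distance at most `mu` are local (fine) -/
theorem isLoc_F_of_mu {K : Type} [Zero K] {l : Filter (ℕ × ℕ)} (hl : l ≤ lf) (M : Seq (BV D) K)
    (hM : ∀ a s t, ((D a.1).w (xv D a s) < 1 ∨ (D a.1).w (xv D a t) < 1) → M a s t ≠ 0 →
      dist (xv D a s) (xv D a t) ≤ mu D a) : IsLoc (CF D l) M := by
  intro φ r hr ε hε
  apply hl
  rw [mem_lf]
  intro k
  obtain ⟨δ, hδ, h⟩ := uF_unif D φ k hr hε
  have h1 := eventually_lf.1 (eventually_mu_lf D hδ) k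
  filter_upwards [h1] with j hj s t hst h0
  have hst' : (D k).w (xv D (k, j) s) ≤ r ∨ (D k).w (xv D (k, j) t) ≤ r := hst
  have h2 := hM (k, j) s t (hst'.imp (fun h => lt_of_le_of_lt h hr)
    (fun h => lt_of_le_of_lt h hr)) h0
  rcases hst' with hs | ht
  · exact h j _ _ hs (by rw [dist_comm]; exact lt_of_le_of_lt h2 hj)
  · rw [abs_sub_comm]
    exact h j _ _ ht (lt_of_le_of_lt h2 hj)

/-- matrices whose entries connect points at distance at most `mu` are local (coarse) -/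
theorem isLoc_C_of_mu {K : Type} [Zero K] (M : Seq (BV D) K)
    (hM : ∀ a s t, (‖xv D a s‖ ≤ 1 ∨ ‖xv D a t‖ ≤ 1) → M a s t ≠ 0 →
      dist (xv D a s) (xv D a t) ≤ mu D a) : IsLoc (CC D) M := by
  intro φ r hr ε hε
  apply lc_le_lf
  rw [mem_lf]
  intro k
  obtain ⟨δ, hδ, h⟩ := uC_unif D φ k hε
  have h1 := eventually_lf.1 (eventually_mu_lf D hδ) k
  filter_upwards [h1] with j hj s t hst h0
  have hst' : ‖xv D (k, j) s‖ ≤ 1 ∨ ‖xv D (k, j) t‖ ≤ 1 := by
    rcases hst with h | h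
    · left
      have : 2 * ‖xv D (k, j) s‖ ≤ r := h
      linarith
    · right
      have : 2 * ‖xv D (k, j) t‖ ≤ r := h
      linarith
  have h2 := hM (k, j) s t hst' h0
  rcases hst' with hs | ht
  · exact h j _ _ hs (by rw [dist_comm]; exact lt_of_le_of_lt h2 hj)
  · rw [abs_sub_comm]
    exact h j _ _ ht (lt_of_le_of_lt h2 hj)

theorem nb_dist_blk (a : ℕ × ℕ) (i j : JJ n) (s t : BV D a)
    (h : nb (NN D a) (cellEquiv n (NN D a) (i, s)) (cellEquiv n (NN D a) (j, t)))
    (hc : ‖xv D a s‖ ≤ (D a.1).Rw ∨ ‖xv D a t‖ ≤ (D a.1).Rw) :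
    dist (xv D a s) (xv D a t) ≤ mu D a := by
  have e1 := pos_cellEquiv D a i s
  have e2 := pos_cellEquiv D a j t
  generalize cellEquiv n (NN D a) (i, s) = c' at h e1
  generalize cellEquiv n (NN D a) (j, t) = c at h e2
  rw [← e1, ← e2] at hc ⊢
  exact nb_dist D a h hc.symm

/-- blocks of matrices supported on neighbouring cells are local (fine) -/
theorem isLoc_F_blk {l : Filter (ℕ × ℕ)} (hl : l ≤ lf)
    (X : ∀ a, Matrix (Cell n (NN D a)) (Cell n (NN D a)) ℂ)
    (hX : ∀ a c' c, X a c' c ≠ 0 → nb (NN D a) c' c) (i j : JJ n) :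
    IsLoc (CF D l) (fun a => blk n (NN D a) (X a) i j) := by
  refine isLoc_F_of_mu D hl _ fun a s t hst h0 => ?_
  have h1 := hX a (cellEquiv n (NN D a) (i, s)) (cellEquiv n (NN D a) (j, t)) h0
  refine nb_dist_blk D a i j s t h1 ?_
  rcases hst with h | h
  · left
    exact norm_le_Rw_of_w D a.1 h
  · right
    exact norm_le_Rw_of_w D a.1 h

/-- blocks of matrices supported on neighbouring cells are local (coarse) -/
theorem isLoc_C_blk (X : ∀ a, Matrix (Cell n (NN D a)) (Cell n (NN D a)) ℂ)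
    (hX : ∀ a c' c, X a c' c ≠ 0 → nb (NN D a) c' c) (i j : JJ n) :
    IsLoc (CC D) (fun a => blk n (NN D a) (X a) i j) := by
  refine isLoc_C_of_mu D _ fun a s t hst h0 => ?_
  have h1 := hX a (cellEquiv n (NN D a) (i, s)) (cellEquiv n (NN D a) (j, t)) h0
  refine nb_dist_blk D a i j s t h1 ?_
  rcases hst with h | h
  · left
    exact le_trans h (D a.1).Rw_one
  · right
    exact le_trans h (D a.1).Rw_one

/-! ### compact boxes -/

/-- a box over which the fine frame of column `k` is compact -/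
theorem box_w (k : ℕ) {lo hi : Fin n → ℝ} (h : Icc lo hi ⊆ (D k).U) : ∃ r < (1 : ℝ),
    ∀ x, (D k).w x < 1 → (∀ i, lo i ≤ (D k).F x i ∧ (D k).F x i ≤ hi i) → (D k).w x ≤ r := by
  obtain ⟨r, hr, h1⟩ := (D k).w_le (Icc lo hi) isCompact_Icc h
  refine ⟨r, hr, fun x hx hb => h1 x ?_⟩
  have h2 := (D k).w_lt x hx
  refine ⟨h2.1, ?_⟩
  rw [← (D k).F_eq x (ovr_U_sub D k h2)]
  exact ⟨fun i => (hb i).1, fun i => (hb i).2⟩

/-- points of the coarse good region whose `F`-image is in the box `[-1/4, 1/4]` -/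
theorem box_F_C (k : ℕ) {x : Fin n → ℝ} (hx : ‖x‖ ≤ 1 / 2)
    (hb : ∀ i, -(1 / 4) ≤ (D k).F x i ∧ (D k).F x i ≤ 1 / 4) : 2 * ‖x‖ ≤ 3 / 4 := by
  have h1 : ‖x‖ ≤ 1 / 4 + 1 / 100 := by
    rw [pi_norm_le_iff_of_nonneg (by norm_num)]
    intro i
    have h2 := abs_le.1 (abs_F_sub_le D k hx i)
    have h3 := cs_le k
    have h4 := hb i
    rw [Real.norm_eq_abs, abs_le]
    constructor <;> linarith
  linarith

theorem box_x_C {x : Fin n → ℝ} (hb : ∀ i, -(1 / 4) ≤ x i ∧ x i ≤ 1 / 4) : 2 * ‖x‖ ≤ 3 / 4 := by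
  have h1 : ‖x‖ ≤ 1 / 4 := by
    rw [pi_norm_le_iff_of_nonneg (by norm_num)]
    intro i
    rw [Real.norm_eq_abs, abs_le]
    exact hb i
  linarith

end Crest.Agent.R217.Ctl559
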