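import Mathlib
import Crest.Agent.R217.Ctl_559

/-!
Row 217 (S0336), part C: the boxes used in the fine and in the coarse frames are compact.
-/

set_option autoImplicit false
set_option linter.unusedSectionVars false
set_option linter.unusedVariables false

open Filter Topology Metric Set

namespace Crest.Agent.R217.Ctl559

open Crest.Agent.R217.CruxN559 Crest.Agent.R217.Coarse889 Crest.Agent.R217.CtrlS970
open Crest.Agent.R217.FinePkg970 Crest.Agent.R217.Flow373 Crest.Agent.R217.Glob559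
open Crest.Agent.R217.Grid897 Crest.Agent.R217.Asym476

universe u

variable {n : ℕ} (D : ∀ k, KDat.{u} n (cs k))

/-- the directions of the fine frames -/
def dirF (l : Filter (ℕ × ℕ)) : Fin n → (CF D l).Φ := PhiF.f

/-- the directions `f i` of the coarse frame -/
def dirCf : Fin n → (CC D).Φ := PhiC.f

/-- the directions `x i` of the coarse frame -/
def dirCx : Fin n → (CC D).Φ := PhiC.x

/-- compactness of boxes over column `k` -/
theorem cpt_k (k : ℕ) {lo hi : Fin n → ℝ} (h : Icc lo hi ⊆ (D k).U) :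
    Cpt (CF D (lk k)) (dirF D (lk k)) lo hi := by
  intro s t hs ht
  obtain ⟨r, hr, h1⟩ := box_w D k h
  refine ⟨r, hr, fun r' hr' => ?_⟩
  refine eventually_lk.2 (Eventually.of_forall fun j x hx hb => ?_)
  exact h1 _ (lt_of_le_of_lt (b := r') hx hr') fun i =>
    ⟨(hs i).le.trans (hb i).1.le, (hb i).2.trans (ht i).le⟩

/-- compactness of boxes in the unit ball over all columns -/
theorem cpt_lf {l : Filter (ℕ × ℕ)} {lo hi : Fin n → ℝ}
    (h : Icc lo hi ⊆ closedBall (0 : Fin n → ℝ) 1) :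
    Cpt (CF D l) (dirF D l) lo hi := by
  intro s t hs ht
  refine ⟨0, by norm_num, fun r' hr' => Eventually.of_forall fun a x hx hb => ?_⟩
  have h2 := (D a.1).w_lt (xv D a x) (lt_of_le_of_lt (b := r') hx hr')
  refine (D a.1).w_ball (xv D a x) ⟨h2.1, ?_⟩
  rw [← (D a.1).F_eq _ (ovr_U_sub D a.1 h2)]
  exact h ⟨fun i => (hs i).le.trans (hb i).1.le, fun i => (hb i).2.trans (ht i).le⟩

/-- compactness of boxes of radius `1/4`, coarse frame in the directions `f` -/
theorem cpt_Cf {lo hi : Fin n → ℝ} (hlo : ∀ i, -(1 / 4) ≤ lo i) (hhi : ∀ i, hi i ≤ 1 / 4) :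
    Cpt (CC D) (dirCf D) lo hi := by
  intro s t hs ht
  refine ⟨3 / 4, by norm_num, fun r' hr' => Eventually.of_forall fun a x hx hb => ?_⟩
  have hx' : 2 * ‖xv D a x‖ ≤ r' := hx
  exact box_F_C D a.1 (by linarith) fun i =>
    ⟨(hlo i).trans ((hs i).le.trans (hb i).1.le), (hb i).2.trans ((ht i).le.trans (hhi i))⟩

/-- compactness of boxes of radius `1/4`, coarse frame in the directions `x` -/
theorem cpt_Cx {lo hi : Fin n → ℝ} (hlo : ∀ i, -(1 / 4) ≤ lo i) (hhi : ∀ i, hi i ≤ 1 / 4) :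
    Cpt (CC D) (dirCx D) lo hi := by
  intro s t hs ht
  refine ⟨3 / 4, by norm_num, fun r' hr' => Eventually.of_forall fun a x hx hb => ?_⟩
  exact box_x_C fun i =>
    ⟨(hlo i).trans ((hs i).le.trans (hb i).1.le), (hb i).2.trans ((ht i).le.trans (hhi i))⟩

/-- transfer from the fine frame to the coarse frame over the small box -/
theorem cptTo_C {l : Filter (ℕ × ℕ)} {lo hi : Fin n → ℝ} (hlo : ∀ i, -(1 / 4) ≤ lo i)
    (hhi : ∀ i, hi i ≤ 1 / 4) : CptTo (CF D l) (CC D) (dirF D l) lo hi := by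
  intro s t hs ht r hr
  refine ⟨3 / 4, by norm_num, Eventually.of_forall fun a x hx hb => ?_⟩
  have h2 := (D a.1).w_lt (xv D a x) (lt_of_le_of_lt (b := r) hx hr)
  have h3 := (D a.1).F_eq _ (ovr_U_sub D a.1 h2)
  have hb' : ∀ i, -(1 / 4) ≤ (D a.1).F (xv D a x) i ∧ (D a.1).F (xv D a x) i ≤ 1 / 4 := fun i =>
    ⟨(hlo i).trans ((hs i).le.trans (hb i).1.le), (hb i).2.trans ((ht i).le.trans (hhi i))⟩
  have h4 : ‖(D a.1).F (xv D a x)‖ ≤ 1 / 4 := by
    rw [pi_norm_le_iff_of_nonneg (by norm_num)]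
    intro i
    rw [Real.norm_eq_abs, abs_le]
    exact hb' i
  have h5 : xv D a x ∈ ovr (D a.1).X.D (closedBall 0 1) := by
    refine ⟨h2.1, ?_⟩
    rw [← h3, mem_closedBall_zero_iff]
    linarith
  have h6 := dist_F_le D a.1 h5
  have h7 : ‖xv D a x‖ ≤ 1 / 4 + 1 / 100 := by
    have h8 := cs_le a.1
    calc ‖xv D a x‖ = ‖(D a.1).F (xv D a x) - ((D a.1).F (xv D a x) - xv D a x)‖ := by
          rw [sub_sub_cancel]
      _ ≤ ‖(D a.1).F (xv D a x)‖ + ‖(D a.1).F (xv D a x) - xv D a x‖ := norm_sub_le _ _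
      _ ≤ _ := by rw [← dist_eq_norm]; linarith
  show 2 * ‖xv D a x‖ ≤ 3 / 4
  linarith

/-- transfer between fine frames -/
theorem cptTo_F {l l' : Filter (ℕ × ℕ)} {lo hi : Fin n → ℝ} :
    CptTo (CF D l) (CF D l') (dirF D l) lo hi :=
  CptTo.of_noise fun _ _ => le_refl _

end Crest.Agent.R217.Ctl559
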