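import Mathlib
import Crest.Agent.R217.Cpt_559
import Crest.Agent.R217.AsyCell_970

/-!
Row 217 (S0336), part C: grid continuity and window facts for the control data `CF`, `CC`.
-/

set_option autoImplicit false
set_option linter.unusedSectionVars false
set_option linter.unusedVariables false

open Filter Topology Metric Set

namespace Crest.Agent.R217.Ctl559

open Crest.Agent.R217.CruxN559 Crest.Agent.R217.Coarse889 Crest.Agent.R217.CtrlS970
open Crest.Agent.R217.FinePkg970 Crest.Agent.R217.Flow373 Crest.Agent.R217.Glob559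
open Crest.Agent.R217.Grid897 Crest.Agent.R217.Asym476 Crest.Agent.R217.AsyCell970

universe u

variable {n : ℕ} (D : ∀ k, KDat.{u} n (cs k))

/-- neighbouring vertices are close, inside the window -/
theorem nbV_dist (a : ℕ × ℕ) {v w : BV D a} (h : nbV v w)
    (hc : ‖xv D a v‖ ≤ (D a.1).Rw ∨ ‖xv D a w‖ ≤ (D a.1).Rw) :
    dist (xv D a v) (xv D a w) ≤ mu D a := by
  refine nb_dist_blk D a (fun _ => 0) (fun _ => 0) v w ?_ hc
  exact (nb_iff _ _).2 h

theorem gridCont_F {l : Filter (ℕ × ℕ)} (hl : l ≤ lf) : GridCont (CF D l) := by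
  intro φ r hr ε hε
  apply hl
  rw [mem_lf]
  intro k
  obtain ⟨δ, hδ, h⟩ := uF_unif D φ k hr hε
  have h1 := eventually_lf.1 (eventually_mu_lf D hδ) k
  filter_upwards [h1] with j hj s t hst hst'
  have hst2 : (D k).w (xv D (k, j) s) ≤ r ∨ (D k).w (xv D (k, j) t) ≤ r := hst'
  have h2 := nbV_dist D (k, j) hst (hst2.imp (fun h => norm_le_Rw_of_w D k (lt_of_le_of_lt h hr))
    (fun h => norm_le_Rw_of_w D k (lt_of_le_of_lt h hr)))
  rcases hst2 with hs | ht
  · exact h j _ _ hs (by rw [dist_comm]; exact lt_of_le_of_lt h2 hj)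
  · rw [abs_sub_comm]
    exact h j _ _ ht (lt_of_le_of_lt h2 hj)

theorem gridCont_C : GridCont (CC D) := by
  intro φ r hr ε hε
  apply lc_le_lf
  rw [mem_lf]
  intro k
  obtain ⟨δ, hδ, h⟩ := uC_unif D φ k hε
  have h1 := eventually_lf.1 (eventually_mu_lf D hδ) k
  filter_upwards [h1] with j hj s t hst hst'
  have hst2 : ‖xv D (k, j) s‖ ≤ 1 ∨ ‖xv D (k, j) t‖ ≤ 1 := by
    rcases hst' with h | h
    · left
      have : 2 * ‖xv D (k, j) s‖ ≤ r := h
      linarith
    · right
      have : 2 * ‖xv D (k, j) t‖ ≤ r := h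
      linarith
  have h2 := nbV_dist D (k, j) hst (hst2.imp (fun h => h.trans (D k).Rw_one)
    (fun h => h.trans (D k).Rw_one))
  rcases hst2 with hs | ht
  · exact h j _ _ hs (by rw [dist_comm]; exact lt_of_le_of_lt h2 hj)
  · rw [abs_sub_comm]
    exact h j _ _ ht (lt_of_le_of_lt h2 hj)

theorem tendsto_mu_lf : Tendsto (mu D) lf (𝓝 0) := by
  rw [Metric.tendsto_nhds]
  intro ε hε
  filter_upwards [eventually_mu_lf D hε] with a ha
  rw [Real.dist_eq, sub_zero, abs_of_pos (mu_pos D a)]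
  exact ha

theorem tendsto_mu_lc : Tendsto (mu D) lc (𝓝 0) := (tendsto_mu_lf D).mono_left lc_le_lf

/-- window: the coarse region is far from the cut locus of the torus -/
theorem win_C : ∀ᶠ a in lc, ∀ v : BV D a, ‖xv D a v‖ ≤ 1 / 2 → ∀ i,
    2 * |(v i).valMinAbs| + 8 ≤ (NN D a : ℤ) := by
  have h1 : ∀ᶠ a in lc, mu D a < 1 / 4 :=
    lc_le_lf (eventually_mu_lf D (by norm_num : (0 : ℝ) < 1 / 4))
  filter_upwards [h1] with a ha v hv i
  have hs := mu_pos D a
  have hw := (pk D a).window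
  have hR := (D a.1).Rw_one
  have h2 : |mu D a * (((v i).valMinAbs : ℤ) : ℝ)| ≤ 1 / 2 := by
    have := (norm_le_pi_norm (xv D a v) i).trans hv
    rwa [Real.norm_eq_abs] at this
  rw [abs_mul, abs_of_pos hs] at h2
  have h3 : mu D a * (|(((v i).valMinAbs : ℤ) : ℝ)| + 4) < mu D a * ((NN D a : ℝ) / 2) := by
    have hw' : (D a.1).Rw + 3 * mu D a < mu D a * (NN D a : ℝ) / 2 := hw
    have : mu D a * ((NN D a : ℝ) / 2) = mu D a * (NN D a : ℝ) / 2 := by ring
    rw [this, mul_add]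
    linarith
  have h4 := lt_of_mul_lt_mul_left h3 hs.le
  have h5 : ((2 * |(v i).valMinAbs| + 8 : ℤ) : ℝ) ≤ ((NN D a : ℤ) : ℝ) := by
    push_cast
    linarith
  exact_mod_cast h5

end Crest.Agent.R217.Ctl559
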