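import Crest.Agent.R217.ChainSpec_373
import Crest.Agent.R217.CtrlS_970

/-!
Row 217 (S0336), part C (helper970): equicontinuity of the flow of the generator.
-/

set_option autoImplicit false

open Filter Topology Metric Set
open Crest.Agent.R217.CruxN559 Crest.Agent.R217.Act970

namespace Crest.Agent.R217.CtrlS970

universe u

variable {n : ℕ} {G : Type u} [Group G] [TopologicalSpace G]

/-- The action is equicontinuous near compact invariant sets. -/
theorem equi_act (D : Sys n G) [IsTopologicalGroup G] [CompactSpace G] {K : Set (Fin n → ℝ)}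
    (hK : IsCompact K) (hKO : K ⊆ D.Om) {ε : ℝ} (hε : 0 < ε) :
    ∃ δ > 0, ∀ v ∈ ovr D K, ∀ v', dist v' v < δ →
      v' ∈ D.V ∧ ∀ g : G, dist (D.act g v') (D.act g v) < ε := by
  obtain ⟨δ1, hδ1, h1⟩ := exists_rho_lt (G := G) (isCompact_ovrt D hK hKO) hε
  obtain ⟨δ2, hδ2, h2⟩ := Unif373.unif_one (T := fun v : Fin n → ℝ => v) D.isOpen_V
    (isCompact_ovr D hK hKO) (ovr_subset D K) continuousOn_id one_pos
  refine ⟨min δ1 δ2, lt_min hδ1 hδ2, fun v hv v' hv' => ?_⟩
  have h3 := (h2 v hv v' (lt_of_lt_of_le hv' (min_le_right _ _))).1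
  refine ⟨h3, fun g => ?_⟩
  have h4 : rho G (mk D v hv.1) (mk D v' h3) < ε := by
    refine h1 _ (show mk D v hv.1 ∈ ovrt D K from hv.2) _ ?_
    have h5 : dist v' v < δ1 := lt_of_lt_of_le hv' (min_le_left _ _)
    first
      | exact h5
      | (rw [dist_comm]; exact h5)
  have h6 : dist (g • mk D v hv.1) (g • mk D v' h3) < ε :=
    lt_of_le_of_lt (dist_smul_le_rho (G := G) g _ _) h4
  rw [dist_comm]
  exact h6

/-- 373's `Equi` for the flow of the generator. -/
theorem equi_toFlow (D : Sys n G) [IsTopologicalGroup G] [CompactSpace G] (x : G) (c : ℝ)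
    (hball : closedBall 0 1 ⊆ D.V)
    (hdisp : ∀ v ∈ closedBall (0 : Fin n → ℝ) 1, ∀ g, dist (D.act g v) v ≤ c) :
    Chain373.Equi (toFlow D x c hball hdisp) := by
  intro K hK hKc ε hε
  obtain ⟨δ, hδ, h⟩ := equi_act D hKc hK hε
  exact ⟨δ, hδ, fun v hv v' hv' => ⟨(h v hv v' hv').1, fun i => (h v hv v' hv').2 (x ^ i)⟩⟩

end Crest.Agent.R217.CtrlS970
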