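import Crest.Agent.R217.Grid2_897
import Crest.Agent.R217.Flow_373

/-!
Row 217 (S0336), part C, piece M7: THE INTERFACE between 373's chain package and the fine and
coarse frames (helper970).

* `pos s c` : the position of a cell of `Cell n N` (vertex part only).
* `EqOn P X Y` : equality of the entries `(c', c)` with `c ∈ P` or `c' ∈ P`.
* `FinePkg D q K K1 Rw ε` : the averaged homotopy action, decomposed in its homogeneous
  components modulo `q`; `tw ζ X = ∑ i, ζ ^ i • X i`.
-/

set_option autoImplicit false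
set_option linter.unusedSectionVars false
set_option linter.unusedVariables false

open Metric Set Matrix

namespace Crest.Agent.R217.FinePkg970

open Crest.Agent.R217.Grid897 Crest.Agent.R217.PC473 Crest.Agent.R217.Flow373

variable {n N : ℕ} [NeZero N]

/-- position of a cell: `s` times the vertex part -/
noncomputable def pos (s : ℝ) (c : Cell n N) : Fin n → ℝ :=
  fun j => s * (((c j).1.valMinAbs : ℤ) : ℝ)

/-- equality of the entries with row or column in `P` -/
def EqOn {I R : Type*} (P : Set I) (X Y : Matrix I I R) : Prop :=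
  ∀ c' c, (c ∈ P ∨ c' ∈ P) → X c' c = Y c' c

/-- the cells with position in `P` -/
def cellsIn (s : ℝ) (P : Set (Fin n → ℝ)) : Set (Cell n N) := {c | pos s c ∈ P}

/-- the twisted sum of the homogeneous components, `ζ ^ q = 1` -/
noncomputable def tw {q : ℕ} [NeZero q] {I : Type*} (ζ : ℂ) (X : ZMod q → Matrix I I ℂ) :
    Matrix I I ℂ := ∑ i : ZMod q, ζ ^ i.val • X i

/-- supports of the homogeneous components: `X i c' c ≠ 0` implies `c` over `K1` and `c'` is
`ε`-close to `T i' c` for some natural number `i'` congruent to `i`. -/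
def NearT (D : Flow n) (q : ℕ) (K1 : Set (Fin n → ℝ)) (ε s : ℝ)
    (X : ZMod q → Matrix (Cell n N) (Cell n N) ℂ) : Prop :=
  ∀ i c' c, X i c' c ≠ 0 → pos s c ∈ D.ovr K1 ∧
    ∃ i' : ℕ, (i' : ZMod q) = i ∧ dist (pos s c') (D.T i' (pos s c)) < ε

/-- The averaged homotopy action on the torus grid with mesh `s`. All relations hold in rows or
columns over `K`; everything is supported over `K1`. -/
structure FinePkg (D : Flow n) (q : ℕ) [NeZero q] (K K1 : Set (Fin n → ℝ)) (Rw ε : ℝ) where
  N : ℕ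
  [hN : NeZero N]
  s : ℝ
  s_pos : 0 < s
  s_lt : s < ε
  window : Rw + 3 * s < s * N / 2
  /-- components of the homotopy idempotent -/
  E : ZMod q → Matrix (Cell n N) (Cell n N) ℂ
  /-- components of `e e ~ e` -/
  Hh : ZMod q → Matrix (Cell n N) (Cell n N) ℂ
  /-- components of `e S ~ S e*` -/
  Kk : ZMod q → Matrix (Cell n N) (Cell n N) ℂ
  /-- components of the coarse homotopy -/
  Aa : ZMod q → Matrix (Cell n N) (Cell n N) ℂ
  E_near : NearT D q K1 ε s E
  Hh_near : NearT D q K1 ε s Hh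
  Kk_near : NearT D q K1 ε s Kk
  E_dm : ∀ i c' c, E i c' c ≠ 0 → dm N c' = dm N c
  Hh_dm : ∀ i c' c, Hh i c' c ≠ 0 → dm N c' = dm N c + 1
  Kk_dm : ∀ i c' c, Kk i c' c ≠ 0 → dm N c' + dm N c = n + 1
  rel_d : ∀ i, EqOn (cellsIn s (D.ovr K)) ((gridT N n).d * E i) (E i * (gridT N n).d)
  rel_e : ∀ r, EqOn (cellsIn s (D.ovr K)) (∑ i, E i * E (r - i))
    (E r + (gridT N n).d * Hh r + Hh r * (gridT N n).d)
  rel_S : ∀ i, EqOn (cellsIn s (D.ovr K)) (E i * (gridT N n).S - (gridT N n).S * star (E (-i)))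
    ((gridT N n).d * Kk i - Kk i * star (gridT N n).d)
  Aa_dm : ∀ i c' c, Aa i c' c ≠ 0 → dm N c' = dm N c + 1
  Aa_near : ∀ i c' c, Aa i c' c ≠ 0 → dist (pos s c') (pos s c) < D.c + ε
  rel_A : ∀ r, EqOn (cellsIn s (closedBall 0 (1 / 2))) (E r - ((1 / q : ℝ) : ℂ) • 1)
    ((gridT N n).d * Aa r + Aa r * (gridT N n).d)

attribute [instance] FinePkg.hN

/-! ### elementary facts -/

theorem EqOn.refl {I R : Type*} (P : Set I) (X : Matrix I I R) : EqOn P X X := fun _ _ _ => rfl

theorem EqOn.symm {I R : Type*} {P : Set I} {X Y : Matrix I I R} (h : EqOn P X Y) :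
    EqOn P Y X := fun c' c hc => (h c' c hc).symm

theorem EqOn.trans {I R : Type*} {P : Set I} {X Y Z : Matrix I I R} (h : EqOn P X Y)
    (h' : EqOn P Y Z) : EqOn P X Z := fun c' c hc => (h c' c hc).trans (h' c' c hc)

theorem EqOn.mono {I R : Type*} {P Q : Set I} {X Y : Matrix I I R} (h : EqOn Q X Y)
    (hPQ : P ⊆ Q) : EqOn P X Y := fun c' c hc => h c' c (hc.imp (@hPQ c) (@hPQ c'))

theorem EqOn.add {I R : Type*} [Add R] {P : Set I} {X Y X' Y' : Matrix I I R}
    (h : EqOn P X Y) (h' : EqOn P X' Y') : EqOn P (X + X') (Y + Y') := fun c' c hc => by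
  rw [Matrix.add_apply, Matrix.add_apply, h c' c hc, h' c' c hc]

theorem EqOn.sub {I R : Type*} [Sub R] {P : Set I} {X Y X' Y' : Matrix I I R}
    (h : EqOn P X Y) (h' : EqOn P X' Y') : EqOn P (X - X') (Y - Y') := fun c' c hc => by
  rw [Matrix.sub_apply, Matrix.sub_apply, h c' c hc, h' c' c hc]

theorem EqOn.smul {I : Type*} {P : Set I} {X Y : Matrix I I ℂ} (a : ℂ)
    (h : EqOn P X Y) : EqOn P (a • X) (a • Y) := fun c' c hc => by
  rw [Matrix.smul_apply, Matrix.smul_apply, h c' c hc]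

theorem EqOn.sum {I R ι : Type*} [AddCommMonoid R] {P : Set I} (J : Finset ι)
    {X Y : ι → Matrix I I R} (h : ∀ i ∈ J, EqOn P (X i) (Y i)) :
    EqOn P (∑ i ∈ J, X i) (∑ i ∈ J, Y i) := fun c' c hc => by
  rw [Matrix.sum_apply, Matrix.sum_apply]
  exact Finset.sum_congr rfl fun i hi => h i hi c' c hc

/-- coordinates of neighbouring residues -/
theorem valMinAbs_add_one (a : ZMod N) :
    (a + 1).valMinAbs = a.valMinAbs + 1 ∨ (N : ℤ) ≤ 2 * a.valMinAbs + 2 := by
  by_cases h : (N : ℤ) ≤ 2 * a.valMinAbs + 2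
  · exact Or.inr h
  · left
    rw [ZMod.valMinAbs_spec]
    have h1 := a.valMinAbs_mem_Ioc
    rw [Set.mem_Ioc] at h1
    refine ⟨by push_cast; simp, ?_⟩
    rw [Set.mem_Ioc]
    constructor <;> omega

/-- neighbouring coordinates inside the window are at distance `≤ 1` -/
theorem nb1_val {x y : C1 N} (h : nb1 N x y)
    (hw : 2 * |x.1.valMinAbs| + 6 < N ∨ 2 * |y.1.valMinAbs| + 6 < N) :
    |x.1.valMinAbs - y.1.valMinAbs| ≤ 1 := by
  have key : ∀ a b : ZMod N, b = a + 1 → (2 * |a.valMinAbs| + 6 < N ∨ 2 * |b.valMinAbs| + 6 < N) →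
      |a.valMinAbs - b.valMinAbs| ≤ 1 := by
    intro a b hab hw
    rcases valMinAbs_add_one a with h1 | h1
    · rw [hab, h1, abs_le]
      constructor <;> omega
    · exfalso
      -- wrap around
      have hb : b.valMinAbs = a.valMinAbs + 1 ∨ b.valMinAbs = a.valMinAbs + 1 - N := by
        have h2 := a.valMinAbs_mem_Ioc
        rw [Set.mem_Ioc] at h2
        by_cases h3 : 2 * (a.valMinAbs + 1) ≤ (N : ℤ)
        · left
          rw [ZMod.valMinAbs_spec]
          refine ⟨by push_cast; simp [hab], ?_⟩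
          rw [Set.mem_Ioc]
          constructor <;> omega
        · right
          rw [ZMod.valMinAbs_spec]
          refine ⟨by push_cast; simp [hab], ?_⟩
          rw [Set.mem_Ioc]
          constructor <;> omega
      rcases hw with hw | hw
      · have := le_abs_self a.valMinAbs
        omega
      · have h4 := le_abs_self b.valMinAbs
        have h5 := neg_abs_le b.valMinAbs
        have h2 := a.valMinAbs_mem_Ioc
        rw [Set.mem_Ioc] at h2
        rcases hb with hb | hb <;> omega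
  rcases h with h | h | h
  · rw [h, sub_self]
    norm_num
  · have := key y.1 x.1 h hw.symm
    rwa [abs_sub_comm] at this
  · exact key x.1 y.1 h hw

/-- neighbouring cells are at distance `≤ s`, inside the window -/
theorem dist_pos_le {s Rw : ℝ} (hs : 0 < s) (hw : Rw + 3 * s < s * N / 2) {c c' : Cell n N}
    (h : nb N c' c) (hc : ‖pos s c‖ ≤ Rw ∨ ‖pos s c'‖ ≤ Rw) :
    dist (pos s c') (pos s c) ≤ s := by
  rw [dist_pi_le_iff hs.le]
  intro j
  have hval : ∀ c : Cell n N, ‖pos s c‖ ≤ Rw → 2 * |(c j).1.valMinAbs| + 6 < (N : ℤ) := by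
    intro c hc
    have h1 : |s * (((c j).1.valMinAbs : ℤ) : ℝ)| ≤ Rw := by
      have := (norm_le_pi_norm (pos s c) j).trans hc
      rwa [Real.norm_eq_abs] at this
    rw [abs_mul, abs_of_pos hs] at h1
    have h2 : s * (|(((c j).1.valMinAbs : ℤ) : ℝ)| + 3) < s * (N / 2) := by
      have : s * (N / 2) = s * N / 2 := by ring
      rw [this, mul_add]
      linarith
    have h3 := lt_of_mul_lt_mul_left h2 hs.le
    have h4 : ((2 * |(c j).1.valMinAbs| + 6 : ℤ) : ℝ) < ((N : ℤ) : ℝ) := by
      push_cast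
      linarith
    exact_mod_cast h4
  have h1 := nb1_val (h j) ((hc.imp (hval c) (hval c')).symm)
  have h2 : |(((c' j).1.valMinAbs : ℤ) : ℝ) - (((c j).1.valMinAbs : ℤ) : ℝ)| ≤ 1 := by
    exact_mod_cast h1
  show dist (s * _) (s * _) ≤ s
  rw [Real.dist_eq, ← mul_sub, abs_mul, abs_of_pos hs]
  calc s * _ ≤ s * 1 := by gcongr
    _ = s := mul_one s

end Crest.Agent.R217.FinePkg970
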