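import Crest.Agent.R217.GaugeAsy_555
import Crest.Agent.R217.FinePkg_970

/-!
Row 217 (S0336), part C1, helper555: the twist at `y₁` in the fine frame.
-/

set_option autoImplicit false
set_option linter.unusedSectionVars false
set_option linter.unusedVariables false

open Filter Topology

namespace Crest.Agent.R217.TwFine555

open Asym476 LocF555 GaugeAsy555 FinePkg970

theorem pow_val_add {q : ℕ} [NeZero q] {ζ : ℂ} (hζ : ζ ^ q = 1) (a b : ZMod q) :
    ζ ^ (a + b).val = ζ ^ a.val * ζ ^ b.val := by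
  rw [← pow_add, ZMod.val_add]
  conv_rhs => rw [← Nat.mod_add_div (a.val + b.val) q]
  rw [pow_add, pow_mul, hζ, one_pow, mul_one]

theorem tw_gauge {q : ℕ} [NeZero q] {ζ : ℂ} (hζ : ζ ^ q = 1) (hs : star ζ * ζ = 1) {I : Type*}
    (E : ZMod q → Matrix I I ℂ) (t : ℤ) (c' c : I) (a' a : ZMod q)
    (h : ∀ i, E i c' c ≠ 0 → a' = a + i) :
    tw (ζ ^ (t + 1)) E c' c = ζ ^ a'.val * tw (ζ ^ t) E c' c * star (ζ ^ a.val) := by
  have h0 : ζ ≠ 0 := by
    rintro rfl
    simp at hs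
  unfold tw
  rw [Matrix.sum_apply, Matrix.sum_apply, Finset.mul_sum, Finset.sum_mul]
  refine Finset.sum_congr rfl fun i _ => ?_
  simp only [Matrix.smul_apply, smul_eq_mul]
  by_cases hE : E i c' c = 0
  · rw [hE]; simp
  · have h1 : star (ζ ^ a.val) * ζ ^ a.val = 1 := pow_unit hs _
    rw [h i hE, pow_val_add hζ, zpow_add₀ h0, zpow_one, mul_pow]
    calc (ζ ^ t) ^ i.val * ζ ^ i.val * E i c' c
        = (star (ζ ^ a.val) * ζ ^ a.val) * ((ζ ^ t) ^ i.val * ζ ^ i.val * E i c' c) := by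
          rw [h1, one_mul]
      _ = _ := by ring

theorem tw_per {q : ℕ} [NeZero q] {ζ : ℂ} (hζ : ζ ^ q = 1) {I : Type*}
    (E : ZMod q → Matrix I I ℂ) (t : ℤ) : tw (ζ ^ (t + q)) E = tw (ζ ^ t) E := by
  have h0 : ζ ≠ 0 := by
    rintro rfl
    rw [zero_pow (NeZero.ne q)] at hζ
    exact zero_ne_one hζ
  rw [zpow_add₀ h0, zpow_natCast, hζ, mul_one]

end Crest.Agent.R217.TwFine555
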