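import Crest.Agent.R217.FineObj_970
import Crest.Agent.R217.Ctl_559
import Crest.Agent.R217.Equi_970
import Crest.Agent.R217.TwFine_555

/-!
Row 217 (S0336), part C (helper970): the sequences `e_t`, `h_t`, `k_t` (`t : ℤ`) over the fine
control data `CF D l` of `Ctl_559`, all facts at the level of sequences of matrices on cells.
-/

set_option autoImplicit false
set_option linter.unusedSectionVars false
set_option linter.unusedVariables false

open Filter Topology Metric Set

namespace Crest.Agent.R217.FineSeq970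

open Crest.Agent.R217.CruxN559 Crest.Agent.R217.Coarse889 Crest.Agent.R217.CtrlS970
open Crest.Agent.R217.FinePkg970 Crest.Agent.R217.Flow373 Crest.Agent.R217.Glob559
open Crest.Agent.R217.Grid897 Crest.Agent.R217.Asym476 Crest.Agent.R217.Ctl559
open Crest.Agent.R217.AsyCell970 Crest.Agent.R217.PC473

universe u

variable {n : ℕ} (D : ∀ k, KDat.{u} n (cs k))

theorem eventually_eps_lt (k : ℕ) {δ : ℝ} (hδ : 0 < δ) : ∀ᶠ j in atTop, (D k).eps j < δ := by
  have h1 : ∀ᶠ j : ℕ in atTop, 1 / ((j : ℝ) + 1) < δ :=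
    tendsto_one_div_add_atTop_nhds_zero_nat.eventually (gt_mem_nhds hδ)
  filter_upwards [h1] with j hj
  exact lt_of_le_of_lt ((D k).eps_le j) hj

/-- uniform invariance of the fine controls under "near an orbit" over `K1` -/
theorem uF_near (φ : PhiF n) (k : ℕ) {ε : ℝ} (hε : 0 < ε) :
    ∃ δ > 0, ∀ j, ∀ v ∈ ovr (D k).X.D (D k).K1, ∀ g : (D k).X.G, ∀ v',
      dist v' ((D k).X.D.act g v) < δ → |uF D φ (k, j) v' - uF D φ (k, j) v| < ε := by
  obtain ⟨δ, hδ, h⟩ := exists_control (D k).X.D (uF_cont D φ (k, 0))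
    (fun g v hv => uF_act D φ (k, 0) g hv) (D k).K1_cpt (D k).K1_sub hε
  refine ⟨δ, hδ, fun j v hv g v' hv' => ?_⟩
  rw [uF_fst D φ k j 0]
  have := h v hv g v' hv'
  rwa [Real.dist_eq] at this

/-- the compatibility of the fine control data with the packages -/
theorem fineCtl {l : Filter (ℕ × ℕ)} (hl : l ≤ lf) :
    FineCtl (P := pk D) (C := CF D l) where
  grid := by
    intro φ r hr ε hε
    apply hl
    rw [mem_lf]
    intro k
    obtain ⟨δ, hδ, h⟩ := uF_unif D φ k hr hε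
    have h1 := eventually_lf.1 (eventually_mu_lf D hδ) k
    filter_upwards [h1] with j hj v w hvw hst
    have hst' : (D k).w (xv D (k, j) v) ≤ r ∨ (D k).w (xv D (k, j) w) ≤ r := hst
    have h2 : dist (xv D (k, j) v) (xv D (k, j) w) ≤ mu D (k, j) := by
      refine nb_dist_blk D (k, j) (fun _ => false) (fun _ => false) v w ?_
        (hst'.imp (fun h => norm_le_Rw_of_w D k (lt_of_le_of_lt h hr))
          (fun h => norm_le_Rw_of_w D k (lt_of_le_of_lt h hr)))
      exact hvw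
    rcases hst' with hs | ht
    · exact h j _ _ hs (by rw [dist_comm]; exact lt_of_le_of_lt h2 hj)
    · rw [abs_sub_comm]
      exact h j _ _ ht (lt_of_le_of_lt h2 hj)
  near := by
    intro φ ε hε
    apply hl
    rw [mem_lf]
    intro k
    obtain ⟨δ, hδ, h⟩ := uF_near D φ k hε
    filter_upwards [eventually_eps_lt D k hδ] with j hj w w' hw i' hd
    exact h j _ hw _ _ (hd.trans hj)
  reg := by
    intro r hr
    refine Eventually.of_forall fun a w hw => ?_
    exact ovr_U_sub D a.1 ((D a.1).w_lt _ (lt_of_le_of_lt hw hr))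

/-! ### the twisting parameter -/

/-- the primitive root of unity of level `a` -/
noncomputable def zz (a : ℕ × ℕ) : ℂ := Complex.exp (2 * Real.pi * Complex.I / ((D a.1).X.q : ℂ))

theorem zz_prim (a : ℕ × ℕ) : IsPrimitiveRoot (zz D a) (D a.1).X.q :=
  Complex.isPrimitiveRoot_exp _ (D a.1).X.q_ne_zero

theorem zz_pow (a : ℕ × ℕ) : zz D a ^ (D a.1).X.q = 1 := (zz_prim D a).pow_eq_one

theorem zz_zpow_pow (t : ℤ) (a : ℕ × ℕ) : (zz D a ^ t) ^ (D a.1).X.q = 1 := by
  rw [← zpow_natCast, ← zpow_mul, mul_comm, zpow_mul, zpow_natCast, zz_pow, one_zpow]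

theorem zz_ne_one (a : ℕ × ℕ) : zz D a ≠ 1 :=
  (zz_prim D a).ne_one (D a.1).X.prime.one_lt

theorem star_zz_mul (a : ℕ × ℕ) : star (zz D a) * zz D a = 1 := by
  have h1 : ‖zz D a‖ = 1 := norm_one_of_pow (zz_pow D a)
  rw [← starRingEnd_apply, Complex.conj_mul', h1]
  simp

/-! ### the sequences -/

/-- `d` -/
noncomputable def dS : SeqC n (NN D) := fun a => (gridT (NN D a) n).d

/-- `S` -/
noncomputable def sS : SeqC n (NN D) := fun a => (gridT (NN D a) n).S

/-- the twisted sums `e_t` -/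
noncomputable def eS (t : ℤ) : SeqC n (NN D) := fun a => tw (zz D a ^ t) (pk D a).E

/-- `h_t` -/
noncomputable def hS (t : ℤ) : SeqC n (NN D) := fun a => tw (zz D a ^ t) (pk D a).Hh

/-- `k_t` -/
noncomputable def kS (t : ℤ) : SeqC n (NN D) := fun a => tw (zz D a ^ t) (pk D a).Kk

/-- coarse homotopies `a_t` -/
noncomputable def aS (t : ℤ) : SeqC n (NN D) := fun a => tw (zz D a ^ t) (pk D a).Aa

variable {l : Filter (ℕ × ℕ)} (hl : l ≤ lf) (t : ℤ)

theorem gridCont (hl : l ≤ lf) : GridCont (CF D l) := (fineCtl D hl).grid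

include hl

theorem isLocC_dS : IsLocC (CF D l) (dS D) := isLocC_d (gridCont D hl)

theorem isLocC_sS : IsLocC (CF D l) (sS D) := isLocC_S (gridCont D hl)

theorem isLocC_eS : IsLocC (CF D l) (eS D t) := (fineCtl D hl).isLocC fun a => (pk D a).E_near

theorem isLocC_hS : IsLocC (CF D l) (hS D t) := (fineCtl D hl).isLocC fun a => (pk D a).Hh_near

theorem isLocC_kS : IsLocC (CF D l) (kS D t) := (fineCtl D hl).isLocC fun a => (pk D a).Kk_near

theorem rel_dS : RelC (CF D l) (dS D * eS D t) (eS D t * dS D) :=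
  (fineCtl D hl).relC fun a => tw_rel_d (pk D a)

theorem rel_eS : RelC (CF D l) (eS D t * eS D t) (eS D t + dS D * hS D t + hS D t * dS D) :=
  (fineCtl D hl).relC fun a => tw_rel_e (pk D a) (zz_zpow_pow D t a)

theorem rel_sS : RelC (CF D l) (eS D t * sS D - sS D * star (eS D t))
    (dS D * kS D t - kS D t * star (dS D)) :=
  (fineCtl D hl).relC fun a => tw_rel_S (pk D a) (zz_zpow_pow D t a)

omit hl

theorem eS_dm (a : ℕ × ℕ) {c' c : Cell n (NN D a)} (h : eS D t a c' c ≠ 0) :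
    dm (NN D a) c' = dm (NN D a) c := by
  obtain ⟨i, hi⟩ := tw_ne_zero h
  exact (pk D a).E_dm i c' c hi

theorem hS_dm (a : ℕ × ℕ) {c' c : Cell n (NN D a)} (h : hS D t a c' c ≠ 0) :
    dm (NN D a) c' = dm (NN D a) c + 1 := by
  obtain ⟨i, hi⟩ := tw_ne_zero h
  exact (pk D a).Hh_dm i c' c hi

theorem kS_dm (a : ℕ × ℕ) {c' c : Cell n (NN D a)} (h : kS D t a c' c ≠ 0) :
    dm (NN D a) c' + dm (NN D a) c = n + 1 := by
  obtain ⟨i, hi⟩ := tw_ne_zero h
  exact (pk D a).Kk_dm i c' c hi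

/-- periodicity in `t`, level by level -/
theorem eS_per (a : ℕ × ℕ) : eS D (t + (D a.1).X.q) a = eS D t a :=
  TwFine555.tw_per (zz_pow D a) _ _

theorem hS_per (a : ℕ × ℕ) : hS D (t + (D a.1).X.q) a = hS D t a :=
  TwFine555.tw_per (zz_pow D a) _ _

theorem kS_per (a : ℕ × ℕ) : kS D (t + (D a.1).X.q) a = kS D t a :=
  TwFine555.tw_per (zz_pow D a) _ _

/-! ### gauges -/

/-- the unitary label of the gauge `m` -/
noncomputable def om (m : ℕ) (a : ℕ × ℕ) (v : BV D a) : ℂ :=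
  zz D a ^ ((D a.1).gθ m (xv D a v)).val

theorem star_om_mul (m : ℕ) (a : ℕ × ℕ) (v : BV D a) : star (om D m a v) * om D m a v = 1 := by
  unfold om
  rw [star_pow, ← mul_pow, star_zz_mul, one_pow]

theorem om_mul_star (m : ℕ) (a : ℕ × ℕ) (v : BV D a) : om D m a v * star (om D m a v) = 1 := by
  rw [mul_comm, star_om_mul]

/-- the gauge relation for twisted sums near the powers of the flow -/
theorem gauge_near (k m : ℕ)
    (X : ∀ a, ZMod (D a.1).X.q → Matrix (Cell n (NN D a)) (Cell n (NN D a)) ℂ)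
    (hX : ∀ a, NearT (flow (D a.1).X) (D a.1).X.q (D a.1).K1 ((D a.1).eps a.2) (mu D a) (X a)) :
    ∀ᶠ a in lk k, ∀ t : ℤ, ∀ c' c : Cell n (NN D a),
      0 < (D a.1).gκ m (xv D a (vt c')) → 0 < (D a.1).gκ m (xv D a (vt c)) →
        tw (zz D a ^ (t + 1)) (X a) c' c =
          om D m a (vt c') * tw (zz D a ^ t) (X a) c' c * star (om D m a (vt c)) := by
  rw [eventually_lk]
  filter_upwards [eventually_eps_lt D k (D k).gη_pos] with j hj t c' c hc' hc
  refine TwFine555.tw_gauge (zz_pow D (k, j)) (star_zz_mul D (k, j)) (X (k, j)) t c' c _ _ ?_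
  intro i hi
  obtain ⟨h1, i', h2, h3⟩ := hX (k, j) i c' c hi
  rw [flow_T, zpow_natCast] at h3
  have h4 := (D k).gθ_lab m (xv D (k, j) (vt c)) (xv D (k, j) (vt c')) hc hc' i' (h3.trans hj)
  exact h4.trans (by rw [h2])

theorem gauge_eS (k m : ℕ) : ∀ᶠ a in lk k, ∀ t : ℤ, ∀ c' c : Cell n (NN D a),
    0 < (D a.1).gκ m (xv D a (vt c')) → 0 < (D a.1).gκ m (xv D a (vt c)) →
      eS D (t + 1) a c' c = om D m a (vt c') * eS D t a c' c * star (om D m a (vt c)) :=
  gauge_near D k m (fun a => (pk D a).E) fun a => (pk D a).E_near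

theorem gauge_hS (k m : ℕ) : ∀ᶠ a in lk k, ∀ t : ℤ, ∀ c' c : Cell n (NN D a),
    0 < (D a.1).gκ m (xv D a (vt c')) → 0 < (D a.1).gκ m (xv D a (vt c)) →
      hS D (t + 1) a c' c = om D m a (vt c') * hS D t a c' c * star (om D m a (vt c)) :=
  gauge_near D k m (fun a => (pk D a).Hh) fun a => (pk D a).Hh_near

theorem gauge_kS (k m : ℕ) : ∀ᶠ a in lk k, ∀ t : ℤ, ∀ c' c : Cell n (NN D a),
    0 < (D a.1).gκ m (xv D a (vt c')) → 0 < (D a.1).gκ m (xv D a (vt c)) →
      kS D (t + 1) a c' c = om D m a (vt c') * kS D t a c' c * star (om D m a (vt c)) :=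
  gauge_near D k m (fun a => (pk D a).Kk) fun a => (pk D a).Kk_near

/-- the gauge relation for constant families moving to neighbours only (`d, S, T, H, g`) -/
theorem gauge_nb (k m : ℕ) (M : SeqC n (NN D)) (hM : ∀ a c' c, M a c' c ≠ 0 → nb (NN D a) c' c) :
    ∀ r < (1 : ℝ), ∀ᶠ a in lk k, ∀ c' c : Cell n (NN D a),
      ((D a.1).w (xv D a (vt c')) ≤ r ∨ (D a.1).w (xv D a (vt c)) ≤ r) →
      0 < (D a.1).gκ m (xv D a (vt c')) → 0 < (D a.1).gκ m (xv D a (vt c)) →
        M a c' c = om D m a (vt c') * M a c' c * star (om D m a (vt c)) := by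
  intro r hr
  rw [eventually_lk]
  have h1 := eventually_lf.1 (eventually_mu_lf D (D k).gη_pos) k
  filter_upwards [h1] with j hj c' c hw hc' hc
  by_cases h0 : M (k, j) c' c = 0
  · rw [h0, mul_zero, zero_mul]
  · have hnb := hM (k, j) c' c h0
    have h2 : dist (xv D (k, j) (vt c')) (xv D (k, j) (vt c)) ≤ mu D (k, j) :=
      nb_dist D (k, j) hnb (hw.symm.imp (fun h => norm_le_Rw_of_w D k (lt_of_le_of_lt h hr))
        (fun h => norm_le_Rw_of_w D k (lt_of_le_of_lt h hr)))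
    have hcV := ((D k).gκ_pos m _ hc).1
    have h3 := (D k).gθ_lab m (xv D (k, j) (vt c)) (xv D (k, j) (vt c')) hc hc' 0 (by
      rw [pow_zero, (D k).X.D.act_one _ hcV]
      exact lt_of_le_of_lt h2 hj)
    rw [Nat.cast_zero, add_zero] at h3
    have h4 : om D m (k, j) (vt c') = om D m (k, j) (vt c) := by
      unfold om
      rw [show (D (k, j).1).gθ m (xv D (k, j) (vt c')) = (D (k, j).1).gθ m (xv D (k, j) (vt c))
        from h3]
    rw [h4, mul_right_comm, om_mul_star, one_mul]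

/-- over the closed ball of radius `gr / 2` around `y1` the gauges cover -/
theorem gauge_cover (k : ℕ) {x : Fin n → ℝ} (hx : (D k).w x < 1)
    (hF : dist ((D k).F x) (D k).X.y1 ≤ (D k).gr / 2) : ∃ m < (D k).gm, (D k).gc ≤ (D k).gκ m x := by
  have h1 := (D k).w_lt x hx
  rw [(D k).F_eq x (ovr_U_sub D k h1)] at hF
  exact (D k).gκ_cov x h1.1 hF

end Crest.Agent.R217.FineSeq970
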