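import Mathlib
import Crest.Agent.R217.FineSeq_970
import Crest.Agent.R217.CoGrid_559

/-!
Row 217 (S0336), part C: the sequences over the coarse control data `CC D`.
-/

set_option autoImplicit false
set_option linter.unusedSectionVars false
set_option linter.unusedVariables false

open Filter Topology Metric Set

namespace Crest.Agent.R217.CoSeq559

open Crest.Agent.R217.CruxN559 Crest.Agent.R217.Coarse889 Crest.Agent.R217.CtrlS970
open Crest.Agent.R217.FinePkg970 Crest.Agent.R217.Flow373 Crest.Agent.R217.Glob559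
open Crest.Agent.R217.Grid897 Crest.Agent.R217.Asym476 Crest.Agent.R217.Ctl559
open Crest.Agent.R217.AsyCell970 Crest.Agent.R217.PC473 Crest.Agent.R217.FineSeq970

universe u

/-! ### restriction of sequences -/

section res

variable {n : ℕ} {A : Type} {N : A → ℕ} [∀ a, NeZero (N a)] {C C' : Ctl (BV n N)}

theorem isLocC_res (h : C.Le C') {M : SeqC n N} (hM : IsLocC C M) : IsLocC C' M := by
  rw [isLocC_iff] at hM ⊢
  exact fun i j => h.isLoc (hM i j)

theorem relC_res (h : C.Le C') {M M' : SeqC n N} (hM : RelC C M M') : RelC C' M M' := by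
  rw [relC_iff] at hM ⊢
  exact fun i j => h.rel (hM i j)

/-- restriction of classes -/
theorem toA_chg (h : C.Le C') (M : LocC C) :
    (toA C M).map (chg ℂ h) = toA C' ⟨M.1, isLocC_res h (mem_LocC.1 M.2)⟩ := by
  ext i j
  rw [Matrix.map_apply, toA_apply, toA_apply, chg_cls]
  rfl

end res

variable {n : ℕ} (D : ∀ k, KDat.{u} n (cs k))

/-- `F` is close to the identity on a bigger ball -/
theorem dist_F_le' (k : ℕ) {x : Fin n → ℝ} (hx : ‖x‖ ≤ 3 / 4) : dist ((D k).F x) x ≤ cs k := by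
  have h1 : x ∈ closedBall (0 : Fin n → ℝ) 1 := by
    rw [mem_closedBall_zero_iff]
    linarith
  have h2 := (D k).X.ball_V h1
  have h3 := ((D k).X.disp x h2 (Or.inl h1)).2
  have h4 := cs_le k
  refine dist_F_le D k ⟨h2, ?_⟩
  rw [mem_closedBall_zero_iff]
  have h5 : ‖(D k).X.D.f x‖ ≤ dist ((D k).X.D.f x) x + ‖x‖ := by
    rw [dist_eq_norm]
    calc ‖(D k).X.D.f x‖ = ‖((D k).X.D.f x - x) + x‖ := by rw [sub_add_cancel]
      _ ≤ _ := norm_add_le _ _
  linarith

theorem eventually_eps_lc {δ : ℝ} (hδ : 0 < δ) : ∀ᶠ a in lc, cs a.1 + (D a.1).eps a.2 < δ := by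
  have h1 : ∀ᶠ k in atTop, cs k < δ / 2 := tendsto_cs.eventually (gt_mem_nhds (by positivity))
  have h2 : ∀ᶠ a in lf, (D a.1).eps a.2 < δ / 2 := by
    rw [eventually_lf]
    intro k
    exact eventually_eps_lt D k (by positivity)
  filter_upwards [eventually_lc_fst h1, lc_le_lf h2] with a ha ha'
  linarith

/-- sequences of small displacement are local for the coarse control data -/
theorem isLocC_C_of_small {M : SeqC n (NN D)}
    (hM : ∀ a c' c, M a c' c ≠ 0 →
      dist (xv D a (vt c')) (xv D a (vt c)) < cs a.1 + (D a.1).eps a.2) :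
    IsLocC (CC D) M := by
  -- symmetric statement
  have key : ∀ ε > (0 : ℝ), ∀ φ, ∀ᶠ a in lc, ∀ x y : Fin n → ℝ, ‖x‖ ≤ 1 / 2 →
      dist x y < cs a.1 + (D a.1).eps a.2 → |uC D φ a x - uC D φ a y| < ε := by
    intro ε hε φ
    have h1 : ∀ᶠ k in atTop, cs k < ε / 4 := tendsto_cs.eventually (gt_mem_nhds (by positivity))
    filter_upwards [eventually_eps_lc D (show 0 < min (ε / 4) (1 / 4) by positivity),
      eventually_lc_fst h1] with a ha hk x y hx hxy
    have hd : dist x y < ε / 4 := hxy.trans (ha.trans_le (min_le_left _ _))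
    have hd' : dist x y < 1 / 4 := hxy.trans (ha.trans_le (min_le_right _ _))
    have hy : ‖y‖ ≤ 3 / 4 := by
      have : ‖y‖ ≤ ‖x‖ + dist x y := by
        rw [dist_comm, dist_eq_norm]
        calc ‖y‖ = ‖x + (y - x)‖ := by rw [add_sub_cancel]
          _ ≤ _ := norm_add_le _ _
      linarith
    cases φ with
    | x i =>
      have h2 := dist_le_pi_dist x y i
      rw [Real.dist_eq] at h2
      show |x i - y i| < ε
      linarith
    | f i =>
      have h2 := dist_le_pi_dist ((D a.1).F x) ((D a.1).F y) i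
      rw [Real.dist_eq] at h2
      have h3 := dist_F_le' D a.1 (x := x) (by linarith)
      have h4 := dist_F_le' D a.1 hy
      have h5 : dist ((D a.1).F x) ((D a.1).F y) ≤ dist ((D a.1).F x) x + dist x y +
          dist y ((D a.1).F y) := dist_triangle4 _ _ _ _
      rw [dist_comm y] at h5
      show |(D a.1).F x i - (D a.1).F y i| < ε
      linarith
    | o =>
      have h2 : |‖x‖ - ‖y‖| ≤ dist x y := by
        rw [dist_eq_norm]
        exact abs_norm_sub_norm_le _ _
      show |2 * ‖x‖ - 2 * ‖y‖| < ε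
      rw [← mul_sub, abs_mul, abs_two]
      linarith
  intro φ r hr ε hε
  filter_upwards [key ε hε φ] with a ha c' c hc h0
  have h1 := hM a c' c h0
  rcases hc with h | h
  · have h2 : 2 * ‖xv D a (vt c')‖ ≤ r := h
    exact ha _ _ (by linarith) h1
  · have h2 : 2 * ‖xv D a (vt c)‖ ≤ r := h
    rw [abs_sub_comm]
    exact ha _ _ (by linarith) (by rw [dist_comm]; exact h1)

variable (t : ℤ)

theorem isLocC_aS : IsLocC (CC D) (aS D t) := by
  refine isLocC_C_of_small D fun a c' c h0 => ?_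
  obtain ⟨i, hi⟩ := tw_ne_zero h0
  exact (pk D a).Aa_near i c' c hi

theorem isLocC_eS_C : IsLocC (CC D) (eS D t) := isLocC_res (le_CC D) (isLocC_eS D (le_refl lf) t)

theorem aS_dm (a : ℕ × ℕ) {c' c : Cell n (NN D a)} (h : aS D t a c' c ≠ 0) :
    dm (NN D a) c' = dm (NN D a) c + 1 := by
  obtain ⟨i, hi⟩ := tw_ne_zero h
  exact (pk D a).Aa_dm i c' c hi

theorem relC_C_of {M M' : SeqC n (NN D)}
    (h : ∀ a, EqOn (cellsIn (mu D a) (closedBall 0 (1 / 2))) (M a) (M' a)) :
    RelC (CC D) M M' := by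
  intro r hr
  refine Eventually.of_forall fun a c' c hc => h a c' c (hc.symm.imp ?_ ?_)
  · intro h
    have h2 : 2 * ‖xv D a (vt c)‖ ≤ r := h
    show xv D a (vt c) ∈ closedBall 0 (1 / 2)
    rw [mem_closedBall_zero_iff]
    linarith
  · intro h
    have h2 : 2 * ‖xv D a (vt c')‖ ≤ r := h
    show xv D a (vt c') ∈ closedBall 0 (1 / 2)
    rw [mem_closedBall_zero_iff]
    linarith

/-- `e_0 ≃ 1` -/
theorem rel_zero : RelC (CC D) (eS D 0 - 1) (dS D * aS D 0 + aS D 0 * dS D) := by
  refine relC_C_of D fun a => ?_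
  have h := tw_rel_A_one (pk D a)
  show EqOn _ (tw (zz D a ^ (0 : ℤ)) (pk D a).E - 1)
    ((gridT (NN D a) n).d * tw (zz D a ^ (0 : ℤ)) (pk D a).Aa +
      tw (zz D a ^ (0 : ℤ)) (pk D a).Aa * (gridT (NN D a) n).d)
  rw [zpow_zero]
  exact h

/-- `e_1 ≃ 0` -/
theorem rel_one : RelC (CC D) (eS D 1) (dS D * aS D 1 + aS D 1 * dS D) := by
  refine relC_C_of D fun a => ?_
  show EqOn _ (tw (zz D a ^ (1 : ℤ)) (pk D a).E)
    ((gridT (NN D a) n).d * tw (zz D a ^ (1 : ℤ)) (pk D a).Aa +
      tw (zz D a ^ (1 : ℤ)) (pk D a).Aa * (gridT (NN D a) n).d)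
  rw [zpow_one]
  exact tw_rel_A_ne (pk D a) (zz_pow D a) (zz_ne_one D a)

end Crest.Agent.R217.CoSeq559
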