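import Crest.Agent.R217.LineOp_897
import Crest.Agent.R217.AsyCell_970
import Crest.Agent.R217.NormB_551
import Crest.Agent.R217.FrameAsy_476

/-! Row 217 (S0336), part C: the coordinate lines of the torus grid over the asymptotic algebra
(hypotheses of `NormB_551` / `NormC_551`). -/

set_option autoImplicit false
set_option linter.unusedSectionVars false

open Filter Topology Matrix
open scoped BigOperators

namespace Crest.Agent.R217.Grid897

open Crest.Agent.R217.PC473 Crest.Agent.R217.Norm551 Crest.Agent.R217.Asym476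
  Crest.Agent.R217.AsyCell970 Crest.Agent.R217.Obj52

noncomputable section

variable {n : ℕ} {A : Type} {N : A → ℕ} [∀ a, NeZero (N a)]

/-- sequences of matrices on the circle -/
abbrev SeqL (N : A → ℕ) : Type := ∀ a, Matrix (C1 (N a)) (C1 (N a)) ℂ

/-- acting on coordinate `i`, levelwise -/
def opS (n : ℕ) (N : A → ℕ) [∀ a, NeZero (N a)] (i : Fin n) : SeqL N →⋆ₐ[ℂ] SeqC n N where
  toFun M := fun a => opi n (N a) i (M a)
  map_one' := funext fun _ => map_one _
  map_mul' _ _ := funext fun _ => map_mul _ _ _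
  map_zero' := funext fun _ => map_zero _
  map_add' _ _ := funext fun _ => map_add _ _ _
  commutes' c := funext fun a => AlgHomClass.commutes (opi n (N a) i) c
  map_star' _ := funext fun _ => map_star _ _

theorem opS_apply (i : Fin n) (M : SeqL N) (a : A) : opS n N i M a = opi n (N a) i (M a) := rfl

/-- what is used about the control data: positions, window, grid continuity -/
structure GridCtl (C : Ctl (BV n N)) where
  μ : A → ℝ
  μ_pos : ∀ a, 0 < μ a
  μ_lim : Tendsto μ C.l (𝓝 0)
  ξ : Fin n → C.Φ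
  hξ : ∀ i a v, C.u (ξ i) a v = μ a * (((v i).valMinAbs : ℤ) : ℝ)
  cont : GridCont C
  win : ∀ r < (1 : ℝ), ∀ᶠ a in C.l, ∀ v : VV n (N a), C.u C.o a v ≤ r →
    ∀ i, 2 * |(v i).valMinAbs| + 8 ≤ (N a : ℤ)

variable {C : Ctl (BV n N)}

/-- circle matrices which become local on coordinate `i` -/
def SL (C : Ctl (BV n N)) (i : Fin n) : StarSubalgebra ℂ (SeqL N) :=
  (LocC C).comap (opS n N i)

theorem mem_SL {i : Fin n} {M : SeqL N} : M ∈ SL C i ↔ IsLocC C (opS n N i M) := Iff.rfl

/-- the class of a circle matrix acting on coordinate `i` -/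
def Th (C : Ctl (BV n N)) (i : Fin n) : SL C i →⋆ₐ[ℂ] Matrix (JJ n) (JJ n) (Asy C ℂ) :=
  (toA C).comp (StarAlgHom.codRestrict ((opS n N i).comp (SL C i).subtype) (LocC C) fun x => x.2)

theorem Th_apply (i : Fin n) (x : SL C i) : Th C i x = toA C ⟨opS n N i x.1, x.2⟩ := rfl

theorem mem_SL_of_nb (h : GridCtl C) {i : Fin n} {M : SeqL N}
    (hM : ∀ a s t, M a s t ≠ 0 → nb1 (N a) s t) : M ∈ SL C i := by
  rw [mem_SL]
  refine h.cont.isLocC fun a c' c h0 => ?_
  rw [opS_apply, opi_apply] at h0
  intro j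
  by_cases hj : j = i
  · subst hj
    refine hM a _ _ fun h1 => h0 ?_
    rw [h1]
    split_ifs <;> rfl
  · have : ∀ j, j ≠ i → c' j = c j := by
      by_contra hc
      exact h0 (by rw [if_neg hc])
    rw [this j hj]
    exact nb1_refl _

theorem mem_SL_diag {i : Fin n} (D : ∀ a, C1 (N a) → ℂ) :
    (fun a => Matrix.diagonal (D a) : SeqL N) ∈ SL C i := by
  rw [mem_SL]
  refine isLocC_of_diag C fun a c' c hne => ?_
  rw [opS_apply, opi_diagonal, Matrix.diagonal_apply_ne]
  rintro rfl
  exact hne rfl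

theorem blkSeq_apply (M : SeqC n N) (j j' : JJ n) (a : A) (s t : VV n (N a)) :
    blkSeq M j j' a s t = M a (cellEquiv n (N a) (j, s)) (cellEquiv n (N a) (j', t)) := rfl

theorem opS_win (h : GridCtl C) {i : Fin n} {x y : SeqL N} (hx : IsLocC C (opS n N i x))
    (hy : IsLocC C (opS n N i y)) (hxy : ∀ a, WEq (N a) (x a) (y a)) :
    RelC C (opS n N i x) (opS n N i y) := by
  rw [relC_iff]
  intro j j'
  apply Rel.of_and (IsLocC.blk hx j j') (IsLocC.blk hy j j')
  intro r hr
  filter_upwards [h.win r hr] with a ha s t hs ht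
  have h1 := ha s hs i
  have h2 := ha t ht i
  rw [blkSeq_apply, blkSeq_apply, opS_apply, opS_apply, opi_apply, opi_apply]
  rw [hxy a (cellEquiv n (N a) (j, s) i) (cellEquiv n (N a) (j', t) i) h1 h2]

/-- equality in the window suffices -/
theorem Th_eq (h : GridCtl C) {i : Fin n} {x y : SL C i}
    (hxy : ∀ a, WEq (N a) (x.1 a) (y.1 a)) : Th C i x = Th C i y := by
  rw [Th_apply, Th_apply, toA_eq]
  exact opS_win h x.2 y.2 hxy

theorem Th_congr {i : Fin n} {x y : SL C i} (hxy : ∀ a, x.1 a = y.1 a) :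
    Th C i x = Th C i y := by
  have : x = y := Subtype.ext (funext hxy)
  rw [this]

/-- operators on different coordinates commute -/
theorem Th_comm {i j : Fin n} (hij : i ≠ j) (x : SL C i) (y : SL C j) :
    Th C i x * Th C j y = Th C j y * Th C i x := by
  rw [Th_apply, Th_apply, ← map_mul, ← map_mul]
  congr 1
  exact Subtype.ext (funext fun a => opi_comm hij _ _)

/-! ### the line -/

section line

variable (h : GridCtl C) (i : Fin n)

def gL : SL C i := ⟨fun a => g1 (N a), mem_SL_diag _⟩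
def dL : SL C i := ⟨fun a => d1 (N a), mem_SL_of_nb h fun _ _ _ h0 => (d1_supp h0).2.2⟩
def sL : SL C i := ⟨fun a => s1 (N a), mem_SL_of_nb h fun _ _ _ h0 => (s1_supp h0).2⟩
def PL : SL C i := ⟨fun a => Pw (N a), mem_SL_diag _⟩
def eL : SL C i := ⟨fun a => ew (N a), mem_SL_diag _⟩
def vL : SL C i := ⟨fun a => vw (N a), mem_SL_diag _⟩

theorem kw_nb {N : ℕ} [NeZero N] {s t : C1 N} (h0 : kw N s t ≠ 0) : nb1 N s t := by
  rw [kw, Matrix.of_apply] at h0
  by_cases hc : s = (1, false) ∧ t = (0, true)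
  · rw [hc.1, hc.2]
    right; left; simp
  · rw [if_neg hc] at h0
    exact absurd rfl h0

theorem uw_nb {N : ℕ} [NeZero N] {s t : C1 N} (h0 : uw N s t ≠ 0) : nb1 N s t := by
  rw [uw, Matrix.of_apply] at h0
  by_cases hc : s = (0, false) ∧ t = (0, true)
  · rw [hc.1, hc.2]
    left; rfl
  · rw [if_neg hc] at h0
    exact absurd rfl h0

def kL : SL C i := ⟨fun a => kw (N a), mem_SL_of_nb h fun _ _ _ h0 => kw_nb h0⟩
def uL : SL C i := ⟨fun a => uw (N a), mem_SL_of_nb h fun _ _ _ h0 => uw_nb h0⟩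

/-- the line of the coordinate `i` -/
def LA : Line (Matrix (JJ n) (JJ n) (Asy C ℂ)) :=
  lineOf (Th C i (gL i)) (Th C i (dL h i)) (Th C i (sL h i)) (Th C i (PL i)) (Th C i (eL i))
    (Th C i (vL i)) (Th C i (kL h i))

theorem LA_pre : PreLine (Th C i (gL i)) (Th C i (dL h i)) (Th C i (sL h i)) (Th C i (PL i))
    (Th C i (eL i)) (Th C i (vL i)) (Th C i (kL h i)) (Th C i (uL h i)) where
  gg := by
    rw [← map_mul, ← map_one (Th C i)]
    exact Th_congr fun a => g1_sq _
  sg := by
    rw [← map_star]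
    exact Th_congr fun a => star_g1 _
  dd := by
    rw [← map_mul, ← map_zero (Th C i)]
    exact Th_congr fun a => d1_sq _
  gd := by
    rw [← map_mul, ← map_mul, ← map_neg]
    exact Th_congr fun a => g1_d1 _
  sS := by
    rw [← map_star]
    exact Th_congr fun a => star_s1 _
  gS := by
    rw [← map_mul, ← map_mul, ← map_neg]
    exact Th_congr fun a => g1_s1 _
  dS := by
    rw [← map_star, ← map_mul, ← map_mul, ← map_add, ← map_zero (Th C i)]
    exact Th_congr fun a => d1_s1 _
  Sd := by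
    rw [← map_star, ← map_mul, ← map_mul, ← map_add, ← map_zero (Th C i)]
    exact Th_congr fun a => s1_d1 _
  SS := by
    rw [← map_star, ← map_mul, ← map_mul, ← map_mul, ← map_add, ← map_smul, ← map_one (Th C i),
      ← map_sub]
    refine Th_congr fun a => ?_
    have := s1_sq (N a)
    rw [one_div] at this
    exact this
  PP := by
    rw [← map_mul]
    exact Th_congr fun a => Pw_sq
  sP := by
    rw [← map_star]
    exact Th_congr fun a => star_Pw
  gP := by
    rw [← map_mul, ← map_mul]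
    exact Th_congr fun a => g1_Pw
  PdP := by
    rw [← map_mul, ← map_mul]
    exact Th_eq h fun a => Pw_d1_Pw
  ee := by
    rw [← map_mul]
    exact Th_congr fun a => ew_sq
  se := by
    rw [← map_star]
    exact Th_congr fun a => star_ew
  Pe := by
    rw [← map_mul]
    exact Th_congr fun a => Pw_ew
  ge := by
    rw [← map_mul, ← map_neg]
    exact Th_congr fun a => g1_ew
  vv := by
    rw [← map_mul]
    exact Th_congr fun a => vw_sq
  sv := by
    rw [← map_star]
    exact Th_congr fun a => star_vw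
  Pv := by
    rw [← map_mul]
    exact Th_eq h fun a => Pw_vw_win
  gv := by
    rw [← map_mul]
    exact Th_congr fun a => g1_vw
  ev := by
    rw [← map_mul, ← map_zero (Th C i)]
    exact Th_congr fun a => ew_vw
  vk := by
    rw [← map_mul]
    exact Th_congr fun a => vw_kw
  ke := by
    rw [← map_mul]
    exact Th_congr fun a => kw_ew
  kk := by
    rw [← map_star, ← map_mul]
    exact Th_congr fun a => star_kw_kw
  kk' := by
    rw [← map_star, ← map_mul]
    exact Th_congr fun a => kw_star_kw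
  Pde := by
    rw [← map_mul, ← map_mul]
    exact Th_eq h fun a => Pw_d1_ew
  PSe := by
    rw [← map_mul, ← map_mul, ← map_smul]
    exact Th_eq h fun a => Pw_s1_ew
  dv := by
    rw [← map_mul, ← map_zero (Th C i)]
    exact Th_congr fun a => d1_vw
  ed := by
    rw [← map_mul, ← map_zero (Th C i)]
    exact Th_congr fun a => ew_d1
  uu := by
    rw [← map_star, ← map_mul]
    exact Th_congr fun a => star_uw_uw
  dP := by
    rw [← map_mul, ← map_mul, ← map_mul, ← map_sub, ← map_neg]
    exact Th_eq h fun a => d1_Pw_sub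
  SP := by
    rw [← map_mul, ← map_mul, ← map_mul, ← map_sub, ← map_smul]
    exact Th_eq h fun a => s1_Pw_sub

theorem LA_is : (LA h i).Is := (LA_pre h i).line

/-- all entries of the line come from circle matrices -/
theorem LA_set {z : Matrix (JJ n) (JJ n) (Asy C ℂ)} (hz : z ∈ (LA h i).set) :
    ∃ x : SL C i, z = Th C i x := by
  simp only [Line.set, LA, lineOf, Set.mem_insert_iff, Set.mem_singleton_iff] at hz
  rcases hz with rfl | rfl | rfl | rfl | rfl | rfl | rfl | rfl | rfl | rfl
  · exact ⟨_, rfl⟩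
  · exact ⟨_, rfl⟩
  · exact ⟨_, rfl⟩
  · exact ⟨_, rfl⟩
  · exact ⟨_, rfl⟩
  · exact ⟨_, rfl⟩
  · exact ⟨_, rfl⟩
  · exact ⟨(4⁻¹ : ℂ) • (PL i * star (dL h i) * PL i), by
      rw [map_smul, map_mul, map_mul, map_star]⟩
  · exact ⟨PL i * sL h i * PL i, by rw [map_mul, map_mul]⟩
  · exact ⟨(4⁻¹ : ℂ) • (PL i * dL h i * PL i), by rw [map_smul, map_mul, map_mul]⟩

theorem LA_comm {i j : Fin n} (hij : i ≠ j) :
    (LA h j).set ⊆ (StarSubalgebra.centralizer ℂ (LA h i).set : Set _) := by
  intro w hw
  obtain ⟨y, rfl⟩ := LA_set h j hw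
  rw [SetLike.mem_coe, StarSubalgebra.mem_centralizer_iff]
  intro z hz
  obtain ⟨x, rfl⟩ := LA_set h i hz
  exact ⟨Th_comm hij x y, by rw [← map_star]; exact Th_comm hij (star x) y⟩

end line

/-! ### the grid tuple is the iterated product of the lines -/

/-- evaluation of a local sequence at a level -/
def evL (C : Ctl (BV n N)) (a : A) : LocC C →⋆ₐ[ℂ] Matrix (Cell n (N a)) (Cell n (N a)) ℂ where
  toFun M := M.1 a
  map_one' := rfl
  map_mul' _ _ := rfl
  map_zero' := rfl
  map_add' _ _ := rfl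
  commutes' _ := rfl
  map_star' _ := rfl

theorem evL_apply (a : A) (M : LocC C) : evL C a M = M.1 a := rfl

/-- the line of coordinate `i` in the local sequences (only `g`, `d`, `S` matter) -/
def lineL (h : GridCtl C) (i : Fin n) : Line (LocC C) :=
  lineOf ⟨opS n N i (gL i : SL C i).1, (gL i : SL C i).2⟩ ⟨opS n N i (dL h i).1, (dL h i).2⟩
    ⟨opS n N i (sL h i).1, (sL h i).2⟩ 0 0 0 0

theorem gridL_eq_gl (h : GridCtl C) : gridL h.cont = gl (lineL h) (List.finRange n) := by
  have key : ∀ a, (gl (lineL h) (List.finRange n)).map (evL C a) = gridT (N a) n := by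
    intro a
    rw [gridT_eq_gl, ← List.map_id (List.finRange n)]
    rw [gl_map (evL C a) (lineL h) (lineF n (N a)) id (fun i => rfl) (fun i => rfl) (fun i => rfl)]
    rw [List.map_id]
  have hp := fun a => congrArg Tup.p (key a)
  have hg := fun a => congrArg Tup.g (key a)
  have hd := fun a => congrArg Tup.d (key a)
  have hS := fun a => congrArg Tup.S (key a)
  have hT := fun a => congrArg Tup.T (key a)
  have hH := fun a => congrArg Tup.H (key a)
  refine Tup.ext ?_ ?_ ?_ ?_ ?_ ?_
  · exact Subtype.ext (funext fun a => (hp a).symm)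
  · exact Subtype.ext (funext fun a => (hg a).symm)
  · exact Subtype.ext (funext fun a => (hd a).symm)
  · exact Subtype.ext (funext fun a => (hS a).symm)
  · exact Subtype.ext (funext fun a => (hT a).symm)
  · exact Subtype.ext (funext fun a => (hH a).symm)

theorem gridA_eq_gl (h : GridCtl C) : gridA h.cont = gl (LA h) (List.finRange n) := by
  rw [gridA, gridL_eq_gl h]
  have := gl_map (toA C) (lineL h) (LA h) id (fun i => rfl) (fun i => rfl) (fun i => rfl)
    (List.finRange n)
  rw [List.map_id] at this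
  exact this.symm

/-! ### diagonal entries, homogeneity -/

theorem Th_diag_apply (i : Fin n) (D : ∀ a, C1 (N a) → ℂ) :
    Th C i ⟨fun a => Matrix.diagonal (D a), mem_SL_diag _⟩ =
      Matrix.diagonal fun j : JJ n => dg C ℂ (fun a (v : VV n (N a)) => D a (v i, j i)) := by
  ext j j'
  rw [Th_apply, toA_apply]
  by_cases hj : j = j'
  · subst hj
    rw [Matrix.diagonal_apply_eq, dg_apply]
    congr 1
    apply Subtype.ext
    funext a
    ext s t
    show opi n (N a) i (Matrix.diagonal (D a)) (cellEquiv n (N a) (j, s))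
      (cellEquiv n (N a) (j, t)) = Matrix.diagonal (fun v : VV n (N a) => D a (v i, j i)) s t
    rw [opi_diagonal, Matrix.diagonal_apply, Matrix.diagonal_apply]
    by_cases hst : s = t
    · subst hst
      simp
      rfl
    · rw [if_neg hst, if_neg]
      intro h'
      exact hst (congrArg Prod.snd ((cellEquiv n (N a)).injective h'))
  · rw [Matrix.diagonal_apply_ne _ hj, ← map_zero (cls C ℂ)]
    congr 1
    apply Subtype.ext
    funext a
    ext s t
    show opi n (N a) i (Matrix.diagonal (D a)) (cellEquiv n (N a) (j, s))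
      (cellEquiv n (N a) (j', t)) = 0
    rw [opi_diagonal, Matrix.diagonal_apply_ne]
    intro h'
    exact hj (congrArg Prod.fst ((cellEquiv n (N a)).injective h'))

/-- degree in direction `i` -/
def dgi (i : Fin n) (j : JJ n) : ℤ := if j i then 1 else 0

theorem Th_supp {i : Fin n} (x : SL C i) {j j' : JJ n}
    (h0 : (∃ l, l ≠ i ∧ j l ≠ j' l) ∨ ∀ a (s t : ZMod (N a)), x.1 a (s, j i) (t, j' i) = 0) :
    Th C i x j j' = 0 := by
  rw [Th_apply]
  refine toA_zero_of fun a c' c hc' hc => ?_
  show opi n (N a) i (x.1 a) c' c = 0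
  rw [opi_apply]
  subst hc' hc
  rcases h0 with ⟨l, hl, hne⟩ | h0
  · rw [if_neg]
    intro h1
    exact hne (congrArg Prod.snd (h1 l hl))
  · split_ifs with h1
    · exact h0 a _ _
    · rfl

/-- other degrees are preserved -/
theorem Th_pres {i l : Fin n} (hil : l ≠ i) (x : SL C i) : Hm (dgi l) (dgi l) (Th C i x) := by
  intro j j' hne
  refine Th_supp x (Or.inl ⟨l, hil, fun h => hne ?_⟩)
  unfold dgi
  rw [h]

theorem Th_hm {i : Fin n} (x : SL C i) {α β : JJ n → ℤ}
    (h : ∀ j j' : JJ n, α j ≠ β j' → ∀ a (s t : ZMod (N a)), x.1 a (s, j i) (t, j' i) = 0) :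
    Hm α β (Th C i x) := fun j j' hne => Th_supp x (Or.inr (h j j' hne))

section fields

variable (h : GridCtl C) (i : Fin n)

theorem LA_a : (LA h i).a = Th C i ((4⁻¹ : ℂ) • (PL i * star (dL h i) * PL i)) := by
  rw [map_smul, map_mul, map_mul, map_star]
  rfl

theorem LA_b : (LA h i).b = Th C i (PL i * sL h i * PL i) := by
  rw [map_mul, map_mul]
  rfl

theorem LA_c : (LA h i).c = Th C i ((4⁻¹ : ℂ) • (PL i * dL h i * PL i)) := by
  rw [map_smul, map_mul, map_mul]
  rfl

theorem LA_Pres {l : Fin n} (hil : l ≠ i) : Pres (dgi l) (LA h i) where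
  hd := Th_pres hil (dL h i)
  hS := Th_pres hil (sL h i)
  ha := by rw [LA_a]; exact Th_pres hil _
  hb := by rw [LA_b]; exact Th_pres hil _
  hc := by rw [LA_c]; exact Th_pres hil _

variable {κ : Type} (dir : κ → C.Φ) (lo hi : κ → ℝ) (lt : ∀ k, lo k < hi k)

theorem dgc_diag (D : ∀ a, C1 (N a) → ℂ) (M : SL C i) (hM : ∀ a, M.1 a = Matrix.diagonal (D a)) :
    DgC (frame C ℂ dir lo hi lt) (Th C i M) := by
  have e : M = ⟨fun a => Matrix.diagonal (D a), mem_SL_diag _⟩ := Subtype.ext (funext hM)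
  rw [e, Th_diag_apply]
  exact ⟨_, rfl, fun j k c => dg_comm _ _⟩

theorem dg_eq_zero {f : ∀ a, VV n (N a) → ℂ} (hf : ∀ a v, f a v = 0) : dg C ℂ f = 0 := by
  rw [← map_zero (dg C ℂ)]
  congr 1
  funext a v
  exact hf a v

theorem pu_mul_dg (φ : C.Φ) (c : ℝ) (f : ∀ a, VV n (N a) → ℂ) :
    pu C ℂ φ c * dg C ℂ f = dg C ℂ (fun a v => (if C.u φ a v ≤ c then 1 else 0) * f a v) := by
  classical
  unfold pu ind
  rw [← map_mul]
  congr 1

theorem Th_diag' (M : SL C i) (D : ∀ a, C1 (N a) → ℂ) (hM : ∀ a, M.1 a = Matrix.diagonal (D a)) :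
    Th C i M = Matrix.diagonal fun j : JJ n => dg C ℂ (fun a (v : VV n (N a)) => D a (v i, j i)) := by
  have e : M = ⟨fun a => Matrix.diagonal (D a), mem_SL_diag _⟩ := Subtype.ext (funext hM)
  rw [e, Th_diag_apply]

theorem LA_LineF (k : κ) (hk : dir k = h.ξ i) (h0 : lo k < 0) (h1 : 0 < hi k) :
    LineF (frame C ℂ dir lo hi lt) k (dgi i) (LA h i) where
  is := LA_is h i
  gD := dgc_diag i dir lo hi lt _ (gL i) fun a => rfl
  PD := dgc_diag i dir lo hi lt _ (PL i) fun a => rfl
  eD := dgc_diag i dir lo hi lt _ (eL i) fun a => rfl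
  vD := dgc_diag i dir lo hi lt _ (vL i) fun a => rfl
  lo0 := h0
  hi0 := h1
  Plo s hs := by
    show PU _ k _ * Th C i (PL i) = 0
    rw [Th_diag' i (PL i) _ fun a => rfl, PU, Matrix.diagonal_mul_diagonal,
      ← Matrix.diagonal_zero]
    congr 1
    funext j
    rw [frame_pu, pu_mul_dg]
    refine dg_eq_zero fun a v => ?_
    rw [hk, h.hξ]
    by_cases hc : h.μ a * (((v i).valMinAbs : ℤ) : ℝ) ≤ s
    · have h2 : (v i).valMinAbs < 0 := by
        by_contra h3
        push Not at h3
        have : 0 ≤ h.μ a * (((v i).valMinAbs : ℤ) : ℝ) :=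
          mul_nonneg (h.μ_pos a).le (by exact_mod_cast h3)
        linarith
      have h3 : ¬ inP (N a) (v i, j i) := by
        unfold inP
        simp only
        split_ifs <;> omega
      rw [if_neg h3, mul_zero]
    · rw [if_neg hc, zero_mul]
  Phi t ht := by
    show PU _ k _ * (1 - Th C i (PL i)) = 1 - Th C i (PL i)
    rw [← map_one (Th C i), ← map_sub]
    rw [Th_diag' i (1 - PL i) (fun a x => 1 - if inP (N a) x then 1 else 0) fun a => by
      show 1 - Pw (N a) = _
      rw [Pw, ← Matrix.diagonal_one, Matrix.diagonal_sub], PU, Matrix.diagonal_mul_diagonal]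
    congr 1
    funext j
    rw [frame_pu, pu_mul_dg]
    congr 1
    funext a v
    rw [hk, h.hξ]
    by_cases hc : inP (N a) (v i, j i)
    · rw [if_pos hc]; simp
    · have h2 : (v i).valMinAbs ≤ 0 := by
        by_contra h3
        push Not at h3
        apply hc
        unfold inP
        simp only
        split_ifs <;> omega
      have h3 : h.μ a * (((v i).valMinAbs : ℤ) : ℝ) ≤ t := by
        have : h.μ a * (((v i).valMinAbs : ℤ) : ℝ) ≤ 0 :=
          mul_nonpos_of_nonneg_of_nonpos (h.μ_pos a).le (by exact_mod_cast h2)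
        linarith
      rw [if_pos h3, one_mul]
  ehi t ht := by
    show PU _ k _ * Th C i (eL i) = Th C i (eL i)
    rw [Th_diag' i (eL i) _ fun a => rfl, PU, Matrix.diagonal_mul_diagonal]
    congr 1
    funext j
    rw [frame_pu, pu_mul_dg]
    congr 1
    funext a v
    rw [hk, h.hξ]
    by_cases hc : (v i, j i) = ((0 : ZMod (N a)), true)
    · have h2 : v i = 0 := congrArg Prod.fst hc
      have h3 : h.μ a * (((v i).valMinAbs : ℤ) : ℝ) ≤ t := by
        rw [h2, ZMod.valMinAbs_zero, Int.cast_zero, mul_zero]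
        exact ht.le
      rw [if_pos h3, one_mul]
    · simp [hc]
  vhi t ht := by
    show PU _ k _ * Th C i (vL i) = Th C i (vL i)
    rw [Th_diag' i (vL i) _ fun a => rfl, PU, Matrix.diagonal_mul_diagonal]
    congr 1
    funext j
    rw [frame_pu, pu_mul_dg]
    refine dg_congr fun r hr => ?_
    have hμ : ∀ᶠ a in C.l, h.μ a < t := h.μ_lim.eventually (gt_mem_nhds ht)
    filter_upwards [hμ] with a ha v hv
    rw [hk, h.hξ]
    by_cases hc : (v i, j i) = ((1 : ZMod (N a)), false)
    · have h2 : v i = 1 := congrArg Prod.fst hc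
      have h3 : (1 : ZMod (N a)).valMinAbs ≤ 1 := by
        by_contra h4
        push Not at h4
        have e2 := (ZMod.valMinAbs_spec (1 : ZMod (N a)) ((1 : ZMod (N a)).valMinAbs)).1 rfl
        have e3 := e2.2
        rw [Set.mem_Ioc] at e3
        have e4 : (1 : ZMod (N a)).valMinAbs = 1 := by
          rw [ZMod.valMinAbs_spec]
          refine ⟨by simp, ?_⟩
          rw [Set.mem_Ioc]
          constructor <;> omega
        omega
      have h4 : h.μ a * (((v i).valMinAbs : ℤ) : ℝ) ≤ t := by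
        rw [h2]
        have h5 : (((1 : ZMod (N a)).valMinAbs : ℤ) : ℝ) ≤ 1 := by exact_mod_cast h3
        calc h.μ a * (((1 : ZMod (N a)).valMinAbs : ℤ) : ℝ) ≤ h.μ a * 1 :=
              mul_le_mul_of_nonneg_left h5 (h.μ_pos a).le
          _ ≤ t := by rw [mul_one]; exact ha.le
      rw [if_pos h4, one_mul]
    · simp [hc]
  hd := Th_hm (dL h i) fun j j' hne a s t => by
    by_contra h0
    have h2 := d1_supp h0
    apply hne
    have e1 : j i = false := h2.1
    have e2 : j' i = true := h2.2.1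
    unfold dgi
    rw [e1, e2]
    simp
  hS := Th_hm (sL h i) fun j j' hne a s t => by
    by_contra h0
    have h2 := s1_supp h0
    apply hne
    have e1 : j i = !(j' i) := h2.1
    unfold dgi
    rw [e1]
    cases j' i <;> simp
  he := Th_hm (eL i) fun j j' hne a s t => by
    show ew (N a) _ _ = 0
    rw [ew, Matrix.diagonal_apply]
    split_ifs with h2 h3
    · exfalso
      apply hne
      have e1 : j i = true := congrArg Prod.snd h3
      unfold dgi
      rw [e1]
      simp
    · rfl
    · rfl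
  hv := Th_hm (vL i) fun j j' hne a s t => by
    show vw (N a) _ _ = 0
    rw [vw, Matrix.diagonal_apply]
    split_ifs with h2 h3
    · exfalso
      apply hne
      have e1 : j i = false := congrArg Prod.snd h3
      unfold dgi
      rw [e1]
      simp
    · rfl
    · rfl
  ha := by
    rw [LA_a]
    refine Th_hm _ fun j j' hne a s t => ?_
    show ((4⁻¹ : ℂ) • (Pw (N a) * star (d1 (N a)) * Pw (N a))) _ _ = 0
    rw [Matrix.smul_apply, mul_Pw, Pw_mul, Matrix.star_apply]
    by_contra h0
    have h1 : star (d1 (N a) (t, j' i) (s, j i)) ≠ 0 := fun h => h0 (by rw [h]; simp)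
    have h2 := d1_supp (star_ne_zero.1 h1)
    apply hne
    have e1 : j' i = false := h2.1
    have e2 : j i = true := h2.2.1
    unfold dgi
    rw [e1, e2]
    simp
  hb := by
    rw [LA_b]
    refine Th_hm _ fun j j' hne a s t => ?_
    show (Pw (N a) * s1 (N a) * Pw (N a)) _ _ = 0
    rw [mul_Pw, Pw_mul]
    by_contra h0
    have h1 : s1 (N a) (s, j i) (t, j' i) ≠ 0 := fun h => h0 (by rw [h]; simp)
    have h2 := s1_supp h1
    apply hne
    have e1 : j i = !(j' i) := h2.1
    unfold dgi
    rw [e1]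
    cases j' i <;> simp
  hc := by
    rw [LA_c]
    refine Th_hm _ fun j j' hne a s t => ?_
    show ((4⁻¹ : ℂ) • (Pw (N a) * d1 (N a) * Pw (N a))) _ _ = 0
    rw [Matrix.smul_apply, mul_Pw, Pw_mul]
    by_contra h0
    have h1 : d1 (N a) (s, j i) (t, j' i) ≠ 0 := fun h => h0 (by rw [h]; simp)
    have h2 := d1_supp h1
    apply hne
    have e1 : j i = false := h2.1
    have e2 : j' i = true := h2.2.1
    unfold dgi
    rw [e1, e2]
    simp

/-- the same with control directions which are only close to the coordinates -/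
theorem LA_LineF_close (k : κ) (h0 : lo k < 0) (h1 : 0 < hi k)
    (hc : ∀ r < (1 : ℝ), ∀ ε > (0 : ℝ), ∀ᶠ a in C.l, ∀ v : VV n (N a),
      C.u C.o a v ≤ r → |C.u (h.ξ i) a v - C.u (dir k) a v| < ε) :
    LineF (frame C ℂ dir lo hi lt) k (dgi i) (LA h i) := by
  have hF := LA_LineF h i (fun _ : Unit => h.ξ i) (fun _ => lo k) (fun _ => hi k)
    (fun _ => lt k) () rfl h0 h1
  have hc' : ∀ r < (1 : ℝ), ∀ ε > (0 : ℝ), ∀ᶠ a in C.l, ∀ v : VV n (N a),
      C.u C.o a v ≤ r → |C.u (dir k) a v - C.u (h.ξ i) a v| < ε := by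
    intro r hr ε hε
    filter_upwards [hc r hr ε hε] with a ha v hv
    rw [abs_sub_comm]
    exact ha v hv
  have up : ∀ t > (0 : ℝ), ∀ x : Matrix (JJ n) (JJ n) (Asy C ℂ),
      PU (frame C ℂ (fun _ : Unit => h.ξ i) (fun _ => lo k) (fun _ => hi k) (fun _ => lt k)) ()
        (fun _ => t / 2) * x = x →
      PU (frame C ℂ dir lo hi lt) k (fun _ => t) * x = x := by
    intro t ht x hx
    have e1 : PU (frame C ℂ dir lo hi lt) k (fun _ : JJ n => t) *
        PU (frame C ℂ (fun _ : Unit => h.ξ i) (fun _ => lo k) (fun _ => hi k) (fun _ => lt k)) ()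
          (fun _ => t / 2) =
        PU (frame C ℂ (fun _ : Unit => h.ξ i) (fun _ => lo k) (fun _ => hi k) (fun _ => lt k)) ()
          (fun _ => t / 2) := by
      rw [PU, PU, Matrix.diagonal_mul_diagonal]
      congr 1
      funext j
      rw [frame_pu, frame_pu]
      have e2 := pu_mul_pu_close (K := ℂ) (C := C) (φ := h.ξ i) (φ' := dir k) hc
        (s := t / 2) (t := t) (by linarith)
      rw [← e2]
      conv_rhs => rw [e2]
      have e3 : pu C ℂ (dir k) t * pu C ℂ (h.ξ i) (t / 2) =
          pu C ℂ (h.ξ i) (t / 2) * pu C ℂ (dir k) t := ind_comm _ _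
      rw [← mul_assoc, e3, e2, e2]
    rw [← hx, ← mul_assoc, e1]
  refine ⟨LA_is h i, dgc_diag i dir lo hi lt _ (gL i) fun a => rfl,
    dgc_diag i dir lo hi lt _ (PL i) fun a => rfl, dgc_diag i dir lo hi lt _ (eL i) fun a => rfl,
    dgc_diag i dir lo hi lt _ (vL i) fun a => rfl, h0, h1, ?_, ?_, ?_, ?_, hF.hd, hF.hS, hF.he,
    hF.hv, hF.ha, hF.hb, hF.hc⟩
  · intro s hs
    have e1 : PU (frame C ℂ dir lo hi lt) k (fun _ : JJ n => s) *
        PU (frame C ℂ (fun _ : Unit => h.ξ i) (fun _ => lo k) (fun _ => hi k) (fun _ => lt k)) ()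
          (fun _ => s / 2) = PU (frame C ℂ dir lo hi lt) k (fun _ : JJ n => s) := by
      rw [PU, PU, Matrix.diagonal_mul_diagonal]
      congr 1
      funext j
      rw [frame_pu, frame_pu]
      exact pu_mul_pu_close hc' (by linarith)
    rw [← e1, mul_assoc, hF.Plo (s / 2) (by linarith), mul_zero]
  · exact fun t ht => up t ht _ (hF.Phi (t / 2) (by linarith))
  · exact fun t ht => up t ht _ (hF.ehi (t / 2) (by linarith))
  · exact fun t ht => up t ht _ (hF.vhi (t / 2) (by linarith))

end fields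

end

end Crest.Agent.R217.Grid897
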