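import Crest.Agent.R217.NormB_551
import Crest.Agent.R217.RE2_531

/-!
Row 217 (S0336), part C1, piece M5-N : the cut of the product with a line is homotopy equivalent
to the tuple at the edge (hypotheses of lemma RE).
-/

set_option autoImplicit false
set_option linter.unusedSectionVars false

namespace Crest.Agent.R217.Norm551

open PC473 Matrix Obj52 RE531

section rpT

variable {A : Type*} [Ring A] [StarRing A]

/-- a Poincaré tuple as a regular pair -/
def rpT (y : Tup A) : RPr A := ⟨y.p, y.g, y.d, y.S, y.T, y.H * y.S⟩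

theorem rpT_isRP {m : ℕ} {y : Tup A} (hy : y.IsPC m) : (rpT y).IsRP m where
  pp := hy.pp
  sp := hy.sp
  gg := hy.gg
  sg := hy.sg
  pg := hy.pg
  pd := hy.pd
  dp := hy.dp
  pf := hy.pS
  pq := hy.pT
  ph := by show y.p * (y.H * y.S) = y.H * y.S; rw [← mul_assoc, hy.pH]
  hp := by show y.H * y.S * y.p = y.H * y.S; rw [mul_assoc, hy.Sp]
  dd := hy.dd
  sf := hy.sS
  sq := hy.sT
  df := hy.dS
  qd := hy.Td
  fqf := by
    show y.S * y.T * y.S = y.S + y.d * (y.H * y.S) - y.H * y.S * star y.d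
    have h : y.S * star y.d = -(y.d * y.S) := eq_neg_of_add_eq_zero_right hy.dS
    rw [hy.ST, add_mul, add_mul, hy.pS, mul_assoc y.H, mul_assoc y.H, h]
    noncomm_ring
  gd := hy.gd
  gf := hy.gS
  gq := hy.gT
  gh := by
    show y.g * (y.H * y.S) = -((-1) ^ m * (y.H * y.S * y.g))
    rw [← mul_assoc, hy.gH, neg_mul, mul_assoc, hy.gS]
    rcases neg_one_pow_eq_or A m with h | h <;> rw [h] <;> noncomm_ring

end rpT

section rpTO

variable {κ : Type*} {R : Type*} [Ring R] [StarRing R]
variable {J : Type*} [Fintype J] [DecidableEq J]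

theorem isOb_rpT {F : Frame κ R} {m : ℕ} {S : Set κ} {deg : J → ℤ} {z : Tup (Matrix J J R)}
    (hz : IsOT F m S deg z) : IsOb F m S deg (rpT z) where
  rp := rpT_isRP hz.pc
  pd := hz.pd
  gd := hz.gd
  hd := hz.hd
  hf := hz.hS
  hq := hz.hT
  hh := hz.hH.mulc (hz.hS.congrc (by intro i j h; omega))
  lo := hz.lo
  hi := hz.hi

end rpTO

section inc

universe u w
variable {J : Type u} [Fintype J] [DecidableEq J]
variable {R : Type w} [Ring R] [StarRing R]

/-- inclusion of the first summand -/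
def inc (J : Type u) [DecidableEq J] (R : Type w) [Ring R] : Matrix (Fin 2 × J) J R :=
  fun i j => if i = (0, j) then 1 else 0

theorem mul_inc {K : Type*} (M : Matrix K (Fin 2 × J) R) (i : K) (j : J) :
    (M * inc J R) i j = M i (0, j) := by
  rw [mul_apply]
  simp [inc]

theorem inc_mul (X : Matrix J J R) : inc J R * X = fl !![X, 0; 0, 0] * inc J R := by
  ext ⟨a, i⟩ j
  rw [mul_inc, mul_apply]
  fin_cases a
  · simp [inc, fl]
  · simp [inc, fl]

theorem inc_star_inc : (inc J R)ᴴ * inc J R = 1 := by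
  ext i j
  rw [mul_inc, conjTranspose_apply, one_apply]
  simp only [inc, Prod.mk.injEq, true_and]
  by_cases h : i = j
  · simp [h]
  · simp [h, Ne.symm h]

theorem inc_inc_star : inc J R * (inc J R)ᴴ = fl !![1, 0; 0, 0] := by
  ext ⟨a, i⟩ ⟨b, j⟩
  rw [mul_apply]
  simp only [inc, conjTranspose_apply, fl]
  fin_cases a <;> fin_cases b <;> simp [Matrix.one_apply]
  by_cases h : i = j
  · simp [h]
  · simp [h, Ne.symm h]

theorem inc_mul_inc (X : Matrix J J R) :
    inc J R * X * (inc J R)ᴴ = fl !![X, 0; 0, 0] := by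
  rw [inc_mul, Matrix.mul_assoc, inc_inc_star, ← Cut1x473.fl_mul, mul_fin_two]
  simp

theorem star_inc_fl (X : Matrix J J R) :
    (inc J R)ᴴ * fl !![X, 0; 0, 0] * inc J R = X := by
  rw [Matrix.mul_assoc, ← inc_mul, ← Matrix.mul_assoc, inc_star_inc, Matrix.one_mul]

end inc

section key

universe u w
variable {κ : Type*} {R : Type w} [Ring R] [StarRing R] [Algebra ℂ R] [StarModule ℂ R]
variable {J : Type u} [Fintype J] [DecidableEq J]
variable {F : Frame κ R} {k : κ} {dx dy : J → ℤ} {x : Line (Matrix J J R)}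
  {y : Tup (Matrix J J R)} {m : ℕ} {S : Set κ}

/-- the chain map from the tuple at the edge to the cut -/
noncomputable def alp (m : ℕ) (hc : ComT x y) : Matrix (Fin 2 × J) J R :=
  fl (GG (TPc x.set) m x.up hc.up) * inc J R

theorem GG_p (hc : ComT x y) (hx : x.Is) (hy : y.IsPC m) :
    GG (TPc x.set) m x.up hc.up * !![x.e * y.p, 0; 0, 0] = GG (TPc x.set) m x.up hc.up := by
  unfold GG G1 G2
  have hx' := hx.up
  have hy' := hc.up_isPC hy
  have e : x.e * y.p = (TPc x.set).t x.up.e hc.up.p := rfl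
  rw [e, mul_fin_two]
  simp only [mul_zero, zero_mul, add_zero, sub_mul, smul_mul_assoc, (TPc x.set).mul, neg_mul,
    hx'.ee, hx'.ke, mul_assoc, hy'.Hp, y_gp hy', y_Tp hy']

/-- the cut of the product is dominated by the tuple at the edge (lemma RE, `k = l = 0`) -/
theorem hypR (hx : x.Is) (hc : ComT x y) (hy : y.IsPC m)
    (hR : y.S * star y.H + y.H * y.S = 0) (he : (edgeA x.e y).IsPC m) :
    HypR m (rpT (edgeA x.e y)) (cutR m (prodA m x y) (x.P * y.p) (Lc m hc) (Qc hc))
      (alp m hc) 0 0 := by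
  have hx' := hx.up
  have hy' := hc.up_isPC hy
  have h1 := isQuot (TPc x.set) hx' hy' (m := m)
  have hpc := WW_isPC (TPc x.set) hx' hy'
  have h2 := isComp (TPc x.set) hx' hy' (Subtype.ext hR)
  have hK := KK_eq (TPc x.set) hx' hy' (Subtype.ext hR)
  have hG := GG_chain (TPc x.set) hx' hy'
  have hg := GG_grad (TPc x.set) hx' hy'
  have hT := GG_T (TPc x.set) hx' hy'
  have hS := BB_S (TPc x.set) hx' hy'
  have hQ := QQ_GG (TPc x.set) hx' hy' (m := m)
  have hp := GG_p hc hx hy
  have hQs := congrArg star hQ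
  rw [star_mul, h2.sB] at hQs
  have hcut : cutR m (prodA m x y) (x.P * y.p) (Lc m hc) (Qc hc)
      = (compr (WW (TPc x.set) m x.up hc.up) (LL (TPc x.set) m x.up hc.up)
          (QQ (TPc x.set) x.up hc.up)).map fl := by
    unfold cutR WW
    rw [← prod_eq hc]
    rfl
  rw [hcut]
  generalize hGv : GG (TPc x.set) m x.up hc.up = G at *
  generalize hBv : BB (TPc x.set) m x.up hc.up = B at *
  generalize hQv : QQ (TPc x.set) x.up hc.up = Q at *
  generalize hLv : LL (TPc x.set) m x.up hc.up = L at *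
  generalize hWv : WW (TPc x.set) m x.up hc.up = W at *
  have ha : alp m hc = fl G * inc J R := by rw [← hGv]; rfl
  rw [ha]
  have flm := fun M N => Cut1x473.fl_mul (R := R) (J := J) M N
  have fls := fun M => Cut1x473.fl_star (R := R) (J := J) M
  constructor
  · exact rpT_isRP he
  · exact Cut1x473.isRP_fl (compr_isRP hpc h2)
  · show fl Q * (fl G * inc J R) = fl G * inc J R
    rw [← Matrix.mul_assoc, ← flm, hQ]
  · show fl G * inc J R * (x.e * y.p) = fl G * inc J R
    rw [Matrix.mul_assoc, inc_mul, ← Matrix.mul_assoc, ← flm, hp]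
  · show fl (Q * W.g) * (fl G * inc J R) = fl G * inc J R * (x.e * y.g)
    rw [← Matrix.mul_assoc, ← flm, mul_assoc, hg, ← mul_assoc, hQ, Matrix.mul_assoc, inc_mul,
      ← Matrix.mul_assoc, ← flm]
    rfl
  · show fl (W.d * Q) * (fl G * inc J R) = fl G * inc J R * (x.e * y.d)
    rw [← Matrix.mul_assoc, ← flm, mul_assoc, hQ, hG, Matrix.mul_assoc, inc_mul,
      ← Matrix.mul_assoc, ← flm]
    rfl
  · show fl (KK W L * W.S * star (KK W L)) = fl G * inc J R * (x.e * y.S) * (fl G * inc J R)ᴴ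
        + fl (W.d * Q) * 0 - 0 * (fl (W.d * Q))ᴴ
    rw [hK, star_mul]
    have e1 : G * B * W.S * (star B * star G) = G * (B * (W.S * star B)) * star G := by
      noncomm_ring
    rw [e1, hS, Matrix.mul_zero, Matrix.zero_mul, add_zero, sub_zero, conjTranspose_mul]
    have e2 : fl G * inc J R * (x.e * y.S) * ((inc J R)ᴴ * (fl G)ᴴ)
        = fl G * (inc J R * (x.e * y.S) * (inc J R)ᴴ) * (fl G)ᴴ := by
      simp only [Matrix.mul_assoc]
    rw [e2, inc_mul_inc, ← star_eq_conjTranspose, ← fls, ← flm, ← flm]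
    rfl
  · show x.e * y.T = (fl G * inc J R)ᴴ * fl (Q * W.T * Q) * (fl G * inc J R)
        + 0 * (x.e * y.d) - (x.e * y.d)ᴴ * 0
    rw [Matrix.mul_zero, Matrix.zero_mul, add_zero, sub_zero, conjTranspose_mul]
    have e2 : (inc J R)ᴴ * (fl G)ᴴ * fl (Q * W.T * Q) * (fl G * inc J R)
        = (inc J R)ᴴ * ((fl G)ᴴ * fl (Q * W.T * Q) * fl G) * inc J R := by
      simp only [Matrix.mul_assoc]
    rw [e2, ← star_eq_conjTranspose (fl G), ← fls, ← flm, ← flm]
    have e3 : star G * (Q * W.T * Q) * G = star G * Q * (W.T * (Q * G)) := by noncomm_ring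
    rw [e3, hQ, hQs, hT]
    exact (star_inc_fl _).symm
  · exact Matrix.mul_zero _
  · exact Matrix.zero_mul _
  · simp
  · exact Matrix.mul_zero _
  · exact Matrix.zero_mul _
  · simp

theorem alp_eq (hc : ComT x y) :
    alp m hc = fl !![(2⁻¹ : ℂ) • (x.e * y.g) - (2⁻¹ : ℂ) • (x.k * (y.g * y.H)), 0;
      -(star (cc m) • (x.e * y.T)), 0] * inc J R := rfl

/-- the chain map has degree zero -/
theorem hmR_alp (hx : LineF F k dx x) (hP : Pres dy x) (hc : ComT x y)
    (hy : IsOT F m S dy y) :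
    HmR (degB m fun j => dx j + dy j) dy (alp m hc) := by
  have he : ∀ {α : J → ℤ}, Hm α α x.e := fun {α} => hx.eD.hmc fun _ => rfl
  have hgy : Hm dy dy y.g := hy.gd.hmc fun _ => rfl
  have hk : Hm dy dy x.k := by
    rw [← hx.is.Pde]
    exact ((hx.PD.hmc fun _ => rfl).mulc hP.hd).mulc he
  have hk' : Hm dx (fun _ => 0) x.k := by
    intro i j h
    rw [← hx.is.vk, mul_apply]
    refine Finset.sum_eq_zero fun l _ => ?_
    rw [hx.hv i l h, zero_mul]
  rintro ⟨a, i⟩ j hne
  rw [alp_eq, mul_inc]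
  fin_cases a
  · show ((2⁻¹ : ℂ) • (x.e * y.g) - (2⁻¹ : ℂ) • (x.k * (y.g * y.H))) i j = 0
    have h1 : (x.e * y.g) i j = 0 := by
      by_cases hdx : dx i = 1
      · refine he.mulc hgy i j (α := dy) ?_
        intro h
        apply hne
        simp [degB, hdx, h]
      · rw [mul_apply]
        refine Finset.sum_eq_zero fun l _ => ?_
        rw [hx.he i l hdx, zero_mul]
    have h2 : (x.k * (y.g * y.H)) i j = 0 := by
      by_cases hdx : dx i = 0
      · refine (hk.mulc (hgy.mulc hy.hH)) i j ?_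
        intro h
        apply hne
        simp [degB, hdx, h]
      · rw [mul_apply]
        refine Finset.sum_eq_zero fun l _ => ?_
        rw [hk' i l hdx, zero_mul]
    rw [Matrix.sub_apply, Matrix.smul_apply, Matrix.smul_apply, h1, h2, smul_zero, sub_zero]
  · show (-(star (cc m) • (x.e * y.T))) i j = 0
    have h1 : (x.e * y.T) i j = 0 := by
      by_cases hdx : dx i = 1
      · refine (he.mulc hy.hT) i j ?_
        intro h
        apply hne
        show ((m : ℤ) + 1) - (dx i + dy i) = dy j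
        have h' : (m : ℤ) - dy i = dy j := h
        omega
      · rw [mul_apply]
        refine Finset.sum_eq_zero fun l _ => ?_
        rw [hx.he i l hdx, zero_mul]
    rw [Matrix.neg_apply, Matrix.smul_apply, h1, smul_zero, neg_zero]

end key

end Crest.Agent.R217.Norm551
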