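import Crest.Agent.R217.RE5_531

/-!
Row 217 (S0336), part C1: LEMMA RE at the level of the signature, for tuples; the double of a tuple
counts twice; null-homotopic regular pairs have signature zero.
-/

set_option autoImplicit false
set_option linter.unusedSectionVars false
set_option linter.unusedSimpArgs false

namespace Crest.Agent.R217.RE531

open Crest.Agent.R217.PC473 Crest.Agent.R217.Obj52
open Crest.Agent.R217.Frame52 (SHom)
open Crest.Agent.R217.Nat52 Crest.Agent.R217.Sum52 Crest.Agent.R217.Sig52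
open Crest.Agent.R217.LocF555
open Crest.Agent.R217.Ind52
open Matrix

section sigT

variable {κ : Type*} {R0 R1 : Type*} [Ring R0] [StarRing R0] [Algebra ℂ R0] [StarModule ℂ R0]
    [Ring R1] [StarRing R1] [Algebra ℂ R1] [StarModule ℂ R1]
    {F0 : Frame κ R0} {F1 : Frame κ R1} {G : Type*} [AddCommGroup G] (P : SgP F0 F1 G)
    {J J' : Type} [Fintype J] [DecidableEq J] [Fintype J'] [DecidableEq J']
    {S : Set κ} {deg : J → ℤ} {deg' : J' → ℤ}

/-- signature of an honest tuple of dimension `l.length + 1`, first cut `a` -/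
noncomputable def sigT (F : Frame κ R0) (L : SgLaws R0 G) (l : List (Par κ)) (a : Par κ)
    (deg : J → ℤ) (z : Tup (Matrix J J R0)) : G :=
  sig F L l (ob (degB l.length deg) (cutT F a l.length deg z))

theorem sig_cons (F : Frame κ R0) (L : SgLaws R0 G) (l : List (Par κ)) (a : Par κ)
    (deg : J → ℤ) (x : RPr (Matrix J J R0)) :
    sig F L (a :: l) (ob deg x) =
      sigT F L l a (degD (l.length + 1) deg) (dblT (l.length + 1) x) := rfl

theorem Cov.cons {S : Set κ} {a : Par κ} {l : List (Par κ)} (h : Cov S (a :: l)) :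
    Cov (insert a.k S) l := h.tail

theorem sigT_iso {l : List (Par κ)} {a : Par κ} (hl : ∀ b ∈ a :: l, b.Ok F0)
    {z : Tup (Matrix J J R0)} (hz : IsOT F0 (l.length + 1) S deg z) (hc : Cov S (a :: l))
    (v : Mon J J') (hv : ∀ j, deg' (v.σ j) = deg j) :
    sigT F0 P.L l a deg' (z.map (cjH R0 v)) = sigT F0 P.L l a deg z := by
  have h1 := Cut2x473.cutT_isOb (hl a List.mem_cons_self) hz
  unfold sigT
  refine sig_iso P (fun b hb => hl b (List.mem_cons_of_mem _ hb)) (X := ob _ _) (Y := ob _ _)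
    h1 hc.tail ⟨v.two, ?_, ?_⟩
  · rintro ⟨i, j⟩
    simp [degB, Mon.two, hv, ob]
  · exact cutT_nat (compat_cj v) (punat_cj F0 v hv) a l.length z

theorem sigT_sum {l : List (Par κ)} {a : Par κ} (hl : ∀ b ∈ a :: l, b.Ok F0)
    {z w : Tup (Matrix J J R0)} (hz : IsOT F0 (l.length + 1) S deg z)
    (hw : IsOT F0 (l.length + 1) S deg w) (hc : Cov S (a :: l)) :
    sigT F0 P.L l a (deg2 deg) (sumT z w) = sigT F0 P.L l a deg z + sigT F0 P.L l a deg w := by
  have hl' : ∀ b ∈ l, b.Ok F0 := fun b hb => hl b (List.mem_cons_of_mem _ hb)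
  have h1 := Cut2x473.cutT_isOb (hl a List.mem_cons_self) hz
  have h2 := Cut2x473.cutT_isOb (hl a List.mem_cons_self) hw
  unfold sigT
  rw [cutT_sum, ← sig_sum P hl' h1 h2 hc.tail]
  exact sig_iso P hl' (X := ob (deg2 (degB l.length deg)) (sumR (cutT F0 a l.length deg z)
    (cutT F0 a l.length deg w))) (Y := ob _ _) (h1.sum h2) hc.tail
    ⟨sw J, by rintro ⟨i, j, x⟩; rfl, rfl⟩

theorem sigT_neg {l : List (Par κ)} {a : Par κ} (hl : ∀ b ∈ a :: l, b.Ok F0)
    {z : Tup (Matrix J J R0)} (hz : IsOT F0 (l.length + 1) S deg z) (hc : Cov S (a :: l)) :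
    sigT F0 P.L l a deg z.neg = - sigT F0 P.L l a deg z := by
  have hl' : ∀ b ∈ l, b.Ok F0 := fun b hb => hl b (List.mem_cons_of_mem _ hb)
  have h1 := Cut2x473.cutT_isOb (hl a List.mem_cons_self) hz
  unfold sigT
  have e1 : cutT F0 a l.length deg z.neg =
      ((cutT F0 a l.length deg z).neg).map (cjH R0 (sgn J)) := by
    rw [cutT_neg, ← RPr.neg_map (shom _)]
  rw [e1]
  generalize cutT F0 a l.length deg z = Z at h1 ⊢
  have h2 := sig_neg P hl' (X := ob (degB l.length deg) Z) h1 hc.tail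
  have h3 := sig_iso P hl' (X := ob (degB l.length deg) Z.neg)
    (Y := ob (degB l.length deg) (Z.neg.map (cjH R0 (sgn J))))
    h1.neg hc.tail ⟨sgn J, fun _ => rfl, rfl⟩
  exact h3.trans h2

theorem sigT_path {l : List (Par κ)} {a : Par κ} (hl : ∀ b ∈ a :: l, b.Ok F0)
    {z : Tup (Matrix J J R1)} (hz : IsOT F1 (l.length + 1) S deg z) (hc : Cov S (a :: l)) :
    sigT F0 P.L l a deg (z.map (mapH J P.ev0)) = sigT F0 P.L l a deg (z.map (mapH J P.ev1)) := by
  have hl' : ∀ b ∈ l, b.Ok F0 := fun b hb => hl b (List.mem_cons_of_mem _ hb)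
  have h1 := Cut2x473.cutT_isOb (ok1 P (hl a List.mem_cons_self)) hz
  have h2 := sig_path P hl' (X := ob (degB l.length deg) (cutT F1 a l.length deg z)) h1 hc.tail
  have e0 := cutT_nat (compat_map P.ev0) (punat_map (F := F1) (F' := F0) P.ev0_pu deg) a
    l.length z
  have e1 := cutT_nat (compat_map P.ev1) (punat_map (F := F1) (F' := F0) P.ev1_pu deg) a
    l.length z
  unfold sigT
  rw [e0, e1]
  exact h2

theorem sigT_bsum {l : List (Par κ)} {a : Par κ} (hl : ∀ b ∈ a :: l, b.Ok F0)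
    {x : Tup (Matrix J J R0)} {y : Tup (Matrix J' J' R0)}
    (hx : IsOT F0 (l.length + 1) S deg x) (hy : IsOT F0 (l.length + 1) S deg' y)
    (hc : Cov S (a :: l)) :
    sigT F0 P.L l a (Sum.elim deg deg') (tsumB x y) = sigT F0 P.L l a deg x
      + sigT F0 P.L l a deg' y := by
  have h0 := sigT_iso P hl (tsumB_isOT hx hy) hc (mW J J')
    (deg' := deg2 (Sum.elim deg deg')) (by rintro (j | j) <;> rfl)
  rw [← h0, tsumB_cj, sigT_sum P hl (isOT_mL hx) (isOT_mR hy) hc]
  congr 1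
  · exact sigT_iso P hl hx hc (mL J J') (fun _ => rfl)
  · exact sigT_iso P hl hy hc (mR J J') (fun _ => rfl)

theorem isOT_neg {R : Type*} [Ring R] [StarRing R] [Algebra ℂ R] [StarModule ℂ R]
    {F : Frame κ R} {m : ℕ} {z : Tup (Matrix J J R)} (h : IsOT F m S deg z) :
    IsOT F m S deg z.neg where
  pc := h.pc.neg
  pd := h.pd
  gd := h.gd
  hd := h.hd
  hS := h.hS.negc
  hT := h.hT.negc
  hH := h.hH
  lo := h.lo
  hi := h.hi

/-- LEMMA RE at the level of the signature (tuples). -/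
theorem sigT_re {l : List (Par κ)} {a : Par κ} (hl : ∀ b ∈ a :: l, b.Ok F0)
    {x : Tup (Matrix J J R0)} {y : Tup (Matrix J' J' R0)}
    (hx : IsOT F0 (l.length + 1) S deg x) (hy : IsOT F0 (l.length + 1) S deg' y)
    (hc : Cov S (a :: l)) {α : Matrix J' J R0}
    {k : Matrix J' J' R0} {q : Matrix J J R0} (h : HypT (l.length + 1) x y α k q)
    (hd : DegA (l.length + 1) deg deg' α k q) :
    sigT F0 P.L l a deg x = sigT F0 P.L l a deg' y := by
  have hx1 : IsOT F1 (l.length + 1) S deg (x.map (mapH J P.cst)) :=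
    IsOT.map' hx P.cst_pu P.lo_eq P.hi_eq
  have hy1 : IsOT F1 (l.length + 1) S deg' (y.map (mapH J' P.cst)) :=
    IsOT.map' hy P.cst_pu P.lo_eq P.hi_eq
  have h1 : HypT (l.length + 1) (x.map (mapH J P.cst)) (y.map (mapH J' P.cst)) (α.map P.cst)
      (k.map P.cst) (q.map P.cst) := h.smap (shom P.cst)
  have hZ := reT_isOT hx1 hy1 h1 (DegA.map (ϕ := P.cst) hd) (csC_star P) (snC_star P)
    (csC_snC P)
  have hpath := sigT_path P hl hZ hc
  have e0 : ∀ {I : Type} [Fintype I] [DecidableEq I] (z : Tup (Matrix I I R0)),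
      (z.map (mapH I P.cst)).map (mapH I P.ev0) = z := by
    intro I _ _ z
    cases z
    simp only [Tup.map, mapH_apply, Matrix.map_map, Tup.mk.injEq]
    have : (⇑P.ev0 ∘ ⇑P.cst) = id := funext P.ev0_cst
    simp [this]
  have e1 : ∀ {I : Type} [Fintype I] [DecidableEq I] (z : Tup (Matrix I I R0)),
      (z.map (mapH I P.cst)).map (mapH I P.ev1) = z := by
    intro I _ _ z
    cases z
    simp only [Tup.map, mapH_apply, Matrix.map_map, Tup.mk.injEq]
    have : (⇑P.ev1 ∘ ⇑P.cst) = id := funext P.ev1_cst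
    simp [this]
  have m0 : ∀ {I I' : Type} (z : Matrix I I' R0), (z.map P.cst).map P.ev0 = z := by
    intro I I' z; ext i j; simp [P.ev0_cst]
  have m1 : ∀ {I I' : Type} (z : Matrix I I' R0), (z.map P.cst).map P.ev1 = z := by
    intro I I' z; ext i j; simp [P.ev1_cst]
  have c0 : ∀ r : R1, P.ev0 (csC P • r) = (1 : ℂ) • P.ev0 r := by
    intro r
    rw [show csC P • r = P.cs * r from rfl, map_mul, P.ev0_cs, one_mul, one_smul]
  have s0 : ∀ r : R1, P.ev0 (snC P • r) = (0 : ℂ) • P.ev0 r := by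
    intro r
    rw [show snC P • r = P.sn * r from rfl, map_mul, P.ev0_sn, zero_mul, zero_smul]
  have c1 : ∀ r : R1, P.ev1 (csC P • r) = (0 : ℂ) • P.ev1 r := by
    intro r
    rw [show csC P • r = P.cs * r from rfl, map_mul, P.ev1_cs, zero_mul, zero_smul]
  have s1 : ∀ r : R1, P.ev1 (snC P • r) = (1 : ℂ) • P.ev1 r := by
    intro r
    rw [show snC P • r = P.sn * r from rfl, map_mul, P.ev1_sn, one_mul, one_smul]
  have p0 : (reT (csC P) (snC P)
      (x.map (mapH J P.cst)) (y.map (mapH J' P.cst)) (α.map P.cst) (k.map P.cst)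
      (q.map P.cst)).map (mapH (J ⊕ J') P.ev0) = tsumB x y.neg := by
    have := reT_map (shom P.ev0) c0 s0 (x.map (mapH J P.cst)) (y.map (mapH J' P.cst))
      (α.map P.cst) (k.map P.cst) (q.map P.cst)
    refine this.trans ?_
    rw [show (x.map (mapH J P.cst)).map (fun M => M.map ⇑P.ev0) = x from e0 x,
      show (y.map (mapH J' P.cst)).map (fun M => M.map ⇑P.ev0) = y from e0 y, m0, m0, m0,
      reT_one_zero]
    rfl
  have p1 : (reT (csC P) (snC P)
      (x.map (mapH J P.cst)) (y.map (mapH J' P.cst)) (α.map P.cst) (k.map P.cst)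
      (q.map P.cst)).map (mapH (J ⊕ J') P.ev1) = reT (0 : ℂ) 1 x y α k q := by
    have := reT_map (shom P.ev1) c1 s1 (x.map (mapH J P.cst)) (y.map (mapH J' P.cst))
      (α.map P.cst) (k.map P.cst) (q.map P.cst)
    refine this.trans ?_
    rw [show (x.map (mapH J P.cst)).map (fun M => M.map ⇑P.ev1) = x from e1 x,
      show (y.map (mapH J' P.cst)).map (fun M => M.map ⇑P.ev1) = y from e1 y, m1, m1, m1]
  rw [p0, p1] at hpath
  have hW : IsOT F0 (l.length + 1) S (Sum.elim deg deg') (reT (0 : ℂ) 1 x y α k q) :=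
    reT_isOT hx hy h hd (by simp) (by simp) (by simp)
  have n1 := sigT_iso P hl hW hc (mS J J') (deg' := Sum.elim deg deg') (fun _ => rfl)
  rw [reT_zero_one_cj] at n1
  have n2 := sigT_neg P hl hW hc
  have n3 : sigT F0 P.L l a (Sum.elim deg deg') (reT (0 : ℂ) 1 x y α k q) = 0 :=
    eq_zero_of_neg P (n1.symm.trans n2)
  have n4 := sigT_bsum P hl hx (isOT_neg hy) hc
  have n5 := sigT_neg P hl hy hc
  rw [n3, n4, n5, ← sub_eq_add_neg, sub_eq_zero] at hpath
  exact hpath

end sigT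

section two

theorem HypA.mapN {A B : Type*} [Ring A] [StarRing A] [Algebra ℂ A] [StarModule ℂ A]
    [Ring B] [StarRing B] [Algebra ℂ B] [StarModule ℂ B] (F : A →⋆ₙₐ[ℂ] B) {m : ℕ}
    {x y : Tup A} {α k l : A} (h : HypA m x y α k l) :
    HypA m (x.map F) (y.map F) (F α) (F k) (F l) where
  hx := h.hx.mapN F
  hy := h.hy.mapN F
  pα := by simp only [Tup.map]; rw [← map_mul, h.pα]
  αp := by simp only [Tup.map]; rw [← map_mul, h.αp]
  gα := by simp only [Tup.map]; rw [← map_mul, h.gα, map_mul]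
  dα := by simp only [Tup.map]; rw [← map_mul, h.dα, map_mul]
  hS := by simp only [Tup.map]; rw [h.hS]; simp only [map_mul, map_sub, map_add, map_star]
  hT := by simp only [Tup.map]; rw [h.hT]; simp only [map_mul, map_sub, map_add, map_star]
  pk := by simp only [Tup.map]; rw [← map_mul, h.pk]
  kp := by simp only [Tup.map]; rw [← map_mul, h.kp]
  gk := by
    simp only [Tup.map]; rw [← map_mul, h.gk, map_neg, (shom F).npow, map_mul]
  pl := by simp only [Tup.map]; rw [← map_mul, h.pl]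
  lp := by simp only [Tup.map]; rw [← map_mul, h.lp]
  gl := by
    simp only [Tup.map]; rw [← map_mul, h.gl, map_neg, (shom F).npow, map_mul]

variable {R : Type*} [Ring R] [StarRing R] [Algebra ℂ R] [StarModule ℂ R]
  {J : Type} [Fintype J] [DecidableEq J]

theorem HypA.hypT {m : ℕ} {x y : Tup (Matrix J J R)} {α k l : Matrix J J R}
    (h : HypA m x y α k l) : HypT m x y α k l :=
  ⟨h.hx, h.hy, h.pα, h.αp, h.gα, h.dα, h.hS, h.hT, h.pk, h.kp, h.gk, h.pl, h.lp, h.gl⟩

theorem dblT_hypT {m : ℕ} {z : Tup (Matrix J J R)} (hz : z.IsPC m) {h : Matrix J J R}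
    (hr : (RPr.mk z.p z.g z.d z.S z.T h).IsRP m) :
    HypT m (dblT m (RPr.mk z.p z.g z.d z.S z.T h)) (sumT z z) (fl (dα m z)) (fl (dk z))
      (fl (dl m z)) := by
  have h1 := (HypA.mapN (flH (R := R) (J := J)) (dbl_hypA hz hr)).hypT
  exact h1

variable {κ : Type*} {F : Frame κ R} {m : ℕ} {S : Set κ} {deg : J → ℤ}

theorem dbl_degA {z : Tup (Matrix J J R)} (hz : IsOT F m S deg z) :
    DegA m (degD m deg) (deg2 deg) (fl (dα m z)) (fl (dk z)) (fl (dl m z)) where
  hα := by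
    refine Hm.fl2c ?_ Hm.zeroc ?_ ?_
    · exact hz.pd.hmc (by intro i; simp [degD, deg2])
    · exact ((hz.pd.hmc (by intro i; simp [degD, deg2])).npowc m).negc
    · refine (Hm.mulc (β := deg) (Hm.aac (hz.gd.hmc fun _ => rfl) m) hz.hS).congrc ?_
      intro i j h; simpa [degD, deg2] using h
  hk := by
    refine Hm.fl2c Hm.zeroc Hm.zeroc Hm.zeroc ?_
    refine (((Hm.mulc hz.hH (hz.hS.congrc (α' := fun j => deg j + 1)
      (β' := fun j => (m : ℤ) + 1 - deg j) ?_)).twoc).negc).congrc ?_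
    · intro i j h; omega
    · intro i j h; simpa [degD, deg2] using h
  hl := by
    refine Hm.fl2c ?_ ?_ ?_ ?_
    · refine ((Hm.mulc hz.hT hz.hH).fourc).congrc ?_
      intro i j h; simpa [degD] using h
    · refine ((Hm.mulc (β := fun j => deg j + 1) (Hm.aac (hz.gd.hmc fun _ => rfl) m)
        hz.hH.starc).negc).congrc ?_
      intro i j h; simp [degD] at h ⊢; omega
    · refine (((Hm.mulc (β := deg) (Hm.aac (hz.gd.hmc fun _ => rfl) m) hz.hH).npowc m).negc).congrc ?_
      intro i j h; simpa [degD] using h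
    · refine (((Hm.mulc hz.hH (hz.hS.congrc (α' := fun j => deg j + 1)
        (β' := fun j => (m : ℤ) + 1 - deg j) ?_)).npowc m).negc).congrc ?_
      · intro i j h; omega
      · intro i j h; simp [degD] at h ⊢; omega

theorem isOT_sumT {x y : Tup (Matrix J J R)} (hx : IsOT F m S deg x) (hy : IsOT F m S deg y) :
    IsOT F m S (deg2 deg) (sumT x y) where
  pc := (sum2_isPC hx.pc hy.pc).mapN flH
  pd := hx.pd.fl2c hy.pd
  gd := hx.gd.fl2c hy.gd
  hd := hm_sm hx.hd hy.hd
  hS := hm_sm hx.hS hy.hS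
  hT := hm_sm hx.hT hy.hT
  hH := hm_sm hx.hH hy.hH
  lo k hk := BdLo_sm (hx.lo k hk) (hy.lo k hk)
  hi k hk := BdHi_sm (hx.hi k hk) (hy.hi k hk)

end two

section laws2

variable {κ : Type*} {R0 R1 : Type*} [Ring R0] [StarRing R0] [Algebra ℂ R0] [StarModule ℂ R0]
    [Ring R1] [StarRing R1] [Algebra ℂ R1] [StarModule ℂ R1]
    {F0 : Frame κ R0} {F1 : Frame κ R1} {G : Type*} [AddCommGroup G] (P : SgP F0 F1 G)
    {J J' : Type} [Fintype J] [DecidableEq J] [Fintype J'] [DecidableEq J']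
    {S : Set κ} {deg : J → ℤ} {deg' : J' → ℤ}

/-- the regular pair of an honest tuple counts twice. -/
theorem sig_two {l : List (Par κ)} {a : Par κ} (hl : ∀ b ∈ a :: l, b.Ok F0)
    {z : Tup (Matrix J J R0)} {h : Matrix J J R0} (hz : IsOT F0 (l.length + 1) S deg z)
    (hr : IsOb F0 (l.length + 1) S deg (RPr.mk z.p z.g z.d z.S z.T h)) (hc : Cov S (a :: l)) :
    sig F0 P.L (a :: l) (ob deg (RPr.mk z.p z.g z.d z.S z.T h)) =
      sigT F0 P.L l a deg z + sigT F0 P.L l a deg z := by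
  rw [sig_cons, ← sigT_sum P hl hz hz hc]
  exact sigT_re P hl (Cut1x473.T1 hr) (isOT_sumT hz hz) hc (dblT_hypT hz.pc hr.rp)
    (dbl_degA hz)

/-- the zero object -/
def zOb (J : Type) [Fintype J] [DecidableEq J] (R : Type*) [Ring R] : RPr (Matrix J J R) :=
  ⟨0, 0, 0, 0, 0, 0⟩

theorem zOb_isOb {R : Type*} [Ring R] [StarRing R] {F : Frame κ R} {m : ℕ} {deg : J → ℤ} :
    IsOb F m S deg (zOb J R) where
  rp := by
    constructor <;> simp [zOb]
  pd := ⟨0, by simp [zOb], by simp⟩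
  gd := ⟨0, by simp [zOb], by simp⟩
  hd := fun _ _ _ => rfl
  hf := fun _ _ _ => rfl
  hq := fun _ _ _ => rfl
  hh := fun _ _ _ => rfl
  lo k _ := ⟨(F.lo k + F.hi k) / 2, by have := F.lt k; linarith, by simp [zOb]⟩
  hi k _ := ⟨(F.lo k + F.hi k) / 2, by have := F.lt k; linarith, by simp [zOb]⟩

theorem sig_zOb {l : List (Par κ)} (hl : ∀ a ∈ l, a.Ok F0) (hc : Cov S l) (deg : J → ℤ) :
    sig F0 P.L l (ob deg (zOb J R0)) = 0 := by
  have h1 := sig_neg P hl (X := ob deg (zOb J R0)) (S := S) zOb_isOb hc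
  apply eq_zero_of_neg P
  refine Eq.trans ?_ h1
  have e : (zOb J R0).neg = zOb J R0 := by
    simp only [zOb, RPr.neg, neg_zero]
  show sig F0 P.L l (ob deg (zOb J R0)) = sig F0 P.L l (ob deg (zOb J R0).neg)
  rw [e]

/-- `f` null-homotopic implies signature zero. -/
theorem sig_null_f {l : List (Par κ)} (hl : ∀ a ∈ l, a.Ok F0) {y : RPr (Matrix J J R0)}
    (hy : IsOb F0 l.length S deg y) (hc : Cov S l) {k : Matrix J J R0}
    (hf : y.f = y.d * k - k * y.dᴴ) (pk : y.p * k = k) (kp : k * y.p = k)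
    (gk : y.g * k = -((-1 : Matrix J J R0) ^ l.length * (k * y.g)))
    (hk : Hm deg (fun j => (l.length : ℤ) + 1 - deg j) k) :
    sig F0 P.L l (ob deg y) = 0 := by
  have h0 := zOb_isOb (J := J) (R := R0) (F := F0) (m := l.length) (S := S) (deg := deg)
  rw [← sig_zOb P hl hc deg]
  refine (sig_re P hl h0 hy hc (α := 0) (k := k) (q := 0) ?_ ?_).symm
  · refine ⟨h0.rp, hy.rp, ?_, ?_, ?_, ?_, ?_, ?_, pk, kp, gk, ?_, ?_, ?_⟩ <;> simp [zOb, hf]
  · exact ⟨HmR.zero, hk, HmR.zero⟩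

/-- `q` null-homotopic implies signature zero. -/
theorem sig_null_q {l : List (Par κ)} (hl : ∀ a ∈ l, a.Ok F0) {y : RPr (Matrix J J R0)}
    (hy : IsOb F0 l.length S deg y) (hc : Cov S l) {k : Matrix J J R0}
    (hq : y.q = k * y.d - y.dᴴ * k) (pk : y.p * k = k) (kp : k * y.p = k)
    (gk : y.g * k = -((-1 : Matrix J J R0) ^ l.length * (k * y.g)))
    (hk : Hm (fun j => (l.length : ℤ) - deg j) (fun j => deg j + 1) k) :
    sig F0 P.L l (ob deg y) = 0 := by
  have h0 := zOb_isOb (J := J) (R := R0) (F := F0) (m := l.length) (S := S) (deg := deg)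
  rw [← sig_zOb P hl hc deg]
  refine sig_re P hl hy h0 hc (α := 0) (k := 0) (q := k) ?_ ?_
  · refine ⟨hy.rp, h0.rp, ?_, ?_, ?_, ?_, ?_, ?_, ?_, ?_, ?_, pk, kp, gk⟩ <;> simp [zOb, hq]
  · exact ⟨HmR.zero, HmR.zero, hk⟩

end laws2

end Crest.Agent.R217.RE531
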