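import Mathlib
import Crest.Agent.R217.RE6_531
import Crest.Agent.R217.NormC_551

/-!
Row 217 (S0336), part C: homotopy idempotents homotopic to `1` or to `0`.

* `sig_near_one` : `e ≃ 1` gives the signature of the tuple itself.
* `sig_near_zero` : `e ≃ 0` gives signature zero.
-/

set_option autoImplicit false
set_option linter.unusedSectionVars false
set_option linter.unusedVariables false

namespace Crest.Agent.R217.Near559

open Matrix PC473 Obj52 Nat52 Sum52 Sig52 Ind52 RE531

section ring

variable {A : Type*} [Ring A] [StarRing A] {m : ℕ} {z : Tup A} {e a : A}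

theorem star_comm (hed : z.d * e = e * z.d) : star e * star z.d = star z.d * star e := by
  have := congrArg star hed
  rwa [star_mul, star_mul] at this

theorem star_e (he : e = 1 + z.d * a + a * z.d) :
    star e = 1 + star a * star z.d + star z.d * star a := by
  have := congrArg star he
  rwa [star_add, star_add, star_mul, star_mul, star_one] at this

theorem near_f (hz : z.IsPC m) (hed : z.d * e = e * z.d) (he : e = 1 + z.d * a + a * z.d) :
    e * z.S * star e = 1 * z.S * star (1 : A) +
      z.d * (a * z.S * star e - z.S * star a) - (a * z.S * star e - z.S * star a) * star z.d := by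
  have hdS : z.d * z.S = -(z.S * star z.d) := eq_neg_of_add_eq_zero_left hz.dS
  have hs := star_comm hed
  have hse := star_e he
  have e1 : z.d * (a * z.S * star e) - a * z.S * star e * star z.d =
      (z.d * a + a * z.d) * z.S * star e := by
    have e0 : a * z.S * star e * star z.d = -(a * (z.d * z.S) * star e) := by
      rw [mul_assoc (a * z.S), hs, hdS]
      noncomm_ring
    rw [e0]
    noncomm_ring
  have e2 : z.S * star a * star z.d - z.d * (z.S * star a) =
      z.S * (star a * star z.d + star z.d * star a) := by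
    rw [← mul_assoc z.d z.S, hdS]
    noncomm_ring
  have e3 : z.d * a + a * z.d = e - 1 := by rw [he]; noncomm_ring
  have e4 : star a * star z.d + star z.d * star a = star e - 1 := by rw [hse]; noncomm_ring
  rw [star_one, one_mul, mul_one]
  calc e * z.S * star e = z.S + ((e - 1) * z.S * star e + z.S * (star e - 1)) := by noncomm_ring
    _ = z.S + ((z.d * (a * z.S * star e) - a * z.S * star e * star z.d) +
        (z.S * star a * star z.d - z.d * (z.S * star a))) := by rw [e1, e2, e3, e4]
    _ = _ := by noncomm_ring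

theorem near_q (hz : z.IsPC m) (hed : z.d * e = e * z.d) (he : e = 1 + z.d * a + a * z.d) :
    z.T = star (1 : A) * (star e * z.T * e) * 1 +
      (star a * z.T * e - z.T * a) * z.d - star z.d * (star a * z.T * e - z.T * a) := by
  have hTd : z.T * z.d = -(star z.d * z.T) := eq_neg_of_add_eq_zero_left hz.Td
  have hs := star_comm hed
  have hse := star_e he
  have e1 : star a * z.T * e * z.d - star z.d * (star a * z.T * e) =
      -((star a * star z.d + star z.d * star a) * z.T * e) := by
    rw [mul_assoc (star a * z.T), ← hed, ← mul_assoc (star a * z.T) z.d e, mul_assoc (star a) z.T,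
      hTd]
    noncomm_ring
  have e2 : star z.d * (z.T * a) - z.T * a * z.d = -(z.T * (z.d * a + a * z.d)) := by
    rw [← mul_assoc (star z.d) z.T, show star z.d * z.T = -(z.T * z.d) by rw [hTd, neg_neg]]
    noncomm_ring
  have e3 : z.d * a + a * z.d = e - 1 := by rw [he]; noncomm_ring
  have e4 : star a * star z.d + star z.d * star a = star e - 1 := by rw [hse]; noncomm_ring
  rw [star_one, one_mul, mul_one]
  calc z.T = star e * z.T * e + (-((star e - 1) * z.T * e) + -(z.T * (e - 1))) := by noncomm_ring
    _ = star e * z.T * e + ((star a * z.T * e * z.d - star z.d * (star a * z.T * e)) +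
        (star z.d * (z.T * a) - z.T * a * z.d)) := by rw [e1, e2, e3, e4]
    _ = _ := by noncomm_ring

theorem zero_f (hz : z.IsPC m) (hed : z.d * e = e * z.d) (he : e = z.d * a + a * z.d) :
    e * z.S * star e = z.d * (a * z.S * star e) - (a * z.S * star e) * star z.d := by
  have hdS : z.d * z.S = -(z.S * star z.d) := eq_neg_of_add_eq_zero_left hz.dS
  have hs := star_comm hed
  have e0 : a * z.S * star e * star z.d = -(a * (z.d * z.S) * star e) := by
    rw [mul_assoc (a * z.S), hs, hdS]
    noncomm_ring
  have e1 : (z.d * a + a * z.d) * z.S * star e = e * z.S * star e := by rw [← he]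
  rw [e0, ← e1]
  noncomm_ring

theorem pow_comm' (x : A) : (-1 : A) ^ m * x = x * (-1 : A) ^ m := by
  rcases Nat.even_or_odd m with hm | hm
  · rw [hm.neg_one_pow, one_mul, mul_one]
  · rw [hm.neg_one_pow, neg_one_mul, mul_neg_one]

theorem g_star_e (hz : z.IsPC m) (hge : z.g * e = e * z.g) : z.g * star e = star e * z.g := by
  have := congrArg star hge
  rw [star_mul, star_mul, hz.sg] at this
  exact this.symm

theorem g_star_a (hz : z.IsPC m) (hga : z.g * a = -(a * z.g)) :
    z.g * star a = -(star a * z.g) := by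
  have := congrArg star hga
  rw [star_mul, star_neg, star_mul, hz.sg] at this
  rw [this, neg_neg]

theorem near_gk1 (hz : z.IsPC m) (hge : z.g * e = e * z.g) (hga : z.g * a = -(a * z.g)) :
    z.g * (a * z.S * star e) = -((-1 : A) ^ m * (a * z.S * star e * z.g)) := by
  have h1 := g_star_e hz hge
  calc z.g * (a * z.S * star e) = (z.g * a) * z.S * star e := by noncomm_ring
    _ = -(a * (z.g * z.S) * star e) := by rw [hga]; noncomm_ring
    _ = -(a * ((-1) ^ m * (z.S * z.g)) * star e) := by rw [hz.gS]
    _ = -((-1) ^ m * (a * (z.S * (z.g * star e)))) := by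
        rw [← mul_assoc a, ← pow_comm']
        simp only [mul_assoc]
    _ = _ := by rw [h1]; simp only [mul_assoc]

theorem near_gk2 (hz : z.IsPC m) (hga : z.g * a = -(a * z.g)) :
    z.g * (z.S * star a) = -((-1 : A) ^ m * (z.S * star a * z.g)) := by
  have h1 := g_star_a hz hga
  calc z.g * (z.S * star a) = (z.g * z.S) * star a := by rw [mul_assoc]
    _ = (-1) ^ m * (z.S * (z.g * star a)) := by rw [hz.gS]; simp only [mul_assoc]
    _ = _ := by rw [h1]; simp only [mul_assoc, mul_neg]

theorem near_gl1 (hz : z.IsPC m) (hge : z.g * e = e * z.g) (hga : z.g * a = -(a * z.g)) :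
    z.g * (star a * z.T * e) = -((-1 : A) ^ m * (star a * z.T * e * z.g)) := by
  have h1 := g_star_a hz hga
  calc z.g * (star a * z.T * e) = (z.g * star a) * z.T * e := by noncomm_ring
    _ = -(star a * (z.g * z.T) * e) := by rw [h1]; noncomm_ring
    _ = -(star a * ((-1) ^ m * (z.T * z.g)) * e) := by rw [hz.gT]
    _ = -((-1) ^ m * (star a * (z.T * (z.g * e)))) := by
        rw [← mul_assoc (star a), ← pow_comm']
        simp only [mul_assoc]
    _ = _ := by rw [hge]; simp only [mul_assoc]

theorem near_gl2 (hz : z.IsPC m) (hga : z.g * a = -(a * z.g)) :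
    z.g * (z.T * a) = -((-1 : A) ^ m * (z.T * a * z.g)) := by
  calc z.g * (z.T * a) = (z.g * z.T) * a := by rw [mul_assoc]
    _ = (-1) ^ m * (z.T * (z.g * a)) := by rw [hz.gT]; simp only [mul_assoc]
    _ = _ := by rw [hga]; simp only [mul_assoc, mul_neg]

end ring

section mat

variable {κ : Type*} {R0 R1 : Type*} [Ring R0] [StarRing R0] [Algebra ℂ R0] [StarModule ℂ R0]
    [Ring R1] [StarRing R1] [Algebra ℂ R1] [StarModule ℂ R1]
    {F0 : Frame κ R0} {F1 : Frame κ R1} {G : Type*} [AddCommGroup G] (P : SgP F0 F1 G)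
    {J : Type} [Fintype J] [DecidableEq J]
    {S : Set κ} {deg : J → ℤ} {z : Tup (Matrix J J R0)} {e a : Matrix J J R0}

theorem hypR_one {m : ℕ} (hz : z.IsPC m) (hp : z.p = 1) (hed : z.d * e = e * z.d)
    (hge : z.g * e = e * z.g) (he : e = 1 + z.d * a + a * z.d) (hga : z.g * a = -(a * z.g))
    {h0 h : Matrix J J R0} (hx : (RPr.mk z.p z.g z.d z.S z.T h0).IsRP m)
    (hy : (RPr.mk z.p z.g z.d (e * z.S * star e) (star e * z.T * e) h).IsRP m) :
    HypR m (RPr.mk z.p z.g z.d z.S z.T h0)
      (RPr.mk z.p z.g z.d (e * z.S * star e) (star e * z.T * e) h) 1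
      (a * z.S * star e - z.S * star a) (star a * z.T * e - z.T * a) where
  hx := hx
  hy := hy
  pα := by rw [hp, Matrix.one_mul]
  αp := by rw [hp, Matrix.one_mul]
  gα := by rw [Matrix.mul_one, Matrix.one_mul]
  dα := by rw [Matrix.mul_one, Matrix.one_mul]
  hf := near_f hz hed he
  hq := near_q hz hed he
  pk := by rw [hp, Matrix.one_mul]
  kp := by rw [hp, Matrix.mul_one]
  gk := by
    show z.g * _ = -((-1) ^ m * (_ * z.g))
    rw [mul_sub, sub_mul, mul_sub, near_gk1 hz hge hga, near_gk2 hz hga]
    abel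
  pl := by rw [hp, Matrix.one_mul]
  lp := by rw [hp, Matrix.mul_one]
  gl := by
    show z.g * _ = -((-1) ^ m * (_ * z.g))
    rw [mul_sub, sub_mul, mul_sub, near_gl1 hz hge hga, near_gl2 hz hga]
    abel

theorem hm_k {m : ℕ} {a S e : Matrix J J R0} (ha : Hm deg (fun j => deg j + 1) a)
    (hS : Hm deg (fun j => m - deg j) S) (he : Hm deg deg e) :
    Hm deg (fun j => (m : ℤ) + 1 - deg j) (a * S * star e) := by
  have h1 : HmR (fun j => deg j + 1) (fun j => (m : ℤ) + 1 - deg j) S :=
    HmR.congrc (show HmR deg (fun j => (m : ℤ) - deg j) S from hS) (by intro i j h; omega)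
  have h2 : HmR (fun j => (m : ℤ) + 1 - deg j) (fun j => (m : ℤ) + 1 - deg j) (star e) :=
    (HmR.ct (show HmR deg deg e from he)).congrc (by intro i j h; omega)
  exact (HmR.mulc (show HmR deg (fun j => deg j + 1) a from ha) h1).mulc h2

theorem hm_l {m : ℕ} {a T e : Matrix J J R0} (ha : Hm deg (fun j => deg j + 1) a)
    (hT : Hm (fun j => m - deg j) deg T) (he : Hm deg deg e) :
    Hm (fun j => (m : ℤ) - deg j) (fun j => deg j + 1) (star a * T * e) := by
  have h1 : HmR (fun j => (m : ℤ) - deg j) (fun j => (m : ℤ) + 1 - deg j) (star a) :=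
    (HmR.ct (show HmR deg (fun j => deg j + 1) a from ha)).congrc (by intro i j h; omega)
  have h2 : HmR (fun j => (m : ℤ) + 1 - deg j) (fun j => deg j + 1) T :=
    HmR.congrc (show HmR (fun j => (m : ℤ) - deg j) deg T from hT) (by intro i j h; omega)
  have h3 : HmR (fun j => deg j + 1) (fun j => deg j + 1) e :=
    HmR.congrc (show HmR deg deg e from he) (by intro i j h; omega)
  exact (h1.mulc h2).mulc h3

theorem hm_one : Hm deg deg (1 : Matrix J J R0) := by
  intro i j h
  rw [Matrix.one_apply_ne]
  rintro rfl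
  exact h rfl

/-- `e ≃ 1` -/
theorem sig_near_one {l : List (Par κ)} (hl : ∀ b ∈ l, b.Ok F0) (hc : Cov S l)
    (hz : IsOT F0 l.length S deg z) (hp : z.p = 1) (hed : z.d * e = e * z.d)
    (hge : z.g * e = e * z.g) (he : e = 1 + z.d * a + a * z.d) (hga : z.g * a = -(a * z.g))
    (hde : Hm deg deg e) (hda : Hm deg (fun j => deg j + 1) a) {h : Matrix J J R0}
    (hy : IsOb F0 l.length S deg
      (RPr.mk z.p z.g z.d (e * z.S * star e) (star e * z.T * e) h)) :
    sig F0 P.L l (ob deg (RPr.mk z.p z.g z.d (e * z.S * star e) (star e * z.T * e) h)) =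
      sig F0 P.L l (ob deg (Norm551.rpT z)) := by
  have hx := Norm551.isOb_rpT hz
  refine (sig_re P hl hx hy hc (hypR_one hz.pc hp hed hge he hga hx.rp hy.rp) ?_).symm
  refine ⟨hm_one, ?_, ?_⟩
  · have h1 := hm_k hda hz.hS hde
    have h2 : Hm deg (fun j => (l.length : ℤ) + 1 - deg j) (z.S * star a) := by
      have h3 : HmR (fun j => (l.length : ℤ) - deg j) (fun j => (l.length : ℤ) + 1 - deg j)
          (star a) :=
        (HmR.ct (show HmR deg (fun j => deg j + 1) a from hda)).congrc (by intro i j h; omega)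
      exact HmR.mulc (show HmR deg (fun j => (l.length : ℤ) - deg j) z.S from hz.hS) h3
    exact HmR.sub (show HmR deg (fun j => (l.length : ℤ) + 1 - deg j) _ from h1) h2
  · have h1 := hm_l hda hz.hT hde
    have h2 : Hm (fun j => (l.length : ℤ) - deg j) (fun j => deg j + 1) (z.T * a) :=
      HmR.mulc (show HmR (fun j => (l.length : ℤ) - deg j) deg z.T from hz.hT)
        (show HmR deg (fun j => deg j + 1) a from hda)
    exact HmR.sub (show HmR (fun j => (l.length : ℤ) - deg j) (fun j => deg j + 1) _ from h1) h2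

/-- `e ≃ 0` -/
theorem sig_near_zero {l : List (Par κ)} (hl : ∀ b ∈ l, b.Ok F0) (hc : Cov S l)
    (hz : IsOT F0 l.length S deg z) (hp : z.p = 1) (hed : z.d * e = e * z.d)
    (hge : z.g * e = e * z.g) (he : e = z.d * a + a * z.d) (hga : z.g * a = -(a * z.g))
    (hde : Hm deg deg e) (hda : Hm deg (fun j => deg j + 1) a) {h : Matrix J J R0}
    (hy : IsOb F0 l.length S deg
      (RPr.mk z.p z.g z.d (e * z.S * star e) (star e * z.T * e) h)) :
    sig F0 P.L l (ob deg (RPr.mk z.p z.g z.d (e * z.S * star e) (star e * z.T * e) h)) = 0 := by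
  refine sig_null_f P hl hy hc (k := a * z.S * star e) (zero_f hz.pc hed he) ?_ ?_
    (near_gk1 hz.pc hge hga) (hm_k hda hz.hS hde)
  · show z.p * _ = _
    rw [hp, Matrix.one_mul]
  · show _ * z.p = _
    rw [hp, Matrix.mul_one]

end mat

end Crest.Agent.R217.Near559
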