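import Crest.Agent.R217.Avg_557
import Crest.Agent.R217.Cut1_473

/-!
Row 217 (S0336), part C1, helper555: from homotopy idempotents to homogeneous objects.
-/

set_option autoImplicit false
set_option linter.unusedSectionVars false
set_option linter.unusedVariables false

namespace Crest.Agent.R217.Hom555

open Matrix PC473 Obj52 Avg557 Cut1x473

variable {κ : Type*} {R : Type*} [Ring R] [StarRing R] [Algebra ℂ R] [StarModule ℂ R]
variable {J : Type*} [Fintype J] [DecidableEq J]

/-- homogeneous component -/
def hc (α β : J → ℤ) (h : Matrix J J R) : Matrix J J R :=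
  fun i j => if α i = β j then h i j else 0

theorem hc_hm (α β : J → ℤ) (h : Matrix J J R) : Hm α β (hc α β h) := by
  intro i j hij
  simp [hc, hij]

theorem hc_of_hm {α β : J → ℤ} {h : Matrix J J R} (hh : Hm α β h) : hc α β h = h := by
  ext i j
  unfold hc
  split_ifs with h1
  · rfl
  · exact (hh i j h1).symm

theorem hc_add (α β : J → ℤ) (a b : Matrix J J R) : hc α β (a + b) = hc α β a + hc α β b := by
  ext i j
  simp only [hc, Matrix.add_apply]
  split_ifs <;> simp

theorem hc_sub (α β : J → ℤ) (a b : Matrix J J R) : hc α β (a - b) = hc α β a - hc α β b := by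
  ext i j
  simp only [hc, Matrix.sub_apply]
  split_ifs <;> simp

theorem hc_neg (α β : J → ℤ) (a : Matrix J J R) : hc α β (-a) = -hc α β a := by
  ext i j
  simp only [hc, Matrix.neg_apply]
  split_ifs <;> simp

/-- left multiplication by a homogeneous matrix -/
theorem hc_mul_left {α β γ : J → ℤ} {a : Matrix J J R} (ha : Hm α β a)
    (hi : ∀ i j, α i = α j ↔ β i = β j) (b : Matrix J J R) :
    hc α γ (a * b) = a * hc β γ b := by
  ext i j
  simp only [hc, Matrix.mul_apply]
  split_ifs with h1
  · refine Finset.sum_congr rfl fun k _ => ?_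
    by_cases h2 : α i = β k
    · rw [if_pos (h2.symm.trans h1)]
    · rw [ha i k h2, zero_mul, zero_mul]
  · symm
    refine Finset.sum_eq_zero fun k _ => ?_
    by_cases h2 : α i = β k
    · rw [if_neg (fun h3 => h1 (h2.trans h3)), mul_zero]
    · rw [ha i k h2, zero_mul]

/-- right multiplication by a homogeneous matrix -/
theorem hc_mul_right {α β γ : J → ℤ} {b : Matrix J J R} (hb : Hm β γ b)
    (a : Matrix J J R) : hc α γ (a * b) = hc α β a * b := by
  ext i j
  simp only [hc, Matrix.mul_apply]
  split_ifs with h1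
  · refine Finset.sum_congr rfl fun k _ => ?_
    by_cases h2 : β k = γ j
    · rw [if_pos (h1.trans h2.symm)]
    · rw [hb k j h2, mul_zero, mul_zero]
  · symm
    refine Finset.sum_eq_zero fun k _ => ?_
    by_cases h2 : β k = γ j
    · rw [if_neg (fun h3 => h1 (h3.trans h2)), zero_mul]
    · rw [hb k j h2, mul_zero]

theorem hc_congr {α β α' β' : J → ℤ} (h : ∀ i j, α i = β j ↔ α' i = β' j) (a : Matrix J J R) :
    hc α β a = hc α' β' a := by
  ext i j
  simp only [hc, h i j]

variable {F : Frame κ R} {m : ℕ} {S : Set κ} {deg : J → ℤ} {x : Tup (Matrix J J R)}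

/-- homotopy idempotents compatible with the duality give objects -/
theorem isOb_of (hx : IsOT F m S deg x) {e : Matrix J J R} (he : IsMap x.p x.g 1 x.d x.d e)
    (hdeg : Hm deg deg e) (hee : Ho x.p x.g 1 x.d x.d (e * e) e)
    (heS : Ho x.p x.g ((-1) ^ m) x.d (-star x.d) (e * x.S) (x.S * star e)) :
    ∃ h, IsOb F m S deg (RPr.mk x.p x.g x.d (e * x.S * star e) (star e * x.T * e) h) := by
  obtain ⟨h, hR⟩ := rp_of hx.pc he hee heS
  obtain ⟨π, hπ, -⟩ := hx.pd
  obtain ⟨γ, hγ, -⟩ := hx.gd
  have hp0 : Hm deg deg x.p := by rw [hπ]; exact Hm.diagc (fun _ => rfl) _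
  have hg0 : Hm deg deg x.g := by rw [hγ]; exact Hm.diagc (fun _ => rfl) _
  have hf : Hm deg (fun j => m - deg j) (e * x.S * star e) := by
    refine Hm.mulc (β := fun j => m - deg j) (hdeg.mulc hx.hS) ?_
    exact (hdeg.starc).congrc (fun i j h => by omega)
  have hq : Hm (fun j => m - deg j) deg (star e * x.T * e) := by
    refine Hm.mulc (β := deg) (Hm.mulc (β := fun j => m - deg j) ?_ hx.hT) hdeg
    exact (hdeg.starc).congrc (fun i j h => by omega)
  refine ⟨hc deg (fun j => m + 1 - deg j) h, ?_⟩
  have hpm : Hm (fun j => m + 1 - deg j) (fun j => (m : ℤ) + 1 - deg j) x.p := by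
    rw [hπ]; exact Hm.diagc (fun _ => rfl) _
  have hgm : Hm (fun j => m + 1 - deg j) (fun j => (m : ℤ) + 1 - deg j) x.g := by
    rw [hγ]; exact Hm.diagc (fun _ => rfl) _
  constructor
  · constructor
    · exact hR.pp
    · exact hR.sp
    · exact hR.gg
    · exact hR.sg
    · exact hR.pg
    · exact hR.pd
    · exact hR.dp
    · exact hR.pf
    · exact hR.pq
    · show x.p * hc deg (fun j => m + 1 - deg j) h = _
      rw [← hc_mul_left hp0 (fun _ _ => Iff.rfl), hR.ph]
    · show hc deg (fun j => m + 1 - deg j) h * x.p = _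
      rw [← hc_mul_right hpm, hR.hp]
    · exact hR.dd
    · exact hR.sf
    · exact hR.sq
    · exact hR.df
    · exact hR.qd
    · show e * x.S * star e * (star e * x.T * e) * (e * x.S * star e) = e * x.S * star e
        + x.d * hc deg (fun j => m + 1 - deg j) h - hc deg (fun j => m + 1 - deg j) h * star x.d
      have h0 := hR.fqf
      simp only at h0
      have hL : Hm deg (fun j => m - deg j)
          (e * x.S * star e * (star e * x.T * e) * (e * x.S * star e)) := (hf.mulc hq).mulc hf
      have h1 := congrArg (hc deg (fun j => m - deg j)) h0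
      rw [hc_of_hm hL, hc_sub, hc_add, hc_of_hm hf] at h1
      rw [h1]
      have hd1 : hc deg (fun j => m - deg j) (x.d * h)
          = x.d * hc deg (fun j => m + 1 - deg j) h := by
        rw [hc_congr (α' := fun j => deg j + 1) (β' := fun j => m + 1 - deg j)
          (fun i j => by constructor <;> intro h <;> omega)]
        exact hc_mul_left hx.hd (fun i j => by constructor <;> intro h <;> omega) _
      have hd2 : hc deg (fun j => m - deg j) (h * star x.d)
          = hc deg (fun j => m + 1 - deg j) h * star x.d := by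
        refine hc_mul_right (β := fun j => (m : ℤ) + 1 - deg j) ?_ _
        exact (hx.hd.starc).congrc (fun i j h => by omega)
      rw [hd1, hd2]
    · exact hR.gd
    · exact hR.gf
    · exact hR.gq
    · show x.g * hc deg (fun j => m + 1 - deg j) h
        = -((-1) ^ m * (hc deg (fun j => m + 1 - deg j) h * x.g))
      have h0 := hR.gh
      simp only at h0
      rw [← hc_mul_left hg0 (fun _ _ => Iff.rfl), ← hc_mul_right hgm, h0]
      rcases sg_pow (A := Matrix J J R) m with h1 | h1 <;> rw [h1]
      · rw [one_mul, one_mul, hc_neg]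
      · rw [neg_one_mul, neg_one_mul, neg_neg, neg_neg]
  · exact hx.pd
  · exact hx.gd
  · exact hx.hd
  · exact hf
  · exact hq
  · exact hc_hm _ _ _
  · exact hx.lo
  · exact hx.hi

end Crest.Agent.R217.Hom555
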