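import Crest.Agent.R217.GaugeAsy_555
import Crest.Agent.R217.Hom_555
import Crest.Agent.R217.AsyCell_970
import Crest.Agent.R217.FrameAsy_476
import Crest.Agent.R217.Cut2_473
import Crest.Agent.R217.SgPAsy_476
import Crest.Agent.R217.RE5_531

/-!
Row 217 (S0336), part C1, helper555: the twisted family of objects over the gauge algebra, and the
twist theorem for sequence level data (any control data `C` on the vertices of the grids).
-/

set_option autoImplicit false
set_option linter.unusedSectionVars false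
set_option linter.unusedVariables false

open Filter Topology Matrix

namespace Crest.Agent.R217.TwObj555

open Asym476 LocF555 GaugeAsy555 FineTwist555 AsyCell970 Grid897 PC473 Obj52 Avg557 Hom555
open Frame52 (SHom)

/-! ### gradings -/

section grading

variable {R : Type*} [Ring R] {J : Type*} [Fintype J] [DecidableEq J]

theorem g_mul {deg : J → ℕ} {M : Matrix J J R} {s : R} (hs : s = 1 ∨ s = -1)
    (h : ∀ i j, M i j ≠ 0 → (-1 : R) ^ deg i = s * (-1) ^ deg j) :
    (diagonal fun j => (-1 : R) ^ deg j) * M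
      = (diagonal fun _ => s) * (M * diagonal fun j => (-1 : R) ^ deg j) := by
  ext i j
  rw [diagonal_mul, diagonal_mul, mul_diagonal]
  by_cases h0 : M i j = 0
  · rw [h0]; simp
  · rw [h i j h0]
    have : ∀ k : ℕ, (-1 : R) ^ k * M i j = M i j * (-1) ^ k := by
      intro k
      rcases neg_one_pow_eq_or R k with h | h <;> rw [h] <;> simp
    rw [mul_assoc, this]

theorem diag_one : (diagonal fun _ : J => (1 : R)) = 1 := diagonal_one

theorem diag_neg_one : (diagonal fun _ : J => (-1 : R)) = -1 := by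
  rw [← diagonal_one, diagonal_neg]

theorem diag_npow (m : ℕ) : (diagonal fun _ : J => (-1 : R) ^ m) = (-1) ^ m := by
  rw [← diag_neg_one, diagonal_pow]
  rfl

end grading

/-! ### classes of the grid -/

section grid

variable {n : ℕ} {A : Type} {N : A → ℕ} [∀ a, NeZero (N a)] {C : Ctl (BV n N)}

/-- integer degrees -/
def dg' (n : ℕ) : JJ n → ℤ := fun j => (degJ j : ℤ)

theorem gridA_g (h : GridCont C) :
    (gridA h).g = diagonal fun j => (-1 : Asy C ℂ) ^ degJ j := by
  ext i j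
  show toA C (gridL h).g i j = _
  by_cases hij : i = j
  · subst hij
    rw [diagonal_apply_eq, toA_apply]
    have e : ((-1 : Asy C ℂ) ^ degJ i) = cls C ℂ ((-1) ^ degJ i) := by
      rw [map_pow, map_neg, map_one]
    rw [e]
    congr 1
    apply Subtype.ext
    funext a
    show blk n (N a) (gridT (N a) n).g i i = (((-1 : Loc C ℂ) ^ degJ i : Loc C ℂ) : Seq (BV n N) ℂ) a
    have e2 : ∀ d : ℕ, (((-1 : Loc C ℂ) ^ d : Loc C ℂ) : Seq (BV n N) ℂ) a
        = (-1 : Matrix (VV n (N a)) (VV n (N a)) ℂ) ^ d := by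
      intro d
      induction d with
      | zero => rfl
      | succ d ih =>
        rw [pow_succ, pow_succ, ← ih]
        rfl
    rw [e2]
    have := congrFun (congrFun (gridB_g (N a) n) i) i
    rw [diagonal_apply_eq] at this
    exact this
  · rw [diagonal_apply_ne _ hij]
    refine toA_zero_of fun a c' c h1 h2 => ?_
    have hne : c' ≠ c := fun h => hij (by rw [← h1, ← h2, h])
    show (gridT (N a) n).g c' c = 0
    rw [gridT_g_apply, if_neg hne]

theorem toA_hm {M : LocC C} {α β : JJ n → ℤ}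
    (h : ∀ a c' c, M.1 a c' c ≠ 0 → α (jt c') = β (jt c)) : Hm α β (toA C M) := by
  intro i j hne
  refine toA_zero_of fun a c' c h1 h2 => ?_
  by_contra h0
  exact hne (by rw [← h1, ← h2]; exact h a c' c h0)

variable {κ : Type}

theorem gridA_isOT (h : GridCont C) (F : Obj52.Frame κ (Asy C ℂ)) :
    IsOT F n ∅ (dg' n) (gridA h) where
  pc := gridA_isPC h
  pd := ⟨fun _ => 1, by rw [gridA_p, diagonal_one], fun j k c => by rw [one_mul, mul_one]⟩
  gd := ⟨_, gridA_g h, fun j k c => by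
    rcases neg_one_pow_eq_or (Asy C ℂ) (degJ j) with hh | hh <;> rw [hh] <;> simp⟩
  hd := toA_hm fun a c' c h0 => by
    have := (gridT_d_supp n c' c h0).1
    rw [dm_eq, dm_eq] at this
    simp only [dg']
    rw [this]; push_cast; ring
  hS := toA_hm fun a c' c h0 => by
    have := (gridT_S_supp n c' c h0).1
    rw [dm_eq, dm_eq] at this
    simp only [dg']
    omega
  hT := toA_hm fun a c' c h0 => by
    have h0' : (gridT (N a) n).T c' c ≠ 0 := h0
    rw [gridT_T] at h0'
    have := (gridT_S_supp n c' c h0').1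
    rw [dm_eq, dm_eq] at this
    simp only [dg']
    omega
  hH := toA_hm fun a c' c h0 => by
    have := (gridT_H_supp n c' c h0).1
    rw [dm_eq, dm_eq] at this
    simp only [dg']
    omega
  lo := fun k hk => hk.elim
  hi := fun k hk => hk.elim

end grid

/-! ### a single homotopy idempotent -/

section single

variable {n : ℕ} {A : Type} {N : A → ℕ} [∀ a, NeZero (N a)] (C : Ctl (BV n N))

/-- sequence level data of one homotopy idempotent -/
structure HI (e h k : SeqC n N) : Prop where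
  e_loc : IsLocC C e
  h_loc : IsLocC C h
  k_loc : IsLocC C k
  e_dm : ∀ a c' c, e a c' c ≠ 0 → dm (N a) c' = dm (N a) c
  h_dm : ∀ a c' c, h a c' c ≠ 0 → dm (N a) c' = dm (N a) c + 1
  k_dm : ∀ a c' c, k a c' c ≠ 0 → dm (N a) c' + dm (N a) c = n + 1
  rel_d : RelC C (fun a => (gridT (N a) n).d * e a) (fun a => e a * (gridT (N a) n).d)
  rel_e : RelC C (fun a => e a * e a)
    (fun a => e a + (gridT (N a) n).d * h a + h a * (gridT (N a) n).d)
  rel_S : RelC C (fun a => e a * (gridT (N a) n).S - (gridT (N a) n).S * star (e a))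
    (fun a => (gridT (N a) n).d * k a - k a * star (gridT (N a) n).d)

variable {C} {e h k : SeqC n N}

/-- the class of a local sequence -/
noncomputable def cA (M : SeqC n N) (hM : IsLocC C M) : Matrix (JJ n) (JJ n) (Asy C ℂ) :=
  toA C ⟨M, mem_LocC.2 hM⟩

theorem HI.hm_e (H : HI C e h k) : Hm (dg' n) (dg' n) (cA e H.e_loc) :=
  toA_hm fun a c' c h0 => by
    have := H.e_dm a c' c h0
    rw [dm_eq, dm_eq] at this
    simp only [dg']
    omega

theorem HI.hm_h (H : HI C e h k) : Hm (dg' n) (fun j => dg' n j + 1) (cA h H.h_loc) :=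
  toA_hm fun a c' c h0 => by
    have := H.h_dm a c' c h0
    rw [dm_eq, dm_eq] at this
    simp only [dg']
    omega

theorem HI.hm_k (H : HI C e h k) : Hm (dg' n) (fun j => n + 1 - dg' n j) (cA k H.k_loc) :=
  toA_hm fun a c' c h0 => by
    have := H.k_dm a c' c h0
    rw [dm_eq, dm_eq] at this
    simp only [dg']
    omega

/-- gradings from homogeneity -/
theorem g_mul_hm {R : Type*} [Ring R] {M : Matrix (JJ n) (JJ n) R} (hM : Hm (dg' n) (dg' n) M) :
    (diagonal fun j => (-1 : R) ^ degJ j) * M = 1 * (M * diagonal fun j => (-1 : R) ^ degJ j) := by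
  rw [← diag_one]
  refine g_mul (Or.inl rfl) fun i j h0 => ?_
  have : dg' n i = dg' n j := by
    by_contra hne
    exact h0 (hM i j hne)
  simp only [dg'] at this
  rw [one_mul, show degJ i = degJ j by omega]

theorem g_mul_hm1 {R : Type*} [Ring R] {M : Matrix (JJ n) (JJ n) R}
    (hM : Hm (dg' n) (fun j => dg' n j + 1) M) :
    (diagonal fun j => (-1 : R) ^ degJ j) * M
      = -(1 * (M * diagonal fun j => (-1 : R) ^ degJ j)) := by
  have h1 := g_mul (R := R) (J := JJ n) (deg := degJ) (M := M) (s := -1) (Or.inr rfl)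
    fun i j h0 => by
      have : dg' n i = dg' n j + 1 := by
        by_contra hne
        exact h0 (hM i j hne)
      simp only [dg'] at this
      rw [show degJ i = degJ j + 1 by omega, pow_succ]
      simp
  rw [h1, diag_neg_one]; simp

theorem g_mul_hm2 {R : Type*} [Ring R] {M : Matrix (JJ n) (JJ n) R}
    (hM : Hm (dg' n) (fun j => n + 1 - dg' n j) M) :
    (diagonal fun j => (-1 : R) ^ degJ j) * M
      = -((-1) ^ n * (M * diagonal fun j => (-1 : R) ^ degJ j)) := by
  have h1 := g_mul (R := R) (J := JJ n) (deg := degJ) (M := M) (s := -(-1) ^ n)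
    (by rcases neg_one_pow_eq_or R n with hh | hh <;> rw [hh] <;> simp)
    fun i j h0 => by
      have : dg' n i = n + 1 - dg' n j := by
        by_contra hne
        exact h0 (hM i j hne)
      simp only [dg'] at this
      have h2 : degJ i + degJ j = n + 1 := by omega
      have h3 : (-1 : R) ^ degJ i * ((-1) ^ degJ j * (-1) ^ degJ j) = (-1) ^ (n + 1) * (-1) ^ degJ j := by
        rw [← mul_assoc, ← pow_add, h2]
      have h4 : (-1 : R) ^ degJ j * (-1) ^ degJ j = 1 := by
        rcases neg_one_pow_eq_or R (degJ j) with hh | hh <;> rw [hh] <;> simp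
      rw [h4, mul_one] at h3
      rw [h3, pow_succ]; simp
  rw [h1]
  have : (diagonal fun _ : JJ n => -(-1 : R) ^ n) = -(-1) ^ n := by
    rw [← diag_npow, ← diagonal_neg]
  rw [this, neg_mul]

end single

/-! ### the lift to the gauge algebra -/

section lift

variable {R : Type*} [Ring R] [StarRing R] [Algebra ℂ R] [StarModule ℂ R]
  {𝒢 : Set (Gauge R)} {hg : ∀ g ∈ 𝒢, IsGauge g} {q : ℕ} {J : Type*} [Fintype J] [DecidableEq J]

/-- families of matrices that can be lifted -/
structure Lf (𝒢 : Set (Gauge R)) (q : ℕ) (M : ℤ → Matrix J J R) : Prop where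
  hom : ∀ g ∈ 𝒢, ∀ i j, HomF g (fun t => M t i j)
  per : ∀ t, M (t + q) = M t

/-- the lift -/
def lift (hg : ∀ g ∈ 𝒢, IsGauge g) {M : ℤ → Matrix J J R} (h : Lf 𝒢 q M) :
    Matrix J J (twAlg 𝒢 hg q) :=
  fun i j => mkTw (fun t => M t i j) (fun g hg' => h.hom g hg' i j)
    (fun t => congrFun (congrFun (h.per t) i) j)

theorem lift_ev {M : ℤ → Matrix J J R} (h : Lf 𝒢 q M) (t : ℤ) : (lift hg h).map (ev t) = M t := rfl

theorem tw_mat_ext {X Y : Matrix J J (twAlg 𝒢 hg q)} (h : ∀ t, X.map (ev t) = Y.map (ev t)) :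
    X = Y :=
  Matrix.ext fun i j => tw_ext fun t => congrFun (congrFun (h t) i) j

theorem ev_mul (t : ℤ) (X Y : Matrix J J (twAlg 𝒢 hg q)) :
    (X * Y).map (ev t) = X.map (ev t) * Y.map (ev t) := (ev_shom t).mapM.mul X Y

theorem ev_star (t : ℤ) (X : Matrix J J (twAlg 𝒢 hg q)) :
    (star X).map (ev t) = star (X.map (ev t)) := (ev_shom t).mapM.star X

theorem ev_add (t : ℤ) (X Y : Matrix J J (twAlg 𝒢 hg q)) :
    (X + Y).map (ev t) = X.map (ev t) + Y.map (ev t) := rfl

theorem ev_neg (t : ℤ) (X : Matrix J J (twAlg 𝒢 hg q)) :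
    (-X).map (ev t) = -X.map (ev t) := rfl

/-- all evaluations -/
def evAll (𝒢 : Set (Gauge R)) (hg : ∀ g ∈ 𝒢, IsGauge g) (q : ℕ) (J : Type*) [Fintype J]
    [DecidableEq J] : Matrix J J (twAlg 𝒢 hg q) →+* (ℤ → Matrix J J R) where
  toFun X t := X.map (ev t)
  map_one' := by
    funext t
    ext i j
    by_cases h : i = j
    · subst h
      simp [Matrix.map_apply, ev_one]
    · simp [Matrix.map_apply, h, ev_zero]
  map_mul' X Y := funext fun t => ev_mul t X Y
  map_zero' := rfl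
  map_add' X Y := rfl

theorem evAll_inj : Function.Injective (evAll 𝒢 hg q J) := fun X Y h =>
  tw_mat_ext fun t => congrFun h t

theorem isPC_of_ev {m : ℕ} {x : Tup (Matrix J J (twAlg 𝒢 hg q))}
    (h : ∀ t, (x.map fun M => M.map (ev t)).IsPC m) : x.IsPC m :=
  isPC_of_map (evAll 𝒢 hg q J) evAll_inj (fun a => funext fun t => ev_star t a)
    (isPC_pi h)

theorem hm_of_ev {α β : J → ℤ} {M : Matrix J J (twAlg 𝒢 hg q)}
    (h : ∀ t, Hm α β (M.map (ev t))) : Hm α β M := fun i j hne =>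
  tw_ext fun t => h t i j hne

end lift

/-! ### relations between classes -/

section rels

variable {n : ℕ} {A : Type} {N : A → ℕ} [∀ a, NeZero (N a)] {C : Ctl (BV n N)}
  {e h k : SeqC n N}

theorem cA_eq {M M' : SeqC n N} {hM : IsLocC C M} {hM' : IsLocC C M'} (h : RelC C M M') :
    cA M hM = cA M' hM' := toA_eq.2 h

theorem cA_add {M M' : SeqC n N} (hM : IsLocC C M) (hM' : IsLocC C M')
    (hS : IsLocC C (M + M')) : cA (M + M') hS = cA M hM + cA M' hM' := by
  unfold cA
  rw [← map_add]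
  rfl

theorem cA_sub {M M' : SeqC n N} (hM : IsLocC C M) (hM' : IsLocC C M')
    (hS : IsLocC C (M - M')) : cA (M - M') hS = cA M hM - cA M' hM' := by
  unfold cA
  rw [← map_sub]
  rfl

theorem cA_mul {M M' : SeqC n N} (hM : IsLocC C M) (hM' : IsLocC C M')
    (hS : IsLocC C (M * M')) : cA (M * M') hS = cA M hM * cA M' hM' := by
  unfold cA
  rw [← map_mul]
  rfl

theorem cA_star {M : SeqC n N} (hM : IsLocC C M) (hS : IsLocC C (star M)) :
    cA (star M) hS = star (cA M hM) := by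
  unfold cA
  rw [← map_star]
  rfl

theorem lm {M M' : SeqC n N} (hM : IsLocC C M) (hM' : IsLocC C M') : IsLocC C (M * M') :=
  (LocC C).mul_mem hM hM'

theorem la {M M' : SeqC n N} (hM : IsLocC C M) (hM' : IsLocC C M') : IsLocC C (M + M') :=
  (LocC C).add_mem hM hM'

theorem ls {M M' : SeqC n N} (hM : IsLocC C M) (hM' : IsLocC C M') : IsLocC C (M - M') :=
  (LocC C).sub_mem hM hM'

theorem lst {M : SeqC n N} (hM : IsLocC C M) : IsLocC C (star M) :=
  (LocC C).star_mem' hM

/-- the idempotent commutes with the differential -/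
theorem HI.d_comm (hG : GridCont C) (H : HI C e h k) :
    (gridA hG).d * cA e H.e_loc = cA e H.e_loc * (gridA hG).d := by
  have h1 := cA_eq (hM := lm (isLocC_d hG) H.e_loc) (hM' := lm H.e_loc (isLocC_d hG)) H.rel_d
  rw [cA_mul (isLocC_d hG) H.e_loc, cA_mul H.e_loc (isLocC_d hG)] at h1
  exact h1

theorem HI.e_e (hG : GridCont C) (H : HI C e h k) :
    cA e H.e_loc * cA e H.e_loc = cA e H.e_loc + (gridA hG).d * cA h H.h_loc
      + cA h H.h_loc * (gridA hG).d := by
  have h1 := cA_eq (hM := lm H.e_loc H.e_loc)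
    (hM' := la (la H.e_loc (lm (isLocC_d hG) H.h_loc)) (lm H.h_loc (isLocC_d hG))) H.rel_e
  rw [cA_mul H.e_loc H.e_loc] at h1
  rw [h1]
  have h2 := cA_add (C := C) (la H.e_loc (lm (isLocC_d hG) H.h_loc)) (lm H.h_loc (isLocC_d hG))
    (la (la H.e_loc (lm (isLocC_d hG) H.h_loc)) (lm H.h_loc (isLocC_d hG)))
  rw [cA_add H.e_loc (lm (isLocC_d hG) H.h_loc), cA_mul (isLocC_d hG) H.h_loc,
    cA_mul H.h_loc (isLocC_d hG)] at h2
  exact h2

theorem HI.e_S (hG : GridCont C) (H : HI C e h k) :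
    cA e H.e_loc * (gridA hG).S - (gridA hG).S * star (cA e H.e_loc)
      = (gridA hG).d * cA k H.k_loc - cA k H.k_loc * star (gridA hG).d := by
  have h1 := cA_eq (hM := ls (lm H.e_loc (isLocC_S hG)) (lm (isLocC_S hG) (lst H.e_loc)))
    (hM' := ls (lm (isLocC_d hG) H.k_loc) (lm H.k_loc (lst (isLocC_d hG)))) H.rel_S
  rw [cA_sub (lm H.e_loc (isLocC_S hG)) (lm (isLocC_S hG) (lst H.e_loc)),
    cA_sub (lm (isLocC_d hG) H.k_loc) (lm H.k_loc (lst (isLocC_d hG))),
    cA_mul H.e_loc (isLocC_S hG), cA_mul (isLocC_S hG) (lst H.e_loc),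
    cA_mul (isLocC_d hG) H.k_loc, cA_mul H.k_loc (lst (isLocC_d hG)), cA_star H.e_loc,
    cA_star (isLocC_d hG)] at h1
  exact h1

/-- the object of one homotopy idempotent, over any frame on `Asy C ℂ` -/
theorem HI.isOb {κ : Type} (hG : GridCont C) (H : HI C e h k)
    (F : Obj52.Frame κ (Asy C ℂ)) :
    ∃ h', IsOb F n ∅ (dg' n) (RPr.mk (gridA hG).p (gridA hG).g (gridA hG).d
      (cA e H.e_loc * (gridA hG).S * star (cA e H.e_loc))
      (star (cA e H.e_loc) * (gridA hG).T * cA e H.e_loc) h') := by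
  refine isOb_of (gridA_isOT hG F) ?_ H.hm_e ?_ ?_
  · refine ⟨?_, ?_, ?_, H.d_comm hG⟩
    · rw [gridA_p, one_mul]
    · rw [gridA_p, mul_one]
    · rw [gridA_g]; exact g_mul_hm H.hm_e
  · refine ⟨cA h H.h_loc, ?_, ?_, ?_, H.e_e hG⟩
    · rw [gridA_p, one_mul]
    · rw [gridA_p, mul_one]
    · rw [gridA_g]; exact g_mul_hm1 H.hm_h
  · refine ⟨cA k H.k_loc, ?_, ?_, ?_, ?_⟩
    · rw [gridA_p, one_mul]
    · rw [gridA_p, mul_one]
    · rw [gridA_g]; exact g_mul_hm2 H.hm_k
    · have := H.e_S hG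
      rw [sub_eq_iff_eq_add] at this
      rw [this]; noncomm_ring

end rels

/-! ### the twisted family -/

section family

variable {n : ℕ} {A : Type} {N : A → ℕ} [∀ a, NeZero (N a)] (C : Ctl (BV n N))

/-- over the chart `g`, the family `M` is obtained by conjugation with the phases -/
def GRel (g : GD C) (M : ℤ → SeqC n N) : Prop :=
  ∀ t, ∀ r < (1 : ℝ), ∀ᶠ a in C.l, ∀ c' c, C.u C.o a (vt c') ≤ r → C.u C.o a (vt c) ≤ r →
    g.c / 2 < C.u g.φ a (vt c') → g.c / 2 < C.u g.φ a (vt c) →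
    M (t + 1) a c' c = g.ω a (vt c') * M t a c' c * star (g.ω a (vt c))

variable {C}

theorem GRel.hom {g : GD C} {M : ℤ → SeqC n N} (hM : ∀ t, IsLocC C (M t)) (h : GRel C g M)
    (i j : JJ n) : HomF (gau g) (fun t => cA (M t) (hM t) i j) := by
  refine homF_gau g (fun t => lblk C ⟨M t, mem_LocC.2 (hM t)⟩ i j) fun t r hr => ?_
  filter_upwards [h t r hr] with a ha v w hv hw h1 h2
  exact ha (cellEquiv n (N a) (i, v)) (cellEquiv n (N a) (j, w)) hv hw h1 h2

/-- sequence level data of a twisted family of homotopy idempotents; `gs` the gauge charts -/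
structure TwSeq (C : Ctl (BV n N)) (q : ℕ) (gs : List (GD C)) (e h k : ℤ → SeqC n N) : Prop where
  hi : ∀ t, HI C (e t) (h t) (k t)
  per_e : ∀ t, RelC C (e (t + q)) (e t)
  per_h : ∀ t, RelC C (h (t + q)) (h t)
  per_k : ∀ t, RelC C (k (t + q)) (k t)
  ge : ∀ g ∈ gs, GRel C g e
  gh : ∀ g ∈ gs, GRel C g h
  gk : ∀ g ∈ gs, GRel C g k
  /-- the phases are constant on neighbouring vertices in the chart -/
  gn : ∀ g ∈ gs, ∀ r < (1 : ℝ), ∀ᶠ a in C.l, ∀ v w : VV n (N a), nbV v w →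
    C.u C.o a v ≤ r → C.u C.o a w ≤ r → g.c / 2 < C.u g.φ a v → g.c / 2 < C.u g.φ a w →
    g.ω a v = g.ω a w

theorem grel_const {g : GD C} {M : SeqC n N}
    (hM : ∀ a c' c, M a c' c ≠ 0 → nbV (vt c') (vt c))
    (hn : ∀ r < (1 : ℝ), ∀ᶠ a in C.l, ∀ v w : VV n (N a), nbV v w →
    C.u C.o a v ≤ r → C.u C.o a w ≤ r → g.c / 2 < C.u g.φ a v → g.c / 2 < C.u g.φ a w →
    g.ω a v = g.ω a w) : GRel C g (fun _ => M) := by
  intro t r hr
  filter_upwards [hn r hr] with a ha c' c h1 h2 h3 h4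
  by_cases h0 : M a c' c = 0
  · rw [h0]; simp
  · rw [ha _ _ (hM a c' c h0) h1 h2 h3 h4]
    have := g.unit a (vt c)
    calc M a c' c = M a c' c * (star (g.ω a (vt c)) * g.ω a (vt c)) := by rw [this, mul_one]
      _ = _ := by ring

end family

/-! ### the object over the gauge algebra -/

section obj

variable {n : ℕ} {A : Type} {N : A → ℕ} [∀ a, NeZero (N a)] {C : Ctl (BV n N)}

/-- the set of gauges -/
def GS (gs : List (GD C)) : Set (Gauge (Asy C ℂ)) := gau '' {g | g ∈ gs}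

theorem amb (gs : List (GD C)) : Amb (GS gs) := gau_amb _

variable {q : ℕ} {gs : List (GD C)} {e h k : ℤ → SeqC n N}

/-- lift of a family of local sequences -/
theorem lf_of {M : ℤ → SeqC n N} (hM : ∀ t, IsLocC C (M t))
    (hp : ∀ t, RelC C (M (t + q)) (M t)) (hG : ∀ g ∈ gs, GRel C g M) :
    Lf (GS gs) q (fun t => cA (M t) (hM t)) where
  hom := by
    rintro _ ⟨g, hg, rfl⟩ i j
    exact (hG g hg).hom hM i j
  per t := cA_eq (hp t)

theorem relC_refl (M : SeqC n N) : RelC C M M := fun r hr => Eventually.of_forall fun _ _ _ _ => rfl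

theorem TwSeq.lfc (T : TwSeq C q gs e h k) {M : SeqC n N} (hM : IsLocC C M)
    (hn : ∀ a c' c, M a c' c ≠ 0 → nbV (vt c') (vt c)) :
    Lf (GS gs) q (fun _ => cA M hM) :=
  lf_of (M := fun _ => M) (fun _ => hM) (fun _ => relC_refl M)
    (fun g hg => grel_const hn (T.gn g hg))

theorem nbV_refl {m : ℕ} (v : VV n m) : nbV v v := fun i => Or.inl rfl

/-- the grid over the gauge algebra -/
noncomputable def TwSeq.gridX (T : TwSeq C q gs e h k) (hG : GridCont C) :
    Tup (Matrix (JJ n) (JJ n) (twAlg (GS gs) (amb gs).gg q)) where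
  p := lift _ (T.lfc (M := fun a => (gridT (N a) n).p) (isLocC_p C) fun a c' c h0 => by
    have : c' = c := by
      by_contra hne
      rw [gridT_p, one_apply_ne hne] at h0
      exact h0 rfl
    rw [this]; exact nbV_refl _)
  g := lift _ (T.lfc (M := fun a => (gridT (N a) n).g) (isLocC_g C) fun a c' c h0 => by
    have : c' = c := by
      by_contra hne
      rw [gridT_g_apply, if_neg hne] at h0
      exact h0 rfl
    rw [this]; exact nbV_refl _)
  d := lift _ (T.lfc (M := fun a => (gridT (N a) n).d) (isLocC_d hG)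
    fun a c' c h0 => (gridT_d_supp n c' c h0).2)
  S := lift _ (T.lfc (M := fun a => (gridT (N a) n).S) (isLocC_S hG)
    fun a c' c h0 => (gridT_S_supp n c' c h0).2)
  T := lift _ (T.lfc (M := fun a => (gridT (N a) n).T) (isLocC_T hG)
    fun a c' c h0 => (gridT_S_supp n c' c (by rwa [gridT_T] at h0)).2)
  H := lift _ (T.lfc (M := fun a => (gridT (N a) n).H) (isLocC_H hG)
    fun a c' c h0 => (gridT_H_supp n c' c h0).2)

theorem TwSeq.gridX_ev (T : TwSeq C q gs e h k) (hG : GridCont C) (t : ℤ) :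
    (T.gridX hG).map (fun M => M.map (ev t)) = gridA hG := rfl

section mapone

variable {R : Type*} [Ring R] [StarRing R] [Algebra ℂ R] [StarModule ℂ R]
  {𝒢 : Set (Gauge R)} {hg : ∀ g ∈ 𝒢, IsGauge g} {J : Type*} [Fintype J] [DecidableEq J]

theorem ev_one_mat (t : ℤ) : (1 : Matrix J J (twAlg 𝒢 hg q)).map (ev t) = 1 :=
  congrFun (map_one (evAll 𝒢 hg q J)) t

theorem ev_npow_mat (t : ℤ) (m : ℕ) :
    ((-1 : Matrix J J (twAlg 𝒢 hg q)) ^ m).map (ev t) = (-1) ^ m := by
  have h1 := congrFun (map_pow (evAll 𝒢 hg q J) (-1) m) t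
  have h2 : (evAll 𝒢 hg q J (-1)) t = -1 := by
    have := congrFun (map_neg (evAll 𝒢 hg q J) 1) t
    rw [map_one] at this
    exact this
  have h3 : (evAll 𝒢 hg q J (-1) ^ m) t = (evAll 𝒢 hg q J (-1)) t ^ m := rfl
  rw [h3, h2] at h1
  exact h1

/-- evaluation as a ring homomorphism -/
def evR (𝒢 : Set (Gauge R)) (hg : ∀ g ∈ 𝒢, IsGauge g) (q : ℕ) (t : ℤ) :
    twAlg 𝒢 hg q →+* R where
  toFun := ev t
  map_one' := rfl
  map_mul' _ _ := rfl
  map_zero' := rfl
  map_add' _ _ := rfl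

theorem isMap_of_ev {p g s dl dr x : Matrix J J (twAlg 𝒢 hg q)}
    (h : ∀ t, IsMap (p.map (ev t)) (g.map (ev t)) (s.map (ev t)) (dl.map (ev t)) (dr.map (ev t))
      (x.map (ev t))) : IsMap p g s dl dr x where
  px := tw_mat_ext fun t => by rw [ev_mul]; exact (h t).px
  xp := tw_mat_ext fun t => by rw [ev_mul]; exact (h t).xp
  gx := tw_mat_ext fun t => by rw [ev_mul, ev_mul, ev_mul]; exact (h t).gx
  dx := tw_mat_ext fun t => by rw [ev_mul, ev_mul]; exact (h t).dx

theorem ho_of_ev {p g s dl dr x y w : Matrix J J (twAlg 𝒢 hg q)}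
    (h1 : ∀ t, p.map (ev t) * w.map (ev t) = w.map (ev t))
    (h2 : ∀ t, w.map (ev t) * p.map (ev t) = w.map (ev t))
    (h3 : ∀ t, g.map (ev t) * w.map (ev t) = -(s.map (ev t) * (w.map (ev t) * g.map (ev t))))
    (h4 : ∀ t, x.map (ev t) = y.map (ev t) + dl.map (ev t) * w.map (ev t)
      + w.map (ev t) * dr.map (ev t)) : Ho p g s dl dr x y :=
  ⟨w, tw_mat_ext fun t => by rw [ev_mul]; exact h1 t,
    tw_mat_ext fun t => by rw [ev_mul]; exact h2 t,
    tw_mat_ext fun t => by rw [ev_neg, ev_mul, ev_mul, ev_mul]; exact h3 t,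
    tw_mat_ext fun t => by rw [ev_add, ev_add, ev_mul, ev_mul]; exact h4 t⟩

end mapone

theorem TwSeq.gridX_isPC (T : TwSeq C q gs e h k) (hG : GridCont C) : (T.gridX hG).IsPC n :=
  isPC_of_ev fun t => gridA_isPC hG

theorem TwSeq.gridX_p (T : TwSeq C q gs e h k) (hG : GridCont C) : (T.gridX hG).p = 1 :=
  tw_mat_ext fun t => (gridA_p hG).trans (ev_one_mat t).symm

theorem TwSeq.gridX_g (T : TwSeq C q gs e h k) (hG : GridCont C) :
    (T.gridX hG).g = diagonal fun j => (-1) ^ degJ j := by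
  refine tw_mat_ext fun t => (gridA_g hG).trans ?_
  ext i j
  rw [Matrix.map_apply, diagonal_apply, diagonal_apply]
  split_ifs
  · have := map_pow (evR (GS gs) (amb gs).gg q t) (-1) (degJ i)
    rw [map_neg, map_one] at this
    exact this.symm
  · rfl

variable {κ : Type} (F : Obj52.Frame κ (Asy C ℂ))
  (hu : ∀ g ∈ GS gs, ∀ k c, g.u * F.pu k c = F.pu k c * g.u)

theorem TwSeq.gridX_isOT (T : TwSeq C q gs e h k) (hG : GridCont C) :
    IsOT (twF F (GS gs) (amb gs).gg q hu) n ∅ (dg' n) (T.gridX hG) where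
  pc := T.gridX_isPC hG
  pd := ⟨fun _ => 1, by rw [T.gridX_p, diagonal_one], fun j k c => by rw [one_mul, mul_one]⟩
  gd := ⟨_, T.gridX_g hG, fun j k c => by
    rcases neg_one_pow_eq_or (twAlg (GS gs) (amb gs).gg q) (degJ j) with hh | hh <;> rw [hh] <;>
      simp⟩
  hd := hm_of_ev fun t => (gridA_isOT hG F).hd
  hS := hm_of_ev fun t => (gridA_isOT hG F).hS
  hT := hm_of_ev fun t => (gridA_isOT hG F).hT
  hH := hm_of_ev fun t => (gridA_isOT hG F).hH
  lo := fun k hk => hk.elim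
  hi := fun k hk => hk.elim

/-- the idempotent over the gauge algebra -/
noncomputable def TwSeq.eX (T : TwSeq C q gs e h k) :
    Matrix (JJ n) (JJ n) (twAlg (GS gs) (amb gs).gg q) :=
  lift _ (lf_of (fun t => (T.hi t).e_loc) T.per_e T.ge)

noncomputable def TwSeq.hX (T : TwSeq C q gs e h k) :
    Matrix (JJ n) (JJ n) (twAlg (GS gs) (amb gs).gg q) :=
  lift _ (lf_of (fun t => (T.hi t).h_loc) T.per_h T.gh)

noncomputable def TwSeq.kX (T : TwSeq C q gs e h k) :
    Matrix (JJ n) (JJ n) (twAlg (GS gs) (amb gs).gg q) :=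
  lift _ (lf_of (fun t => (T.hi t).k_loc) T.per_k T.gk)

theorem TwSeq.exists_obj (T : TwSeq C q gs e h k) (hG : GridCont C) :
    ∃ h', IsOb (twF F (GS gs) (amb gs).gg q hu) n ∅ (dg' n)
      (RPr.mk (T.gridX hG).p (T.gridX hG).g (T.gridX hG).d
        (T.eX * (T.gridX hG).S * star T.eX) (star T.eX * (T.gridX hG).T * T.eX) h') := by
  have hOT := T.gridX_isOT F hu hG
  have hp : ∀ t, (T.gridX hG).p.map (ev t) = 1 := fun t => gridA_p hG
  have hgg : ∀ t, (T.gridX hG).g.map (ev t) = diagonal fun j => (-1) ^ degJ j :=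
    fun t => gridA_g hG
  refine isOb_of hOT (isMap_of_ev fun t => ?_) (hm_of_ev fun t => (T.hi t).hm_e)
    (ho_of_ev (w := T.hX) (fun t => ?_) (fun t => ?_) (fun t => ?_) (fun t => ?_))
    (ho_of_ev (w := T.kX) (fun t => ?_) (fun t => ?_) (fun t => ?_) (fun t => ?_))
  · refine ⟨?_, ?_, ?_, (T.hi t).d_comm hG⟩
    · rw [hp, one_mul]
    · rw [hp, mul_one]
    · rw [hgg, ev_one_mat]; exact g_mul_hm (T.hi t).hm_e
  · rw [hp, one_mul]
  · rw [hp, mul_one]
  · rw [hgg, ev_one_mat]; exact g_mul_hm1 (T.hi t).hm_h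
  · rw [ev_mul]; exact (T.hi t).e_e hG
  · rw [hp, one_mul]
  · rw [hp, mul_one]
  · rw [hgg, ev_npow_mat]; exact g_mul_hm2 (T.hi t).hm_k
  · have := (T.hi t).e_S hG
    rw [sub_eq_iff_eq_add] at this
    rw [ev_mul, ev_mul, ev_neg, ev_star, ev_star, mul_neg]
    refine this.trans ?_
    have e1 : (T.gridX hG).S.map (ev t) = (gridA hG).S := rfl
    have e2 : (T.gridX hG).d.map (ev t) = (gridA hG).d := rfl
    have e3 : T.eX.map (ev t) = cA (e t) (T.hi t).e_loc := rfl
    have e4 : T.kX.map (ev t) = cA (k t) (T.hi t).k_loc := rfl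
    rw [e1, e2, e3, e4]
    abel

end obj

/-! ### the twist theorem -/

section final

variable {n : ℕ} {A : Type} {N : A → ℕ} [∀ a, NeZero (N a)] {C : Ctl (BV n N)}
  {q : ℕ} {gs : List (GD C)} {e h k : ℤ → SeqC n N}
  {κ : Type} [Fintype κ] {dir : κ → C.Φ} {lo hi : κ → ℝ} (lt : ∀ k, lo k < hi k)

/-- changing only the homotopy `h` does not change the signature -/
theorem sig_h {R0 R1 : Type} [Ring R0] [StarRing R0] [Algebra ℂ R0] [StarModule ℂ R0]
    [Ring R1] [StarRing R1] [Algebra ℂ R1] [StarModule ℂ R1] {κ : Type*}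
    {F0 : Obj52.Frame κ R0} {F1 : Obj52.Frame κ R1} {G : Type*} [AddCommGroup G]
    (P : Sig52.SgP F0 F1 G) {J : Type} [Fintype J] [DecidableEq J] {deg : J → ℤ} {S : Set κ}
    {l : List (Par κ)} (hl : ∀ a ∈ l, a.Ok F0) (hc : Ind52.Cov S l)
    {p g d f r h h' : Matrix J J R0} (hx : IsOb F0 l.length S deg (RPr.mk p g d f r h))
    (hy : IsOb F0 l.length S deg (RPr.mk p g d f r h')) :
    Sig52.sig F0 P.L l (Ind52.ob deg (RPr.mk p g d f r h))
      = Sig52.sig F0 P.L l (Ind52.ob deg (RPr.mk p g d f r h')) := by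
  have hp := hx.rp
  have sp := hp.sp
  have hgp : g * p = g := hp.gp
  have hfp : f * p = f := hp.fp
  have hrp : r * p = r := hp.qp
  refine RE531.sig_re P hl hx hy hc (α := p) (k := 0) (q := 0) ?_ ?_
  · constructor
    · exact hx.rp
    · exact hy.rp
    · exact hp.pp
    · exact hp.pp
    · show g * p = p * g
      rw [hgp, show p * g = g from hp.pg]
    · show d * p = p * d
      rw [show d * p = d from hp.dp, show p * d = d from hp.pd]
    · show f = p * f * pᴴ + d * 0 - 0 * dᴴ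
      rw [show pᴴ = p from sp, show p * f = f from hp.pf, hfp]; simp
    · show r = pᴴ * r * p + 0 * d - dᴴ * 0
      rw [show pᴴ = p from sp, show p * r = r from hp.pq, hrp]; simp
    all_goals simp
  · obtain ⟨π, hπ, -⟩ := hx.pd
    refine ⟨?_, ?_, ?_⟩
    · have : Hm deg deg p := by
        have h2 : p = diagonal π := hπ
        rw [h2]; exact Hm.diagc (fun _ => rfl) _
      exact this
    · exact fun i j _ => rfl
    · exact fun i j _ => rfl

/-- **Twist theorem.**  The signatures of the objects at `t + 1` and `t` agree. -/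
theorem TwSeq.sig_eq (T : TwSeq C q gs e h k) (hq : q ≠ 0) (hG : GridCont C)
    (hC : Cpt C dir lo hi)
    (hcov : ∀ s t : κ → ℝ, (∀ k, lo k < s k) → (∀ k, t k < hi k) → ∀ r < (1 : ℝ),
      ∀ᶠ a in C.l, ∀ b, C.u C.o a b ≤ r →
        (∀ k, s k < C.u (dir k) a b ∧ C.u (dir k) a b ≤ t k) → ∃ g ∈ gs, g.c ≤ C.u g.φ a b)
    {l : List (Par κ)} (hln : l.length = n) (hl : ∀ a ∈ l, a.Ok (frame C ℂ dir lo hi lt))
    (hk : ∀ k, ∃ a ∈ l, a.k = k) (t : ℤ)
    {h1 h0 : Matrix (JJ n) (JJ n) (Asy C ℂ)}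
    (H1 : IsOb (frame C ℂ dir lo hi lt) n ∅ (dg' n) (RPr.mk (gridA hG).p (gridA hG).g (gridA hG).d
      (cA (e (t + 1)) (T.hi (t + 1)).e_loc * (gridA hG).S * star (cA (e (t + 1)) (T.hi (t + 1)).e_loc))
      (star (cA (e (t + 1)) (T.hi (t + 1)).e_loc) * (gridA hG).T * cA (e (t + 1)) (T.hi (t + 1)).e_loc)
      h1))
    (H0 : IsOb (frame C ℂ dir lo hi lt) n ∅ (dg' n) (RPr.mk (gridA hG).p (gridA hG).g (gridA hG).d
      (cA (e t) (T.hi t).e_loc * (gridA hG).S * star (cA (e t) (T.hi t).e_loc))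
      (star (cA (e t) (T.hi t).e_loc) * (gridA hG).T * cA (e t) (T.hi t).e_loc) h0)) :
    Sig52.sig (frame C ℂ dir lo hi lt) (sgLaws C) l (Ind52.ob (dg' n)
      (RPr.mk (gridA hG).p (gridA hG).g (gridA hG).d
      (cA (e (t + 1)) (T.hi (t + 1)).e_loc * (gridA hG).S * star (cA (e (t + 1)) (T.hi (t + 1)).e_loc))
      (star (cA (e (t + 1)) (T.hi (t + 1)).e_loc) * (gridA hG).T * cA (e (t + 1)) (T.hi (t + 1)).e_loc)
      h1))
    = Sig52.sig (frame C ℂ dir lo hi lt) (sgLaws C) l (Ind52.ob (dg' n)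
      (RPr.mk (gridA hG).p (gridA hG).g (gridA hG).d
      (cA (e t) (T.hi t).e_loc * (gridA hG).S * star (cA (e t) (T.hi t).e_loc))
      (star (cA (e t) (T.hi t).e_loc) * (gridA hG).T * cA (e t) (T.hi t).e_loc) h0)) := by
  have hu : ∀ g ∈ GS gs, ∀ k c, g.u * (frame C ℂ dir lo hi lt).pu k c
      = (frame C ℂ dir lo hi lt).pu k c * g.u := by
    rintro _ ⟨g, hg, rfl⟩ k c
    exact gau_u_ind g _
  have hP : ∀ g ∈ GS gs, ∀ k c, g.P 0 * (frame C ℂ dir lo hi lt).pu k c
      = (frame C ℂ dir lo hi lt).pu k c * g.P 0 := by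
    rintro _ ⟨g, hg, rfl⟩ k c
    exact gau_P_ind g 0 _
  obtain ⟨h', hX⟩ := T.exists_obj (frame C ℂ dir lo hi lt) hu hG
  subst hln
  set X : RPr (Matrix (JJ l.length) (JJ l.length) (twAlg (GS gs) (amb gs).gg q)) :=
    RPr.mk (T.gridX hG).p (T.gridX hG).g (T.gridX hG).d
        (T.eX * (T.gridX hG).S * star T.eX) (star T.eX * (T.gridX hG).T * T.eX) h' with hXdef
  have hl' : ∀ a ∈ l, a.Ok (twF (frame C ℂ dir lo hi lt) (GS gs) (amb gs).gg q hu) :=
    fun a ha => ⟨(hl a ha).pos, (hl a ha).h1, (hl a ha).h2, (hl a ha).h3⟩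
  have hred := Cut2x473.red_isOb_univ l hl' hk ∅
    (Ind52.ob (dg' l.length) X) hX
  have hpd : X.p = 1 := T.gridX_p hG
  have key := sgO_twist (F := frame C ℂ dir lo hi lt) hu (sgLaws C) (amb gs) (gs.map gau)
    (by
      intro g hg
      rw [List.mem_map] at hg
      obtain ⟨g', hg', rfl⟩ := hg
      exact ⟨g', hg', rfl⟩) hq hP
    (fun e h1 h2 => ok_of_bd hC h1 h2)
    (by
      rintro a ⟨h1, h2⟩
      choose s hs using fun k => (h2 k).1
      choose t ht using fun k => (h2 k).2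
      exact cover dir gs a s t h1 (fun k => (hs k).2) (fun k => (ht k).2)
        (hcov s t (fun k => (hs k).1) (fun k => (ht k).1)))
    l (Ind52.ob (dg' l.length) X)
    (by
      show Cst X.p
      rw [hpd]; exact Cst.one)
    (by
      intro g hg
      show Cm g.u (X.p.map (ev 0))
      rw [hpd, ev_one_mat]; exact Cm.one _)
    (by
      intro g hg
      show Cm (g.P 0) (X.p.map (ev 0))
      rw [hpd, ev_one_mat]; exact Cm.one _)
    hred t
  rw [sgO_eq_sig, sgO_eq_sig] at key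
  have hcv : Ind52.Cov (∅ : Set κ) l := fun k => Or.inr (hk k)
  -- identification of the evaluations
  have hev : ∀ t : ℤ, IsOb (frame C ℂ dir lo hi lt) l.length ∅ (dg' l.length)
      (X.map (Nat52.mapH (JJ l.length) (evH (amb gs).gg q t))) := by
    intro t
    exact Obj52.IsOb.map hX (fun k c => rfl) rfl rfl
  have hid : ∀ t : ℤ, X.map (Nat52.mapH (JJ l.length) (evH (amb gs).gg q t))
      = RPr.mk (gridA hG).p (gridA hG).g (gridA hG).d
        (cA (e t) (T.hi t).e_loc * (gridA hG).S * star (cA (e t) (T.hi t).e_loc))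
        (star (cA (e t) (T.hi t).e_loc) * (gridA hG).T * cA (e t) (T.hi t).e_loc)
        (h'.map (ev t)) := by
    intro t
    refine RPr.ext rfl rfl rfl ?_ ?_ rfl
    · show (T.eX * (T.gridX hG).S * star T.eX).map (ev t) = _
      rw [ev_mul, ev_mul, ev_star]; rfl
    · show (star T.eX * (T.gridX hG).T * T.eX).map (ev t) = _
      rw [ev_mul, ev_mul, ev_star]; rfl
  have key' : Sig52.sig (frame C ℂ dir lo hi lt) (sgLaws C) l (Ind52.ob (dg' l.length)
        (X.map (Nat52.mapH (JJ l.length) (evH (amb gs).gg q (t + 1)))))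
      = Sig52.sig (frame C ℂ dir lo hi lt) (sgLaws C) l (Ind52.ob (dg' l.length)
        (X.map (Nat52.mapH (JJ l.length) (evH (amb gs).gg q t)))) := key
  have hev1 := hev (t + 1)
  have hev0 := hev t
  rw [hid] at hev1 hev0
  rw [hid, hid] at key'
  have k1 := sig_h (sgP lt hC) hl hcv H1 hev1
  have k0 := sig_h (sgP lt hC) hl hcv H0 hev0
  exact k1.trans (key'.trans k0.symm)

end final

end Crest.Agent.R217.TwObj555
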