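import Mathlib
import Crest.Agent.R217.CoSeq_559
import Crest.Agent.R217.NearOne_559
import Crest.Agent.R217.TwObj_555
import Crest.Agent.R217.LineAsy_897

/-!
Row 217 (S0336), part C: values of the signature in the coarse frame.
-/

set_option autoImplicit false
set_option linter.unusedSectionVars false
set_option linter.unusedVariables false

open Filter Topology Metric Set

namespace Crest.Agent.R217.CoVal559

open Crest.Agent.R217.CruxN559 Crest.Agent.R217.Coarse889 Crest.Agent.R217.CtrlS970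
open Crest.Agent.R217.FinePkg970 Crest.Agent.R217.Flow373 Crest.Agent.R217.Glob559
open Crest.Agent.R217.Grid897 Crest.Agent.R217.Asym476 Crest.Agent.R217.Ctl559
open Crest.Agent.R217.AsyCell970 Crest.Agent.R217.PC473 Crest.Agent.R217.FineSeq970
open Crest.Agent.R217.CoSeq559 Crest.Agent.R217.TwObj555 Crest.Agent.R217.Obj52
open Crest.Agent.R217.Sig52 Crest.Agent.R217.Ind52 Crest.Agent.R217.Nat52

universe u

variable {n : ℕ} (D : ∀ k, KDat.{u} n (cs k))

/-- the control data of the coarse frame in the form used by the normalisation -/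
noncomputable def gridCtl_C : GridCtl (CC D) where
  μ := mu D
  μ_pos := mu_pos D
  μ_lim := tendsto_mu_lc D
  ξ := PhiC.x
  hξ i a v := rfl
  cont := gridCont_C D
  win r hr := by
    filter_upwards [win_C D] with a ha v hv
    have h2 : 2 * ‖Ctl559.xv D a v‖ ≤ r := hv
    exact ha v (by linarith)

/-- the class of `e_t` in the coarse frame -/
noncomputable def eC (t : ℤ) : Matrix (JJ n) (JJ n) (Asy (CC D) ℂ) := cA (eS D t) (isLocC_eS_C D t)

/-- the class of the coarse homotopy -/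
noncomputable def aC (t : ℤ) : Matrix (JJ n) (JJ n) (Asy (CC D) ℂ) := cA (aS D t) (isLocC_aS D t)

/-- the grid in the coarse frame -/
noncomputable def gC : Tup (Matrix (JJ n) (JJ n) (Asy (CC D) ℂ)) := gridA (gridCont_C D)

variable (t : ℤ)

theorem hm_eC : Hm (dg' n) (dg' n) (eC D t) :=
  toA_hm fun a c' c h0 => by
    have := eS_dm D t a h0
    rw [dm_eq, dm_eq] at this
    simp only [dg']
    omega

theorem hm_aC : Hm (dg' n) (fun j => dg' n j + 1) (aC D t) :=
  toA_hm fun a c' c h0 => by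
    have := aS_dm D t a h0
    rw [dm_eq, dm_eq] at this
    simp only [dg']
    omega

theorem g_eC : (gC D).g * eC D t = eC D t * (gC D).g := by
  unfold gC
  rw [gridA_g, g_mul_hm (hm_eC D t), one_mul]

theorem g_aC : (gC D).g * aC D t = -(aC D t * (gC D).g) := by
  unfold gC
  rw [gridA_g, g_mul_hm1 (hm_aC D t), one_mul]

theorem d_eC : (gC D).d * eC D t = eC D t * (gC D).d := by
  have h1 := cA_eq (hM := lm (isLocC_d (gridCont_C D)) (isLocC_eS_C D t))
    (hM' := lm (isLocC_eS_C D t) (isLocC_d (gridCont_C D)))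
    (relC_res (le_CC D) (rel_dS D (le_refl lf) t))
  rw [cA_mul (isLocC_d (gridCont_C D)) (isLocC_eS_C D t),
    cA_mul (isLocC_eS_C D t) (isLocC_d (gridCont_C D))] at h1
  exact h1

theorem loc_sum : IsLocC (CC D) (dS D * aS D t + aS D t * dS D) :=
  la (lm (isLocC_d (gridCont_C D)) (isLocC_aS D t)) (lm (isLocC_aS D t) (isLocC_d (gridCont_C D)))

theorem cA_sum : cA (dS D * aS D t + aS D t * dS D) (loc_sum D t) =
    (gC D).d * aC D t + aC D t * (gC D).d := by
  have h1 := cA_add (C := CC D) (lm (isLocC_d (gridCont_C D)) (isLocC_aS D t))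
    (lm (isLocC_aS D t) (isLocC_d (gridCont_C D))) (loc_sum D t)
  rw [cA_mul (isLocC_d (gridCont_C D)) (isLocC_aS D t),
    cA_mul (isLocC_aS D t) (isLocC_d (gridCont_C D))] at h1
  exact h1

theorem eC_zero : eC D 0 = 1 + (gC D).d * aC D 0 + aC D 0 * (gC D).d := by
  have hone : IsLocC (CC D) (1 : SeqC n (NN D)) := (LocC (CC D)).one_mem
  have h1 := cA_eq (hM := ls (isLocC_eS_C D 0) hone) (hM' := loc_sum D 0) (rel_zero D)
  rw [cA_sum, cA_sub (isLocC_eS_C D 0) hone] at h1
  have h2 : cA (1 : SeqC n (NN D)) hone = 1 := map_one (toA (CC D))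
  rw [h2] at h1
  have h3 : eC D 0 = 1 + ((gC D).d * aC D 0 + aC D 0 * (gC D).d) := by
    rw [← h1]
    show eC D 0 = 1 + (eC D 0 - 1)
    rw [add_sub_cancel]
  rw [h3, add_assoc]

theorem eC_one : eC D 1 = (gC D).d * aC D 1 + aC D 1 * (gC D).d := by
  have h1 := cA_eq (hM := isLocC_eS_C D 1) (hM' := loc_sum D 1) (rel_one D)
  rw [cA_sum] at h1
  exact h1

/-- the regular pairs of the coarse frame -/
noncomputable def rC (h : Matrix (JJ n) (JJ n) (Asy (CC D) ℂ)) :
    RPr (Matrix (JJ n) (JJ n) (Asy (CC D) ℂ)) :=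
  RPr.mk (gC D).p (gC D).g (gC D).d (eC D t * (gC D).S * star (eC D t))
    (star (eC D t) * (gC D).T * eC D t) h

section val

variable {κ : Type} {R1 : Type*} [Ring R1] [StarRing R1] [Algebra ℂ R1] [StarModule ℂ R1]
    {F0 : Frame κ (Asy (CC D) ℂ)} {F1 : Frame κ R1} {G : Type*} [AddCommGroup G] (P : SgP F0 F1 G)

include P

/-- the value for `t = 0` -/
theorem val_zero {l : List (Par κ)} (hl : ∀ b ∈ l, b.Ok F0) (hc : Cov ∅ l) (hlen : l.length = n)
    {h : Matrix (JJ n) (JJ n) (Asy (CC D) ℂ)} (hy : IsOb F0 n ∅ (dg' n) (rC D 0 h)) :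
    sig F0 P.L l (ob (dg' n) (rC D 0 h)) = sig F0 P.L l (ob (dg' n) (Norm551.rpT (gC D))) := by
  have hz : IsOT F0 l.length ∅ (dg' n) (gC D) := by
    rw [hlen]
    exact gridA_isOT (gridCont_C D) F0
  exact Near559.sig_near_one P hl hc hz (gridA_p _) (d_eC D 0) (g_eC D 0) (eC_zero D) (g_aC D 0)
    (hm_eC D 0) (hm_aC D 0) (by rw [hlen]; exact hy)

/-- the value for `t = 1` -/
theorem val_one {l : List (Par κ)} (hl : ∀ b ∈ l, b.Ok F0) (hc : Cov ∅ l) (hlen : l.length = n)
    {h : Matrix (JJ n) (JJ n) (Asy (CC D) ℂ)} (hy : IsOb F0 n ∅ (dg' n) (rC D 1 h)) :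
    sig F0 P.L l (ob (dg' n) (rC D 1 h)) = 0 := by
  have hz : IsOT F0 l.length ∅ (dg' n) (gC D) := by
    rw [hlen]
    exact gridA_isOT (gridCont_C D) F0
  exact Near559.sig_near_zero P hl hc hz (gridA_p _) (d_eC D 1) (g_eC D 1) (eC_one D) (g_aC D 1)
    (hm_eC D 1) (hm_aC D 1) (by rw [hlen]; exact hy)

end val

end Crest.Agent.R217.CoVal559
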