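import Crest.Agent.R217.Obj_52

/-!
Row 217 (S0336), part C (helper970): the homotopy of a regular pair with homogeneous data can be
chosen homogeneous; regular pairs with homogeneous data are objects (`Obj52.IsOb`).
-/

set_option autoImplicit false
set_option linter.unusedSectionVars false
set_option linter.unusedVariables false

open Matrix

namespace Crest.Agent.R217.Homog970

open PC473 Obj52

variable {R : Type*} [Ring R] [StarRing R] {J : Type*} [Fintype J] [DecidableEq J]
  {deg : J → ℤ} {c : ℤ} {m : ℕ}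

/-- the part of total degree `c` -/
def prj (deg : J → ℤ) (c : ℤ) (a : Matrix J J R) : Matrix J J R :=
  Matrix.of fun i j => if deg i + deg j = c then a i j else 0

theorem prj_apply (deg : J → ℤ) (c : ℤ) (a : Matrix J J R) (i j : J) :
    prj deg c a i j = if deg i + deg j = c then a i j else 0 := rfl

theorem prj_add (a b : Matrix J J R) : prj deg c (a + b) = prj deg c a + prj deg c b := by
  ext i j
  simp only [prj_apply, Matrix.add_apply]
  split_ifs <;> simp

theorem prj_neg (a : Matrix J J R) : prj deg c (-a) = -prj deg c a := by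
  ext i j
  simp only [prj_apply, Matrix.neg_apply]
  split_ifs <;> simp

theorem prj_sub (a b : Matrix J J R) : prj deg c (a - b) = prj deg c a - prj deg c b := by
  rw [sub_eq_add_neg, prj_add, prj_neg, ← sub_eq_add_neg]

theorem prj_pow (a : Matrix J J R) :
    prj deg c ((-1) ^ m * a) = (-1) ^ m * prj deg c a := by
  rcases Nat.even_or_odd m with h | h
  · rw [h.neg_one_pow, one_mul, one_mul]
  · rw [h.neg_one_pow, neg_one_mul, neg_one_mul, prj_neg]

theorem prj_self {a : Matrix J J R} (h : ∀ i j, a i j ≠ 0 → deg i + deg j = c) :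
    prj deg c a = a := by
  ext i j
  rw [prj_apply]
  split_ifs with h1
  · rfl
  · by_contra h2
    exact h1 (h i j (fun h3 => h2 h3.symm))

theorem prj_diag_mul {p : Matrix J J R} (hp : ∀ i j, p i j ≠ 0 → deg i = deg j)
    (a : Matrix J J R) : prj deg c (p * a) = p * prj deg c a := by
  ext i j
  rw [prj_apply, Matrix.mul_apply, Matrix.mul_apply]
  split_ifs with h
  · refine Finset.sum_congr rfl fun k _ => ?_
    by_cases h0 : p i k = 0
    · rw [h0, zero_mul, zero_mul]
    · rw [prj_apply, if_pos (by rw [← hp i k h0]; exact h)]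
  · symm
    refine Finset.sum_eq_zero fun k _ => ?_
    by_cases h0 : p i k = 0
    · rw [h0, zero_mul]
    · rw [prj_apply, if_neg (by rw [← hp i k h0]; exact h), mul_zero]

theorem prj_mul_diag {p : Matrix J J R} (hp : ∀ i j, p i j ≠ 0 → deg i = deg j)
    (a : Matrix J J R) : prj deg c (a * p) = prj deg c a * p := by
  ext i j
  rw [prj_apply, Matrix.mul_apply, Matrix.mul_apply]
  split_ifs with h
  · refine Finset.sum_congr rfl fun k _ => ?_
    by_cases h0 : p k j = 0
    · rw [h0, mul_zero, mul_zero]
    · rw [prj_apply, if_pos (by rw [hp k j h0]; exact h)]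
  · symm
    refine Finset.sum_eq_zero fun k _ => ?_
    by_cases h0 : p k j = 0
    · rw [h0, mul_zero]
    · rw [prj_apply, if_neg (by rw [hp k j h0]; exact h), zero_mul]

theorem prj_d_mul {d : Matrix J J R} (hd : ∀ i j, d i j ≠ 0 → deg i + 1 = deg j)
    (a : Matrix J J R) : prj deg c (d * a) = d * prj deg (c + 1) a := by
  ext i j
  rw [prj_apply, Matrix.mul_apply, Matrix.mul_apply]
  split_ifs with h
  · refine Finset.sum_congr rfl fun k _ => ?_
    by_cases h0 : d i k = 0
    · rw [h0, zero_mul, zero_mul]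
    · rw [prj_apply, if_pos (by rw [← hd i k h0]; linarith)]
  · symm
    refine Finset.sum_eq_zero fun k _ => ?_
    by_cases h0 : d i k = 0
    · rw [h0, zero_mul]
    · rw [prj_apply, if_neg (by rw [← hd i k h0]; intro h1; exact h (by linarith)), mul_zero]

theorem prj_mul_star_d {d : Matrix J J R} (hd : ∀ i j, d i j ≠ 0 → deg i + 1 = deg j)
    (a : Matrix J J R) : prj deg c (a * star d) = prj deg (c + 1) a * star d := by
  have hs : ∀ i j, star d i j ≠ 0 → deg i = deg j + 1 := by
    intro i j h
    rw [Matrix.star_apply] at h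
    exact (hd j i (fun h0 => h (by rw [h0, star_zero]))).symm
  ext i j
  rw [prj_apply, Matrix.mul_apply, Matrix.mul_apply]
  split_ifs with h
  · refine Finset.sum_congr rfl fun k _ => ?_
    by_cases h0 : star d k j = 0
    · rw [h0, mul_zero, mul_zero]
    · rw [prj_apply, if_pos (by rw [hs k j h0]; linarith)]
  · symm
    refine Finset.sum_eq_zero fun k _ => ?_
    by_cases h0 : star d k j = 0
    · rw [h0, mul_zero]
    · rw [prj_apply, if_neg (by rw [hs k j h0]; intro h1; exact h (by linarith)), zero_mul]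

/-- `Hm` in contrapositive form -/
theorem hm_ne {α β : J → ℤ} {a : Matrix J J R} (h : Hm α β a) {i j : J} (h0 : a i j ≠ 0) :
    α i = β j := by
  by_contra hne
  exact h0 (h i j hne)

theorem hm_of {α β : J → ℤ} {a : Matrix J J R} (h : ∀ i j, a i j ≠ 0 → α i = β j) :
    Hm α β a := fun i j hne => by
  by_contra h0
  exact hne (h i j h0)

theorem hm_mul {α β γ : J → ℤ} {a b : Matrix J J R} (ha : Hm α β a) (hb : Hm β γ b) :
    Hm α γ (a * b) := hm_of fun i j h => by
  rw [Matrix.mul_apply] at h
  obtain ⟨k, -, hk⟩ := Finset.exists_ne_zero_of_sum_ne_zero h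
  rw [hm_ne ha (left_ne_zero_of_mul hk), hm_ne hb (right_ne_zero_of_mul hk)]

theorem diag_ne {e : J → R} {i j : J} (h : (diagonal e) i j ≠ 0) : deg i = deg j := by
  by_contra hne
  exact h (diagonal_apply_ne _ (fun hij => hne (by rw [hij])))

/-- replace the homotopy by its homogeneous part -/
theorem homog {x : RPr (Matrix J J R)} (hx : x.IsRP m)
    (hp : ∀ i j, x.p i j ≠ 0 → deg i = deg j) (hg : ∀ i j, x.g i j ≠ 0 → deg i = deg j)
    (hd : Hm (fun j => deg j + 1) deg x.d) (hf : Hm deg (fun j => m - deg j) x.f)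
    (hq : Hm (fun j => m - deg j) deg x.q) :
    (RPr.mk x.p x.g x.d x.f x.q (prj deg (m + 1) x.h)).IsRP m where
  pp := hx.pp
  sp := hx.sp
  gg := hx.gg
  sg := hx.sg
  pg := hx.pg
  pd := hx.pd
  dp := hx.dp
  pf := hx.pf
  pq := hx.pq
  ph := by
    show x.p * prj deg (m + 1) x.h = prj deg (m + 1) x.h
    rw [← prj_diag_mul hp, hx.ph]
  hp := by
    show prj deg (m + 1) x.h * x.p = prj deg (m + 1) x.h
    rw [← prj_mul_diag hp, hx.hp]
  dd := hx.dd
  sf := hx.sf
  sq := hx.sq
  df := hx.df
  qd := hx.qd
  fqf := by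
    show x.f * x.q * x.f = x.f + x.d * prj deg (m + 1) x.h - prj deg (m + 1) x.h * star x.d
    have hd' : ∀ i j, x.d i j ≠ 0 → deg i + 1 = deg j := fun i j h => hm_ne hd h
    rw [← prj_d_mul hd', ← prj_mul_star_d hd']
    have h1 : prj deg m x.f = x.f := prj_self fun i j h => by
      have := hm_ne hf h
      linarith
    have h2 : prj deg m (x.f * x.q * x.f) = x.f * x.q * x.f := prj_self fun i j h => by
      have h3 : Hm deg (fun j => m - deg j) (x.f * x.q * x.f) := by
        refine hm_mul (hm_mul hf ?_) hf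
        exact hq
      have := hm_ne h3 h
      linarith
    calc x.f * x.q * x.f = prj deg m (x.f * x.q * x.f) := h2.symm
      _ = _ := by rw [hx.fqf, prj_sub, prj_add, h1]
  gd := hx.gd
  gf := hx.gf
  gq := hx.gq
  gh := by
    show x.g * prj deg (m + 1) x.h = -((-1 : Matrix J J R) ^ m * (prj deg (m + 1) x.h * x.g))
    rw [← prj_diag_mul hg, ← prj_mul_diag hg, hx.gh, prj_neg, prj_pow]

/-- regular pairs with homogeneous data are objects -/
theorem isOb_of {κ : Type*} (F : Frame κ R) {x : RPr (Matrix J J R)} (hx : x.IsRP m)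
    (hp : DgC F x.p) (hg : DgC F x.g)
    (hd : Hm (fun j => deg j + 1) deg x.d) (hf : Hm deg (fun j => m - deg j) x.f)
    (hq : Hm (fun j => m - deg j) deg x.q) :
    IsOb F m ∅ deg (RPr.mk x.p x.g x.d x.f x.q (prj deg (m + 1) x.h)) where
  rp := by
    obtain ⟨ep, hp1, -⟩ := hp
    obtain ⟨eg, hg1, -⟩ := hg
    exact homog hx (fun i j h => by rw [hp1] at h; exact diag_ne h)
      (fun i j h => by rw [hg1] at h; exact diag_ne h) hd hf hq
  pd := hp
  gd := hg
  hd := hd
  hf := hf
  hq := hq
  hh := hm_of fun i j h => by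
    change prj deg (m + 1) x.h i j ≠ 0 at h
    rw [prj_apply] at h
    split_ifs at h with h1
    · linarith
    · exact absurd rfl h
  lo := fun k hk => absurd hk (Set.notMem_empty k)
  hi := fun k hk => absurd hk (Set.notMem_empty k)

end Crest.Agent.R217.Homog970
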