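import Crest.Agent.R217.FineSeq_970
import Crest.Agent.R217.Homog_970
import Crest.Agent.R217.Box_970
import Crest.Agent.R217.RE6_531

/-!
Row 217 (S0336), part C (helper970): the objects `x^t` over the asymptotic algebras.

* `gridA_isOT` : the grid tuple is an honest object, for any control data.
* `rpOf` : the regular pair of a homotopy idempotent, with homogeneous homotopy.
* `xF D hl t` : the object `x^t` over `CF D l`; `xF_isOb`.
* `sig_h` : the signature does not depend on the homotopy `h`.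
-/

set_option autoImplicit false
set_option linter.unusedSectionVars false
set_option linter.unusedVariables false

open Filter Topology Metric Set

namespace Crest.Agent.R217.FineX970

open Crest.Agent.R217.CruxN559 Crest.Agent.R217.Coarse889 Crest.Agent.R217.CtrlS970
open Crest.Agent.R217.FinePkg970 Crest.Agent.R217.Flow373 Crest.Agent.R217.Glob559
open Crest.Agent.R217.Grid897 Crest.Agent.R217.Asym476 Crest.Agent.R217.Ctl559
open Crest.Agent.R217.AsyCell970 Crest.Agent.R217.PC473 Crest.Agent.R217.Obj52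
open Crest.Agent.R217.Homog970 Crest.Agent.R217.FineSeq970 Crest.Agent.R217.Sig52
open Crest.Agent.R217.Ind52 Crest.Agent.R217.Box970

universe u

section grid

variable {n : ℕ} {A : Type} {N : A → ℕ} [∀ a, NeZero (N a)] {C : Ctl (BV n N)}

/-- integral degree of a block -/
def degZ (n : ℕ) : JJ n → ℤ := fun j => (degJ j : ℤ)

/-- homogeneity of classes -/
theorem hm_toA {M : LocC C} {α β : JJ n → ℤ}
    (h : ∀ a c' c, M.1 a c' c ≠ 0 → α (jt c') = β (jt c)) : Hm α β (toA C M) := by
  intro i j hne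
  refine toA_zero_of fun a c' c hi hj => ?_
  by_contra h0
  have := h a c' c h0
  rw [hi, hj] at this
  exact hne this

theorem gridA_g_eq (hg : GridCont C) :
    (gridA hg).g = Matrix.diagonal fun j : JJ n => algebraMap ℂ (Asy C ℂ) ((-1) ^ degJ j) := by
  ext i j
  show toA C (gridL hg).g i j = _
  by_cases hij : i = j
  · subst hij
    rw [Matrix.diagonal_apply_eq, toA_apply, ← AlgHomClass.commutes (cls C ℂ)]
    congr 1
    apply Subtype.ext
    funext a
    ext v w
    show (gridT (N a) n).g (cellEquiv n (N a) (i, v)) (cellEquiv n (N a) (i, w)) =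
      (algebraMap ℂ (Matrix (VV n (N a)) (VV n (N a)) ℂ) ((-1) ^ degJ i)) v w
    rw [gridT_g_apply, Matrix.algebraMap_matrix_apply]
    by_cases hvw : v = w
    · subst hvw
      rw [if_pos rfl, if_pos rfl]
      rfl
    · have : cellEquiv n (N a) (i, v) ≠ cellEquiv n (N a) (i, w) := fun h =>
          hvw (congrArg Prod.snd ((cellEquiv n (N a)).injective h))
      rw [if_neg this, if_neg hvw]
  · rw [Matrix.diagonal_apply_ne _ hij]
    refine toA_zero_of fun a c' c hi hj => ?_
    show (gridT (N a) n).g c' c = 0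
    rw [gridT_g_apply, if_neg]
    rintro rfl
    exact hij (hi.symm.trans hj)

variable {κ : Type}

theorem dgC_one {R : Type*} [Ring R] [StarRing R] {J : Type*} [Fintype J] [DecidableEq J]
    (F : Frame κ R) : DgC F (1 : Matrix J J R) :=
  ⟨fun _ => 1, Matrix.diagonal_one.symm, fun j k c => by rw [one_mul, mul_one]⟩

theorem dgC_alg {R : Type*} [Ring R] [StarRing R] [Algebra ℂ R] {J : Type*} [Fintype J]
    [DecidableEq J] (F : Frame κ R) (z : J → ℂ) :
    DgC F (Matrix.diagonal fun j => algebraMap ℂ R (z j)) :=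
  ⟨_, rfl, fun j k c => Algebra.commutes _ _⟩

theorem gridA_dgC_p (hg : GridCont C) (F : Frame κ (Asy C ℂ)) : DgC F (gridA hg).p := by
  rw [gridA_p]
  exact dgC_one F

theorem gridA_dgC_g (hg : GridCont C) (F : Frame κ (Asy C ℂ)) : DgC F (gridA hg).g := by
  rw [gridA_g_eq]
  exact dgC_alg F _

theorem gridA_hd (hg : GridCont C) : Hm (fun j => degZ n j + 1) (degZ n) (gridA hg).d :=
  hm_toA (M := (gridL hg).d) fun a c' c h => by
    have h1 := (gridT_d_supp n c' c h).1
    rw [dm_eq, dm_eq] at h1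
    show (degJ (jt c') : ℤ) + 1 = (degJ (jt c) : ℤ)
    omega

theorem gridA_hS (hg : GridCont C) : Hm (degZ n) (fun j => n - degZ n j) (gridA hg).S :=
  hm_toA (M := (gridL hg).S) fun a c' c h => by
    have h1 := (gridT_S_supp n c' c h).1
    rw [dm_eq, dm_eq] at h1
    show (degJ (jt c') : ℤ) = n - (degJ (jt c) : ℤ)
    omega

theorem gridA_hT (hg : GridCont C) : Hm (fun j => n - degZ n j) (degZ n) (gridA hg).T :=
  hm_toA (M := (gridL hg).T) fun a c' c h => by
    have h0 : (gridT (N a) n).S c' c ≠ 0 := by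
      rw [← gridT_T]
      exact h
    have h1 := (gridT_S_supp n c' c h0).1
    rw [dm_eq, dm_eq] at h1
    show n - (degJ (jt c') : ℤ) = (degJ (jt c) : ℤ)
    omega

theorem gridA_hH (hg : GridCont C) : Hm (degZ n) (fun j => degZ n j + 1) (gridA hg).H :=
  hm_toA (M := (gridL hg).H) fun a c' c h => by
    have h1 := (gridT_H_supp n c' c h).1
    rw [dm_eq, dm_eq] at h1
    show (degJ (jt c') : ℤ) = (degJ (jt c) : ℤ) + 1
    omega

/-- the grid tuple is an honest object -/
theorem gridA_isOT (hg : GridCont C) (F : Frame κ (Asy C ℂ)) :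
    IsOT F n ∅ (degZ n) (gridA hg) where
  pc := gridA_isPC hg
  pd := gridA_dgC_p hg F
  gd := gridA_dgC_g hg F
  hd := gridA_hd hg
  hS := gridA_hS hg
  hT := gridA_hT hg
  hH := gridA_hH hg
  lo := fun k hk => absurd hk (Set.notMem_empty k)
  hi := fun k hk => absurd hk (Set.notMem_empty k)

theorem hm_star {R : Type*} [Ring R] [StarRing R] {J : Type*} {α : J → ℤ}
    {a : Matrix J J R} (h : Hm α α a) : Hm α α (star a) := fun i j hne => by
  rw [Matrix.star_apply, h j i fun h0 => hne h0.symm, star_zero]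

theorem hm_shift {R : Type*} [Ring R] {J : Type*} {α : J → ℤ} {c : ℤ}
    {a : Matrix J J R} (h : Hm α α a) : Hm (fun j => c - α j) (fun j => c - α j) a :=
  fun i j hne => h i j fun h0 => hne (by show c - α i = c - α j; rw [h0])

/-- the regular pair of `e`, with homogeneous homotopy -/
noncomputable def rpOf (hg : GridCont C) (e h : Matrix (JJ n) (JJ n) (Asy C ℂ)) :
    RPr (Matrix (JJ n) (JJ n) (Asy C ℂ)) :=
  RPr.mk (gridA hg).p (gridA hg).g (gridA hg).d (e * (gridA hg).S * star e)
    (star e * (gridA hg).T * e) (prj (degZ n) (n + 1) h)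

theorem rpOf_isOb (hg : GridCont C) {e h : Matrix (JJ n) (JJ n) (Asy C ℂ)}
    (he : Hm (degZ n) (degZ n) e)
    (hr : (RPr.mk (gridA hg).p (gridA hg).g (gridA hg).d (e * (gridA hg).S * star e)
      (star e * (gridA hg).T * e) h).IsRP n) (F : Frame κ (Asy C ℂ)) :
    IsOb F n ∅ (degZ n) (rpOf hg e h) :=
  isOb_of F hr (gridA_dgC_p hg F) (gridA_dgC_g hg F) (gridA_hd hg)
    (hm_mul (hm_mul he (gridA_hS hg)) (hm_shift (hm_star he)))
    (hm_mul (hm_mul (hm_shift (hm_star he)) (gridA_hT hg)) he)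

end grid

section sigh

variable {κ : Type*} {R0 R1 : Type*} [Ring R0] [StarRing R0] [Algebra ℂ R0] [StarModule ℂ R0]
    [Ring R1] [StarRing R1] [Algebra ℂ R1] [StarModule ℂ R1]
    {F0 : Frame κ R0} {F1 : Frame κ R1} {G : Type*} [AddCommGroup G] (P : SgP F0 F1 G)
    {J : Type} [Fintype J] [DecidableEq J] {S : Set κ} {deg : J → ℤ}

/-- the signature does not depend on the homotopy -/
theorem sig_h {l : List (Par κ)} (hl : ∀ a ∈ l, a.Ok F0) {x y : RPr (Matrix J J R0)}
    (hx : IsOb F0 l.length S deg x) (hy : IsOb F0 l.length S deg y) (hc : Cov S l)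
    (hp : y.p = x.p) (hg : y.g = x.g) (hd : y.d = x.d) (hf : y.f = x.f) (hq : y.q = x.q) :
    sig F0 P.L l (ob deg x) = sig F0 P.L l (ob deg y) := by
  have fp : x.f * x.p = x.f := by
    have := congrArg star hx.rp.pf
    rwa [star_mul, hx.rp.sf, hx.rp.sp] at this
  have qp : x.q * x.p = x.q := by
    have := congrArg star hx.rp.pq
    rwa [star_mul, hx.rp.sq, hx.rp.sp] at this
  have gp : x.g * x.p = x.g := by
    have := congrArg star hx.rp.pg
    rwa [star_mul, hx.rp.sg, hx.rp.sp] at this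
  have ps : x.p.conjTranspose = x.p := hx.rp.sp
  refine RE531.sig_re P hl hx hy hc (α := x.p) (k := 0) (q := 0) ?_ ?_
  · exact
    { hx := hx.rp
      hy := hy.rp
      pα := by rw [hp, hx.rp.pp]
      αp := hx.rp.pp
      gα := by rw [hg, gp, hx.rp.pg]
      dα := by rw [hd, hx.rp.dp, hx.rp.pd]
      hf := by rw [hf, ps, hx.rp.pf, fp, mul_zero, zero_mul, add_zero, sub_zero]
      hq := by rw [hq, ps, hx.rp.pq, qp, mul_zero, zero_mul, add_zero, sub_zero]
      pk := by simp
      kp := by simp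
      gk := by simp
      pl := by simp
      lp := by simp
      gl := by simp }
  · obtain ⟨ep, hp1, -⟩ := hx.pd
    refine ⟨fun i j h => ?_, fun i j _ => rfl, fun i j _ => rfl⟩
    rw [hp1]
    exact Matrix.diagonal_apply_ne _ fun h0 => h (by rw [h0])

end sigh

section xF

variable {n : ℕ} (D : ∀ k, KDat.{u} n (cs k)) {l : Filter (ℕ × ℕ)} (hl : l ≤ lf) (t : ℤ)

/-- the class of `e_t` -/
noncomputable def eA : Matrix (JJ n) (JJ n) (Asy (CF D l) ℂ) :=
  toA (CF D l) ⟨eS D t, isLocC_eS D hl t⟩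

theorem hm_eA : Hm (degZ n) (degZ n) (eA D hl t) :=
  hm_toA fun a c' c h => by
    have h1 := eS_dm D t a h
    rw [dm_eq, dm_eq] at h1
    show (degJ (jt c') : ℤ) = (degJ (jt c) : ℤ)
    omega

theorem exists_hA : ∃ h, (RPr.mk (gridA (gridCont D hl)).p (gridA (gridCont D hl)).g
    (gridA (gridCont D hl)).d (eA D hl t * (gridA (gridCont D hl)).S * star (eA D hl t))
    (star (eA D hl t) * (gridA (gridCont D hl)).T * eA D hl t) h).IsRP n :=
  exists_rp (fineCtl D hl) (fun a => zz D a ^ t) (zz_zpow_pow D t)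

/-- the regular pair `x^t` -/
noncomputable def xR : RPr (Matrix (JJ n) (JJ n) (Asy (CF D l) ℂ)) :=
  rpOf (gridCont D hl) (eA D hl t) (exists_hA D hl t).choose

/-- the object `x^t` over `CF D l` -/
noncomputable def xF : Obj (Asy (CF D l) ℂ) := ob (degZ n) (xR D hl t)

theorem xR_isOb {κ : Type} (F : Frame κ (Asy (CF D l) ℂ)) : IsOb F n ∅ (degZ n) (xR D hl t) :=
  rpOf_isOb (gridCont D hl) (hm_eA D hl t) (exists_hA D hl t).choose_spec F

theorem xF_isOb {κ : Type} (F : Frame κ (Asy (CF D l) ℂ)) :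
    IsOb F n ∅ (xF D hl t).deg (xF D hl t).x := xR_isOb D hl t F

end xF

end Crest.Agent.R217.FineX970
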