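import Crest.Agent.R217.FineB_555
import Crest.Agent.R217.FineX_970

/-!
Row 217 (S0336), part C1, helper555: in column `k` the signatures of `x^{t+1}` and `x^t` agree over
every box in `U_k` (steps (a) and (b) together).
-/

set_option autoImplicit false
set_option linter.unusedSectionVars false
set_option linter.unusedVariables false

open Filter Topology Metric Set

namespace Crest.Agent.R217.Col555

open Crest.Agent.R217.CruxN559 Crest.Agent.R217.Coarse889 Crest.Agent.R217.CtrlS970
open Crest.Agent.R217.Glob559 Crest.Agent.R217.Asym476 Crest.Agent.R217.Ctl559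
open Crest.Agent.R217.PC473 Crest.Agent.R217.Obj52 Crest.Agent.R217.Sig52
open Crest.Agent.R217.Ind52 Crest.Agent.R217.Box970 Crest.Agent.R217.FineX970

universe u

variable {n : ℕ} (D : ∀ k, KDat.{u} n (cs k)) (k : ℕ)

/-- a box near `y1` on which the gauges are defined -/
theorem exists_box_y1 : ∃ lo hi : Fin n → ℝ, (∀ i, lo i < hi i) ∧ Icc lo hi ⊆ (D k).U ∧
    Icc lo hi ⊆ closedBall (D k).X.y1 ((D k).gr / 2) := by
  obtain ⟨δ, hδ, h⟩ := Metric.isOpen_iff.1 (D k).U_open _ (D k).y1_U
  have hg := (D k).gr_pos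
  set ρ : ℝ := min (δ / 2) ((D k).gr / 2) with hρ
  have hρ0 : 0 < ρ := lt_min (by linarith) (by linarith)
  have h1 : Icc (fun i => (D k).X.y1 i - ρ) (fun i => (D k).X.y1 i + ρ)
      ⊆ closedBall (D k).X.y1 ρ := by
    intro x hx
    rw [mem_closedBall, dist_pi_le_iff hρ0.le]
    intro i
    have h2 := hx.1 i
    have h3 := hx.2 i
    simp only at h2 h3
    rw [Real.dist_eq, abs_le]
    constructor <;> linarith
  refine ⟨_, _, fun i => ?_, h1.trans ((closedBall_subset_ball ?_).trans h),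
    h1.trans (closedBall_subset_closedBall (min_le_right _ _))⟩
  · show (D k).X.y1 i - ρ < (D k).X.y1 i + ρ
    linarith
  · have := min_le_left (δ / 2) ((D k).gr / 2)
    linarith

/-- **Steps (a) and (b)**: the signature of `x^t` in column `k` does not depend on `t`, over any
box in `U_k`. -/
theorem col_step (t : ℤ) {lo hi : Fin n → ℝ} (lt : ∀ i, lo i < hi i)
    (hU : Icc lo hi ⊆ (D k).U) {l : List (Par (Fin n))} (hd : l.map Par.k = List.finRange n)
    (hl : ∀ a ∈ l, OkIn lo hi a) :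
    vK D k (xF D (lk_le_lf k) (t + 1)) l = vK D k (xF D (lk_le_lf k) t) l := by
  obtain ⟨s, s', hs, hsU, hsy⟩ := exists_box_y1 D k
  have h1 := box_indep D k (X := xF D (lk_le_lf k) (t + 1)) (fun lo hi lt => xF_isOb D _ _ _) lt hs hU
    hsU hd (stdPar_k s s') hl (stdPar_ok hs)
  have h0 := box_indep D k (X := xF D (lk_le_lf k) t) (fun lo hi lt => xF_isOb D _ _ _) lt hs hU
    hsU hd (stdPar_k s s') hl (stdPar_ok hs)
  rw [h1, h0]
  exact FineB555.twist_k D k hs hsU hsy (stdPar_k s s')
    (fun a ha => (stdPar_ok hs a ha).ok D k hs) t (xR_isOb D (lk_le_lf k) (t + 1) _)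
    (xR_isOb D (lk_le_lf k) t _)

/-- the case `t = 0` -/
theorem col_one_zero {lo hi : Fin n → ℝ} (lt : ∀ i, lo i < hi i) (hU : Icc lo hi ⊆ (D k).U)
    {l : List (Par (Fin n))} (hd : l.map Par.k = List.finRange n) (hl : ∀ a ∈ l, OkIn lo hi a) :
    vK D k (xF D (lk_le_lf k) 1) l = vK D k (xF D (lk_le_lf k) 0) l :=
  col_step D k 0 lt hU hd hl

end Crest.Agent.R217.Col555
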