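import Crest.Agent.R217.SpecA_343

/-!
Row 217, part A: convolution `φ(x) = ∫ ψ(y) η(y⁻¹ x) dμ(y)` and its difference operators.
-/

set_option autoImplicit false
set_option linter.unusedSectionVars false
set_option linter.unusedVariables false

open Filter Topology BoundedContinuousFunction Metric MeasureTheory
open scoped Topology BoundedContinuousFunction Pointwise

namespace Crest.Agent.R217.Conv490

open Crest.Agent.R217.SpecA343

variable {G : Type*} [Group G] [TopologicalSpace G] [IsTopologicalGroup G]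
  [MeasurableSpace G] [BorelSpace G] [SecondCountableTopology G]

/-- admissible first factors: measurable, values in `[0,1]`, vanishing off `K`. -/
structure Adm (K : Set G) (ψ : G → ℝ) : Prop where
  meas : Measurable ψ
  nonneg : ∀ x, 0 ≤ ψ x
  le_one : ∀ x, ψ x ≤ 1
  zero : ∀ x, x ∉ K → ψ x = 0

/-- basic integral bound -/
lemma norm_integral_le_of_supp (μ : Measure G) {K : Set G}
    (hμK : μ K ≠ ⊤) {f : G → ℝ} {A : ℝ} (hA : 0 ≤ A) (hf : ∀ y, |f y| ≤ A)
    (h0 : ∀ y, y ∉ K → f y = 0) : |∫ y, f y ∂μ| ≤ A * μ.real K := by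
  have h1 : ∫ y, f y ∂μ = ∫ y in K, f y ∂μ := by
    symm
    apply setIntegral_eq_integral_of_forall_compl_eq_zero
    exact h0
  rw [h1, ← Real.norm_eq_abs]
  apply norm_setIntegral_le_of_norm_le_const (lt_top_iff_ne_top.mpr hμK)
  intro y _
  rw [Real.norm_eq_abs]
  exact hf y

lemma Adm.integrable {K : Set G} {ψ : G → ℝ} (h : Adm K ψ) (μ : Measure G)
    (hK : MeasurableSet K) (hμK : μ K ≠ ⊤) : Integrable ψ μ := by
  have h1 : Integrable (K.indicator (fun _ => (1 : ℝ))) μ :=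
    (integrable_indicator_iff hK).2 (integrableOn_const hμK)
  refine h1.mono' h.meas.aestronglyMeasurable (Eventually.of_forall fun x => ?_)
  by_cases hx : x ∈ K
  · rw [Set.indicator_of_mem hx, Real.norm_eq_abs, abs_of_nonneg (h.nonneg x)]
    exact h.le_one x
  · rw [Set.indicator_of_notMem hx, h.zero x hx, norm_zero]

/-- the integrand is integrable -/
lemma Adm.integrable_mul {K : Set G} {ψ : G → ℝ} (h : Adm K ψ) (μ : Measure G)
    (hK : MeasurableSet K) (hμK : μ K ≠ ⊤) (η : G →ᵇ ℝ) (x : G) :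
    Integrable (fun y => ψ y * η (y⁻¹ * x)) μ := by
  have h1 := (h.integrable μ hK hμK).mul_const ‖η‖
  refine h1.mono' ?_ (Eventually.of_forall fun y => ?_)
  · apply (h.meas.aestronglyMeasurable).mul
    apply Continuous.aestronglyMeasurable
    fun_prop
  · rw [norm_mul, Real.norm_eq_abs, abs_of_nonneg (h.nonneg y)]
    exact mul_le_mul_of_nonneg_left (η.norm_coe_le_norm _) (h.nonneg y)

/-- convolution -/
noncomputable def conv (μ : Measure G) {K : Set G} (hK : MeasurableSet K) (hμK : μ K ≠ ⊤)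
    {ψ : G → ℝ} (h : Adm K ψ) (η : G →ᵇ ℝ) : G →ᵇ ℝ :=
  BoundedContinuousFunction.ofNormedAddCommGroup (fun x => ∫ y, ψ y * η (y⁻¹ * x) ∂μ)
    (by
      refine continuous_of_dominated (bound := fun y => ψ y * ‖η‖) ?_ ?_ ?_ ?_
      · intro x
        exact (h.integrable_mul μ hK hμK η x).aestronglyMeasurable
      · intro x
        refine Eventually.of_forall fun y => ?_
        rw [norm_mul, Real.norm_eq_abs, abs_of_nonneg (h.nonneg y)]
        exact mul_le_mul_of_nonneg_left (η.norm_coe_le_norm _) (h.nonneg y)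
      · exact (h.integrable μ hK hμK).mul_const _
      · refine Eventually.of_forall fun y => ?_
        fun_prop)
    (‖η‖ * μ.real K)
    (by
      intro x
      rw [Real.norm_eq_abs]
      apply norm_integral_le_of_supp μ hμK (norm_nonneg _)
      · intro y
        rw [abs_mul, abs_of_nonneg (h.nonneg y)]
        calc ψ y * |η (y⁻¹ * x)| ≤ 1 * ‖η‖ := by
              apply mul_le_mul (h.le_one y) (η.norm_coe_le_norm _) (abs_nonneg _) zero_le_one
          _ = ‖η‖ := one_mul _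
      · intro y hy
        rw [h.zero y hy, zero_mul])

section
variable (μ : Measure G) {K : Set G} (hK : MeasurableSet K) (hμK : μ K ≠ ⊤)
    {ψ : G → ℝ} (h : Adm K ψ) (η : G →ᵇ ℝ)

@[simp] lemma conv_apply (x : G) : conv μ hK hμK h η x = ∫ y, ψ y * η (y⁻¹ * x) ∂μ := rfl

lemma norm_conv_le : ‖conv μ hK hμK h η‖ ≤ ‖η‖ * μ.real K := by
  rw [BoundedContinuousFunction.norm_le (by positivity)]
  intro x
  rw [conv_apply, Real.norm_eq_abs]
  apply norm_integral_le_of_supp μ hμK (norm_nonneg _)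
  · intro y
    rw [abs_mul, abs_of_nonneg (h.nonneg y)]
    calc ψ y * |η (y⁻¹ * x)| ≤ 1 * ‖η‖ := by
          apply mul_le_mul (h.le_one y) (η.norm_coe_le_norm _) (abs_nonneg _) zero_le_one
      _ = ‖η‖ := one_mul _
  · intro y hy
    rw [h.zero y hy, zero_mul]

variable [μ.IsMulLeftInvariant]

include h hK hμK in
lemma integral_shift (g x : G) : ∫ y, ψ y * η (y⁻¹ * (g⁻¹ * x)) ∂μ =
    ∫ y, ψ (g⁻¹ * y) * η (y⁻¹ * x) ∂μ := by
  have := integral_mul_left_eq_self (μ := μ) (fun y => ψ y * η (y⁻¹ * (g⁻¹ * x))) g⁻¹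
  rw [← this]
  congr 1
  ext y
  simp [mul_assoc]

include h hK hμK in
lemma integrable_shift (g x : G) :
    Integrable (fun y => ψ (g⁻¹ * y) * η (y⁻¹ * x)) μ := by
  have h1 := (h.integrable_mul μ hK hμK η (g⁻¹ * x)).comp_mul_left g⁻¹
  refine h1.congr (Eventually.of_forall fun y => ?_)
  simp [mul_assoc]

lemma dd_conv_apply (g x : G) : dd g (conv μ hK hμK h η) x =
    ∫ y, (ψ (g⁻¹ * y) - ψ y) * η (y⁻¹ * x) ∂μ := by
  rw [dd_apply, conv_apply, conv_apply, integral_shift μ hK hμK h η g x, ← integral_sub]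
  · congr 1
    ext y
    ring
  · exact integrable_shift μ hK hμK h η g x
  · exact h.integrable_mul μ hK hμK η x

include h hK hμK in
lemma integrable_diff (g x : G) :
    Integrable (fun y => (ψ (g⁻¹ * y) - ψ y) * η (y⁻¹ * x)) μ := by
  refine ((integrable_shift μ hK hμK h η g x).sub (h.integrable_mul μ hK hμK η x)).congr
    (Eventually.of_forall fun y => ?_)
  simp [sub_mul]

lemma dd_dd_conv_apply (g h' x : G) : dd h' (dd g (conv μ hK hμK h η)) x =
    ∫ y, (ψ (g⁻¹ * y) - ψ y) * (dd (y⁻¹ * h' * y) η) (y⁻¹ * x) ∂μ := by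
  rw [dd_apply, dd_conv_apply, dd_conv_apply, ← integral_sub]
  · congr 1
    ext y
    rw [dd_apply]
    simp [mul_assoc, mul_sub]
  · exact integrable_diff μ hK hμK h η g _
  · exact integrable_diff μ hK hμK h η g _

/-- first difference bound -/
lemma norm_dd_conv_le {L : Set G} (hμL : μ L ≠ ⊤) (g : G) {A : ℝ}
    (hA : ∀ y, |ψ (g⁻¹ * y) - ψ y| ≤ A) (hL : ∀ y, y ∉ L → ψ (g⁻¹ * y) = 0 ∧ ψ y = 0) :
    ‖dd g (conv μ hK hμK h η)‖ ≤ A * ‖η‖ * μ.real L := by
  have hA0 : 0 ≤ A := (abs_nonneg _).trans (hA 1)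
  rw [BoundedContinuousFunction.norm_le (by positivity)]
  intro x
  rw [dd_conv_apply, Real.norm_eq_abs]
  apply norm_integral_le_of_supp μ hμL (by positivity)
  · intro y
    rw [abs_mul]
    exact mul_le_mul (hA y) (η.norm_coe_le_norm _) (abs_nonneg _) hA0
  · intro y hy
    rw [(hL y hy).1, (hL y hy).2]
    simp

/-- second difference bound -/
lemma norm_dd_dd_conv_le {L : Set G} (hμL : μ L ≠ ⊤) (g h' : G) {A B : ℝ} (hB0 : 0 ≤ B)
    (hA : ∀ y, |ψ (g⁻¹ * y) - ψ y| ≤ A) (hL : ∀ y, y ∉ L → ψ (g⁻¹ * y) = 0 ∧ ψ y = 0)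
    (hB : ∀ y ∈ L, ‖dd (y⁻¹ * h' * y) η‖ ≤ B) :
    ‖dd h' (dd g (conv μ hK hμK h η))‖ ≤ A * B * μ.real L := by
  have hA0 : 0 ≤ A := (abs_nonneg _).trans (hA 1)
  rw [BoundedContinuousFunction.norm_le (by positivity)]
  intro x
  rw [dd_dd_conv_apply, Real.norm_eq_abs]
  apply norm_integral_le_of_supp μ hμL (by positivity)
  · intro y
    by_cases hy : y ∈ L
    · rw [abs_mul]
      exact mul_le_mul (hA y) (((dd (y⁻¹ * h' * y) η).norm_coe_le_norm _).trans (hB y hy))
        (abs_nonneg _) hA0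
    · rw [(hL y hy).1, (hL y hy).2]
      simp only [sub_zero, zero_mul, abs_zero]
      positivity
  · intro y hy
    rw [(hL y hy).1, (hL y hy).2]
    simp

end

omit [MeasurableSpace G] [BorelSpace G] [SecondCountableTopology G] in
/-- telescoping -/
lemma dd_pow (g : G) (f : G →ᵇ ℝ) (n : ℕ) :
    dd (g ^ n) f = (n : ℝ) • dd g f + ∑ i ∈ Finset.range n, dd (g ^ i) (dd g f) := by
  induction n with
  | zero => simp
  | succ n ih =>
    rw [pow_succ, dd_mul', ih, Finset.sum_range_succ, lt_eq]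
    push_cast
    rw [add_smul, one_smul]
    abel

omit [MeasurableSpace G] [BorelSpace G] [SecondCountableTopology G] in
lemma norm_dd_pow_le (g : G) (f : G →ᵇ ℝ) (n : ℕ) : ‖dd (g ^ n) f‖ ≤ n * ‖dd g f‖ := by
  induction n with
  | zero => simp
  | succ n ih =>
    rw [pow_succ]
    refine (norm_dd_mul_le _ _ _).trans ?_
    push_cast
    linarith

omit [MeasurableSpace G] [BorelSpace G] [SecondCountableTopology G] in
lemma mul_norm_dd_le (g : G) (f : G →ᵇ ℝ) (n : ℕ) {B : ℝ}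
    (hB : ∀ i < n, ‖dd (g ^ i) (dd g f)‖ ≤ B) :
    n * ‖dd g f‖ ≤ 2 * ‖f‖ + n * B := by
  have h1 : (n : ℝ) • dd g f = dd (g ^ n) f - ∑ i ∈ Finset.range n, dd (g ^ i) (dd g f) := by
    rw [dd_pow g f n]; abel
  have h2 : ‖(n : ℝ) • dd g f‖ = n * ‖dd g f‖ := by
    rw [norm_smul]; simp
  rw [← h2, h1]
  refine (norm_sub_le _ _).trans (add_le_add (norm_dd_le _ _) ?_)
  refine (norm_sum_le _ _).trans ?_
  refine (Finset.sum_le_card_nsmul _ _ B ?_).trans ?_
  · intro i hi
    exact hB i (Finset.mem_range.1 hi)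
  · simp

omit [MeasurableSpace G] [BorelSpace G] [SecondCountableTopology G] in
lemma norm_dd_list_le (f : G →ᵇ ℝ) (l : List G) :
    ‖dd l.prod f‖ ≤ (l.map (fun g => ‖dd g f‖)).sum := by
  induction l with
  | nil => simp
  | cons a l ih =>
    rw [List.prod_cons, List.map_cons, List.sum_cons]
    exact (norm_dd_mul_le _ _ _).trans (by linarith)

omit [MeasurableSpace G] [BorelSpace G] [SecondCountableTopology G] in
/-- uniform continuity of compactly supported functions, and compactness of conjugations -/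
lemma exists_nhds_conj [LocallyCompactSpace G] (η : G →ᵇ ℝ) {S : Set G} (hS : IsCompact S)
    (hη : ∀ x, x ∉ S → η x = 0) {K : Set G}
    (hK : IsCompact K) {δ : ℝ} (hδ : 0 < δ) :
    ∃ V ∈ 𝓝 (1 : G), ∀ h ∈ V, ∀ y ∈ K, ‖dd (y⁻¹ * h * y) η‖ ≤ δ := by
  obtain ⟨O, hOc, hO⟩ := exists_compact_mem_nhds (1 : G)
  have hL : IsCompact ((K⁻¹ * O * K * S) ∪ S) :=
    (((hK.inv.mul hOc).mul hK).mul hS).union hS
  have hKL := hK.prod hL
  have hev : ∀ᶠ h in 𝓝 (1 : G), ∀ p ∈ K ×ˢ ((K⁻¹ * O * K * S) ∪ S),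
      |η ((p.1⁻¹ * h * p.1)⁻¹ * p.2) - η p.2| < δ := by
    apply hKL.eventually_forall_of_forall_eventually
    rintro ⟨y, x⟩ _
    have hc : Continuous (fun z : G × G × G =>
        |η ((z.2.1⁻¹ * z.1 * z.2.1)⁻¹ * z.2.2) - η z.2.2|) := by fun_prop
    have := hc.tendsto ((1 : G), y, x)
    apply this.eventually_lt_const
    simpa using hδ
  refine ⟨_, Filter.inter_mem hO hev, ?_⟩
  rintro h ⟨hhO, hh⟩ y hy
  rw [BoundedContinuousFunction.norm_le hδ.le]
  intro x
  rw [dd_apply, Real.norm_eq_abs]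
  by_cases hx : x ∈ ((K⁻¹ * O * K * S) ∪ S)
  · exact (hh (y, x) ⟨hy, hx⟩).le
  · have h1 : η x = 0 := hη x fun h' => hx (Or.inr h')
    have h2 : η ((y⁻¹ * h * y)⁻¹ * x) = 0 := by
      apply hη
      intro h'
      apply hx
      left
      refine ⟨y⁻¹ * h * y, ?_, _, h', by group⟩
      exact Set.mul_mem_mul (Set.mul_mem_mul (Set.inv_mem_inv.2 hy) hhO) hy
    rw [h1, h2]
    simpa using hδ.le

end Crest.Agent.R217.Conv490
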