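import Mathlib
import Crest.Agent.R217.SpecC_478

/-!
Row 217 (S0336): Euclidean version of the normalised crux.  `CruxE n` (Setup with `V`
preconnected, `f V ⊆ ball w R`, `y0 = 0`, `r0 = 1`) implies `SpecC478.Crux n`.
-/

set_option autoImplicit false

open Filter Topology Metric Set

namespace Crest.Agent.R217.CruxE559

open Crest.Agent.R217.SpecC478

/-- THE NORMALISED CRUX on a connected `Setup`. -/
def CruxE.{u} (n : ℕ) : Prop :=
  ∃ c : ℝ, 0 < c ∧ ∀ (G : Type u) [Group G] [TopologicalSpace G] [IsTopologicalGroup G]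
    [CompactSpace G] [T2Space G] [SecondCountableTopology G]
    (x : G), Dense (range fun k : ℤ => x ^ k) →
    ∀ q : ℕ, q.Prime → ∀ χ : G →* ℂ, Continuous χ → (∀ g, χ g ^ q = 1) → χ x ≠ 1 →
    ∀ (D : Setup n G), IsPreconnected D.V → (∀ v ∈ D.V, D.f v ∈ ball D.w D.R) →
    ball 0 1 ⊆ ball D.w D.R → ball 0 1 ⊆ D.V →
    (∀ v ∈ D.V, (v ∈ ball (0 : E n) 1 ∨ D.f v ∈ ball (0 : E n) 1) →
      (∀ g, dist (D.act g v) v ≤ c) ∧ dist (D.f v) v ≤ c) →
    ∀ y1 ∈ ball D.w D.R,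
    (∀ v ∈ D.V, D.f v = y1 → ∀ g, χ g ≠ 1 → D.act g v ≠ v) → False

section affine

variable {n : ℕ}

/-- `u ↦ y0 + ρ u` -/
noncomputable def psi (y0 : E n) (ρ : ℝ) (u : E n) : E n := y0 + ρ • u

/-- `v ↦ (v - y0) / ρ` -/
noncomputable def phi (y0 : E n) (ρ : ℝ) (v : E n) : E n := ρ⁻¹ • (v - y0)

theorem psi_phi (y0 : E n) {ρ : ℝ} (hρ : ρ ≠ 0) (v : E n) : psi y0 ρ (phi y0 ρ v) = v := by
  simp [psi, phi, smul_smul, mul_inv_cancel₀ hρ]

theorem phi_psi (y0 : E n) {ρ : ℝ} (hρ : ρ ≠ 0) (u : E n) :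
    phi y0 ρ (psi y0 ρ u) = u := by
  simp [psi, phi, smul_smul, inv_mul_cancel₀ hρ]

theorem continuous_psi (y0 : E n) (ρ : ℝ) : Continuous (psi y0 ρ) := by
  unfold psi
  fun_prop

theorem continuous_phi (y0 : E n) (ρ : ℝ) : Continuous (phi y0 ρ) := by
  unfold phi
  fun_prop

theorem psi_zero (y0 : E n) (ρ : ℝ) : psi y0 ρ 0 = y0 := by
  simp [psi]

theorem psi_convex (y0 : E n) (ρ : ℝ) (a b : ℝ) (hab : a + b = 1) (u v : E n) :
    psi y0 ρ (a • u + b • v) = a • psi y0 ρ u + b • psi y0 ρ v := by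
  have : b = 1 - a := by linarith
  subst this
  simp only [psi]
  module

theorem dist_phi (y0 : E n) {ρ : ℝ} (hρ : 0 < ρ) (v w : E n) :
    dist (phi y0 ρ v) (phi y0 ρ w) = dist v w / ρ := by
  simp only [phi, dist_eq_norm]
  rw [← smul_sub, norm_smul, sub_sub_sub_cancel_right, norm_inv, Real.norm_eq_abs, abs_of_pos hρ]
  ring

theorem dist_psi (y0 : E n) {ρ : ℝ} (hρ : 0 < ρ) (v w : E n) :
    dist (psi y0 ρ v) (psi y0 ρ w) = ρ * dist v w := by
  simp only [psi, dist_eq_norm]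
  rw [add_sub_add_left_eq_sub, ← smul_sub, norm_smul, Real.norm_eq_abs, abs_of_pos hρ]

theorem psi_mem_ball_iff (y0 : E n) {ρ : ℝ} (hρ : 0 < ρ) (u c : E n) (r : ℝ) :
    psi y0 ρ u ∈ ball c r ↔ u ∈ ball (phi y0 ρ c) (r / ρ) := by
  rw [mem_ball, mem_ball]
  conv_lhs => rw [← psi_phi y0 hρ.ne' c, dist_psi y0 hρ]
  rw [lt_div_iff₀ hρ, mul_comm]

theorem psi_mem_closedBall_iff (y0 : E n) {ρ : ℝ} (hρ : 0 < ρ) (u c : E n) (r : ℝ) :
    psi y0 ρ u ∈ closedBall c r ↔ u ∈ closedBall (phi y0 ρ c) (r / ρ) := by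
  rw [mem_closedBall, mem_closedBall]
  conv_lhs => rw [← psi_phi y0 hρ.ne' c, dist_psi y0 hρ]
  rw [le_div_iff₀ hρ, mul_comm]

end affine

section red

variable {n : ℕ} {G : Type*} [Group G] [TopologicalSpace G]

/-- the region `{u | ψ u ∈ V, f (ψ u) ∈ ball w R}` -/
def regU (D : Setup n G) (y0 : E n) (ρ : ℝ) : Set (E n) :=
  {u | psi y0 ρ u ∈ D.V ∧ D.f (psi y0 ρ u) ∈ ball D.w D.R}

theorem isOpen_regU (D : Setup n G) (y0 : E n) (ρ : ℝ) : IsOpen (regU D y0 ρ) := by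
  have h1 : IsOpen (D.V ∩ D.f ⁻¹' ball D.w D.R) := D.f_cont.isOpen_inter_preimage D.isOpen_V
    isOpen_ball
  exact h1.preimage (continuous_psi y0 ρ)

/-- the transported action -/
noncomputable def act' (D : Setup n G) (y0 : E n) (ρ : ℝ) (g : G) (u : E n) : E n :=
  phi y0 ρ (D.act g (psi y0 ρ u))

theorem psi_act' (D : Setup n G) (y0 : E n) {ρ : ℝ} (hρ : ρ ≠ 0) (g : G) (u : E n) :
    psi y0 ρ (act' D y0 ρ g u) = D.act g (psi y0 ρ u) := psi_phi y0 hρ _

theorem act'_mem_regU (D : Setup n G) (y0 : E n) {ρ : ℝ} (hρ : ρ ≠ 0) (g : G)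
    {u : E n} (hu : u ∈ regU D y0 ρ) : act' D y0 ρ g u ∈ regU D y0 ρ := by
  refine ⟨?_, ?_⟩
  · rw [psi_act' D y0 hρ]
    exact D.act_mem g _ hu.1
  · rw [psi_act' D y0 hρ, D.f_inv g _ hu.1]
    exact hu.2

theorem act'_cont (D : Setup n G) (y0 : E n) (ρ : ℝ) :
    ContinuousOn (fun p : G × (E n) => act' D y0 ρ p.1 p.2) (univ ×ˢ regU D y0 ρ) := by
  have h1 : ContinuousOn (fun p : G × (E n) => D.act p.1 (psi y0 ρ p.2))
      (univ ×ˢ regU D y0 ρ) := by
    refine D.act_cont.comp (f := fun p : G × (E n) => (p.1, psi y0 ρ p.2))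
      (Continuous.continuousOn ?_) ?_
    · exact continuous_fst.prodMk ((continuous_psi y0 ρ).comp continuous_snd)
    · intro p hp
      exact ⟨mem_univ _, hp.2.1⟩
  exact (continuous_phi y0 ρ).comp_continuousOn h1

/-- The reduction to the component. -/
theorem exists_setup (D : Setup n G) (y0 : E n) (r0 c : ℝ) (hr0 : 0 < r0)
    (hc2 : c ≤ 1 / 4) (hball : ball y0 r0 ⊆ ball D.w D.R) (hV : ball y0 r0 ⊆ D.V)
    (hsmall : ∀ v ∈ D.V, (v ∈ ball y0 r0 ∨ D.f v ∈ ball y0 r0) →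
      (∀ g, dist (D.act g v) v ≤ c * r0) ∧ dist (D.f v) v ≤ c * r0)
    (y1 : E n) (hy1 : y1 ∈ ball D.w D.R) (χ : G →* ℂ)
    (hfree : ∀ v ∈ D.V, D.f v = y1 → ∀ g, χ g ≠ 1 → D.act g v ≠ v) :
    ∃ (S : Setup n G), IsPreconnected S.V ∧ (∀ v ∈ S.V, S.f v ∈ ball S.w S.R) ∧
      ball 0 1 ⊆ ball S.w S.R ∧ ball 0 1 ⊆ S.V ∧
      (∀ v ∈ S.V, (v ∈ ball (0 : E n) 1 ∨ S.f v ∈ ball (0 : E n) 1) →
        (∀ g, dist (S.act g v) v ≤ 2 * c) ∧ dist (S.f v) v ≤ 2 * c) ∧
      ∃ y ∈ ball S.w S.R, ∀ v ∈ S.V, S.f v = y → ∀ g, χ g ≠ 1 → S.act g v ≠ v := by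
  set ρ : ℝ := r0 / 2 with hρdef
  have hρ : 0 < ρ := by positivity
  have hρ0 : ρ ≠ 0 := hρ.ne'
  have hψball : ∀ u ∈ ball (0 : E n) 1, psi y0 ρ u ∈ ball y0 (r0 / 2) := by
    intro u hu
    rw [psi_mem_ball_iff y0 hρ]
    have : phi y0 ρ y0 = 0 := by simp [phi]
    rw [this, div_self hρ0]
    exact hu
  have hhalf : ball y0 (r0 / 2) ⊆ ball y0 r0 := ball_subset_ball (by linarith)
  have hPsub : ball (0 : E n) 1 ⊆ regU D y0 ρ := by
    intro u hu
    have h1 : psi y0 ρ u ∈ ball y0 (r0 / 2) := hψball u hu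
    have h2 := hhalf h1
    refine ⟨hV h2, hball ?_⟩
    have h3 := (hsmall _ (hV h2) (Or.inl h2)).2
    rw [mem_ball] at h1 ⊢
    calc dist (D.f (psi y0 ρ u)) y0 ≤ dist (D.f (psi y0 ρ u)) (psi y0 ρ u)
          + dist (psi y0 ρ u) y0 := dist_triangle _ _ _
      _ < c * r0 + r0 / 2 := by linarith
      _ ≤ r0 := by nlinarith
  have h0P : (0 : E n) ∈ ball (0 : E n) 1 := mem_ball_self one_pos
  set C : Set (E n) := connectedComponentIn (regU D y0 ρ) 0 with hCdef
  have hCsub : C ⊆ regU D y0 ρ := connectedComponentIn_subset _ _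
  have hCpre : IsPreconnected C := isPreconnected_connectedComponentIn
  have hPC : ball (0 : E n) 1 ⊆ C :=
    (convex_ball (0 : E n) 1).isPreconnected.subset_connectedComponentIn h0P hPsub
  have hCopen : IsOpen C := (isOpen_regU D y0 ρ).connectedComponentIn
  have h0C : (0 : E n) ∈ C := hPC h0P
  have hact0 : ∀ g, act' D y0 ρ g 0 ∈ C := by
    intro g
    apply hPC
    have hy0 : y0 ∈ ball y0 r0 := mem_ball_self hr0
    have := (hsmall y0 (hV hy0) (Or.inl hy0)).1 g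
    have h0 : phi y0 ρ y0 = 0 := by simp [phi]
    have h1 : act' D y0 ρ g 0 = phi y0 ρ (D.act g y0) := by
      rw [act', psi_zero]
    rw [h1, mem_ball, ← h0, dist_phi y0 hρ, div_lt_one hρ, hρdef]
    nlinarith
  have hactC : ∀ g, ∀ u ∈ C, act' D y0 ρ g u ∈ C := by
    intro g u hu
    have hcont : ContinuousOn (fun u => act' D y0 ρ g u) C := by
      refine (act'_cont D y0 ρ).comp (f := fun u : E n => (g, u))
        (Continuous.continuousOn (by fun_prop)) ?_
      intro v hv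
      exact ⟨mem_univ _, hCsub hv⟩
    have hpre : IsPreconnected ((fun u => act' D y0 ρ g u) '' C) := hCpre.image _ hcont
    have hsub : (fun u => act' D y0 ρ g u) '' C ⊆ regU D y0 ρ := by
      rintro _ ⟨v, hv, rfl⟩
      exact act'_mem_regU D y0 hρ0 g (hCsub hv)
    have h1 := hpre.subset_connectedComponentIn (mem_image_of_mem _ h0C) hsub
    have h2 : connectedComponentIn (regU D y0 ρ) (act' D y0 ρ g 0) = C :=
      (connectedComponentIn_eq (hact0 g)).symm
    rw [h2] at h1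
    exact h1 (mem_image_of_mem _ hu)
  have hfmem : ∀ v ∈ C, phi y0 ρ (D.f (psi y0 ρ v)) ∈ ball (phi y0 ρ D.w) (D.R / ρ) := by
    intro v hv
    rw [← psi_mem_ball_iff y0 hρ, psi_phi y0 hρ0]
    exact (hCsub hv).2
  have hproper : ∀ r < D.R / ρ, IsCompact {v | v ∈ C ∧
      phi y0 ρ (D.f (psi y0 ρ v)) ∈ closedBall (phi y0 ρ D.w) r} := by
    intro r hr
    have hrR : r * ρ < D.R := by
      rwa [lt_div_iff₀ hρ] at hr
    have hcomp := D.proper (r * ρ) hrR
    -- preimage under psi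
    set K2 : Set (E n) := {u : E n | psi y0 ρ u ∈ D.V ∧
        D.f (psi y0 ρ u) ∈ closedBall D.w (r * ρ)} with hK2
    have hcomp2 : IsCompact K2 := by
      have : K2 = phi y0 ρ '' {v | v ∈ D.V ∧ D.f v ∈ closedBall D.w (r * ρ)} := by
        ext u
        constructor
        · intro hu
          exact ⟨psi y0 ρ u, hu, phi_psi y0 hρ0 u⟩
        · rintro ⟨v, hv, rfl⟩
          simp only [hK2, mem_ofPred_eq]
          rw [psi_phi y0 hρ0]
          exact hv
      rw [this]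
      exact hcomp.image (continuous_phi y0 ρ)
    have hK2sub : K2 ⊆ regU D y0 ρ := by
      intro u hu
      exact ⟨hu.1, lt_of_le_of_lt hu.2 hrR⟩
    -- `K2 ∩ C` is compact : `C` is relatively closed in `regU`
    have hK2C : IsCompact (K2 ∩ C) := by
      have hopen : IsOpen (⋃ v ∈ regU D y0 ρ \ C, connectedComponentIn (regU D y0 ρ) v) :=
        isOpen_biUnion fun v _ => (isOpen_regU D y0 ρ).connectedComponentIn
      have heq : K2 ∩ C = K2 \ (⋃ v ∈ regU D y0 ρ \ C, connectedComponentIn (regU D y0 ρ) v) := by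
        ext u
        constructor
        · rintro ⟨hu, huC⟩
          refine ⟨hu, ?_⟩
          intro hmem
          rw [mem_iUnion₂] at hmem
          obtain ⟨v, hv, huv⟩ := hmem
          have h1 := connectedComponentIn_eq huv
          have h2 := connectedComponentIn_eq huC
          rw [← h2] at h1
          exact hv.2 (by rw [hCdef, ← h1]; exact mem_connectedComponentIn hv.1)
        · rintro ⟨hu, hnu⟩
          refine ⟨hu, ?_⟩
          by_contra huC
          apply hnu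
          rw [mem_iUnion₂]
          exact ⟨u, ⟨hK2sub hu, huC⟩, mem_connectedComponentIn (hK2sub hu)⟩
      rw [heq]
      exact hcomp2.diff hopen
    have heq2 : {v | v ∈ C ∧ phi y0 ρ (D.f (psi y0 ρ v)) ∈ closedBall (phi y0 ρ D.w) r}
        = K2 ∩ C := by
      have hiff : ∀ u : E n, phi y0 ρ (D.f (psi y0 ρ u)) ∈ closedBall (phi y0 ρ D.w) r ↔
          D.f (psi y0 ρ u) ∈ closedBall D.w (r * ρ) := by
        intro u
        rw [mem_closedBall, mem_closedBall, dist_phi y0 hρ, div_le_iff₀ hρ]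
      ext u
      constructor
      · rintro ⟨huC, huK⟩
        exact ⟨⟨(hCsub huC).1, (hiff u).1 huK⟩, huC⟩
      · rintro ⟨huK, huC⟩
        exact ⟨huC, (hiff u).2 huK.2⟩
    rw [heq2]
    exact hK2C
  refine ⟨{ V := C
            isOpen_V := hCopen
            act := act' D y0 ρ
            act_mem := hactC
            act_one := ?_
            act_mul := ?_
            act_cont := (act'_cont D y0 ρ).mono (prod_mono_right hCsub)
            f := fun u => phi y0 ρ (D.f (psi y0 ρ u))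
            f_cont := ?_
            f_inv := ?_
            w := phi y0 ρ D.w
            R := D.R / ρ
            proper := hproper }, hCpre, hfmem, ?_, hPC, ?_, phi y0 ρ y1, ?_, ?_⟩
  · intro v hv
    change phi y0 ρ (D.act 1 (psi y0 ρ v)) = v
    rw [D.act_one _ (hCsub hv).1, phi_psi y0 hρ0]
  · intro g h v hv
    change phi y0 ρ (D.act (g * h) (psi y0 ρ v)) = phi y0 ρ (D.act g (psi y0 ρ (act' D y0 ρ h v)))
    rw [psi_act' D y0 hρ0, D.act_mul _ _ _ (hCsub hv).1]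
  · refine (continuous_phi y0 ρ).comp_continuousOn ?_
    exact D.f_cont.comp (continuous_psi y0 ρ).continuousOn (fun u hu => (hCsub hu).1)
  · intro g v hv
    rw [psi_act' D y0 hρ0, D.f_inv _ _ (hCsub hv).1]
  · intro u hu
    change u ∈ ball (phi y0 ρ D.w) (D.R / ρ)
    rw [← psi_mem_ball_iff y0 hρ]
    exact hball (hhalf (hψball u hu))
  · -- smallness
    intro v hv hor
    have hv' : psi y0 ρ v ∈ D.V := (hCsub hv).1
    have hor' : psi y0 ρ v ∈ ball y0 r0 ∨ D.f (psi y0 ρ v) ∈ ball y0 r0 := by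
      rcases hor with h | h
      · exact Or.inl (hhalf (hψball v h))
      · right
        have := hψball _ h
        change psi y0 ρ (phi y0 ρ (D.f (psi y0 ρ v))) ∈ ball y0 (r0 / 2) at this
        rw [psi_phi y0 hρ0] at this
        exact hhalf this
    have hs := hsmall _ hv' hor'
    have hconst : ∀ t, t ≤ c * r0 → t / ρ ≤ 2 * c := by
      intro t ht
      rw [hρdef, div_le_iff₀ (by positivity)]
      linarith
    constructor
    · intro g
      have h1 := dist_phi y0 hρ (D.act g (psi y0 ρ v)) (psi y0 ρ v)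
      rw [phi_psi y0 hρ0] at h1
      exact h1.le.trans (hconst _ (hs.1 g))
    · have h1 := dist_phi y0 hρ (D.f (psi y0 ρ v)) (psi y0 ρ v)
      rw [phi_psi y0 hρ0] at h1
      exact h1.le.trans (hconst _ hs.2)
  · change phi y0 ρ y1 ∈ ball (phi y0 ρ D.w) (D.R / ρ)
    rw [← psi_mem_ball_iff y0 hρ, psi_phi y0 hρ0]
    exact hy1
  · intro v hv hfv g hg hfix
    have h1 : D.f (psi y0 ρ v) = y1 := by
      have := congrArg (psi y0 ρ) hfv
      change psi y0 ρ (phi y0 ρ (D.f (psi y0 ρ v))) = psi y0 ρ (phi y0 ρ y1) at this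
      rwa [psi_phi y0 hρ0, psi_phi y0 hρ0] at this
    apply hfree _ (hCsub hv).1 h1 g hg
    have := congrArg (psi y0 ρ) hfix
    change psi y0 ρ (act' D y0 ρ g v) = psi y0 ρ v at this
    rwa [psi_act' D y0 hρ0] at this

end red

/-- The normalised crux implies the crux. -/
theorem crux_of_cruxE.{u} (n : ℕ) (h : CruxE.{u} n) : SpecC478.Crux.{u} n := by
  obtain ⟨c, hc, H⟩ := h
  refine ⟨min (1 / 4) (c / 2), by positivity, ?_⟩
  intro G _ _ _ _ _ _ x hx q hq χ hχ hχq hχx D y0 r0 hr0 hball hV hsmall y1 hy1 hfree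
  obtain ⟨S, h1, h2, h3, h3', h4, y, hy, h5⟩ := exists_setup D y0 r0 _ hr0 (min_le_left _ _)
    hball hV hsmall y1 hy1 χ hfree
  refine H G x hx q hq χ hχ hχq hχx S h1 h2 h3 h3' ?_ y hy h5
  intro v hv hor
  have h6 := h4 v hv hor
  have h7 : 2 * min (1 / 4) (c / 2) ≤ c := by
    have := min_le_right (1 / 4) (c / 2)
    linarith
  exact ⟨fun g => (h6.1 g).trans h7, h6.2.trans h7⟩

end Crest.Agent.R217.CruxE559
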