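import Crest.Agent.R217.TwObj_555
import Crest.Agent.R217.FineSeq_970
import Crest.Agent.R217.Box_970

/-!
Row 217 (S0336), part C1, helper555: step (b) of the fine frame.  The twist theorem for the objects
over column `k`, over a box near the point `y1` where the gauges are defined.
-/

set_option autoImplicit false
set_option linter.unusedSectionVars false
set_option linter.unusedVariables false

open Filter Topology Metric Set

namespace Crest.Agent.R217.FineB555

open Crest.Agent.R217.CruxN559 Crest.Agent.R217.Coarse889 Crest.Agent.R217.CtrlS970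
open Crest.Agent.R217.FinePkg970 Crest.Agent.R217.Flow373 Crest.Agent.R217.Glob559
open Crest.Agent.R217.Grid897 Crest.Agent.R217.Asym476 Crest.Agent.R217.Ctl559
open Crest.Agent.R217.AsyCell970 Crest.Agent.R217.PC473 Crest.Agent.R217.FineSeq970
open Crest.Agent.R217.GaugeAsy555 Crest.Agent.R217.TwObj555 Crest.Agent.R217.Box970
open Crest.Agent.R217.Obj52 Crest.Agent.R217.Ind52 Crest.Agent.R217.Sig52
open Crest.Agent.R217.LocF555

universe u

variable {n : ℕ} (D : ∀ k, KDat.{u} n (cs k))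

/-- the homotopy idempotents `e_t` over the fine control data -/
theorem hiF {l : Filter (ℕ × ℕ)} (hl : l ≤ lf) (t : ℤ) :
    HI (CF D l) (eS D t) (hS D t) (kS D t) where
  e_loc := isLocC_eS D hl t
  h_loc := isLocC_hS D hl t
  k_loc := isLocC_kS D hl t
  e_dm := fun a c' c h => eS_dm D t a h
  h_dm := fun a c' c h => hS_dm D t a h
  k_dm := fun a c' c h => kS_dm D t a h
  rel_d := rel_dS D hl t
  rel_e := rel_eS D hl t
  rel_S := rel_sS D hl t

/-- the gauge chart `m` in column `k` -/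
noncomputable def gdK (k m : ℕ) : GD (CF D (lk k)) where
  φ := PhiF.kap m
  c := (D k).gc
  ω a v := om D m a v
  c_pos := (D k).gc_pos
  unit a v := star_om_mul D m a v

/-- all the gauge charts of column `k` -/
noncomputable def gsK (k : ℕ) : List (GD (CF D (lk k))) := (List.range (D k).gm).map (gdK D k)

theorem om_nb (k m : ℕ) : ∀ r < (1 : ℝ), ∀ᶠ a in lk k, ∀ v w : BV D a, nbV v w →
    (D a.1).w (xv D a v) ≤ r → (D a.1).w (xv D a w) ≤ r →
    0 < (D a.1).gκ m (xv D a v) → 0 < (D a.1).gκ m (xv D a w) → om D m a v = om D m a w := by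
  intro r hr
  rw [eventually_lk]
  have h1 := eventually_lf.1 (eventually_mu_lf D (D k).gη_pos) k
  filter_upwards [h1] with j hj v w hvw hv hw hv0 hw0
  have h2 : dist (xv D (k, j) v) (xv D (k, j) w) ≤ mu D (k, j) := by
    refine nb_dist_blk D (k, j) (fun _ => false) (fun _ => false) v w ?_
      (Or.inl (norm_le_Rw_of_w D k (lt_of_le_of_lt hv hr)))
    exact hvw
  have hcV := ((D k).gκ_pos m _ hw0).1
  have h3 := (D k).gθ_lab m (xv D (k, j) w) (xv D (k, j) v) hw0 hv0 0 (by
    rw [pow_zero, (D k).X.D.act_one _ hcV]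
    exact lt_of_le_of_lt h2 hj)
  rw [Nat.cast_zero, add_zero] at h3
  unfold om
  rw [show (D (k, j).1).gθ m (xv D (k, j) v) = (D (k, j).1).gθ m (xv D (k, j) w) from h3]

theorem gRel_of {k m : ℕ} {M : ℤ → SeqC n (NN D)}
    (h : ∀ᶠ a in lk k, ∀ t : ℤ, ∀ c' c : Cell n (NN D a),
      0 < (D a.1).gκ m (xv D a (vt c')) → 0 < (D a.1).gκ m (xv D a (vt c)) →
        M (t + 1) a c' c = om D m a (vt c') * M t a c' c * star (om D m a (vt c))) :
    GRel (CF D (lk k)) (gdK D k m) M := by
  intro t r hr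
  have hc := (D k).gc_pos
  filter_upwards [h] with a ha c' c _ _ h1 h2
  refine ha t c' c (lt_trans ?_ h1) (lt_trans ?_ h2) <;> exact half_pos hc

/-- **The twisted family over column `k`.** -/
theorem twK (k : ℕ) : TwSeq (CF D (lk k)) (D k).X.q (gsK D k) (eS D) (hS D) (kS D) where
  hi t := hiF D (lk_le_lf k) t
  per_e t := by
    intro r hr
    rw [show (CF D (lk k)).l = lk k from rfl, eventually_lk]
    refine Eventually.of_forall fun j c' c _ => ?_
    exact congrFun (congrFun (eS_per D t (k, j)) c') c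
  per_h t := by
    intro r hr
    rw [show (CF D (lk k)).l = lk k from rfl, eventually_lk]
    refine Eventually.of_forall fun j c' c _ => ?_
    exact congrFun (congrFun (hS_per D t (k, j)) c') c
  per_k t := by
    intro r hr
    rw [show (CF D (lk k)).l = lk k from rfl, eventually_lk]
    refine Eventually.of_forall fun j c' c _ => ?_
    exact congrFun (congrFun (kS_per D t (k, j)) c') c
  ge g hg := by
    obtain ⟨m, -, rfl⟩ := List.mem_map.1 hg
    exact gRel_of D (gauge_eS D k m)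
  gh g hg := by
    obtain ⟨m, -, rfl⟩ := List.mem_map.1 hg
    exact gRel_of D (gauge_hS D k m)
  gk g hg := by
    obtain ⟨m, -, rfl⟩ := List.mem_map.1 hg
    exact gRel_of D (gauge_kS D k m)
  gn g hg := by
    obtain ⟨m, -, rfl⟩ := List.mem_map.1 hg
    intro r hr
    have hc := (D k).gc_pos
    filter_upwards [om_nb D k m r hr] with a ha v w hvw h1 h2 h3 h4
    refine ha v w hvw h1 h2 (lt_trans ?_ h3) (lt_trans ?_ h4) <;> exact half_pos hc

/-- near `y1` the gauge charts cover -/
theorem cover_k (k : ℕ) {lo hi : Fin n → ℝ}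
    (hy : Icc lo hi ⊆ closedBall (D k).X.y1 ((D k).gr / 2)) :
    ∀ s t : Fin n → ℝ, (∀ i, lo i < s i) → (∀ i, t i < hi i) → ∀ r < (1 : ℝ),
      ∀ᶠ a in (CF D (lk k)).l, ∀ b, (CF D (lk k)).u (CF D (lk k)).o a b ≤ r →
        (∀ i, s i < (CF D (lk k)).u (dirF D (lk k) i) a b ∧
          (CF D (lk k)).u (dirF D (lk k) i) a b ≤ t i) →
        ∃ g ∈ gsK D k, g.c ≤ (CF D (lk k)).u g.φ a b := by
  intro s t hs ht r hr
  rw [show (CF D (lk k)).l = lk k from rfl, eventually_lk]
  refine Eventually.of_forall fun j b hb hst => ?_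
  have h1 : (D k).w (xv D (k, j) b) < 1 := lt_of_le_of_lt hb hr
  have h2 : (D k).F (xv D (k, j) b) ∈ closedBall (D k).X.y1 ((D k).gr / 2) :=
    hy ⟨fun i => (hs i).le.trans (hst i).1.le, fun i => (hst i).2.trans (ht i).le⟩
  obtain ⟨m, hm, h3⟩ := gauge_cover D k h1 h2
  exact ⟨gdK D k m, List.mem_map.2 ⟨m, List.mem_range.2 hm, rfl⟩, h3⟩

/-- the regular pair of `e_t` over `CF D l`, with homotopy `h` -/
noncomputable def xR {l : Filter (ℕ × ℕ)} (hl : l ≤ lf) (t : ℤ)
    (h : Matrix (JJ n) (JJ n) (Asy (CF D l) ℂ)) : RPr (Matrix (JJ n) (JJ n) (Asy (CF D l) ℂ)) :=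
  RPr.mk (gridA (gridCont D hl)).p (gridA (gridCont D hl)).g (gridA (gridCont D hl)).d
    (cA (eS D t) (isLocC_eS D hl t) * (gridA (gridCont D hl)).S *
      star (cA (eS D t) (isLocC_eS D hl t)))
    (star (cA (eS D t) (isLocC_eS D hl t)) * (gridA (gridCont D hl)).T *
      cA (eS D t) (isLocC_eS D hl t)) h

/-- **Step (b)**: over a box near `y1` the signatures of `e_{t+1}` and `e_t` agree. -/
theorem twist_k (k : ℕ) {lo hi : Fin n → ℝ} (lt : ∀ i, lo i < hi i) (hU : Icc lo hi ⊆ (D k).U)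
    (hy : Icc lo hi ⊆ closedBall (D k).X.y1 ((D k).gr / 2)) {l : List (Par (Fin n))}
    (hd : l.map Par.k = List.finRange n) (hl : ∀ a ∈ l, a.Ok (frK D k lo hi lt)) (t : ℤ)
    {h1 h0 : Matrix (JJ n) (JJ n) (Asy (CF D (lk k)) ℂ)}
    (H1 : IsOb (frK D k lo hi lt) n ∅ (dg' n) (xR D (lk_le_lf k) (t + 1) h1))
    (H0 : IsOb (frK D k lo hi lt) n ∅ (dg' n) (xR D (lk_le_lf k) t h0)) :
    vK D k (ob (dg' n) (xR D (lk_le_lf k) (t + 1) h1)) l
      = vK D k (ob (dg' n) (xR D (lk_le_lf k) t h0)) l := by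
  rw [← sig_frK D k lo hi lt, ← sig_frK D k lo hi lt]
  have hln : l.length = n := by
    have := congrArg List.length hd
    rwa [List.length_map, List.length_finRange] at this
  have hk : ∀ i : Fin n, ∃ a ∈ l, a.k = i := by
    intro i
    have h1 : i ∈ l.map Par.k := by rw [hd]; exact List.mem_finRange i
    exact List.mem_map.1 h1
  exact (twK D k).sig_eq (lt := lt) (D k).X.q_ne_zero (gridCont D (lk_le_lf k)) (cpt_k D k hU)
    (cover_k D k hy) hln hl hk t H1 H0

end Crest.Agent.R217.FineB555
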