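import Crest.Agent.R217.Grid3_897
import Crest.Agent.R217.CarrierGrid_834
import Crest.Agent.R217.NormA_551
import Crest.Agent.R217.ChainSpec_373

/-! Row 217: the boundary of `gridT` is `dd`; `gridT` as iterated product in the sense of
`NormA_551`. -/

set_option autoImplicit false
set_option linter.unusedSectionVars false

open Matrix Finset
open scoped BigOperators

namespace Crest.Agent.R217.Grid897

open Crest.Agent.R217.PC473

noncomputable section

theorem tens_succ {n : ℕ} {I : Type*} [Fintype I] [DecidableEq I]
    (a : Fin (n + 1) → Matrix I I ℂ) : tens a = tc (a 0) (tens fun k => a k.succ) := by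
  ext x y
  rw [tens_apply, tc_apply, tens_apply, Fin.prod_univ_succ]
  rfl

variable (N : ℕ) [NeZero N]

theorem gridT_d_eq_dd : (n : ℕ) → (gridT N n).d = dd n N
  | 0 => by simp [gridT, dd]
  | (n + 1) => by
    have h : ∀ k : Fin n, dk (n + 1) N k.succ = tc (g1 N) (dk n N k) := by
      intro k
      rw [dk, tens_succ, dk]
      congr 1
      refine tens_congr fun l => ?_
      simp [uu]
    have h0 : dk (n + 1) N 0 = tc (d1 N) 1 := by
      rw [dk, tens_succ]
      congr 1
      rw [← tens_one]
      exact tens_congr fun k => by simp [uu]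
    have h1 : dd (n + 1) N = dk (n + 1) N 0 + ∑ k : Fin n, dk (n + 1) N k.succ := by
      unfold dd
      rw [Fin.sum_univ_succ]
    rw [gridT_d_succ, gridT_d_eq_dd n, h1, h0, Finset.sum_congr rfl fun k _ => h k]
    congr 1
    ext x y
    rw [tc_apply, dd, Matrix.sum_apply, Matrix.sum_apply, Finset.mul_sum]
    rfl

theorem gridT_bdRec : Carrier834.BdRec (N := N) (fun n => (gridT N n).d) := by
  constructor
  · intro t s
    simp [gridT]
  · intro n t s
    show (gridT N (n + 1)).d t s = _
    rw [gridT_d_succ, Matrix.add_apply, tc_apply, tc_apply, Matrix.one_apply]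

variable {N}

theorem adj_of_nb {n : ℕ} {x y : Cell n N} (h : nb N x y) : Chain373.Adj x y := h

theorem dimZ_eq {n : ℕ} (x : Cell n N) : Chain373.dimZ x = dm N x := rfl

variable (N)

/-- the torus grid has all the properties used by the chain package -/
theorem isGrid_gridT (n : ℕ) : Chain373.IsGrid (gridT N n) where
  pc := gridT_isPC N n
  p_one := gridT_p N n
  isBd := Carrier834.isBd_of_rec (gridT_bdRec N) n
  haug := Carrier834.haug_of_rec (gridT_bdRec N) n
  adj_d t s h := (gridT_d_supp n t s h).2
  adj_S t s h := (gridT_S_supp n t s h).2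
  adj_T t s h := by rw [gridT_T] at h; exact (gridT_S_supp n t s h).2
  adj_H t s h := (gridT_H_supp n t s h).2
  deg_d t s h := (gridT_d_supp n t s h).1.symm
  deg_S t s h := (gridT_S_supp n t s h).1
  deg_T t s h := by rw [gridT_T] at h; exact (gridT_S_supp n t s h).1
  deg_H t s h := (gridT_H_supp n t s h).1

end

end Crest.Agent.R217.Grid897
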