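import Mathlib
import Crest.Agent.R217.FineSpec_970
import Crest.Agent.R217.Grid4_897

/-! Row 217, M7: the averaging step `FineOfChain` (homogeneous components of the averages). -/

set_option autoImplicit false
set_option linter.unusedSectionVars false
set_option linter.style.haveILetI false

open Metric Set Matrix
open Crest.Agent.R217.Grid897 Crest.Agent.R217.PC473 Crest.Agent.R217.Flow373
open Crest.Agent.R217.Chain373
open Crest.Agent.R217.FinePkg970 (FinePkg EqOn cellsIn NearT Returns FineOfChain)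

namespace Crest.Agent.R217.FineExist373

section sums

variable {I : Type*} [Fintype I] {L q : ℕ} [NeZero L] [NeZero q] (φ : ZMod L →+* ZMod q)

/-- homogeneous component of the average -/
noncomputable def cmp (X : ZMod L → Matrix I I ℂ) (r : ZMod q) : Matrix I I ℂ :=
  (L : ℂ)⁻¹ • ∑ a, if φ a = r then X a else 0

/-- homogeneous component of a double average -/
noncomputable def cmp2 (X : ZMod L → ZMod L → Matrix I I ℂ) (r : ZMod q) : Matrix I I ℂ :=
  ((L : ℂ)⁻¹ * (L : ℂ)⁻¹) • ∑ a, ∑ b, if φ (a + b) = r then X a b else 0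

theorem cmp_supp {X : ZMod L → Matrix I I ℂ} {r : ZMod q} {t s : I} (h : cmp φ X r t s ≠ 0) :
    ∃ a, φ a = r ∧ X a t s ≠ 0 := by
  unfold cmp at h
  rw [Matrix.smul_apply, Matrix.sum_apply] at h
  have h1 : ∑ a, (if φ a = r then X a else 0) t s ≠ 0 := fun h0 => h (by rw [h0, smul_zero])
  obtain ⟨a, -, ha⟩ := Finset.exists_ne_zero_of_sum_ne_zero h1
  by_cases hr : φ a = r
  · rw [if_pos hr] at ha
    exact ⟨a, hr, ha⟩
  · rw [if_neg hr] at ha
    exact absurd rfl ha

theorem cmp2_supp {X : ZMod L → ZMod L → Matrix I I ℂ} {r : ZMod q} {t s : I}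
    (h : cmp2 φ X r t s ≠ 0) : ∃ a b, φ (a + b) = r ∧ X a b t s ≠ 0 := by
  unfold cmp2 at h
  rw [Matrix.smul_apply, Matrix.sum_apply] at h
  have h1 : ∑ a, (∑ b, if φ (a + b) = r then X a b else 0) t s ≠ 0 :=
    fun h0 => h (by rw [h0, smul_zero])
  obtain ⟨a, -, ha⟩ := Finset.exists_ne_zero_of_sum_ne_zero h1
  rw [Matrix.sum_apply] at ha
  obtain ⟨b, -, hb⟩ := Finset.exists_ne_zero_of_sum_ne_zero ha
  by_cases hr : φ (a + b) = r
  · rw [if_pos hr] at hb
    exact ⟨a, b, hr, hb⟩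
  · rw [if_neg hr] at hb
    exact absurd rfl hb

theorem cmp_sub (X Y : ZMod L → Matrix I I ℂ) (r : ZMod q) :
    cmp φ (fun a => X a - Y a) r = cmp φ X r - cmp φ Y r := by
  unfold cmp
  rw [← smul_sub, ← Finset.sum_sub_distrib]
  congr 1
  refine Finset.sum_congr rfl fun a _ => ?_
  split_ifs
  · rfl
  · rw [sub_zero]

theorem cmp_add (X Y : ZMod L → Matrix I I ℂ) (r : ZMod q) :
    cmp φ (fun a => X a + Y a) r = cmp φ X r + cmp φ Y r := by
  unfold cmp
  rw [← smul_add, ← Finset.sum_add_distrib]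
  congr 1
  refine Finset.sum_congr rfl fun a _ => ?_
  split_ifs
  · rfl
  · rw [add_zero]

theorem cmp_mul_left (A : Matrix I I ℂ) (X : ZMod L → Matrix I I ℂ) (r : ZMod q) :
    cmp φ (fun a => A * X a) r = A * cmp φ X r := by
  unfold cmp
  rw [Matrix.mul_smul, Finset.mul_sum]
  congr 1
  refine Finset.sum_congr rfl fun a _ => ?_
  split_ifs
  · rfl
  · rw [mul_zero]

theorem cmp_mul_right (A : Matrix I I ℂ) (X : ZMod L → Matrix I I ℂ) (r : ZMod q) :
    cmp φ (fun a => X a * A) r = cmp φ X r * A := by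
  unfold cmp
  rw [Matrix.smul_mul, Finset.sum_mul]
  congr 1
  refine Finset.sum_congr rfl fun a _ => ?_
  split_ifs
  · rfl
  · rw [zero_mul]

theorem cmp2_sub (X Y : ZMod L → ZMod L → Matrix I I ℂ) (r : ZMod q) :
    cmp2 φ (fun a b => X a b - Y a b) r = cmp2 φ X r - cmp2 φ Y r := by
  unfold cmp2
  rw [← smul_sub, ← Finset.sum_sub_distrib]
  congr 1
  refine Finset.sum_congr rfl fun a _ => ?_
  rw [← Finset.sum_sub_distrib]
  refine Finset.sum_congr rfl fun b _ => ?_
  split_ifs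
  · rfl
  · rw [sub_zero]

theorem cmp2_add (X Y : ZMod L → ZMod L → Matrix I I ℂ) (r : ZMod q) :
    cmp2 φ (fun a b => X a b + Y a b) r = cmp2 φ X r + cmp2 φ Y r := by
  unfold cmp2
  rw [← smul_add, ← Finset.sum_add_distrib]
  congr 1
  refine Finset.sum_congr rfl fun a _ => ?_
  rw [← Finset.sum_add_distrib]
  refine Finset.sum_congr rfl fun b _ => ?_
  split_ifs
  · rfl
  · rw [add_zero]

theorem cmp2_mul_left (A : Matrix I I ℂ) (X : ZMod L → ZMod L → Matrix I I ℂ) (r : ZMod q) :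
    cmp2 φ (fun a b => A * X a b) r = A * cmp2 φ X r := by
  unfold cmp2
  rw [Matrix.mul_smul, Finset.mul_sum]
  congr 1
  refine Finset.sum_congr rfl fun a _ => ?_
  rw [Finset.mul_sum]
  refine Finset.sum_congr rfl fun b _ => ?_
  split_ifs
  · rfl
  · rw [mul_zero]

theorem cmp2_mul_right (A : Matrix I I ℂ) (X : ZMod L → ZMod L → Matrix I I ℂ) (r : ZMod q) :
    cmp2 φ (fun a b => X a b * A) r = cmp2 φ X r * A := by
  unfold cmp2
  rw [Matrix.smul_mul, Finset.sum_mul]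
  congr 1
  refine Finset.sum_congr rfl fun a _ => ?_
  rw [Finset.sum_mul]
  refine Finset.sum_congr rfl fun b _ => ?_
  split_ifs
  · rfl
  · rw [zero_mul]

theorem natL_ne : (L : ℂ) ≠ 0 := by
  exact_mod_cast NeZero.ne L

/-- a double average depending on the sum only -/
theorem cmp2_diag (X : ZMod L → Matrix I I ℂ) (r : ZMod q) :
    cmp2 φ (fun a b => X (a + b)) r = cmp φ X r := by
  unfold cmp2 cmp
  have h1 : ∀ a : ZMod L, (∑ b, if φ (a + b) = r then X (a + b) else 0) =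
      ∑ c, if φ c = r then X c else 0 := fun a =>
    Equiv.sum_comp (Equiv.addLeft a) (fun c => if φ c = r then X c else 0)
  rw [Finset.sum_congr rfl fun a _ => h1 a, Finset.sum_const, Finset.card_univ, ZMod.card,
    ← Nat.cast_smul_eq_nsmul ℂ, smul_smul, mul_assoc, inv_mul_cancel₀ natL_ne, mul_one]

/-- the convolution -/
theorem conv_cmp (X : ZMod L → Matrix I I ℂ) (r : ZMod q) :
    ∑ i, cmp φ X i * cmp φ X (r - i) = cmp2 φ (fun a b => X a * X b) r := by
  unfold cmp cmp2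
  have h1 : ∀ i : ZMod q, ((L : ℂ)⁻¹ • ∑ a, if φ a = i then X a else 0) *
      ((L : ℂ)⁻¹ • ∑ b, if φ b = r - i then X b else 0) =
      ((L : ℂ)⁻¹ * (L : ℂ)⁻¹) • ∑ a, ∑ b,
        (if φ a = i then X a else 0) * (if φ b = r - i then X b else 0) := by
    intro i
    rw [smul_mul_smul_comm, Finset.sum_mul_sum]
  rw [Finset.sum_congr rfl fun i _ => h1 i, ← Finset.smul_sum]
  congr 1
  rw [Finset.sum_comm]
  refine Finset.sum_congr rfl fun a _ => ?_
  rw [Finset.sum_comm]
  refine Finset.sum_congr rfl fun b _ => ?_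
  rw [Finset.sum_eq_single (φ a)]
  · rw [if_pos rfl]
    by_cases h : φ b = r - φ a
    · rw [if_pos h, if_pos (by rw [map_add, h]; ring)]
    · rw [if_neg h, if_neg (fun h2 => h (by rw [← h2, map_add]; ring)), mul_zero]
  · intro i _ hi
    rw [if_neg (fun h => hi h.symm), zero_mul]
  · intro h; exact absurd (Finset.mem_univ _) h

variable [DecidableEq I]

/-- the fibres of `φ` have `L / q` elements -/
theorem cmp_one (r : ZMod q) :
    cmp φ (fun _ => (1 : Matrix I I ℂ)) r = ((1 / q : ℝ) : ℂ) • 1 := by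
  classical
  have hq : (q : ℂ) ≠ 0 := natL_ne
  have hL : (L : ℂ) ≠ 0 := natL_ne
  have e1 : ∀ r : ZMod q, (∑ a : ZMod L, if φ a = r then (1 : Matrix I I ℂ) else 0) =
      (∑ a : ZMod L, if φ a = r then (1 : ℂ) else 0) • 1 := by
    intro r
    rw [Finset.sum_smul]
    refine Finset.sum_congr rfl fun a _ => ?_
    split_ifs
    · rw [one_smul]
    · rw [zero_smul]
  have e2 : ∀ r : ZMod q, (∑ a : ZMod L, if φ a = r then (1 : ℂ) else 0) =
      ∑ a : ZMod L, if φ a = 0 then (1 : ℂ) else 0 := by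
    intro r
    have h0 : φ ((r.val : ℕ) : ZMod L) = r := by
      rw [map_natCast, ZMod.natCast_zmod_val]
    rw [← Equiv.sum_comp (Equiv.addLeft ((r.val : ℕ) : ZMod L))
      (fun a => if φ a = r then (1 : ℂ) else 0)]
    refine Finset.sum_congr rfl fun a _ => ?_
    simp only [Equiv.coe_addLeft, map_add, h0, add_eq_left]
  have e3 : ∑ r : ZMod q, (∑ a : ZMod L, if φ a = r then (1 : ℂ) else 0) = L := by
    rw [Finset.sum_comm]
    simp [ZMod.card]
  rw [Finset.sum_congr rfl fun r _ => e2 r, Finset.sum_const, Finset.card_univ, ZMod.card,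
    nsmul_eq_mul] at e3
  unfold cmp
  rw [e1, e2, smul_smul]
  congr 1
  push_cast
  field_simp
  linear_combination e3

end sums

section van

variable {n N : ℕ} [NeZero N] {L q : ℕ} [NeZero L] [NeZero q] (φ : ZMod L →+* ZMod q)

theorem cmp_van {μ : ℝ} {C : Set (Fin n → ℝ)}
    {X : ZMod L → Matrix (Carrier834.CellZ n N) (Carrier834.CellZ n N) ℂ} (r : ZMod q)
    (h : ∀ a, Van μ C (X a)) : Van μ C (cmp φ X r) := fun t s hts => by
  by_contra hne
  obtain ⟨a, -, ha⟩ := cmp_supp φ hne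
  exact ha (h a t s hts)

theorem cmp2_van {μ : ℝ} {C : Set (Fin n → ℝ)}
    {X : ZMod L → ZMod L → Matrix (Carrier834.CellZ n N) (Carrier834.CellZ n N) ℂ} (r : ZMod q)
    (h : ∀ a b, Van μ C (X a b)) : Van μ C (cmp2 φ X r) := fun t s hts => by
  by_contra hne
  obtain ⟨a, b, -, ha⟩ := cmp2_supp φ hne
  exact ha (h a b t s hts)

omit [NeZero N] in
theorem eqOn_of_van {μ : ℝ} {C : Set (Fin n → ℝ)}
    {X Y : Matrix (Cell n N) (Cell n N) ℂ} (h : Van μ C (X - Y)) :
    EqOn (cellsIn μ C) X Y := fun c' c hc => by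
  have h1 := h c' c hc.symm
  rw [Matrix.sub_apply, sub_eq_zero] at h1
  exact h1

end van

theorem fineOfChain : FineOfChain := by
  intro n D q _ hCh hRet K hK hKO
  obtain ⟨K', hK', hK'O, hKK', ε0, hε0, R0, H⟩ := hCh K hK hKO
  refine ⟨K', hK', hK'O, hKK', ε0, hε0, fun ε hε hεε0 Rw => ?_⟩
  obtain ⟨δ, hδ, H⟩ := H ε hε hεε0
  obtain ⟨L, hL, hqL, hLT⟩ := hRet K' hK'O hK' δ hδ
  obtain ⟨μ0, hμ0, H⟩ := H L
  haveI : NeZero L := ⟨hL.ne'⟩
  -- the mesh
  obtain ⟨μ, hμ, hμ1⟩ := exists_between (lt_min hμ0 hε)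
  have hμμ0 : μ < μ0 := hμ1.trans_le (min_le_left _ _)
  have hμε : μ < ε := hμ1.trans_le (min_le_right _ _)
  obtain ⟨N, hN⟩ := exists_nat_gt ((2 * |Rw| + 6 * μ + |R0| + 1) / μ)
  rw [div_lt_iff₀ hμ] at hN
  have hN0 : 0 < N := by
    rcases Nat.eq_zero_or_pos N with h | h
    · subst h
      rw [Nat.cast_zero, zero_mul] at hN
      have h1 := abs_nonneg Rw
      have h2 := abs_nonneg R0
      linarith
    · exact h
  haveI : NeZero N := ⟨hN0.ne'⟩
  have hwin : Rw + 3 * μ < μ * N / 2 := by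
    have h1 := le_abs_self Rw
    have h2 := abs_nonneg R0
    linarith [mul_comm μ (N : ℝ)]
  have hR0 : R0 ≤ μ * N := by
    have h1 := abs_nonneg Rw
    have h2 := le_abs_self R0
    linarith [mul_comm μ (N : ℝ)]
  obtain ⟨η, hη⟩ := H μ hμ hμμ0 N hR0 (gridT N n) (isGrid_gridT N n)
  set φ : ZMod L →+* ZMod q := ZMod.castHom hqL (ZMod q) with hφ
  have hval : ∀ a : ZMod L, ((a.val : ℕ) : ZMod q) = φ a := by
    intro a
    have h1 : φ ((a.val : ℕ) : ZMod L) = ((a.val : ℕ) : ZMod q) := map_natCast φ _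
    rw [← h1, ZMod.natCast_zmod_val]
  have hM : ∀ a : ZMod L, |((a.val : ℕ) : ℤ)| ≤ (L : ℤ) := by
    intro a
    rw [abs_of_nonneg (by positivity)]
    exact_mod_cast (ZMod.val_lt a).le
  have hadd : ∀ a b : ZMod L, ∀ v ∈ D.ovr K',
      dist (D.T (((a.val : ℕ) : ℤ) + ((b.val : ℕ) : ℤ)) v)
        (D.T ((((a + b).val : ℕ)) : ℤ) v) < δ := by
    intro a b v hv
    by_cases h : a.val + b.val < L
    · rw [ZMod.val_add, Nat.mod_eq_of_lt h]
      push_cast
      rw [dist_self]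
      exact hδ
    · have ha := ZMod.val_lt a
      have hb := ZMod.val_lt b
      have h1 : (a.val + b.val) % L = a.val + b.val - L := by
        rw [Nat.mod_eq_sub_mod (by omega), Nat.mod_eq_of_lt (by omega)]
      have h2 : ((a.val : ℕ) : ℤ) + ((b.val : ℕ) : ℤ) = L + (((a + b).val : ℕ) : ℤ) := by
        rw [ZMod.val_add, h1]; omega
      rw [h2]
      exact hLT v hv _
  have hneg : ∀ a : ZMod L, ∀ v ∈ D.ovr K',
      dist (D.T (((a.val : ℕ) : ℤ) + (((-a).val : ℕ) : ℤ)) v) v < δ := by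
    intro a v hv
    have h1 := hadd a (-a) v hv
    rw [add_neg_cancel, ZMod.val_zero, Nat.cast_zero, D.T_zero v hv.1] at h1
    exact h1
  choose k hk1 hk2 hk3 using fun a b : ZMod L => hη.mul _ _ _ (hM a) (hM b) (hM (a + b)) (hadd a b)
  choose Y hY1 hY2 hY3 using fun a : ZMod L => hη.commS _ _ (hM a) (hM (-a)) (hneg a)
  choose A hA1 hA2 hA3 using fun a : ZMod L => hη.coarse _ (hM a)
  refine ⟨{
    N := N
    s := μ
    s_pos := hμ
    s_lt := hμε
    window := hwin
    E := cmp φ (fun a => η ((a.val : ℕ) : ℤ))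
    Hh := cmp2 φ k
    Kk := cmp φ Y
    Aa := cmp φ A
    E_near := ?_
    Hh_near := ?_
    Kk_near := ?_
    E_dm := ?_
    Hh_dm := ?_
    Kk_dm := ?_
    rel_d := ?_
    rel_e := ?_
    rel_S := ?_
    Aa_dm := ?_
    Aa_near := ?_
    rel_A := ?_ }⟩
  · intro i t s h
    obtain ⟨a, ha, h1⟩ := cmp_supp φ h
    have h2 := hη.near _ (hM a) t s h1
    exact ⟨h2.1, a.val, (hval a).trans ha, h2.2.2⟩
  · intro i t s h
    obtain ⟨a, b, ha, h1⟩ := cmp2_supp φ h
    have h2 := hk1 a b t s h1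
    exact ⟨h2.1, (a + b).val, (hval (a + b)).trans ha, h2.2.2⟩
  · intro i t s h
    obtain ⟨a, ha, h1⟩ := cmp_supp φ h
    have h2 := hY1 a t s h1
    exact ⟨h2.1, a.val, (hval a).trans ha, h2.2.2⟩
  · intro i t s h
    obtain ⟨a, -, h1⟩ := cmp_supp φ h
    exact hη.deg _ (hM a) t s h1
  · intro i t s h
    obtain ⟨a, b, -, h1⟩ := cmp2_supp φ h
    exact hk2 a b t s h1
  · intro i t s h
    obtain ⟨a, -, h1⟩ := cmp_supp φ h
    exact hY2 a t s h1
  · intro r
    apply eqOn_of_van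
    rw [← cmp_mul_left, ← cmp_mul_right, ← cmp_sub]
    exact cmp_van φ r fun a => hη.comm _ (hM a)
  · intro r
    apply eqOn_of_van
    rw [conv_cmp, ← cmp2_diag φ (fun a => η ((a.val : ℕ) : ℤ)), ← cmp2_mul_left, ← cmp2_mul_right,
      ← cmp2_add, ← cmp2_add, ← cmp2_sub]
    refine cmp2_van φ r fun a b => ?_
    have h := hk3 a b
    have e : η ((a.val : ℕ) : ℤ) * η ((b.val : ℕ) : ℤ) -
        (η (((a + b).val : ℕ) : ℤ) + (gridT N n).d * k a b + k a b * (gridT N n).d) =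
        η ((a.val : ℕ) : ℤ) * η ((b.val : ℕ) : ℤ) - η (((a + b).val : ℕ) : ℤ) -
          ((gridT N n).d * k a b + k a b * (gridT N n).d) := by
      rw [add_assoc, sub_sub]
    rw [e]
    exact h
  · intro r
    apply eqOn_of_van
    have hstar : (gridT N n).S * star (cmp φ (fun a => η ((a.val : ℕ) : ℤ)) (-r)) =
        cmp φ (fun a => (gridT N n).S * star (η (((-a).val : ℕ) : ℤ))) r := by
      rw [cmp_mul_left]
      congr 1
      unfold cmp
      rw [star_smul, star_sum]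
      have hc : star ((L : ℂ)⁻¹) = (L : ℂ)⁻¹ := by
        rw [star_inv₀]; simp
      rw [hc]
      congr 1
      refine Fintype.sum_equiv (Equiv.neg _) _ _ fun a => ?_
      simp only [Equiv.neg_apply, neg_neg, map_neg]
      by_cases h : φ a = -r
      · rw [if_pos h, if_pos (by rw [h, neg_neg])]
      · rw [if_neg h, if_neg (fun h2 => h (by rw [← h2, neg_neg])), star_zero]
    rw [hstar, ← cmp_mul_right, ← cmp_mul_left, ← cmp_mul_right, ← cmp_sub, ← cmp_sub, ← cmp_sub]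
    exact cmp_van φ r fun a => hY3 a
  · intro i t s h
    obtain ⟨a, -, h1⟩ := cmp_supp φ h
    exact hA2 a t s h1
  · intro i t s h
    obtain ⟨a, -, h1⟩ := cmp_supp φ h
    exact (hA1 a t s h1).2
  · intro r
    apply eqOn_of_van
    rw [← cmp_one φ r, ← cmp_mul_left, ← cmp_mul_right, ← cmp_add, ← cmp_sub, ← cmp_sub]
    exact cmp_van φ r fun a => hA3 a

end Crest.Agent.R217.FineExist373
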