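import Crest.Agent.R217.FinePkg_970
import Crest.Agent.R217.AsyCell_970
import Crest.Agent.R217.Avg_557

/-!
Row 217 (S0336), part C (helper970): the averaged homotopy action over the asymptotic algebra.

* `tw` calculus (`tw_mul`, `star_tw`, ...).
* `FineCtl P C` : control data compatible with a family of packages.
* `eL`, `hL`, `kL` : the twisted sums as local sequences.
* `isMap_e`, `ho_ee`, `ho_eS` : 557's hypotheses; `exists_rp` : the regular pair.
-/

set_option autoImplicit false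
set_option linter.unusedSectionVars false
set_option linter.unusedVariables false

open Filter Topology Metric Set Matrix

namespace Crest.Agent.R217.FinePkg970

open Crest.Agent.R217.Grid897 Crest.Agent.R217.PC473 Crest.Agent.R217.Flow373
open Crest.Agent.R217.Asym476 Crest.Agent.R217.AsyCell970

/-! ### the twisted sums -/

section tw

variable {q : ℕ} [NeZero q] {I : Type*} [Fintype I] [DecidableEq I] {ζ : ℂ}

theorem zpow_val_add (hζ : ζ ^ q = 1) (i j : ZMod q) :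
    ζ ^ (i + j).val = ζ ^ i.val * ζ ^ j.val := by
  rw [ZMod.val_add, ← pow_add]
  exact (pow_eq_pow_mod _ hζ).symm

theorem tw_add (X Y : ZMod q → Matrix I I ℂ) : tw ζ (fun i => X i + Y i) = tw ζ X + tw ζ Y := by
  simp only [tw, smul_add, Finset.sum_add_distrib]

theorem tw_sub (X Y : ZMod q → Matrix I I ℂ) : tw ζ (fun i => X i - Y i) = tw ζ X - tw ζ Y := by
  simp only [tw, smul_sub, Finset.sum_sub_distrib]

theorem tw_mul_left (d : Matrix I I ℂ) (X : ZMod q → Matrix I I ℂ) :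
    tw ζ (fun i => d * X i) = d * tw ζ X := by
  simp only [tw, Finset.mul_sum, Matrix.mul_smul]

theorem tw_mul_right (d : Matrix I I ℂ) (X : ZMod q → Matrix I I ℂ) :
    tw ζ (fun i => X i * d) = tw ζ X * d := by
  simp only [tw, Finset.sum_mul, Matrix.smul_mul]

theorem tw_mul (hζ : ζ ^ q = 1) (X Y : ZMod q → Matrix I I ℂ) :
    tw ζ X * tw ζ Y = tw ζ (fun r => ∑ i, X i * Y (r - i)) := by
  simp only [tw, Finset.sum_mul, Finset.mul_sum, Finset.smul_sum]
  conv_rhs => rw [Finset.sum_comm]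
  conv_lhs => rw [Finset.sum_comm]
  refine Finset.sum_congr rfl fun i _ => ?_
  rw [← Equiv.sum_comp (Equiv.addLeft i) (fun r => ζ ^ r.val • (X i * Y (r - i)))]
  refine Finset.sum_congr rfl fun j _ => ?_
  simp only [Equiv.coe_addLeft, add_sub_cancel_left]
  rw [zpow_val_add hζ, Matrix.smul_mul, Matrix.mul_smul, smul_smul]

theorem norm_one_of_pow (hζ : ζ ^ q = 1) : ‖ζ‖ = 1 := by
  have h1 : ‖ζ‖ ^ q = 1 := by rw [← norm_pow, hζ, norm_one]
  exact (pow_eq_one_iff_of_nonneg (norm_nonneg _) (NeZero.ne q)).1 h1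

theorem star_pow_val (hζ : ζ ^ q = 1) (i : ZMod q) : star (ζ ^ i.val) = ζ ^ (-i).val := by
  have h1 : ζ ^ i.val * ζ ^ (-i).val = 1 := by
    rw [← zpow_val_add hζ, add_neg_cancel, ZMod.val_zero, pow_zero]
  have h2 : star (ζ ^ i.val) * ζ ^ i.val = 1 := by
    rw [← starRingEnd_apply, Complex.conj_mul', norm_pow, norm_one_of_pow hζ]
    simp
  calc star (ζ ^ i.val) = star (ζ ^ i.val) * (ζ ^ i.val * ζ ^ (-i).val) := by rw [h1, mul_one]
    _ = ζ ^ (-i).val := by rw [← mul_assoc, h2, one_mul]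

theorem star_tw (hζ : ζ ^ q = 1) (X : ZMod q → Matrix I I ℂ) :
    star (tw ζ X) = tw ζ (fun i => star (X (-i))) := by
  unfold tw
  rw [star_sum, ← Equiv.sum_comp (Equiv.neg (ZMod q))]
  refine Finset.sum_congr rfl fun i _ => ?_
  rw [star_smul, star_pow_val hζ, Equiv.neg_apply, neg_neg]

theorem tw_congr {P : Set I} {X Y : ZMod q → Matrix I I ℂ} (h : ∀ i, EqOn P (X i) (Y i)) :
    EqOn P (tw ζ X) (tw ζ Y) := by
  unfold tw
  exact EqOn.sum _ fun i _ => (h i).smul _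

theorem tw_ne_zero {X : ZMod q → Matrix I I ℂ} {c' c : I} (h : tw ζ X c' c ≠ 0) :
    ∃ i, X i c' c ≠ 0 := by
  unfold tw at h
  rw [Matrix.sum_apply] at h
  obtain ⟨i, -, hi⟩ := Finset.exists_ne_zero_of_sum_ne_zero h
  refine ⟨i, fun h0 => hi ?_⟩
  rw [Matrix.smul_apply, h0, smul_zero]

/-- sum over the group of `q`-th roots of unity -/
theorem tw_const_one :
    tw (1 : ℂ) (fun _ : ZMod q => ((1 / q : ℝ) : ℂ) • (1 : Matrix I I ℂ)) = 1 := by
  unfold tw
  have hq : (q : ℂ) ≠ 0 := Nat.cast_ne_zero.2 (NeZero.ne q)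
  simp only [one_pow, one_smul, Finset.sum_const, Finset.card_univ, ZMod.card]
  rw [← Nat.cast_smul_eq_nsmul ℂ, smul_smul]
  push_cast
  rw [mul_one_div_cancel hq, one_smul]

theorem tw_const_ne (hζ : ζ ^ q = 1) (h1 : ζ ≠ 1) (M : Matrix I I ℂ) :
    tw ζ (fun _ : ZMod q => M) = 0 := by
  unfold tw
  rw [← Finset.sum_smul]
  have h2 : ∑ i : ZMod q, ζ ^ i.val = 0 := by
    have h3 : ζ * ∑ i : ZMod q, ζ ^ i.val = ∑ i : ZMod q, ζ ^ i.val := by
      rw [Finset.mul_sum]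
      have h4 : ∀ i : ZMod q, ζ * ζ ^ i.val = ζ ^ (1 + i).val := by
        intro i
        have h5 : ζ ^ (1 : ZMod q).val = ζ := by
          have : (1 : ZMod q) = ((1 : ℕ) : ZMod q) := by simp
          rw [this, ZMod.val_natCast, ← pow_eq_pow_mod _ hζ, pow_one]
        rw [zpow_val_add hζ, h5]
      simp only [h4]
      exact Equiv.sum_comp (Equiv.addLeft (1 : ZMod q)) (fun i : ZMod q => ζ ^ i.val)
    have h6 : (ζ - 1) * ∑ i : ZMod q, ζ ^ i.val = 0 := by rw [sub_mul, h3, one_mul, sub_self]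
    rcases mul_eq_zero.1 h6 with h7 | h7
    · exact absurd (sub_eq_zero.1 h7) h1
    · exact h7
  rw [h2, zero_smul]

end tw

/-! ### relations of the twisted sums -/

section pkg

variable {n : ℕ} {D : Flow n} {q : ℕ} [NeZero q] {K K1 : Set (Fin n → ℝ)} {Rw ε : ℝ}
  (P : FinePkg D q K K1 Rw ε) {ζ : ℂ} (hζ : ζ ^ q = 1)

theorem tw_rel_d : EqOn (cellsIn P.s (D.ovr K)) ((gridT P.N n).d * tw ζ P.E)
    (tw ζ P.E * (gridT P.N n).d) := by
  rw [← tw_mul_left, ← tw_mul_right]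
  exact tw_congr P.rel_d

include hζ in
theorem tw_rel_e : EqOn (cellsIn P.s (D.ovr K)) (tw ζ P.E * tw ζ P.E)
    (tw ζ P.E + (gridT P.N n).d * tw ζ P.Hh + tw ζ P.Hh * (gridT P.N n).d) := by
  rw [tw_mul hζ, ← tw_mul_left, ← tw_mul_right, ← tw_add, ← tw_add]
  exact tw_congr P.rel_e

include hζ in
theorem tw_rel_S : EqOn (cellsIn P.s (D.ovr K))
    (tw ζ P.E * (gridT P.N n).S - (gridT P.N n).S * star (tw ζ P.E))
    ((gridT P.N n).d * tw ζ P.Kk - tw ζ P.Kk * star (gridT P.N n).d) := by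
  rw [star_tw hζ, ← tw_mul_left, ← tw_mul_right, ← tw_mul_left, ← tw_mul_right, ← tw_sub,
    ← tw_sub]
  exact tw_congr P.rel_S

theorem tw_rel_A_one : EqOn (cellsIn P.s (closedBall 0 (1 / 2))) (tw 1 P.E - 1)
    ((gridT P.N n).d * tw 1 P.Aa + tw 1 P.Aa * (gridT P.N n).d) := by
  have h := tw_congr (ζ := 1) P.rel_A
  rw [tw_sub, tw_const_one, tw_add, tw_mul_left, tw_mul_right] at h
  exact h

include hζ in
theorem tw_rel_A_ne (h1 : ζ ≠ 1) : EqOn (cellsIn P.s (closedBall 0 (1 / 2))) (tw ζ P.E)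
    ((gridT P.N n).d * tw ζ P.Aa + tw ζ P.Aa * (gridT P.N n).d) := by
  have h := tw_congr (ζ := ζ) P.rel_A
  rw [tw_sub, tw_const_ne hζ h1, tw_add, tw_mul_left, tw_mul_right, sub_zero] at h
  exact h

end pkg

/-! ### local sequences -/

/-- position of a vertex -/
noncomputable def xv {n N : ℕ} [NeZero N] (s : ℝ) (v : VV n N) : Fin n → ℝ :=
  fun j => s * (((v j).valMinAbs : ℤ) : ℝ)

theorem pos_eq_xv {n N : ℕ} [NeZero N] (s : ℝ) (c : Cell n N) : pos s c = xv s (vt c) := rfl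

section obj

variable {n : ℕ} {A : Type} {D : A → Flow n} {q : A → ℕ} [∀ a, NeZero (q a)]
  {K K1 : A → Set (Fin n → ℝ)} {Rw ε : A → ℝ}
  {P : ∀ a, FinePkg (D a) (q a) (K a) (K1 a) (Rw a) (ε a)}
  {C : Ctl (BV n fun a => (P a).N)}

/-- control data compatible with the packages -/
structure FineCtl (P : ∀ a, FinePkg (D a) (q a) (K a) (K1 a) (Rw a) (ε a))
    (C : Ctl (BV n fun a => (P a).N)) : Prop where
  grid : GridCont C
  near : ∀ φ, ∀ δ > (0 : ℝ), ∀ᶠ a in C.l, ∀ w w' : VV n (P a).N,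
    xv (P a).s w ∈ (D a).ovr (K1 a) → ∀ i' : ℕ,
      dist (xv (P a).s w') ((D a).T i' (xv (P a).s w)) < ε a → |C.u φ a w' - C.u φ a w| < δ
  reg : ∀ r < (1 : ℝ), ∀ᶠ a in C.l, ∀ w : VV n (P a).N, C.u C.o a w ≤ r →
    xv (P a).s w ∈ (D a).ovr (K a)

theorem FineCtl.isLocC (hF : FineCtl P C) {ζ : A → ℂ}
    {X : ∀ a, ZMod (q a) → Matrix (Cell n (P a).N) (Cell n (P a).N) ℂ}
    (hX : ∀ a, NearT (D a) (q a) (K1 a) (ε a) (P a).s (X a)) :
    IsLocC C (fun a => tw (ζ a) (X a)) := by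
  intro φ r hr δ hδ
  filter_upwards [hF.near φ δ hδ] with a ha c' c _ h0
  obtain ⟨i, hi⟩ := tw_ne_zero h0
  obtain ⟨h1, i', _, h3⟩ := hX a i c' c hi
  exact ha (vt c) (vt c') h1 i' h3

theorem FineCtl.relC (hF : FineCtl P C) {M M' : SeqC n fun a => (P a).N}
    (h : ∀ a, EqOn (cellsIn (P a).s ((D a).ovr (K a))) (M a) (M' a)) : RelC C M M' := by
  intro r hr
  filter_upwards [hF.reg r hr] with a ha c' c hc
  exact h a c' c (hc.symm.imp (ha (vt c)) (ha (vt c')))

/-- the twisted sums `e` -/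
noncomputable def eL (hF : FineCtl P C) (ζ : A → ℂ) : LocC C :=
  ⟨fun a => tw (ζ a) (P a).E, hF.isLocC fun a => (P a).E_near⟩

/-- the homotopies of `e e ~ e` -/
noncomputable def hL (hF : FineCtl P C) (ζ : A → ℂ) : LocC C :=
  ⟨fun a => tw (ζ a) (P a).Hh, hF.isLocC fun a => (P a).Hh_near⟩

/-- the homotopies of `e S ~ S e*` -/
noncomputable def kL (hF : FineCtl P C) (ζ : A → ℂ) : LocC C :=
  ⟨fun a => tw (ζ a) (P a).Kk, hF.isLocC fun a => (P a).Kk_near⟩

/-! ### degrees -/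

theorem g_mul_of {N : A → ℕ} [∀ a, NeZero (N a)] {C : Ctl (BV n N)} (hg : GridCont C)
    {M : LocC C} {σ : ℂ}
    (hM : ∀ a c' c, M.1 a c' c ≠ 0 → (-1 : ℂ) ^ dm (N a) c' = σ * (-1) ^ dm (N a) c) :
    (gridL hg).g * M = σ • (M * (gridL hg).g) := by
  apply Subtype.ext
  funext a
  ext c' c
  change ((gridT (N a) n).g * M.1 a) c' c = σ • ((M.1 a) * (gridT (N a) n).g) c' c
  rw [gridT_g_diagonal, Matrix.diagonal_mul, Matrix.mul_diagonal, smul_eq_mul]
  by_cases h0 : M.1 a c' c = 0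
  · rw [h0]; ring
  · rw [hM a c' c h0]; ring

theorem toA_g_mul_of {N : A → ℕ} [∀ a, NeZero (N a)] {C : Ctl (BV n N)} (hg : GridCont C)
    {M : LocC C} {σ : ℂ}
    (hM : ∀ a c' c, M.1 a c' c ≠ 0 → (-1 : ℂ) ^ dm (N a) c' = σ * (-1) ^ dm (N a) c) :
    (gridA hg).g * toA C M = σ • (toA C M * (gridA hg).g) := by
  have h := congrArg (toA C) (g_mul_of hg hM)
  rw [map_mul, map_smul, map_mul] at h
  exact h

theorem neg_one_pow_smul {R : Type*} [Ring R] [Algebra ℂ R] (m : ℕ) (y : R) :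
    (-1 : R) ^ m * y = ((-1 : ℂ) ^ m) • y := by
  rcases Nat.even_or_odd m with hm | hm
  · rw [hm.neg_one_pow, hm.neg_one_pow, one_mul, one_smul]
  · rw [hm.neg_one_pow, hm.neg_one_pow, neg_one_mul, neg_smul, one_smul]

/-- homotopy with explicit witness (557's `Ho` is `∃ h, HoW h`) -/
structure HoW {R : Type*} [Ring R] (p g s dl dr x y h : R) : Prop where
  ph : p * h = h
  hp : h * p = h
  gh : g * h = -(s * (h * g))
  eq : x = y + dl * h + h * dr

theorem HoW.ho {R : Type*} [Ring R] [StarRing R] {p g s dl dr x y h : R}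
    (H : HoW p g s dl dr x y h) : Avg557.Ho p g s dl dr x y := ⟨h, H.ph, H.hp, H.gh, H.eq⟩

variable (hF : FineCtl P C) (ζ : A → ℂ)

theorem isMap_e : Avg557.IsMap (gridA hF.grid).p (gridA hF.grid).g 1 (gridA hF.grid).d
    (gridA hF.grid).d (toA C (eL hF ζ)) where
  px := by rw [gridA_p, one_mul]
  xp := by rw [gridA_p, mul_one]
  gx := by
    rw [one_mul, toA_g_mul_of hF.grid (σ := 1), one_smul]
    intro a c' c h0
    obtain ⟨i, hi⟩ := tw_ne_zero h0
    rw [(P a).E_dm i c' c hi, one_mul]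
  dx := by
    have h : toA C ((gridL hF.grid).d * eL hF ζ) = toA C (eL hF ζ * (gridL hF.grid).d) := by
      rw [toA_eq]
      exact hF.relC fun a => tw_rel_d (P a)
    rw [map_mul, map_mul] at h
    exact h

theorem hoW_ee (hζ : ∀ a, ζ a ^ q a = 1) :
    HoW (gridA hF.grid).p (gridA hF.grid).g 1 (gridA hF.grid).d (gridA hF.grid).d
      (toA C (eL hF ζ) * toA C (eL hF ζ)) (toA C (eL hF ζ)) (toA C (hL hF ζ)) where
  ph := by rw [gridA_p, one_mul]
  hp := by rw [gridA_p, mul_one]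
  gh := by
    rw [one_mul, toA_g_mul_of hF.grid (σ := -1), neg_smul, one_smul]
    intro a c' c h0
    obtain ⟨i, hi⟩ := tw_ne_zero h0
    rw [(P a).Hh_dm i c' c hi]
    ring
  eq := by
    have h : toA C (eL hF ζ * eL hF ζ) =
        toA C (eL hF ζ + (gridL hF.grid).d * hL hF ζ + hL hF ζ * (gridL hF.grid).d) := by
      rw [toA_eq]
      exact hF.relC fun a => tw_rel_e (P a) (hζ a)
    rw [map_mul, map_add, map_add, map_mul, map_mul] at h
    exact h

theorem hoW_eS (hζ : ∀ a, ζ a ^ q a = 1) :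
    HoW (gridA hF.grid).p (gridA hF.grid).g ((-1) ^ n) (gridA hF.grid).d
      (-star (gridA hF.grid).d) (toA C (eL hF ζ) * (gridA hF.grid).S)
      ((gridA hF.grid).S * star (toA C (eL hF ζ))) (toA C (kL hF ζ)) where
  ph := by rw [gridA_p, one_mul]
  hp := by rw [gridA_p, mul_one]
  gh := by
    rw [toA_g_mul_of hF.grid (σ := -(-1) ^ n), neg_one_pow_smul, neg_smul]
    intro a c' c h0
    obtain ⟨i, hi⟩ := tw_ne_zero h0
    have h1 := (P a).Kk_dm i c' c hi
    have h2 : (-1 : ℂ) ^ dm (P a).N c' * (-1) ^ dm (P a).N c = (-1) ^ (n + 1) := by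
      rw [← pow_add, h1]
    have h3 : (-1 : ℂ) ^ dm (P a).N c * (-1) ^ dm (P a).N c = 1 := by
      rw [← mul_pow]; simp
    calc (-1 : ℂ) ^ dm (P a).N c' = (-1) ^ dm (P a).N c' * ((-1) ^ dm (P a).N c *
          (-1) ^ dm (P a).N c) := by rw [h3, mul_one]
      _ = (-1) ^ (n + 1) * (-1) ^ dm (P a).N c := by rw [← mul_assoc, h2]
      _ = _ := by ring
  eq := by
    have h : toA C (eL hF ζ * (gridL hF.grid).S - (gridL hF.grid).S * star (eL hF ζ)) =
        toA C ((gridL hF.grid).d * kL hF ζ - kL hF ζ * star (gridL hF.grid).d) := by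
      rw [toA_eq]
      exact hF.relC fun a => tw_rel_S (P a) (hζ a)
    rw [map_sub, map_sub, map_mul, map_mul, map_mul, map_mul, map_star, map_star] at h
    have h2 := eq_add_of_sub_eq' h
    change toA C (eL hF ζ) * toA C (gridL hF.grid).S = toA C (gridL hF.grid).S *
      star (toA C (eL hF ζ)) + toA C (gridL hF.grid).d * toA C (kL hF ζ) +
        toA C (kL hF ζ) * -star (toA C (gridL hF.grid).d)
    rw [h2]
    noncomm_ring

/-- the regular pair -/
theorem exists_rp (hζ : ∀ a, ζ a ^ q a = 1) :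
    ∃ h, (RPr.mk (gridA hF.grid).p (gridA hF.grid).g (gridA hF.grid).d
      (toA C (eL hF ζ) * (gridA hF.grid).S * star (toA C (eL hF ζ)))
      (star (toA C (eL hF ζ)) * (gridA hF.grid).T * toA C (eL hF ζ)) h).IsRP n :=
  Avg557.rp_of (gridA_isPC hF.grid) (isMap_e hF ζ) (hoW_ee hF ζ hζ).ho (hoW_eS hF ζ hζ).ho

end obj

end Crest.Agent.R217.FinePkg970
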