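import Crest.Agent.R217.TwistAlg_555
import Crest.Agent.R217.TFormS_555
import Crest.Agent.R217.Nat_52
import Crest.Agent.R217.Sig_52

/-!
Row 217 (S0336), part C1, helper555: abstract part of the twist at `y₁`.
-/

set_option autoImplicit false
set_option linter.unusedSectionVars false
set_option linter.unusedVariables false

namespace Crest.Agent.R217.FineTwist555

open Matrix PC473 Obj52 LocF555 TForm555
open Frame52 (SHom)

section cm

variable {κ : Type*} {R : Type*} [Ring R] [StarRing R] [Algebra ℂ R] [StarModule ℂ R]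
variable {J : Type*} [Fintype J] [DecidableEq J]

/-- all entries commute with `c` -/
def Cm {I : Type*} (c : R) (M : Matrix I I R) : Prop := ∀ a b, c * M a b = M a b * c

theorem Cm.mul {c : R} {M N : Matrix J J R} (hM : Cm c M) (hN : Cm c N) : Cm c (M * N) := by
  intro a b
  rw [Matrix.mul_apply, Finset.mul_sum, Finset.sum_mul]
  refine Finset.sum_congr rfl fun x _ => ?_
  rw [← mul_assoc, hM, mul_assoc, hN, mul_assoc]

theorem Cm.one (c : R) : Cm c (1 : Matrix J J R) := by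
  intro a b
  rw [Matrix.one_apply]
  split_ifs <;> simp

theorem Cm.sub {c : R} {M N : Matrix J J R} (hM : Cm c M) (hN : Cm c N) : Cm c (M - N) := by
  intro a b
  rw [Matrix.sub_apply, mul_sub, sub_mul, hM, hN]

theorem Cm.PU {c : R} (F : Frame κ R) (k : κ) (hc : ∀ s, c * F.pu k s = F.pu k s * c)
    (t : J → ℝ) : Cm c (PU F k t) := by
  intro a b
  unfold Obj52.PU
  rw [Matrix.diagonal_apply]
  split_ifs
  · rw [hc]
  · simp

theorem Cm.fl2 {c : R} {M N : Matrix J J R} (hM : Cm c M) (hN : Cm c N) :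
    Cm c (fl !![M, 0; 0, N]) := by
  rintro ⟨i, a⟩ ⟨j, b⟩
  fin_cases i <;> fin_cases j <;> simp [fl, hM a b, hN a b]

theorem cm_cut {c : R} (F : Frame κ R) (hc : ∀ k s, c * F.pu k s = F.pu k s * c) (a : Par κ)
    (m : ℕ) (deg : J → ℤ) (x : RPr (Matrix J J R)) (hx : Cm c x.p) : Cm c (cut F a m deg x).p := by
  have h1 : Cm c (dblT (m + 1) x).p := Cm.fl2 hx hx
  have h2 : Cm c (wallP F a.k a.c a.δ (degD (m + 1) deg) (dblT (m + 1) x).p) :=
    h1.mul ((Cm.one c).sub (Cm.PU F a.k (hc a.k) _))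
  exact Cm.fl2 (h2.mul (Cm.PU F a.k (hc a.k) _)) (h2.mul (Cm.PU F a.k (hc a.k) _))

theorem cm_red {c : R} (F : Frame κ R) (hc : ∀ k s, c * F.pu k s = F.pu k s * c)
    (l : List (Par κ)) : ∀ X : Obj R, Cm c X.x.p → Cm c (red F l X).x.p := by
  induction l with
  | nil => intro X hX; exact hX
  | cons a l ih =>
    intro X hX
    exact ih _ (cm_cut F hc a l.length X.deg X.x hX)

end cm

section fl

variable {R R' : Type*} [Ring R] [StarRing R] [Ring R'] [StarRing R']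
variable {J : Type*} [Fintype J] [DecidableEq J]

theorem fl_mul' (M N : Matrix (Fin 2) (Fin 2) (Matrix J J R)) : fl (M * N) = fl M * fl N := by
  ext ⟨i, a⟩ ⟨j, b⟩
  simp only [fl, Matrix.mul_apply, Matrix.sum_apply, Fintype.sum_prod_type]

theorem fl_star' (M : Matrix (Fin 2) (Fin 2) (Matrix J J R)) : fl (star M) = star (fl M) := by
  ext ⟨i, a⟩ ⟨j, b⟩
  rfl

theorem fl_map' (φ : R → R') (M : Matrix (Fin 2) (Fin 2) (Matrix J J R)) :
    (fl M).map φ = fl (M.map fun N => N.map φ) := rfl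

end fl

section main

variable {R : Type*} [Ring R] [StarRing R] [Algebra ℂ R] [StarModule ℂ R]
  {G : Type*} [AddCommGroup G] {𝒢 : Set (Gauge R)}
  {J : Type} [Fintype J] [DecidableEq J]

/-- the total form, flattened -/
noncomputable def tf {R : Type*} [Ring R] [StarRing R] [Algebra ℂ R] (z : Tup (Matrix J J R)) :
    Matrix (Fin 2 × J) (Fin 2 × J) R := fl (tform z)

/-- twist invariance for a Poincaré tuple over the gauge algebra with compact, covered `p` -/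
theorem sg_tf_twist (L : SgLaws R G) (hA : Amb 𝒢) (gs : List (Gauge R)) (hgs : ∀ g ∈ gs, g ∈ 𝒢)
    {q : ℕ} (hq : q ≠ 0) {m : ℕ} (z : Tup (Matrix J J (twAlg 𝒢 hA.gg q))) (hz : z.IsPC m)
    (p0 : Matrix J J R) (hp : ∀ i, z.p.map (ev i) = p0)
    (hok : L.ok (fl (!![p0, 0; 0, p0])))
    (hu : ∀ g ∈ 𝒢, Cm g.u p0) (hP : ∀ g ∈ 𝒢, Cm (g.P 0) p0)
    (hc : ∀ a b, p0 a b * (gs.map (fun g => 1 - g.P 0)).prod = 0) (i : ℤ) :
    L.sg (tf (z.map fun M => M.map (ev (i + 1)))) = L.sg (tf (z.map fun M => M.map (ev i))) := by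
  have key : ∀ j : ℤ, tf (z.map fun M => M.map (ev j)) = (tf z).map (ev j) := by
    intro j
    unfold tf
    rw [fl_map', tform_smap ((ev_shom j).mapM)]
  rw [key, key]
  have hpc : ∀ i : ℤ, (fl (pc z)).map (ev i) = fl (!![p0, 0; 0, p0]) := by
    intro i
    rw [fl_map', pc, TForm555.map_fin2, hp]
    congr 1
  have hcm : ∀ c : R, Cm c p0 → Cm c (fl !![p0, 0; 0, p0]) := fun c hc => Cm.fl2 hc hc
  refine twAlg_const (e := fl (pc z)) (S := fl (tinv z)) L hA gs hgs hq (fl !![p0, 0; 0, p0])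
    hpc hok (fun g hg a b => hcm _ (hu g hg) a b) (fun g hg a b => hcm _ (hP g hg) a b)
    ?_ ?_ ?_ ?_ ?_ ?_ ?_ ?_ ?_ ?_ ?_ i
  · rw [← fl_mul', pc_pc hz]
  · exact (fl_star' _).symm.trans (congrArg fl (TForm555.star_pc hz))
  · rw [tf, ← fl_mul', pc_tform hz]
  · rw [tf, ← fl_mul', tform_pc hz]
  · rw [← fl_mul', pc_tinv hz]
  · rw [← fl_mul', tinv_pc hz]
  · rw [tf, ← fl_mul', tform_tinv hz]
  · rw [tf, ← fl_mul', tinv_tform hz]
  · exact (fl_star' _).symm.trans (congrArg fl (star_tform hz))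
  · exact (fl_star' _).symm.trans (congrArg fl (star_tinv hz))
  · rintro ⟨i, a⟩ ⟨j, b⟩
    fin_cases i <;> fin_cases j <;> simp [fl, hc a b]

end main

section red

variable {κ : Type*} {R : Type*} [Ring R] [StarRing R] [Algebra ℂ R] [StarModule ℂ R]
  {G : Type*} [AddCommGroup G] {𝒢 : Set (Gauge R)} {hg : ∀ g ∈ 𝒢, IsGauge g} {q : ℕ}

/-- evaluation as a bundled homomorphism -/
def evH (hg : ∀ g ∈ 𝒢, IsGauge g) (q : ℕ) (i : ℤ) : twAlg 𝒢 hg q →⋆ₙₐ[ℂ] R where
  toFun := ev i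
  map_smul' _ _ := rfl
  map_zero' := rfl
  map_add' _ _ := rfl
  map_mul' _ _ := rfl
  map_star' _ := rfl

@[simp] theorem evH_apply (i : ℤ) (a : twAlg 𝒢 hg q) : evH hg q i a = ev i a := rfl

/-- all entries are constant families -/
def Cst {I : Type*} (M : Matrix I I (twAlg 𝒢 hg q)) : Prop := ∀ i a b, ev i (M a b) = ev 0 (M a b)

theorem ev_sum' (i : ℤ) {ι : Type*} (s : Finset ι) (f : ι → twAlg 𝒢 hg q) :
    ev i (∑ x ∈ s, f x) = ∑ x ∈ s, ev i (f x) := map_sum (evH hg q i) f s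

theorem Cst.mul {J : Type*} [Fintype J] {M N : Matrix J J (twAlg 𝒢 hg q)} (hM : Cst M)
    (hN : Cst N) : Cst (M * N) := by
  intro i a b
  rw [Matrix.mul_apply, ev_sum', ev_sum']
  refine Finset.sum_congr rfl fun x _ => ?_
  rw [(ev_shom i).mul, (ev_shom 0).mul, hM, hN]

theorem Cst.one {J : Type*} [DecidableEq J] : Cst (1 : Matrix J J (twAlg 𝒢 hg q)) := by
  intro i a b
  rw [Matrix.one_apply]
  split_ifs
  · rfl
  · rfl

theorem Cst.sub {J : Type*} {M N : Matrix J J (twAlg 𝒢 hg q)} (hM : Cst M)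
    (hN : Cst N) : Cst (M - N) := by
  intro i a b
  rw [Matrix.sub_apply, (ev_shom i).sub, (ev_shom 0).sub, hM, hN]

theorem Cst.fl2 {J : Type*} [Fintype J] [DecidableEq J] {M N : Matrix J J (twAlg 𝒢 hg q)}
    (hM : Cst M) (hN : Cst N) : Cst (fl !![M, 0; 0, N]) := by
  rintro i ⟨x, a⟩ ⟨y, b⟩
  fin_cases x <;> fin_cases y
  · exact hM i a b
  · rfl
  · rfl
  · exact hN i a b

variable (F : Frame κ R) (hu : ∀ g ∈ 𝒢, ∀ k c, g.u * F.pu k c = F.pu k c * g.u)

theorem Cst.PU {J : Type*} [DecidableEq J] (k : κ) (t : J → ℝ) :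
    Cst (PU (twF F 𝒢 hg q hu) k t) := by
  intro i a b
  unfold Obj52.PU
  rw [Matrix.diagonal_apply]
  split_ifs
  · rfl
  · rfl

theorem cst_cut {J : Type*} [Fintype J] [DecidableEq J] (a : Par κ)
    (m : ℕ) (deg : J → ℤ) (x : RPr (Matrix J J (twAlg 𝒢 hg q))) (hx : Cst x.p) :
    Cst (cut (twF F 𝒢 hg q hu) a m deg x).p := by
  have h1 : Cst (dblT (m + 1) x).p := Cst.fl2 hx hx
  have h2 : Cst (wallP (twF F 𝒢 hg q hu) a.k a.c a.δ (degD (m + 1) deg) (dblT (m + 1) x).p) :=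
    h1.mul (Cst.one.sub (Cst.PU F hu a.k _))
  exact Cst.fl2 (h2.mul (Cst.PU F hu a.k _)) (h2.mul (Cst.PU F hu a.k _))

theorem cst_red (l : List (Par κ)) : ∀ X : Obj (twAlg 𝒢 hg q), Cst X.x.p →
    Cst (red (twF F 𝒢 hg q hu) l X).x.p := by
  induction l with
  | nil => intro X hX; exact hX
  | cons a l ih =>
    intro X hX
    exact ih _ (cst_cut F hu a l.length X.deg X.x hX)

/-- supported in the box, commuting with the control projections -/
def BxBd (a : R) : Prop :=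
  (∀ k c, a * F.pu k c = F.pu k c * a) ∧
  ∀ k, (∃ s, F.lo k < s ∧ F.pu k s * a = 0) ∧ (∃ t, t < F.hi k ∧ F.pu k t * a = a)

/-- the signature of an object of dimension `l.length` along the canonical cuts `l` -/
noncomputable def sgO (L : SgLaws R G) (F : Frame κ R) (l : List (Par κ)) (X : Obj R) : G :=
  L.sg (tf (dblT 0 (red F l X).x))

/-- **Twist invariance** at the level of objects. -/
theorem sgO_twist (L : SgLaws R G) (hA : Amb 𝒢) (gs : List (Gauge R)) (hgs : ∀ g ∈ gs, g ∈ 𝒢)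
    (hq : q ≠ 0) (hP : ∀ g ∈ 𝒢, ∀ k c, g.P 0 * F.pu k c = F.pu k c * g.P 0)
    (hok : ∀ {ι : Type} [Fintype ι] [DecidableEq ι] (e : Matrix ι ι R), (∀ k, BdLo F k e) →
      (∀ k, BdHi F k e) → L.ok e)
    (hcov : ∀ a, BxBd F a → a * (gs.map (fun g => 1 - g.P 0)).prod = 0)
    (l : List (Par κ)) (X : Obj (twAlg 𝒢 hA.gg q)) (hX : Cst X.x.p)
    (hXu : ∀ g ∈ 𝒢, Cm g.u (X.x.p.map (ev 0))) (hXP : ∀ g ∈ 𝒢, Cm (g.P 0) (X.x.p.map (ev 0)))
    (hred : IsOb (twF F 𝒢 hA.gg q hu) 0 Set.univ (red (twF F 𝒢 hA.gg q hu) l X).deg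
      (red (twF F 𝒢 hA.gg q hu) l X).x) (i : ℤ) :
    sgO L F l (Nat52.mapO (evH hA.gg q (i + 1)) X) = sgO L F l (Nat52.mapO (evH hA.gg q i) X) := by
  have hpu : ∀ (i : ℤ) (k : κ) (c : ℝ),
      evH hA.gg q i ((twF F 𝒢 hA.gg q hu).pu k c) = F.pu k c := fun _ _ _ => rfl
  have hnat : ∀ i : ℤ, red F l (Nat52.mapO (evH hA.gg q i) X)
      = Nat52.mapO (evH hA.gg q i) (red (twF F 𝒢 hA.gg q hu) l X) :=
    fun i => Nat52.red_map (hpu i) l X
  have hcst := cst_red F hu l X hX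
  have hcm : ∀ c : R, (∀ k s, c * F.pu k s = F.pu k s * c) → Cm c (X.x.p.map (ev 0)) →
      Cm c ((red (twF F 𝒢 hA.gg q hu) l X).x.p.map (ev 0)) := by
    intro c hc h
    have h1 := cm_red F hc l (Nat52.mapO (evH hA.gg q 0) X) h
    rw [hnat] at h1
    exact h1
  unfold sgO
  rw [hnat, hnat]
  generalize red (twF F 𝒢 hA.gg q hu) l X = Y at hred hcst hcm
  obtain ⟨J, ft, de, deg, y⟩ := Y
  simp only at hred hcst hcm
  have hz : (dblT 0 y).IsPC 0 := (dbl_isPC hred.rp).mapN Nat52.flH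
  have hd : ∀ i : ℤ, dblT 0 (y.map (Nat52.mapH J (evH hA.gg q i)))
      = (dblT 0 y).map (Nat52.mapH (Fin 2 × J) (evH hA.gg q i)) :=
    fun i => Nat52.Compat.dblT (Nat52.compat_map (evH hA.gg q i)) 0 y
  show L.sg (tf (dblT 0 (y.map (Nat52.mapH J (evH hA.gg q (i + 1))))))
    = L.sg (tf (dblT 0 (y.map (Nat52.mapH J (evH hA.gg q i)))))
  rw [hd, hd]
  obtain ⟨e, he, hec⟩ := hred.pd
  have hbx : ∀ j, BxBd F (ev 0 (e j)) := by
    intro j
    refine ⟨fun k c => ?_, fun k => ?_⟩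
    · have := congrArg (ev 0) (hec j k c)
      rw [(ev_shom 0).mul, (ev_shom 0).mul] at this
      exact this
    constructor
    · obtain ⟨s, hs, h⟩ := hred.lo k (Set.mem_univ k)
      refine ⟨s, hs, ?_⟩
      rw [he, PU, diagonal_mul_diagonal] at h
      have := congrArg (ev 0) (congrFun (congrFun h j) j)
      rw [diagonal_apply_eq, (ev_shom 0).mul] at this
      exact this
    · obtain ⟨t, ht, h⟩ := hred.hi k (Set.mem_univ k)
      refine ⟨t, ht, ?_⟩
      rw [he, PU, diagonal_mul_diagonal] at h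
      have := congrArg (ev 0) (congrFun (congrFun h j) j)
      rw [diagonal_apply_eq, diagonal_apply_eq, (ev_shom 0).mul] at this
      exact this
  have hp0 : ((dblT 0 y).p).map (ev 0) = diagonal (fun a : Fin 2 × J => ev 0 (e a.2)) := by
    have : (dblT 0 y).p = fl !![y.p, 0; 0, y.p] := rfl
    rw [this, he, Nat52.fl_diag]
    ext a b
    rw [Matrix.map_apply, diagonal_apply, diagonal_apply]
    split_ifs
    · rfl
    · rfl
    · rfl
  have hcz : Cst (dblT 0 y).p := Cst.fl2 hcst hcst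
  have hp1 : ((dblT 0 y).p).map (ev 0) = fl !![y.p.map (ev 0), 0; 0, y.p.map (ev 0)] := by
    show (fl !![y.p, 0; 0, y.p]).map (ev 0) = _
    rw [fl_map', TForm555.map_fin2]
    rfl
  refine sg_tf_twist L hA gs hgs hq (dblT 0 y) hz (((dblT 0 y).p).map (ev 0)) ?_ ?_ ?_ ?_ ?_ i
  · intro i; ext a b; exact hcz i a b
  · rw [hp1]
    have hlo : ∀ k, BdLo F k (y.p.map (ev 0)) := by
      intro k
      obtain ⟨s, hs, h⟩ := hred.lo k (Set.mem_univ k)
      refine ⟨s, hs, ?_⟩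
      have h2 : PU F k (fun _ : J => s) = (PU (twF F 𝒢 hA.gg q hu) k (fun _ : J => s)).map (ev 0) := by
        ext a b
        rw [Matrix.map_apply, PU, PU, diagonal_apply, diagonal_apply]
        split_ifs <;> rfl
      rw [h2, ← (ev_shom (𝒢 := 𝒢) (hg := hA.gg) (q := q) 0).mapM.mul, h]
      exact (ev_shom (𝒢 := 𝒢) (hg := hA.gg) (q := q) 0).mapM.zero
    have hhi : ∀ k, BdHi F k (y.p.map (ev 0)) := by
      intro k
      obtain ⟨s, hs, h⟩ := hred.hi k (Set.mem_univ k)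
      refine ⟨s, hs, ?_⟩
      have h2 : PU F k (fun _ : J => s) = (PU (twF F 𝒢 hA.gg q hu) k (fun _ : J => s)).map (ev 0) := by
        ext a b
        rw [Matrix.map_apply, PU, PU, diagonal_apply, diagonal_apply]
        split_ifs <;> rfl
      rw [h2, ← (ev_shom (𝒢 := 𝒢) (hg := hA.gg) (q := q) 0).mapM.mul, h]
    exact hok _ (fun k => ((hlo k).fl2c).fl2c) (fun k => ((hhi k).fl2c).fl2c)
  · intro g hg
    rw [hp1]
    exact Cm.fl2 (hcm _ (hu g hg) (hXu g hg)) (hcm _ (hu g hg) (hXu g hg))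
  · intro g hg
    rw [hp1]
    exact Cm.fl2 (hcm _ (hP g hg) (hXP g hg)) (hcm _ (hP g hg) (hXP g hg))
  · intro a b
    rw [hp0, diagonal_apply]
    split_ifs
    · exact hcov _ (hbx _)
    · rw [zero_mul]

theorem sgO_eq_sig (L : SgLaws R G) (F : Frame κ R) (l : List (Par κ)) (X : Obj R) :
    sgO L F l X = Sig52.sig F L l X := rfl

end red

end Crest.Agent.R217.FineTwist555
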