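import Mathlib
import Crest.Agent.R217.Ind_52
import Crest.Agent.R217.SgPAsy_476

/-!
Row 217 (S0336), part C, module M4: restriction of signatures along `C.Le C'` (L2).
-/

set_option autoImplicit false
set_option linter.unusedSectionVars false

open Filter Topology Matrix

namespace Crest.Agent.R217.Res52

open PC473 Obj52 Nat52 Sum52 TForm555 LocF555 Sig52 Ind52 Asym476

section frm

variable {κ : Type*} {R : Type*} [Ring R] [StarRing R] [Algebra ℂ R] [StarModule ℂ R]
  {J : Type} [Fintype J] [DecidableEq J] {F : Frame κ R} {S : Set κ} {deg : J → ℤ}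
  {x : RPr (Matrix J J R)}

/-- naturality of the level zero form -/
theorem frm_map {R' : Type*} [Ring R'] [StarRing R'] [Algebra ℂ R'] [StarModule ℂ R']
    (ev : R →⋆ₙₐ[ℂ] R') (x : RPr (Matrix J J R)) :
    frm (x.map (mapH J ev)) = (frm x).map ev := by
  unfold frm
  rw [(compat_map ev).dblT, ← tform_smap (shom (mapH (Fin 2 × J) ev))]
  rfl

theorem frm_lo (h : IsOb F 0 S deg x) (k : κ) (hk : k ∈ S) : BdLo F k (frm x) := by
  rw [← frmP_mul h]
  exact (frmP_lo h k hk).mulc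

theorem frm_hi (h : IsOb F 0 S deg x) (k : κ) (hk : k ∈ S) : BdHi F k (frm x) := by
  rw [← frmP_mul h]
  obtain ⟨t, h1, h2⟩ := frmP_hi h k hk
  exact ⟨t, h1, by rw [← Matrix.mul_assoc, h2]⟩

end frm

section res

variable {A : Type} {B : A → Type} [∀ a, Fintype (B a)] [∀ a, DecidableEq (B a)]
  {κ : Type} [Fintype κ] {C C' : Ctl B}

/-- restriction of coefficients as a non-unital homomorphism -/
noncomputable abbrev chgN (h : C.Le C') : Asy C ℂ →⋆ₙₐ[ℂ] Asy C' ℂ :=
  (chg ℂ h).toNonUnitalStarAlgHom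

/-- restriction of objects -/
theorem isOb_res (h : C.Le C') {dir : κ → C.Φ} {dir' : κ → C'.Φ}
    (hdir : ∀ k a s, C.u (dir k) a s = C'.u (dir' k) a s) {lo hi : κ → ℝ}
    {lt : ∀ k, lo k < hi k} {m : ℕ} {S : Set κ} {J : Type} [Fintype J] [DecidableEq J]
    {deg : J → ℤ} {x : RPr (Matrix J J (Asy C ℂ))}
    (hx : IsOb (frame C ℂ dir lo hi lt) m S deg x) :
    IsOb (frame C' ℂ dir' lo hi lt) m S deg (x.map (mapH J (chgN h))) :=
  hx.map (fun k c => chg_pu h (dir k) (dir' k) (hdir k) c) rfl rfl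

/-- signatures are compatible with restriction -/
theorem sig_res (h : C.Le C') {dir : κ → C.Φ} {dir' : κ → C'.Φ}
    (hdir : ∀ k a s, C.u (dir k) a s = C'.u (dir' k) a s) {lo hi : κ → ℝ}
    {lt : ∀ k, lo k < hi k} (hC : Cpt C dir lo hi) (hCC : CptTo C C' dir lo hi)
    {l : List (Par κ)} (hl : ∀ a ∈ l, a.Ok (frame C ℂ dir lo hi lt)) {S : Set κ}
    {X : Obj (Asy C ℂ)} (hX : IsOb (frame C ℂ dir lo hi lt) l.length S X.deg X.x)
    (hc : Cov S l) (v : A → ℤ)
    (hv : sig (frame C ℂ dir lo hi lt) (sgLaws C) l X = (v : Germ C.l ℤ)) :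
    sig (frame C' ℂ dir' lo hi lt) (sgLaws C') l (mapO (chgN h) X) = (v : Germ C'.l ℤ) := by
  have hpu : ∀ k c, chgN h ((frame C ℂ dir lo hi lt).pu k c)
      = (frame C' ℂ dir' lo hi lt).pu k c := fun k c => chg_pu h (dir k) (dir' k) (hdir k) c
  have h1 := red_isOb hl X hX hc
  unfold sig
  rw [red_map hpu]
  show sg (frm ((red (frame C ℂ dir lo hi lt) l X).x.map (mapH _ (chgN h)))) = _
  rw [frm_map]
  exact sg_chg_of_bd h hC hCC (frm_herm h1) (fun k => frm_lo h1 k (Set.mem_univ k))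
    (fun k => frm_hi h1 k (Set.mem_univ k)) v hv

end res

end Crest.Agent.R217.Res52
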