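import Crest.Agent.R217.FineX_970
import Crest.Agent.R217.CoSeq_559
import Crest.Agent.R217.Res_52

/-!
Row 217 (S0336), part C (helper970): restriction of the objects `x^t`.
-/

set_option autoImplicit false
set_option linter.unusedSectionVars false
set_option linter.unusedVariables false

open Filter Topology Metric Set

namespace Crest.Agent.R217.FineX970

open Crest.Agent.R217.CruxN559 Crest.Agent.R217.Coarse889 Crest.Agent.R217.CtrlS970
open Crest.Agent.R217.FinePkg970 Crest.Agent.R217.Flow373 Crest.Agent.R217.Glob559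
open Crest.Agent.R217.Grid897 Crest.Agent.R217.Asym476 Crest.Agent.R217.Ctl559
open Crest.Agent.R217.AsyCell970 Crest.Agent.R217.PC473 Crest.Agent.R217.Obj52
open Crest.Agent.R217.Homog970 Crest.Agent.R217.FineSeq970 Crest.Agent.R217.Sig52
open Crest.Agent.R217.Ind52 Crest.Agent.R217.Box970 Crest.Agent.R217.Nat52
open Crest.Agent.R217.Res52

universe u

section res

variable {n : ℕ} {A : Type} {N : A → ℕ} [∀ a, NeZero (N a)] {C C' : Ctl (BV n N)}

/-- restriction of classes, as an image under `mapH` -/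
theorem toA_res (h : C.Le C') (M : LocC C) (M' : LocC C') (hM : M.1 = M'.1) :
    mapH (JJ n) (chgN h) (toA C M) = toA C' M' := by
  have h1 : (toA C M).map (chg ℂ h) = toA C' M' := by
    rw [CoSeq559.toA_chg]
    congr 1
    exact Subtype.ext hM
  exact h1

variable (h : C.Le C') (hg : GridCont C) (hg' : GridCont C')

theorem gridA_res_p : mapH (JJ n) (chgN h) (gridA hg).p = (gridA hg').p := toA_res h _ _ rfl

theorem gridA_res_g : mapH (JJ n) (chgN h) (gridA hg).g = (gridA hg').g := toA_res h _ _ rfl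

theorem gridA_res_d : mapH (JJ n) (chgN h) (gridA hg).d = (gridA hg').d := toA_res h _ _ rfl

theorem gridA_res_S : mapH (JJ n) (chgN h) (gridA hg).S = (gridA hg').S := toA_res h _ _ rfl

theorem gridA_res_T : mapH (JJ n) (chgN h) (gridA hg).T = (gridA hg').T := toA_res h _ _ rfl

variable {e : Matrix (JJ n) (JJ n) (Asy C ℂ)} {e' : Matrix (JJ n) (JJ n) (Asy C' ℂ)}
  (he : mapH (JJ n) (chgN h) e = e')

include he in
/-- all fields but `h` of the restricted regular pair -/
theorem rpOf_res (u : Matrix (JJ n) (JJ n) (Asy C ℂ)) :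
    (rpOf hg e u).map (mapH (JJ n) (chgN h)) =
      RPr.mk (gridA hg').p (gridA hg').g (gridA hg').d (e' * (gridA hg').S * star e')
        (star e' * (gridA hg').T * e')
        (mapH (JJ n) (chgN h) (prj (degZ n) (n + 1) u)) := by
  refine RPr.ext (gridA_res_p h hg hg') (gridA_res_g h hg hg') (gridA_res_d h hg hg') ?_ ?_ rfl
  · show mapH (JJ n) (chgN h) (e * (gridA hg).S * star e) = _
    rw [map_mul, map_mul, map_star, he, gridA_res_S h hg hg']
  · show mapH (JJ n) (chgN h) (star e * (gridA hg).T * e) = _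
    rw [map_mul, map_mul, map_star, he, gridA_res_T h hg hg']

end res

section xF

variable {n : ℕ} (D : ∀ k, KDat.{u} n (cs k)) {l l' : Filter (ℕ × ℕ)} (hl : l ≤ lf) (hl' : l' ≤ lf)
  (hll : l' ≤ l) (t : ℤ)

theorem eA_res : mapH (JJ n) (chgN (le_CF D hll)) (eA D hl t) = eA D hl' t := toA_res _ _ _ rfl

/-- the restriction of `x^t` from `l` to `l'` has the same signature as `x^t` over `l'` -/
theorem sig_res_xF {lo hi : Fin n → ℝ} (lt : ∀ i, lo i < hi i)
    (hC : Cpt (CF D l') (dirF D l') lo hi) {ps : List (Par (Fin n))}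
    (hps : ∀ a ∈ ps, a.Ok (frame (CF D l') ℂ (dirF D l') lo hi lt))
    (hk : ps.map Par.k = List.finRange n) :
    sig (frame (CF D l') ℂ (dirF D l') lo hi lt) (sgLaws (CF D l')) ps
        (mapO (chgN (le_CF D hll)) (xF D hl t)) =
      sig (frame (CF D l') ℂ (dirF D l') lo hi lt) (sgLaws (CF D l')) ps (xF D hl' t) := by
  have hlen : ps.length = n := by
    have := congrArg List.length hk
    rwa [List.length_map, List.length_finRange] at this
  have h1 : IsOb (frame (CF D l') ℂ (dirF D l') lo hi lt) ps.length ∅ (degZ n)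
      ((xR D hl t).map (mapH (JJ n) (chgN (le_CF D hll)))) := by
    rw [hlen]
    exact isOb_res (le_CF D hll) (dir := dirF D l) (dir' := dirF D l') (fun _ _ _ => rfl)
      (lt := lt) (xR_isOb D hl t _)
  have h2 : IsOb (frame (CF D l') ℂ (dirF D l') lo hi lt) ps.length ∅ (degZ n)
      (xR D hl' t) := by
    rw [hlen]
    exact xR_isOb D hl' t _
  have h3 := rpOf_res (le_CF D hll) (gridCont D hl) (gridCont D hl') (eA_res D hl hl' hll t)
    (exists_hA D hl t).choose
  refine sig_h (sgP lt hC) hps h1 h2 (cov_of_k hk) ?_ ?_ ?_ ?_ ?_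
  · exact (congrArg RPr.p h3).symm
  · exact (congrArg RPr.g h3).symm
  · exact (congrArg RPr.d h3).symm
  · exact (congrArg RPr.f h3).symm
  · exact (congrArg RPr.q h3).symm

/-- the signature over `CF D lf` restricts to the one in column `k` -/
theorem vK_of_lf (k : ℕ) {lo hi : Fin n → ℝ} (lt : ∀ i, lo i < hi i)
    (hB : Icc lo hi ⊆ closedBall (0 : Fin n → ℝ) 1) {ps : List (Par (Fin n))}
    (hps : ∀ a ∈ ps, OkIn lo hi a) (hk : ps.map Par.k = List.finRange n) (v : ℕ × ℕ → ℤ)
    (hv : sig (frame (CF D lf) ℂ (dirF D lf) lo hi lt) (sgLaws (CF D lf)) ps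
      (xF D le_rfl t) = (v : Germ (CF D lf).l ℤ)) :
    vK D k (xF D (lk_le_lf k) t) ps = (v : Germ (lk k) ℤ) := by
  have hlen : ps.length = n := by
    have := congrArg List.length hk
    rwa [List.length_map, List.length_finRange] at this
  have hBU : Icc lo hi ⊆ (D k).U := hB.trans (D k).ball_U
  have h1 := sig_res (le_CF D (lk_le_lf k)) (dir := dirF D lf) (dir' := dirF D (lk k))
    (fun _ _ _ => rfl) (lt := lt) (cpt_lf D hB) (cptTo_F D)
    (fun a ha => ⟨(hps a ha).1, (hps a ha).2.1, (hps a ha).2.2.1, (hps a ha).2.2.2⟩)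
    (X := xF D le_rfl t) (S := ∅) (by rw [hlen]; exact xF_isOb D le_rfl t _) (cov_of_k hk) v hv
  rw [← sig_frK D k lo hi lt]
  rw [← sig_res_xF D le_rfl (lk_le_lf k) (lk_le_lf k) t lt (cpt_k D k hBU)
    (fun a ha => (hps a ha).ok D k lt) hk]
  exact h1

/-- the class of `e_t` over the coarse control data -/
noncomputable def eC : Matrix (JJ n) (JJ n) (Asy (CC D) ℂ) :=
  toA (CC D) ⟨eS D t, CoSeq559.isLocC_eS_C D t⟩

/-- the restriction of `x^t` to the coarse control data -/
theorem xR_res_CC : (xR D le_rfl t).map (mapH (JJ n) (chgN (le_CC D))) =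
    RPr.mk (gridA (gridCont_C D)).p (gridA (gridCont_C D)).g (gridA (gridCont_C D)).d
      (eC D t * (gridA (gridCont_C D)).S * star (eC D t))
      (star (eC D t) * (gridA (gridCont_C D)).T * eC D t)
      (mapH (JJ n) (chgN (le_CC D)) (xR D le_rfl t).h) :=
  rpOf_res (le_CC D) (gridCont D le_rfl) (gridCont_C D) (toA_res _ _ _ rfl) _

end xF

end Crest.Agent.R217.FineX970
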