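import Mathlib
import Crest.Agent.R217.CoGrid_559
import Crest.Agent.R217.FineObj_970

/-!
Row 217 (S0336), part C: the fine packages are compatible with the control data `CF D l`.
-/

set_option autoImplicit false
set_option linter.unusedSectionVars false
set_option linter.unusedVariables false

open Filter Topology Metric Set

namespace Crest.Agent.R217.Ctl559

open Crest.Agent.R217.CruxN559 Crest.Agent.R217.Coarse889 Crest.Agent.R217.CtrlS970
open Crest.Agent.R217.FinePkg970 Crest.Agent.R217.Flow373 Crest.Agent.R217.Glob559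
open Crest.Agent.R217.Grid897 Crest.Agent.R217.Asym476 Crest.Agent.R217.AsyCell970

universe u

variable {n : ℕ} (D : ∀ k, KDat.{u} n (cs k))

theorem xv_eq (a : ℕ × ℕ) (v : BV D a) : FinePkg970.xv (pk D a).s v = xv D a v := rfl

/-- the fine controls of column `k` are uniformly continuous near the compact set over `K1` -/
theorem uF_unif_K1 (φ : PhiF n) (k : ℕ) {ε : ℝ} (hε : 0 < ε) :
    ∃ δ > 0, ∀ j, ∀ x y, x ∈ ovr (D k).X.D (D k).K1 → dist y x < δ →
      |uF D φ (k, j) x - uF D φ (k, j) y| < ε := by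
  have hcomp : IsCompact (ovr (D k).X.D (D k).K1) :=
    isCompact_ovr (D k).X.D (D k).K1_cpt (D k).K1_sub
  obtain ⟨δ, hδ, h⟩ := Unif373.unif_one (T := uF D φ (k, 0)) isOpen_univ hcomp (subset_univ _)
    (uF_cont D φ (k, 0)).continuousOn hε
  refine ⟨δ, hδ, fun j x y hx hxy => ?_⟩
  rw [uF_fst D φ k j 0, abs_sub_comm]
  exact (h x hx y hxy).2

theorem fineCtl_F {l : Filter (ℕ × ℕ)} (hl : l ≤ lf) :
    FineCtl (fun a : ℕ × ℕ => pk D a) (CF D l) where
  grid := gridCont_F D hl
  near φ δ hδ := by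
    apply hl
    rw [mem_lf]
    intro k
    obtain ⟨δ', hδ', h⟩ := uF_unif_K1 D φ k hδ
    have h1 : ∀ᶠ j : ℕ in atTop, 1 / ((j : ℝ) + 1) < δ' :=
      tendsto_one_div_add_atTop_nhds_zero_nat.eventually (gt_mem_nhds hδ')
    filter_upwards [h1] with j hj w w' hw i' hd
    have hw2 : xv D (k, j) w ∈ ovr (D k).X.D (D k).K1 := hw
    have hd2 : dist (xv D (k, j) w') ((D k).X.D.act ((D k).X.x ^ (i' : ℤ)) (xv D (k, j) w)) <
        (D k).eps j := hd
    have h2 : (D k).X.D.act ((D k).X.x ^ (i' : ℤ)) (xv D (k, j) w) ∈ ovr (D k).X.D (D k).K1 :=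
      (flow (D k).X).T_ovr i' hw2
    have h3 := h j _ _ h2 (hd2.trans_le (((D k).eps_le j).trans hj.le))
    rw [uF_act D φ (k, j) ((D k).X.x ^ (i' : ℤ)) hw2.1, abs_sub_comm] at h3
    exact h3
  reg r hr := by
    refine Eventually.of_forall fun a w hw => ?_
    exact ovr_U_sub D a.1 ((D a.1).w_lt _ (lt_of_le_of_lt hw hr))

end Crest.Agent.R217.Ctl559
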