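import Crest.Agent.R217.FineTwist_555
import Crest.Agent.R217.Asym_476

/-!
Row 217 (S0336), part C1, helper555: gauges in the asymptotic algebra.
-/

set_option autoImplicit false
set_option linter.unusedSectionVars false
set_option linter.unusedVariables false

open Filter Topology

namespace Crest.Agent.R217.GaugeAsy555

open Asym476 LocF555

variable {A : Type} {B : A → Type} [∀ a, Fintype (B a)] [∀ a, DecidableEq (B a)]
variable (C : Ctl B)

/-- data of a gauge chart: a control function, a threshold and unimodular phases -/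
structure GD where
  φ : C.Φ
  c : ℝ
  ω : ∀ a, B a → ℂ
  c_pos : 0 < c
  unit : ∀ a s, star (ω a s) * ω a s = 1

variable {C}

/-- the thresholds -/
noncomputable def lev (c : ℝ) (k : ℕ) : ℝ := c * (1 / 2 + 1 / (k + 2))

theorem lev_zero (c : ℝ) : lev c 0 = c := by unfold lev; norm_num

theorem lev_lt {c : ℝ} (hc : 0 < c) (k : ℕ) : lev c (k + 1) < lev c k := by
  unfold lev
  apply mul_lt_mul_of_pos_left _ hc
  have : (1 : ℝ) / ((k + 1 : ℕ) + 2) < 1 / (k + 2) := by
    apply one_div_lt_one_div_of_lt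
    · positivity
    · push_cast; linarith
  linarith

theorem half_lt_lev {c : ℝ} (hc : 0 < c) (k : ℕ) : c / 2 < lev c k := by
  unfold lev
  have : (0 : ℝ) < 1 / (k + 2) := by positivity
  nlinarith

/-- the gauge of a chart -/
noncomputable def gau (g : GD C) : Gauge (Asy C ℂ) where
  P k := ind (fun a s => lev g.c k ≤ C.u g.φ a s)
  u := dg C ℂ g.ω

theorem pow_unit {z : ℂ} (hz : star z * z = 1) (n : ℕ) : star (z ^ n) * z ^ n = 1 := by
  rw [star_pow, ← mul_pow, hz, one_pow]

theorem un_star_mul (g : GD C) : star (gau g).u * (gau g).u = 1 := by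
  show star (dg C ℂ g.ω) * dg C ℂ g.ω = 1
  rw [← map_star, ← map_mul, ← map_one (dg C ℂ)]
  congr 1
  funext a s
  exact g.unit a s

theorem un_mul_star (g : GD C) : (gau g).u * star (gau g).u = 1 := by
  show dg C ℂ g.ω * star (dg C ℂ g.ω) = 1
  rw [← map_star, ← map_mul, ← map_one (dg C ℂ)]
  congr 1
  funext a s
  show g.ω a s * star (g.ω a s) = 1
  rw [mul_comm]
  exact g.unit a s

theorem gau_isGauge (g : GD C) : IsGauge (gau g) where
  sP k := ind_star _
  PP := ind_mul_self _
  loc k a := by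
    have h : (gau g).P k * a * (1 - (gau g).P (k + 1)) = 0 := by
      show ind _ * a * (1 - ind _) = 0
      rw [one_sub_ind]
      refine ind_mul_mul_ind_eq_zero g.φ (fun r hr => ⟨lev g.c k - lev g.c (k + 1),
        sub_pos.2 (lev_lt g.c_pos k), Eventually.of_forall fun a s t _ _ h1 h2 => ?_⟩) a
      have h3 := not_le.1 h2
      exact le_trans (by linarith) (le_abs_self _)
    rw [mul_sub, mul_one, sub_eq_zero] at h
    exact h
  uu := un_mul_star g
  uu' := un_star_mul g
  uP k := dg_comm _ _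

/-- a family of gauge charts is compatible -/
theorem gau_amb (S : Set (GD C)) : Amb (gau '' S) where
  gg := by
    rintro _ ⟨g, hg, rfl⟩
    exact gau_isGauge g
  uu := by
    rintro _ ⟨g, hg, rfl⟩ _ ⟨g', hg', rfl⟩
    exact dg_comm _ _
  uP := by
    rintro _ ⟨g, hg, rfl⟩ _ ⟨g', hg', rfl⟩ k
    exact dg_comm _ _
  PP := by
    rintro _ ⟨g, hg, rfl⟩ _ ⟨g', hg', rfl⟩
    exact dg_comm _ _

theorem gau_u_ind (g : GD C) (E : ∀ a, B a → Prop) :
    (gau g).u * ind E = ind E * (gau g).u := dg_comm _ _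

theorem gau_P_ind (g : GD C) (k : ℕ) (E : ∀ a, B a → Prop) :
    (gau g).P k * ind E = ind E * (gau g).P k := dg_comm _ _

/-- criterion for `HomF` -/
theorem homF_gau (g : GD C) (M : ℤ → Loc C ℂ)
    (h : ∀ i, ∀ r < (1 : ℝ), ∀ᶠ a in C.l, ∀ s t, C.u C.o a s ≤ r → C.u C.o a t ≤ r →
      g.c / 2 < C.u g.φ a s → g.c / 2 < C.u g.φ a t →
      (M (i + 1)).1 a s t = g.ω a s * (M i).1 a s t * star (g.ω a t)) :
    HomF (gau g) (fun i => cls C ℂ (M i)) := by
  classical
  intro i k
  have hc := g.c_pos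
  have hP : (gau g).P k = cls C ℂ (dgLoc C ℂ (fun a s => if lev g.c k ≤ C.u g.φ a s then 1 else 0)) :=
    rfl
  have hu : (gau g).u = cls C ℂ (dgLoc C ℂ g.ω) := rfl
  rw [hP, hu, ← map_star, ← map_mul, ← map_mul, ← map_mul, ← map_mul, cls_eq]
  refine Rel.of_and (Subtype.property _) (Subtype.property _) fun r hr => ?_
  have hd : 0 < lev g.c k - g.c / 2 := sub_pos.2 (half_lt_lev hc k)
  filter_upwards [h i r hr, (M (i + 1)).2 g.φ r hr _ hd, (M i).2 g.φ r hr _ hd]
    with a h1 h2 h3 s t hs ht
  show (Matrix.diagonal (fun s => if lev g.c k ≤ C.u g.φ a s then (1 : ℂ) else 0)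
      * (M (i + 1)).1 a) s t
    = (Matrix.diagonal (fun s => if lev g.c k ≤ C.u g.φ a s then (1 : ℂ) else 0) *
      (Matrix.diagonal (g.ω a) * (M i).1 a
        * (Matrix.diagonal (g.ω a)).conjTranspose)) s t
  rw [Matrix.diagonal_conjTranspose, Matrix.diagonal_mul,
    Matrix.diagonal_mul, Matrix.mul_diagonal, Matrix.diagonal_mul]
  simp only [Pi.star_apply]
  by_cases hP : lev g.c k ≤ C.u g.φ a s
  · have hs' : g.c / 2 < C.u g.φ a s := lt_of_lt_of_le (half_lt_lev hc k) hP
    by_cases ht' : g.c / 2 < C.u g.φ a t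
    · rw [h1 s t hs ht hs' ht']
    · have e1 : (M (i + 1)).1 a s t = 0 := by
        by_contra h0
        have := (abs_lt.1 (h2 s t (Or.inl hs) h0)).2
        linarith [not_lt.1 ht']
      have e2 : (M i).1 a s t = 0 := by
        by_contra h0
        have := (abs_lt.1 (h3 s t (Or.inl hs) h0)).2
        linarith [not_lt.1 ht']
      rw [e1, e2]; simp
  · simp [hP]

/-- the product of the complementary projections -/
theorem prod_gau (l : List (GD C)) :
    ((l.map gau).map (fun g => 1 - g.P 0)).prod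
      = ind (fun a s => ∀ g ∈ l, C.u g.φ a s < g.c) := by
  induction l with
  | nil =>
    have : (ind (fun a s => ∀ g ∈ ([] : List (GD C)), C.u g.φ a s < g.c) : Asy C ℂ) = 1 := by
      classical
      unfold ind
      rw [← map_one (dg C ℂ)]
      congr 1
      funext a s
      simp
    rw [this]; simp
  | cons g l ih =>
    rw [List.map_cons, List.map_cons, List.prod_cons, ih]
    show (1 - ind (fun a s => lev g.c 0 ≤ C.u g.φ a s)) * _ = _
    rw [one_sub_ind, ind_mul]
    refine ind_congr fun r hr => Eventually.of_forall fun a s _ => ?_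
    rw [lev_zero, not_le]
    simp

/-- if `a` is supported in the box (left), then it is cut down by the indicator of the box -/
theorem box_mul {κ : Type} [Finite κ] (φ : κ → C.Φ) (x : Asy C ℂ) (s t : κ → ℝ)
    (hs : ∀ k, pu C ℂ (φ k) (s k) * x = 0) (ht : ∀ k, pu C ℂ (φ k) (t k) * x = x) :
    ind (fun a b => ∀ k, s k < C.u (φ k) a b ∧ C.u (φ k) a b ≤ t k) * x = x := by
  classical
  have := Fintype.ofFinite κ
  have key : ∀ S : Finset κ, ind (fun a b => ∀ k ∈ S, s k < C.u (φ k) a b ∧ C.u (φ k) a b ≤ t k)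
      * x = x := by
    intro S
    induction S using Finset.induction_on with
    | empty =>
      have : (ind (fun a b => ∀ k ∈ (∅ : Finset κ), s k < C.u (φ k) a b ∧ C.u (φ k) a b ≤ t k)
          : Asy C ℂ) = 1 := by
        unfold ind
        rw [← map_one (dg C ℂ)]
        congr 1
        funext a s
        simp
      rw [this, one_mul]
    | insert k0 S hk ih =>
      have e : (ind (fun a b => ∀ k ∈ insert k0 S, s k < C.u (φ k) a b ∧ C.u (φ k) a b ≤ t k)
          : Asy C ℂ) = (1 - pu C ℂ (φ k0) (s k0)) * (pu C ℂ (φ k0) (t k0) *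
            ind (fun a b => ∀ k ∈ S, s k < C.u (φ k) a b ∧ C.u (φ k) a b ≤ t k)) := by
        unfold pu
        rw [one_sub_ind, ind_mul, ind_mul]
        refine ind_congr fun r hr => Eventually.of_forall fun a b _ => ?_
        simp only [Finset.mem_insert, forall_eq_or_imp, not_le]
        tauto
      rw [e, mul_assoc, mul_assoc, ih, ht k0, sub_mul, one_mul, hs k0, sub_zero]
  have h := key Finset.univ
  simpa using h

/-- covering criterion -/
theorem cover {κ : Type} [Finite κ] (φ : κ → C.Φ) (l : List (GD C))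
    (x : Asy C ℂ) (s t : κ → ℝ) (hx : ∀ k c, x * pu C ℂ (φ k) c = pu C ℂ (φ k) c * x)
    (hs : ∀ k, pu C ℂ (φ k) (s k) * x = 0) (ht : ∀ k, pu C ℂ (φ k) (t k) * x = x)
    (hcov : ∀ r < (1 : ℝ), ∀ᶠ a in C.l, ∀ b, C.u C.o a b ≤ r →
      (∀ k, s k < C.u (φ k) a b ∧ C.u (φ k) a b ≤ t k) → ∃ g ∈ l, g.c ≤ C.u g.φ a b) :
    x * ((l.map gau).map (fun g => 1 - g.P 0)).prod = 0 := by
  have h1 : x * ind (fun a b => ∀ k, s k < C.u (φ k) a b ∧ C.u (φ k) a b ≤ t k) = x := by
    have hs' : ∀ k, pu C ℂ (φ k) (s k) * star x = 0 := by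
      intro k
      have := congrArg star (hs k)
      rw [star_mul, pu_star, star_zero] at this
      have h2 := congrArg star (hx k (s k))
      rw [star_mul, star_mul, pu_star] at h2
      rw [h2, this]
    have ht' : ∀ k, pu C ℂ (φ k) (t k) * star x = star x := by
      intro k
      have := congrArg star (ht k)
      rw [star_mul, pu_star] at this
      have h2 := congrArg star (hx k (t k))
      rw [star_mul, star_mul, pu_star] at h2
      rw [h2, this]
    have := congrArg star (box_mul φ (star x) s t hs' ht')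
    rw [star_mul, star_star, ind_star] at this
    exact this
  rw [← h1, mul_assoc, prod_gau, ind_mul]
  have : (ind (fun a b => (∀ k, s k < C.u (φ k) a b ∧ C.u (φ k) a b ≤ t k) ∧
      ∀ g ∈ l, C.u g.φ a b < g.c) : Asy C ℂ) = 0 := by
    have h0 : (0 : Asy C ℂ) = ind (fun a b => False) := by
      classical
      unfold ind
      rw [← map_zero (dg C ℂ)]
      congr 1
      funext a b
      simp
    rw [h0]
    refine ind_congr fun r hr => ?_
    filter_upwards [hcov r hr] with a ha b hb
    refine ⟨fun h => ?_, fun h => h.elim⟩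
    obtain ⟨g, hg, h3⟩ := ha b hb h.1
    exact absurd (h.2 g hg) (not_lt.2 h3)
  rw [this, mul_zero]

end Crest.Agent.R217.GaugeAsy555
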