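import Crest.Agent.R217.Grid_897
import Crest.Agent.R217.PC_473

/-! Row 217: the torus grid complex as a Poincaré tuple, defined by splitting off the first
coordinate: `D_{n+1} = C(circle) ⊗ D_n`. -/

set_option autoImplicit false
set_option linter.unusedSectionVars false

open Matrix Finset
open scoped BigOperators

namespace Crest.Agent.R217.Grid897

open Crest.Agent.R217.PC473

noncomputable section

/-! ### the product calculus: first coordinate ⊗ rest -/

section TC

variable {n : ℕ} {I : Type*} [Fintype I] [DecidableEq I]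

/-- `a ⊗ B` : `a` acts on the first coordinate, `B` on the others -/
def tc (a : Matrix I I ℂ) (B : Matrix (Fin n → I) (Fin n → I) ℂ) :
    Matrix (Fin (n + 1) → I) (Fin (n + 1) → I) ℂ :=
  Matrix.of fun x y => a (x 0) (y 0) * B (Fin.tail x) (Fin.tail y)

theorem tc_apply (a : Matrix I I ℂ) (B : Matrix (Fin n → I) (Fin n → I) ℂ)
    (x y : Fin (n + 1) → I) : tc a B x y = a (x 0) (y 0) * B (Fin.tail x) (Fin.tail y) := rfl

theorem sum_cons {M : Type*} [AddCommMonoid M] (F : (Fin (n + 1) → I) → M) :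
    ∑ z, F z = ∑ i : I, ∑ t : Fin n → I, F (Fin.cons i t) := by
  rw [← (Fin.consEquiv (fun _ : Fin (n + 1) => I)).sum_comp, Fintype.sum_prod_type]
  rfl

theorem tc_mul (a a' : Matrix I I ℂ) (B B' : Matrix (Fin n → I) (Fin n → I) ℂ) :
    tc a B * tc a' B' = tc (a * a') (B * B') := by
  ext x y
  rw [Matrix.mul_apply, sum_cons, tc_apply, Matrix.mul_apply, Matrix.mul_apply,
    Finset.sum_mul_sum]
  refine Finset.sum_congr rfl fun i _ => Finset.sum_congr rfl fun t _ => ?_
  simp only [tc_apply, Fin.cons_zero, Fin.tail_cons]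
  ring

theorem tc_one : tc (1 : Matrix I I ℂ) (1 : Matrix (Fin n → I) (Fin n → I) ℂ) = 1 := by
  ext x y
  rw [tc_apply]
  by_cases h : x = y
  · subst h; simp
  · rw [Matrix.one_apply_ne h]
    by_cases h0 : x 0 = y 0
    · have : Fin.tail x ≠ Fin.tail y := fun ht => h (by
        rw [← Fin.cons_self_tail x, ← Fin.cons_self_tail y, h0, ht])
      rw [Matrix.one_apply_ne this, mul_zero]
    · rw [Matrix.one_apply_ne h0, zero_mul]

theorem star_tc (a : Matrix I I ℂ) (B : Matrix (Fin n → I) (Fin n → I) ℂ) :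
    star (tc a B) = tc (star a) (star B) := by
  ext x y
  simp only [Matrix.star_apply, tc_apply, star_mul']

theorem tc_add_left (a a' : Matrix I I ℂ) (B : Matrix (Fin n → I) (Fin n → I) ℂ) :
    tc (a + a') B = tc a B + tc a' B := by
  ext x y; simp only [tc_apply, Matrix.add_apply, add_mul]

theorem tc_add_right (a : Matrix I I ℂ) (B B' : Matrix (Fin n → I) (Fin n → I) ℂ) :
    tc a (B + B') = tc a B + tc a B' := by
  ext x y; simp only [tc_apply, Matrix.add_apply, mul_add]

theorem tc_smul_left (c : ℂ) (a : Matrix I I ℂ) (B : Matrix (Fin n → I) (Fin n → I) ℂ) :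
    tc (c • a) B = c • tc a B := by
  ext x y; simp only [tc_apply, Matrix.smul_apply, smul_eq_mul, mul_assoc]

theorem tc_smul_right (c : ℂ) (a : Matrix I I ℂ) (B : Matrix (Fin n → I) (Fin n → I) ℂ) :
    tc a (c • B) = c • tc a B := by
  ext x y; simp only [tc_apply, Matrix.smul_apply, smul_eq_mul]; ring

theorem tc_neg_left (a : Matrix I I ℂ) (B : Matrix (Fin n → I) (Fin n → I) ℂ) :
    tc (-a) B = -tc a B := by
  ext x y; simp only [tc_apply, Matrix.neg_apply, neg_mul]

theorem tc_neg_right (a : Matrix I I ℂ) (B : Matrix (Fin n → I) (Fin n → I) ℂ) :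
    tc a (-B) = -tc a B := by
  ext x y; simp only [tc_apply, Matrix.neg_apply, mul_neg]

theorem tc_zero_left (B : Matrix (Fin n → I) (Fin n → I) ℂ) : tc (0 : Matrix I I ℂ) B = 0 := by
  ext x y; simp only [tc_apply, Matrix.zero_apply, zero_mul]

theorem tc_zero_right (a : Matrix I I ℂ) :
    tc a (0 : Matrix (Fin n → I) (Fin n → I) ℂ) = 0 := by
  ext x y; simp only [tc_apply, Matrix.zero_apply, mul_zero]

end TC

/-! ### the grid tuple -/

section GridT

variable (N : ℕ) [NeZero N]

/-- the product of the circle grid with an `m`-dimensional tuple (551's (N1)) -/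
def circ (m : ℕ) (x : Tup (Matrix (Cell m N) (Cell m N) ℂ)) :
    Tup (Matrix (Cell (m + 1) N) (Cell (m + 1) N) ℂ) where
  p := tc 1 x.p
  g := tc (g1 N) x.g
  d := tc (d1 N) x.p + tc (g1 N) x.d
  S := cc m • tc (s1 N) (x.g * x.S)
  T := star (cc m) • tc (s1 N) (x.T * x.g)
  H := tc ((-(1 / 4) : ℂ) • star (d1 N)) (x.S * x.T) + tc (g1 N) x.H

theorem cc_star_cc (m : ℕ) : cc m * star (cc m) = 1 := by
  rw [star_cc, ← mul_assoc, mul_comm (cc m), mul_assoc, cc_mul_self, ← mul_pow]
  simp

theorem star_cc_cc (m : ℕ) : star (cc m) * cc m = 1 := by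
  rw [mul_comm, cc_star_cc]

theorem circ_isPC {m : ℕ} {x : Tup (Matrix (Cell m N) (Cell m N) ℂ)} (hx : x.IsPC m) :
    (circ N m x).IsPC (m + 1) := by
  obtain ⟨ε, hε, hεA, hε1⟩ : ∃ ε : ℂ, ε * ε = 1 ∧
      (∀ y : Matrix (Cell m N) (Cell m N) ℂ, (-1 : Matrix (Cell m N) (Cell m N) ℂ) ^ m * y = ε • y) ∧
      ((-1 : ℂ) ^ m = ε) ∧ True := by
    refine ⟨(-1) ^ m, by rw [← mul_pow]; simp, fun y => ?_, rfl, trivial⟩
    rcases neg_one_pow_cases (A := Matrix (Cell m N) (Cell m N) ℂ) m with ⟨h1, h2⟩ | ⟨h1, h2⟩ <;>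
      rw [h1, h2] <;> simp
  obtain ⟨hε1, -⟩ := hε1
  have hεB : ∀ y : Matrix (Cell (m + 1) N) (Cell (m + 1) N) ℂ,
      (-1 : Matrix (Cell (m + 1) N) (Cell (m + 1) N) ℂ) ^ (m + 1) * y = (-ε) • y := by
    intro y
    rw [← hε1, pow_succ]
    rcases neg_one_pow_cases (A := Matrix (Cell (m + 1) N) (Cell (m + 1) N) ℂ) m with
      ⟨h1, h2⟩ | ⟨h1, h2⟩ <;> rw [h1, h2] <;> simp
  have hcc : star (cc m) = ε * cc m := by rw [star_cc, hε1]
  have hcc' : cc m = ε * star (cc m) := by rw [hcc, ← mul_assoc, hε, one_mul]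
  have gp : x.g * x.p = x.g := by
    have := congrArg star hx.pg
    rwa [star_mul, hx.sg, hx.sp] at this
  have Tp : x.T * x.p = x.T := by
    have := congrArg star hx.pT
    rwa [star_mul, hx.sT, hx.sp] at this
  have gS : x.g * x.S = ε • (x.S * x.g) := by rw [hx.gS, hεA]
  have gT : x.g * x.T = ε • (x.T * x.g) := by rw [hx.gT, hεA]
  have Sg : x.S * x.g = ε • (x.g * x.S) := by rw [gS, smul_smul, hε, one_smul]
  have Tg : x.T * x.g = ε • (x.g * x.T) := by rw [gT, smul_smul, hε, one_smul]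
  have gST : x.g * (x.S * x.T) = x.S * x.T * x.g := by
    rw [← mul_assoc, gS, Matrix.smul_mul, mul_assoc x.S x.g, gT, Matrix.mul_smul, smul_smul, hε,
      one_smul, mul_assoc]
  have dS' : x.d * x.S = -(x.S * star x.d) := eq_neg_of_add_eq_zero_left hx.dS
  have Td' : x.T * x.d = -(star x.d * x.T) := eq_neg_of_add_eq_zero_left hx.Td
  have dST : x.d * (x.S * x.T) = x.S * x.T * x.d := by
    rw [← mul_assoc, dS', mul_assoc x.S x.T, Td', neg_mul, mul_assoc, mul_neg]
  have gsd := star_d1_g1 N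
  constructor
  · simp only [circ, tc_mul, hx.pp, one_mul]
  · simp only [circ, star_tc, hx.sp, star_one]
  · simp only [circ, tc_mul, hx.gg, g1_sq]
  · simp only [circ, star_tc, hx.sg, star_g1]
  · simp only [circ, tc_mul, hx.pg, one_mul]
  · simp only [circ, tc_mul, mul_add, hx.pd, hx.pp, one_mul]
  · simp only [circ, tc_mul, add_mul, hx.dp, hx.pp, mul_one]
  · simp only [circ, Matrix.mul_smul, tc_mul, one_mul]
    rw [← mul_assoc, hx.pg]
  · simp only [circ, Matrix.mul_smul, tc_mul, one_mul]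
    rw [← mul_assoc, hx.pT]
  · simp only [circ, mul_add, tc_mul, one_mul]
    rw [← mul_assoc, hx.pS, hx.pH]
  · simp only [circ, add_mul, tc_mul, mul_one]
    rw [mul_assoc, Tp, hx.Hp]
  · simp only [circ, add_mul, mul_add, tc_mul, hx.pp, hx.pd, hx.dp, hx.dd, d1_sq, g1_d1,
      tc_neg_left, tc_zero_left, tc_zero_right]
    abel
  · simp only [circ, star_smul, star_tc, star_mul, hx.sg, hx.sS, star_s1]
    rw [Sg, tc_smul_right, smul_smul, hcc, mul_assoc, mul_comm (cc m), ← mul_assoc, hε, one_mul]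
  · simp only [circ, star_smul, star_tc, star_mul, hx.sg, hx.sT, star_s1, star_star]
    rw [gT, tc_smul_right, smul_smul, mul_comm, ← hcc]
  · simp only [circ, star_add, star_tc, hx.sp, star_g1, add_mul, mul_add, Matrix.mul_smul,
      Matrix.smul_mul, tc_mul]
    have h1 : x.d * (x.g * x.S) = x.g * x.S * star x.d := by
      have : x.d * x.g = -(x.g * x.d) := by rw [hx.gd, neg_neg]
      rw [← mul_assoc, this, neg_mul, mul_assoc, dS', mul_neg, neg_neg, mul_assoc]
    have h2 : x.p * (x.g * x.S) = x.g * x.S := by rw [← mul_assoc, hx.pg]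
    have h3 : x.g * x.S * x.p = x.g * x.S := by
      have : x.S * x.p = x.S := by
        have := congrArg star hx.pS
        rwa [star_mul, hx.sS, hx.sp] at this
      rw [mul_assoc, this]
    have h4 : s1 N * star (d1 N) = -(d1 N * s1 N) := eq_neg_of_add_eq_zero_right (d1_s1 N)
    rw [h1, h2, h3, h4, g1_s1, tc_neg_left, tc_neg_left]
    module
  · simp only [circ, star_add, star_tc, hx.sp, star_g1, add_mul, mul_add, Matrix.mul_smul,
      Matrix.smul_mul, tc_mul]
    have h1 : x.T * x.g * x.d = star x.d * (x.T * x.g) := by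
      rw [mul_assoc, hx.gd, mul_neg, ← mul_assoc, Td', neg_mul, neg_neg, mul_assoc]
    have h2 : x.p * (x.T * x.g) = x.T * x.g := by rw [← mul_assoc, hx.pT]
    have h3 : x.T * x.g * x.p = x.T * x.g := by rw [mul_assoc, gp]
    have h4 : s1 N * d1 N = -(star (d1 N) * s1 N) := eq_neg_of_add_eq_zero_left (s1_d1 N)
    rw [h1, h2, h3, h4, g1_s1, tc_neg_left, tc_neg_left]
    module
  · have h1 : x.g * x.S * (x.T * x.g) = x.S * x.T := by
      rw [mul_assoc, ← mul_assoc x.S, ← mul_assoc, gST, mul_assoc, hx.gg, mul_assoc, Tp]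
    have h2 : x.S * x.T * x.p = x.S * x.T := by rw [mul_assoc, Tp]
    have h3 : x.p * (x.S * x.T) = x.S * x.T := by rw [← mul_assoc, hx.pS]
    simp only [circ, add_mul, mul_add, Matrix.mul_smul, Matrix.smul_mul, tc_mul, smul_smul,
      h1, h2, h3, star_cc_cc, s1_sq, g1_sq, dST, hx.pH, hx.Hp, one_smul]
    rw [sub_eq_add_neg, tc_add_left, tc_neg_left, tc_smul_left, lap1, tc_add_left, tc_smul_left,
      tc_smul_left, tc_smul_left, tc_smul_left, g1_d1, gsd, tc_neg_left, tc_neg_left,
      hx.ST]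
    simp only [tc_add_right]
    module
  · simp only [circ, mul_add, add_mul, tc_mul, hx.gd, hx.pg, gp, g1_d1, tc_neg_left,
      tc_neg_right]
    abel
  · simp only [circ, Matrix.mul_smul, Matrix.smul_mul, tc_mul]
    rw [hεB, mul_assoc x.g x.S x.g, Sg, Matrix.mul_smul, tc_smul_right, g1_s1, tc_neg_left]
    rw [smul_smul, smul_smul]
    have h5 : cc m * -ε * ε = -cc m := by linear_combination (-(cc m)) * hε
    rw [h5]
    module
  · simp only [circ, Matrix.mul_smul, Matrix.smul_mul, tc_mul]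
    rw [hεB, ← mul_assoc x.g x.T x.g, gT, Matrix.smul_mul, tc_smul_right, g1_s1, tc_neg_left]
    module
  · simp only [circ, mul_add, add_mul, tc_mul, gST, hx.gH, Matrix.mul_smul, Matrix.smul_mul,
      gsd, smul_neg, tc_neg_left, tc_neg_right]
    abel

/-- the torus grid complex of dimension `n` -/
def gridT : (n : ℕ) → Tup (Matrix (Cell n N) (Cell n N) ℂ)
  | 0 => ⟨1, 1, 0, 1, 1, 0⟩
  | (n + 1) => circ N n (gridT n)

theorem gridT_isPC : (n : ℕ) → (gridT N n).IsPC n
  | 0 => by
    constructor <;> simp [gridT]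
  | (n + 1) => circ_isPC N (gridT_isPC n)

theorem gridT_p : (n : ℕ) → (gridT N n).p = 1
  | 0 => rfl
  | (n + 1) => by
    show tc 1 (gridT N n).p = 1
    rw [gridT_p n, tc_one]

theorem gridT_T : (n : ℕ) → (gridT N n).T = (gridT N n).S
  | 0 => rfl
  | (n + 1) => by
    show star (cc n) • tc (s1 N) ((gridT N n).T * (gridT N n).g) =
      cc n • tc (s1 N) ((gridT N n).g * (gridT N n).S)
    have h := (gridT_isPC N n).gS
    rw [gridT_T n, h, star_cc]
    rcases neg_one_pow_cases (A := Matrix (Cell n N) (Cell n N) ℂ) n with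
      ⟨h1, h2⟩ | ⟨h1, h2⟩ <;> rw [h1, h2] <;> simp [tc_neg_right]

/-- the boundary of the grid -/
theorem gridT_d_succ (n : ℕ) :
    (gridT N (n + 1)).d = tc (d1 N) 1 + tc (g1 N) (gridT N n).d := by
  show tc (d1 N) (gridT N n).p + tc (g1 N) (gridT N n).d = _
  rw [gridT_p]

theorem gridT_g_succ (n : ℕ) : (gridT N (n + 1)).g = tc (g1 N) (gridT N n).g := rfl

theorem gridT_S_succ (n : ℕ) :
    (gridT N (n + 1)).S = cc n • tc (s1 N) ((gridT N n).g * (gridT N n).S) := rfl

theorem gridT_H_succ (n : ℕ) :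
    (gridT N (n + 1)).H = tc ((-(1 / 4) : ℂ) • star (d1 N)) ((gridT N n).S * (gridT N n).S) +
      tc (g1 N) (gridT N n).H := by
  show tc ((-(1 / 4) : ℂ) • star (d1 N)) ((gridT N n).S * (gridT N n).T) +
      tc (g1 N) (gridT N n).H = _
  rw [gridT_T]

/-- `S² = s1² ⊗ S'²` -/
theorem gridT_SS_succ (n : ℕ) :
    (gridT N (n + 1)).S * (gridT N (n + 1)).S =
      tc (s1 N * s1 N) ((gridT N n).S * (gridT N n).S) := by
  have hx := gridT_isPC N n
  rw [gridT_S_succ, Matrix.smul_mul, Matrix.mul_smul, tc_mul, smul_smul, cc_mul_self]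
  have h : (gridT N n).g * (gridT N n).S * ((gridT N n).g * (gridT N n).S) =
      (-1 : Matrix (Cell n N) (Cell n N) ℂ) ^ n * ((gridT N n).S * (gridT N n).S) := by
    rw [mul_assoc, ← mul_assoc (gridT N n).S (gridT N n).g]
    rcases neg_one_pow_cases (A := Matrix (Cell n N) (Cell n N) ℂ) n with ⟨h1, h2⟩ | ⟨h1, h2⟩
    · have hs := hx.gS
      rw [h1, one_mul] at hs
      rw [h1, one_mul, ← hs, mul_assoc, ← mul_assoc, hx.gg, ← mul_assoc, hx.pS]
    · have hs := hx.gS
      rw [h1, neg_one_mul] at hs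
      rw [h1, neg_one_mul, ← neg_neg ((gridT N n).S * (gridT N n).g), ← hs, neg_mul, mul_neg,
        mul_assoc, ← mul_assoc, hx.gg, ← mul_assoc, hx.pS]
  rw [h]
  rcases neg_one_pow_cases (A := Matrix (Cell n N) (Cell n N) ℂ) n with
      ⟨h1, h2⟩ | ⟨h1, h2⟩ <;> rw [h1, h2] <;> simp [tc_neg_right]

theorem gridT_SH : (n : ℕ) →
    (gridT N n).S * star (gridT N n).H + (gridT N n).H * (gridT N n).S = 0
  | 0 => by simp [gridT]
  | (n + 1) => by
    have ih := gridT_SH n
    have hx := gridT_isPC N n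
    have hSg : (gridT N n).g * ((gridT N n).S * (gridT N n).S) =
        (gridT N n).S * (gridT N n).S * (gridT N n).g := by
      rw [← mul_assoc]
      rcases neg_one_pow_cases (A := Matrix (Cell n N) (Cell n N) ℂ) n with ⟨h1, -⟩ | ⟨h1, -⟩
      · rw [hx.gS, h1, one_mul, mul_assoc, hx.gS, h1, one_mul, mul_assoc]
      · rw [hx.gS, h1, neg_one_mul, neg_mul, mul_assoc, hx.gS, h1, neg_one_mul, mul_neg, neg_neg,
          mul_assoc]
    have h1 : (gridT N n).H * ((gridT N n).g * (gridT N n).S) =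
        -((gridT N n).g * ((gridT N n).H * (gridT N n).S)) := by
      rw [← mul_assoc, ← mul_assoc, hx.gH, neg_mul, neg_neg]
    have h2 : (gridT N n).H * (gridT N n).S = -((gridT N n).S * star (gridT N n).H) :=
      eq_neg_of_add_eq_zero_right ih
    have h3 : star (d1 N) * s1 N = -(s1 N * d1 N) := eq_neg_of_add_eq_zero_right (s1_d1 N)
    rw [gridT_S_succ, gridT_H_succ, star_add, star_tc, star_tc, star_smul, star_star, star_g1,
      star_mul, hx.sS]
    simp only [mul_add, add_mul, Matrix.mul_smul, Matrix.smul_mul, tc_mul]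
    rw [h1, h2, mul_neg, neg_neg, ← mul_assoc ((gridT N n).S * (gridT N n).S), ← hSg, g1_s1,
      tc_neg_left, mul_assoc (gridT N n).g, mul_assoc (gridT N n).g, mul_assoc (gridT N n).g, h3,
      smul_neg, tc_neg_left, mul_assoc (gridT N n).S (gridT N n).S (gridT N n).S,
      tc_smul_left, tc_smul_left]
    have h5 : star (-(1 / 4) : ℂ) = -(1 / 4) := by simp
    rw [h5]
    module

/-! ### supports -/

/-- neighbouring coordinates -/
def nb1 (x y : C1 N) : Prop := x.1 = y.1 ∨ x.1 = y.1 + 1 ∨ y.1 = x.1 + 1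

/-- neighbouring cells -/
def nb {n : ℕ} (x y : Cell n N) : Prop := ∀ i, nb1 N (x i) (y i)

/-- dimension of a cell -/
def dm {n : ℕ} (x : Cell n N) : ℕ := ∑ i, if (x i).2 then 1 else 0

variable {N}

theorem nb1_symm {x y : C1 N} (h : nb1 N x y) : nb1 N y x := by
  rcases h with h | h | h
  · exact Or.inl h.symm
  · exact Or.inr (Or.inr h)
  · exact Or.inr (Or.inl h)

theorem nb_symm {n : ℕ} {x y : Cell n N} (h : nb N x y) : nb N y x := fun i => nb1_symm (h i)

theorem nb_succ {n : ℕ} {x y : Cell (n + 1) N} (h0 : nb1 N (x 0) (y 0))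
    (h1 : nb N (Fin.tail x) (Fin.tail y)) : nb N x y := fun i => by
  refine Fin.cases h0 (fun j => ?_) i
  exact h1 j

theorem dm_succ {n : ℕ} (x : Cell (n + 1) N) :
    dm N x = (if (x 0).2 then 1 else 0) + dm N (Fin.tail x) := by
  unfold dm
  rw [Fin.sum_univ_succ]
  rfl

theorem g1_apply (x y : C1 N) : g1 N x y = if x = y then (if x.2 then -1 else 1) else 0 := by
  rw [g1, Matrix.diagonal_apply]

theorem g1_supp {x y : C1 N} (h : g1 N x y ≠ 0) : x = y := by
  by_contra hne
  exact h (by rw [g1_apply, if_neg hne])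

theorem d1_supp {x y : C1 N} (h : d1 N x y ≠ 0) :
    x.2 = false ∧ y.2 = true ∧ nb1 N x y := by
  rcases x with ⟨i, a⟩
  rcases y with ⟨j, b⟩
  simp only [d1, Matrix.sub_apply, rr, jj, Matrix.of_apply] at h
  by_cases h1 : a = false ∧ b = true ∧ i = j + 1
  · exact ⟨h1.1, h1.2.1, Or.inr (Or.inl h1.2.2)⟩
  · by_cases h2 : a = false ∧ b = true ∧ i = j
    · exact ⟨h2.1, h2.2.1, Or.inl h2.2.2⟩
    · rw [if_neg h1, if_neg h2, sub_zero] at h
      exact absurd rfl h

theorem s1_supp {x y : C1 N} (h : s1 N x y ≠ 0) : x.2 = !y.2 ∧ nb1 N x y := by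
  rcases x with ⟨i, a⟩
  rcases y with ⟨j, b⟩
  simp only [s1, Matrix.smul_apply, Matrix.add_apply, Matrix.star_apply, rr, jj,
    Matrix.of_apply] at h
  cases a <;> cases b
  · simp at h
  · refine ⟨rfl, ?_⟩
    by_cases h1 : i = j + 1
    · exact Or.inr (Or.inl h1)
    · by_cases h2 : i = j
      · exact Or.inl h2
      · simp [h1, h2] at h
  · refine ⟨rfl, ?_⟩
    by_cases h1 : j = i + 1
    · exact Or.inr (Or.inr h1)
    · by_cases h2 : j = i
      · exact Or.inl h2.symm
      · simp [h1, h2] at h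
  · simp at h

theorem s1s1_supp {x y : C1 N} (h : (s1 N * s1 N) x y ≠ 0) : x.2 = y.2 ∧ nb1 N x y := by
  rw [Matrix.mul_apply] at h
  obtain ⟨z, -, hz⟩ := Finset.exists_ne_zero_of_sum_ne_zero h
  have h1 := s1_supp (left_ne_zero_of_mul hz)
  have h2 := s1_supp (right_ne_zero_of_mul hz)
  refine ⟨by rw [h1.1, h2.1, Bool.not_not], ?_⟩
  -- sharper: use the explicit form of `s1`
  rcases x with ⟨i, a⟩
  rcases y with ⟨j, b⟩
  rcases z with ⟨k, c⟩
  have e1 := h1.1
  have e2 := h2.1
  have l1 := left_ne_zero_of_mul hz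
  have l2 := right_ne_zero_of_mul hz
  simp only [s1, Matrix.smul_apply, Matrix.add_apply, Matrix.star_apply, rr, jj,
    Matrix.of_apply] at l1 l2
  have add1 : ∀ u v : ZMod N, u + 1 = v + 1 → u = v := fun u v h => add_right_cancel h
  cases a <;> cases b <;> cases c <;> simp at e1 e2
  · have q1 : i = k + 1 ∨ i = k := by
      by_contra hcon
      push Not at hcon
      simp [hcon.1, hcon.2] at l1
    have q2 : j = k + 1 ∨ j = k := by
      by_contra hcon
      push Not at hcon
      simp [hcon.1, hcon.2] at l2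
    unfold nb1
    rcases q1 with q1 | q1 <;> rcases q2 with q2 | q2 <;> subst q1 <;> subst q2 <;> simp
  · have q1 : k = i + 1 ∨ k = i := by
      by_contra hcon
      push Not at hcon
      simp [hcon.1, hcon.2] at l1
    have q2 : k = j + 1 ∨ k = j := by
      by_contra hcon
      push Not at hcon
      simp [hcon.1, hcon.2] at l2
    unfold nb1
    rcases q1 with q1 | q1 <;> rcases q2 with q2 | q2
    · left; exact add1 _ _ (q1.symm.trans q2)
    · right; right; exact q2.symm.trans q1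
    · right; left; exact q1.symm.trans q2
    · left; exact q1.symm.trans q2

theorem gridT_g_apply : (n : ℕ) → (x y : Cell n N) →
    (gridT N n).g x y = if x = y then (-1) ^ dm N x else 0
  | 0, x, y => by
    have : x = y := Subsingleton.elim _ _
    subst this
    simp [gridT, dm]
  | (n + 1), x, y => by
    rw [gridT_g_succ, tc_apply, gridT_g_apply n, g1_apply, dm_succ]
    by_cases h : x = y
    · subst h
      simp only [if_true]
      rw [pow_add]
      by_cases hb : (x 0).2 = true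
      · simp [hb]
      · simp [hb]
    · rw [if_neg h]
      by_cases h0 : x 0 = y 0
      · have : Fin.tail x ≠ Fin.tail y := fun ht => h (by
          rw [← Fin.cons_self_tail x, ← Fin.cons_self_tail y, h0, ht])
        rw [if_neg this, mul_zero]
      · rw [if_neg h0, zero_mul]

theorem gridT_g_diagonal (n : ℕ) :
    (gridT N n).g = Matrix.diagonal fun x => (-1) ^ dm N x := by
  ext x y
  rw [gridT_g_apply, Matrix.diagonal_apply]

theorem nb1_refl (x : C1 N) : nb1 N x x := Or.inl rfl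

theorem nb_refl {n : ℕ} (x : Cell n N) : nb N x x := fun i => nb1_refl _

theorem gridT_d_supp : (n : ℕ) → (x y : Cell n N) → (gridT N n).d x y ≠ 0 →
    dm N y = dm N x + 1 ∧ nb N x y
  | 0, x, y, h => by simp [gridT] at h
  | (n + 1), x, y, h => by
    rw [gridT_d_succ, Matrix.add_apply, tc_apply, tc_apply] at h
    by_cases h1 : d1 N (x 0) (y 0) * (1 : Matrix (Cell n N) (Cell n N) ℂ) (Fin.tail x) (Fin.tail y) = 0
    · rw [h1, zero_add] at h
      have h2 := g1_supp (left_ne_zero_of_mul h)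
      have h3 := gridT_d_supp n _ _ (right_ne_zero_of_mul h)
      rw [dm_succ, dm_succ, h3.1, h2]
      exact ⟨by ring, nb_succ (by rw [h2]; exact nb1_refl _) h3.2⟩
    · have h2 := d1_supp (left_ne_zero_of_mul h1)
      have h3 : Fin.tail x = Fin.tail y := by
        by_contra hne
        exact (right_ne_zero_of_mul h1) (Matrix.one_apply_ne hne)
      rw [dm_succ, dm_succ, h3, h2.1, h2.2.1]
      exact ⟨by simp; ring, nb_succ h2.2.2 (by rw [h3]; exact nb_refl _)⟩

theorem gridT_S_supp : (n : ℕ) → (x y : Cell n N) → (gridT N n).S x y ≠ 0 →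
    dm N x + dm N y = n ∧ nb N x y
  | 0, x, y, h => by
    refine ⟨by simp [dm], fun i => i.elim0⟩
  | (n + 1), x, y, h => by
    rw [gridT_S_succ, Matrix.smul_apply, tc_apply, gridT_g_diagonal, Matrix.diagonal_mul,
      smul_eq_mul] at h
    have ha := right_ne_zero_of_mul h
    have h2 := s1_supp (left_ne_zero_of_mul ha)
    have h3 := gridT_S_supp n _ _ (right_ne_zero_of_mul (right_ne_zero_of_mul ha))
    refine ⟨?_, nb_succ h2.2 h3.2⟩
    rw [dm_succ, dm_succ, h2.1]
    have := h3.1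
    by_cases hb : (y 0).2 = true
    · simp only [hb, Bool.not_true]; simp; omega
    · simp only [hb]; simp; omega

theorem gridT_SS_supp : (n : ℕ) → (x y : Cell n N) →
    ((gridT N n).S * (gridT N n).S) x y ≠ 0 → dm N x = dm N y ∧ nb N x y
  | 0, x, y, h => by
    refine ⟨by simp [dm], fun i => i.elim0⟩
  | (n + 1), x, y, h => by
    rw [gridT_SS_succ, tc_apply] at h
    have h2 := s1s1_supp (left_ne_zero_of_mul h)
    have h3 := gridT_SS_supp n _ _ (right_ne_zero_of_mul h)
    refine ⟨?_, nb_succ h2.2 h3.2⟩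
    rw [dm_succ, dm_succ, h2.1, h3.1]

theorem gridT_H_supp : (n : ℕ) → (x y : Cell n N) → (gridT N n).H x y ≠ 0 →
    dm N x = dm N y + 1 ∧ nb N x y
  | 0, x, y, h => by simp [gridT] at h
  | (n + 1), x, y, h => by
    rw [gridT_H_succ, Matrix.add_apply, tc_apply, tc_apply] at h
    by_cases h1 : g1 N (x 0) (y 0) * (gridT N n).H (Fin.tail x) (Fin.tail y) = 0
    · rw [h1, add_zero] at h
      have h0 := left_ne_zero_of_mul h
      rw [Matrix.smul_apply, smul_eq_mul, Matrix.star_apply] at h0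
      have h2 := d1_supp (star_ne_zero.mp (right_ne_zero_of_mul h0))
      have h3 := gridT_SS_supp n _ _ (right_ne_zero_of_mul h)
      rw [dm_succ, dm_succ, h3.1, h2.1, h2.2.1]
      exact ⟨by simp; ring, nb_succ (nb1_symm h2.2.2) h3.2⟩
    · have h2 := g1_supp (left_ne_zero_of_mul h1)
      have h3 := gridT_H_supp n _ _ (right_ne_zero_of_mul h1)
      rw [dm_succ, dm_succ, h3.1, h2]
      exact ⟨by ring, nb_succ (by rw [h2]; exact nb1_refl _) h3.2⟩

end GridT

end

end Crest.Agent.R217.Grid897
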