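import Mathlib
import Crest.Agent.R217.Ctl_559
import Crest.Agent.R217.Chain_373
import Crest.Agent.R217.FineExist_373
import Crest.Agent.R217.Equi_970

/-! Row 217: the sequence of local data exists if `CruxN n` fails. -/

set_option autoImplicit false

open Metric Set

namespace Crest.Agent.R217.KDatEx373

open Crest.Agent.R217.CruxN559 Crest.Agent.R217.Coarse889 Crest.Agent.R217.CtrlS970
open Crest.Agent.R217.Glob559 Crest.Agent.R217.Ctl559

universe u

theorem chainExists_flow {n : ℕ} {c : ℝ} (hc : c ≤ 1 / 100) (X : CE.{u} n c) :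
    Chain373.ChainExists (flow X) :=
  Chain373.chainExists (equi_toFlow X.D X.x c X.ball_V (disp' X)) hc

theorem exists_kdat' {n : ℕ} (hn : 0 < n) {c : ℝ} (hc : c ≤ 1 / 100) (X : CE.{u} n c) :
    ∃ K : KDat.{u} n c, K.X = X :=
  exists_kdat hn X (chainExists_flow hc X) FineExist373.fineOfChain

/-- the sequence of local data, from the failure of `CruxN n` -/
theorem nonempty_kdat_seq {n : ℕ} (hn : 0 < n) (h : ¬ CruxN.{u} n) :
    Nonempty (∀ k : ℕ, KDat.{u} n (cs k)) :=
  ⟨fun k => (exists_kdat' hn (cs_le k) (nonempty_ce h (cs_pos k)).some).choose⟩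

/-- `CruxN n` follows if there is no sequence of local data -/
theorem cruxN_of_no_kdat {n : ℕ} (hn : 0 < n) (h : (∀ k : ℕ, KDat.{u} n (cs k)) → False) :
    CruxN.{u} n := by
  by_contra hc
  exact h (nonempty_kdat_seq hn hc).some

end Crest.Agent.R217.KDatEx373
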