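import Crest.Agent.R217.Grid3_897

/-! Row 217: the circle grid with a wall at `0`: identities valid in a window. -/

set_option autoImplicit false
set_option linter.unusedSectionVars false

open Matrix Finset
open scoped BigOperators

namespace Crest.Agent.R217.Grid897

noncomputable section

variable (N : ℕ) [NeZero N]

/-- the window -/
def Win (x : C1 N) : Prop := 2 * |x.1.valMinAbs| + 8 ≤ (N : ℤ)

/-- equality in the window -/
def WEq (M M' : Matrix (C1 N) (C1 N) ℂ) : Prop := ∀ s t, Win N s → Win N t → M s t = M' s t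

/-- right half line: vertices `≥ 1`, edges `≥ 0` -/
def inP (x : C1 N) : Prop := 1 ≤ 2 * x.1.valMinAbs + (if x.2 then 1 else 0)

instance (x : C1 N) : Decidable (inP N x) := by unfold inP; infer_instance

/-- projection to the right half line -/
def Pw : Matrix (C1 N) (C1 N) ℂ := Matrix.diagonal fun x => if inP N x then 1 else 0

/-- the first edge -/
def ew : Matrix (C1 N) (C1 N) ℂ := Matrix.diagonal fun x => if x = (0, true) then 1 else 0

/-- the first vertex -/
def vw : Matrix (C1 N) (C1 N) ℂ := Matrix.diagonal fun x => if x = (1, false) then 1 else 0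

/-- first edge to first vertex -/
def kw : Matrix (C1 N) (C1 N) ℂ := Matrix.of fun x y =>
  if x = (1, false) ∧ y = (0, true) then 1 else 0

/-- first edge to the last vertex outside -/
def uw : Matrix (C1 N) (C1 N) ℂ := Matrix.of fun x y =>
  if x = (0, false) ∧ y = (0, true) then 1 else 0

variable {N}

theorem Pw_mul (M : Matrix (C1 N) (C1 N) ℂ) (s t : C1 N) :
    (Pw N * M) s t = (if inP N s then 1 else 0) * M s t := by
  rw [Pw, Matrix.diagonal_mul]

theorem mul_Pw (M : Matrix (C1 N) (C1 N) ℂ) (s t : C1 N) :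
    (M * Pw N) s t = M s t * (if inP N t then 1 else 0) := by
  rw [Pw, Matrix.mul_diagonal]

theorem Pw_sq : Pw N * Pw N = Pw N := by
  rw [Pw, Matrix.diagonal_mul_diagonal]
  congr 1; funext x; split_ifs <;> simp

theorem star_Pw : star (Pw N) = Pw N := by
  rw [Pw, Matrix.star_eq_conjTranspose, Matrix.diagonal_conjTranspose]
  congr 1; funext x; simp only [Pi.star_apply]; split_ifs <;> simp

theorem g1_Pw : g1 N * Pw N = Pw N * g1 N := by
  rw [Pw, g1, Matrix.diagonal_mul_diagonal, Matrix.diagonal_mul_diagonal]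
  congr 1; funext x; rw [mul_comm]

theorem ew_sq : ew N * ew N = ew N := by
  rw [ew, Matrix.diagonal_mul_diagonal]
  congr 1; funext x; split_ifs <;> simp

theorem star_ew : star (ew N) = ew N := by
  rw [ew, Matrix.star_eq_conjTranspose, Matrix.diagonal_conjTranspose]
  congr 1; funext x; simp only [Pi.star_apply]; split_ifs <;> simp

theorem vw_sq : vw N * vw N = vw N := by
  rw [vw, Matrix.diagonal_mul_diagonal]
  congr 1; funext x; split_ifs <;> simp

theorem star_vw : star (vw N) = vw N := by
  rw [vw, Matrix.star_eq_conjTranspose, Matrix.diagonal_conjTranspose]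
  congr 1; funext x; simp only [Pi.star_apply]; split_ifs <;> simp

theorem Pw_ew : Pw N * ew N = ew N := by
  rw [Pw, ew, Matrix.diagonal_mul_diagonal]
  congr 1; funext x
  by_cases h : x = (0, true)
  · subst h
    simp [inP]
  · simp [h]

theorem g1_ew : g1 N * ew N = -ew N := by
  rw [g1, ew, Matrix.diagonal_mul_diagonal, Matrix.diagonal_neg]
  congr 1; funext x
  by_cases h : x = (0, true)
  · subst h; simp
  · simp [h]

theorem g1_vw : g1 N * vw N = vw N := by
  rw [g1, vw, Matrix.diagonal_mul_diagonal]
  congr 1; funext x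
  by_cases h : x = (1, false)
  · subst h; simp
  · simp [h]

theorem ew_vw : ew N * vw N = 0 := by
  rw [ew, vw, Matrix.diagonal_mul_diagonal, ← Matrix.diagonal_zero]
  congr 1; funext x
  by_cases h : x = (1, false)
  · subst h; simp
  · simp [h]

theorem vw_kw : vw N * kw N = kw N := by
  ext x y
  rw [vw, Matrix.diagonal_mul, kw, Matrix.of_apply]
  by_cases h : x = (1, false) <;> simp [h]

theorem kw_ew : kw N * ew N = kw N := by
  ext x y
  rw [ew, Matrix.mul_diagonal, kw, Matrix.of_apply]
  by_cases h : y = (0, true) <;> simp [h]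

theorem star_kw_kw : star (kw N) * kw N = ew N := by
  ext x y
  rw [Matrix.mul_apply, ew, Matrix.diagonal_apply, Finset.sum_eq_single ((1 : ZMod N), false)]
  · simp only [Matrix.star_apply, kw, Matrix.of_apply, true_and]
    by_cases h : x = (0, true)
    · subst h
      by_cases h2 : y = (0, true)
      · subst h2; simp
      · have : (0, true) ≠ y := fun h => h2 h.symm
        simp [h2, this]
    · simp only [h, if_false, star_zero, zero_mul]
      split_ifs <;> rfl
  · intro z _ hz
    simp [kw, hz]
  · intro h; exact absurd (Finset.mem_univ _) h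

theorem kw_star_kw : kw N * star (kw N) = vw N := by
  ext x y
  rw [Matrix.mul_apply, vw, Matrix.diagonal_apply, Finset.sum_eq_single ((0 : ZMod N), true)]
  · simp only [Matrix.star_apply, kw, Matrix.of_apply, and_true]
    by_cases h : x = (1, false)
    · subst h
      by_cases h2 : y = (1, false)
      · subst h2; simp
      · have : (1, false) ≠ y := fun h => h2 h.symm
        simp [h2, this]
    · simp only [h, if_false, zero_mul]
      split_ifs <;> rfl
  · intro z _ hz
    simp [kw, hz]
  · intro h; exact absurd (Finset.mem_univ _) h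

theorem star_uw_uw : star (uw N) * uw N = ew N := by
  ext x y
  rw [Matrix.mul_apply, ew, Matrix.diagonal_apply, Finset.sum_eq_single ((0 : ZMod N), false)]
  · simp only [Matrix.star_apply, uw, Matrix.of_apply, true_and]
    by_cases h : x = (0, true)
    · subst h
      by_cases h2 : y = (0, true)
      · subst h2; simp
      · have : (0, true) ≠ y := fun h => h2 h.symm
        simp [h2, this]
    · simp only [h, if_false, star_zero, zero_mul]
      split_ifs <;> rfl
  · intro z _ hz
    simp [uw, hz]
  · intro h; exact absurd (Finset.mem_univ _) h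

theorem d1_vw : d1 N * vw N = 0 := by
  ext x y
  rw [vw, Matrix.mul_diagonal, Matrix.zero_apply]
  by_cases h : y = (1, false)
  · subst h
    simp [d1, rr, jj]
  · simp [h]

theorem ew_d1 : ew N * d1 N = 0 := by
  ext x y
  rw [ew, Matrix.diagonal_mul, Matrix.zero_apply]
  by_cases h : x = (0, true)
  · subst h
    simp [d1, rr, jj]
  · simp [h]

/-! ### identities in the window -/

theorem Win.win4 {x : C1 N} (h : Win N x) : 2 * |x.1.valMinAbs| + 4 ≤ (N : ℤ) := by
  unfold Win at h; omega

theorem d1_win {s t : C1 N} (ht : Win N t) : d1 N s t =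
    (if s.2 = false ∧ t.2 = true ∧ s.1.valMinAbs = t.1.valMinAbs + 1 then 1 else 0) -
    (if s.2 = false ∧ t.2 = true ∧ s.1.valMinAbs = t.1.valMinAbs then 1 else 0) := by
  simp only [d1, rr, jj, Matrix.sub_apply, Matrix.of_apply, valMinAbs_succ ht.win4,
    ZMod.injective_valMinAbs.eq_iff]

theorem s1_win {s t : C1 N} (hs : Win N s) (ht : Win N t) : s1 N s t =
    (1 / 2 : ℂ) * (((if s.2 = false ∧ t.2 = true ∧ s.1.valMinAbs = t.1.valMinAbs + 1 then 1 else 0) +
    (if s.2 = false ∧ t.2 = true ∧ s.1.valMinAbs = t.1.valMinAbs then 1 else 0)) +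
    ((if t.2 = false ∧ s.2 = true ∧ t.1.valMinAbs = s.1.valMinAbs + 1 then 1 else 0) +
    (if t.2 = false ∧ s.2 = true ∧ t.1.valMinAbs = s.1.valMinAbs then 1 else 0))) := by
  have h : ∀ (p : Prop) [Decidable p], star (if p then (1 : ℂ) else 0) = if p then 1 else 0 := by
    intro p _; split_ifs <;> simp
  simp only [s1, rr, jj, Matrix.smul_apply, Matrix.add_apply, Matrix.star_apply, Matrix.of_apply,
    valMinAbs_succ ht.win4, valMinAbs_succ hs.win4, ZMod.injective_valMinAbs.eq_iff, smul_eq_mul,
    h]

theorem eq_zero_iff_vma (x : ZMod N) : x = 0 ↔ x.valMinAbs = 0 := by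
  rw [ZMod.valMinAbs_eq_zero]

theorem Win.big {x : C1 N} (h : Win N x) : 8 ≤ (N : ℤ) := by
  unfold Win at h
  have := abs_nonneg x.1.valMinAbs
  omega

theorem eq_one_iff_vma (hN : 8 ≤ (N : ℤ)) (x : ZMod N) : x = 1 ↔ x.valMinAbs = 1 := by
  have h := valMinAbs_succ (a := x) (b := 0) (by simp; omega)
  simp only [ZMod.valMinAbs_zero, zero_add] at h
  exact h.symm

theorem eq_zero_true (x : C1 N) : x = (0, true) ↔ x.1.valMinAbs = 0 ∧ x.2 = true := by
  rw [Prod.ext_iff, eq_zero_iff_vma]

theorem eq_zero_false (x : C1 N) : x = (0, false) ↔ x.1.valMinAbs = 0 ∧ x.2 = false := by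
  rw [Prod.ext_iff, eq_zero_iff_vma]

theorem eq_one_false (hN : 8 ≤ (N : ℤ)) (x : C1 N) :
    x = (1, false) ↔ x.1.valMinAbs = 1 ∧ x.2 = false := by
  rw [Prod.ext_iff, eq_one_iff_vma hN]

theorem Pw_vw_win : WEq N (Pw N * vw N) (vw N) := by
  intro s t hs ht
  rw [Pw, vw, Matrix.diagonal_mul_diagonal, Matrix.diagonal_apply, Matrix.diagonal_apply]
  by_cases h : s = t
  · simp only [h, if_true]
    by_cases h1 : t = (1, false)
    · have h2 : inP N t := by
        have := (eq_one_false ht.big t).mp h1
        unfold inP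
        rw [this.1, this.2]
        norm_num
      simp [h1] at h2 ⊢
      exact h2
    · simp [h1]
  · simp [h]

theorem Pw_d1_Pw : WEq N (Pw N * d1 N * Pw N) (Pw N * d1 N) := by
  intro s t hs ht
  rw [mul_Pw, Pw_mul, d1_win ht]
  unfold inP
  rcases s with ⟨s, _ | _⟩ <;> rcases t with ⟨t, _ | _⟩ <;>
    simp only [Bool.false_eq_true, Bool.true_eq_false, reduceCtorEq, if_false, if_true, true_and,
      false_and, and_false, and_true] <;>
    split_ifs <;> first | (exfalso; omega) | norm_num

theorem d1_Pw_sub : WEq N (d1 N * Pw N - Pw N * d1 N * Pw N) (-uw N) := by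
  intro s t hs ht
  rw [Matrix.sub_apply, mul_Pw, mul_Pw, Pw_mul, d1_win ht, Matrix.neg_apply, uw, Matrix.of_apply]
  simp only [eq_zero_false, eq_zero_true]
  unfold inP
  rcases s with ⟨s, _ | _⟩ <;> rcases t with ⟨t, _ | _⟩ <;>
    simp only [Bool.false_eq_true, Bool.true_eq_false, reduceCtorEq, if_false, if_true, true_and,
      false_and, and_false, and_true] <;>
    split_ifs <;> first | (exfalso; omega) | norm_num

theorem s1_Pw_sub : WEq N (s1 N * Pw N - Pw N * s1 N * Pw N) ((2⁻¹ : ℂ) • uw N) := by
  intro s t hs ht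
  rw [Matrix.sub_apply, mul_Pw, mul_Pw, Pw_mul, s1_win hs ht, Matrix.smul_apply, uw,
    Matrix.of_apply]
  simp only [eq_zero_false, eq_zero_true]
  unfold inP
  rcases s with ⟨s, _ | _⟩ <;> rcases t with ⟨t, _ | _⟩ <;>
    simp only [Bool.false_eq_true, Bool.true_eq_false, reduceCtorEq, if_false, if_true, true_and,
      false_and, and_false, and_true] <;>
    split_ifs <;> first | (exfalso; omega) | norm_num

theorem mul_ew (M : Matrix (C1 N) (C1 N) ℂ) (s t : C1 N) :
    (M * ew N) s t = M s t * (if t = (0, true) then 1 else 0) := by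
  rw [ew, Matrix.mul_diagonal]

theorem Pw_d1_ew : WEq N (Pw N * d1 N * ew N) (kw N) := by
  intro s t hs ht
  rw [mul_ew, Pw_mul, d1_win ht, kw, Matrix.of_apply]
  simp only [eq_zero_true, eq_one_false hs.big]
  unfold inP
  rcases s with ⟨s, _ | _⟩ <;> rcases t with ⟨t, _ | _⟩ <;>
    simp only [Bool.false_eq_true, Bool.true_eq_false, reduceCtorEq, if_false, if_true, true_and,
      false_and, and_false, and_true] <;>
    split_ifs <;> first | (exfalso; omega) | norm_num

theorem Pw_s1_ew : WEq N (Pw N * s1 N * ew N) ((2⁻¹ : ℂ) • kw N) := by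
  intro s t hs ht
  rw [mul_ew, Pw_mul, s1_win hs ht, Matrix.smul_apply, kw, Matrix.of_apply]
  simp only [eq_zero_true, eq_one_false hs.big]
  unfold inP
  rcases s with ⟨s, _ | _⟩ <;> rcases t with ⟨t, _ | _⟩ <;>
    simp only [Bool.false_eq_true, Bool.true_eq_false, reduceCtorEq, if_false, if_true, true_and,
      false_and, and_false, and_true] <;>
    split_ifs <;> first | (exfalso; omega) | norm_num

end

end Crest.Agent.R217.Grid897
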