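import Crest.Agent.R217.NormA_551

/-! Row 217: abstract half line: the local contraction from the basic relations. -/

set_option autoImplicit false
set_option linter.unusedSectionVars false

namespace Crest.Agent.R217.Grid897

open Norm551

variable {A : Type*} [Ring A] [StarRing A] [Algebra ℂ A] [StarModule ℂ A]

/-- basic relations of the line with a wall -/
structure PreLine (g d S P e v k u : A) : Prop where
  gg : g * g = 1
  sg : star g = g
  dd : d * d = 0
  gd : g * d = -(d * g)
  sS : star S = S
  gS : g * S = -(S * g)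
  dS : d * S + S * star d = 0
  Sd : S * d + star d * S = 0
  SS : S * S = 1 - (4⁻¹ : ℂ) • (d * star d + star d * d)
  PP : P * P = P
  sP : star P = P
  gP : g * P = P * g
  PdP : P * d * P = P * d
  ee : e * e = e
  se : star e = e
  Pe : P * e = e
  ge : g * e = -e
  vv : v * v = v
  sv : star v = v
  Pv : P * v = v
  gv : g * v = v
  ev : e * v = 0
  vk : v * k = k
  ke : k * e = k
  kk : star k * k = e
  kk' : k * star k = v
  Pde : P * d * e = k
  PSe : P * S * e = (2⁻¹ : ℂ) • k
  dv : d * v = 0
  ed : e * d = 0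
  uu : star u * u = e
  dP : d * P - P * d * P = -u
  SP : S * P - P * S * P = (2⁻¹ : ℂ) • u

/-- the line with its contraction -/
noncomputable def lineOf (g d S P e v k : A) : Line A where
  g := g
  d := d
  S := S
  P := P
  e := e
  v := v
  k := k
  a := (4⁻¹ : ℂ) • (P * star d * P)
  b := P * S * P
  c := (4⁻¹ : ℂ) • (P * d * P)

variable {g d S P e v k u : A}

theorem PreLine.line (h : PreLine g d S P e v k u) : (lineOf g d S P e v k).Is := by
  obtain ⟨gg, sg, dd, gd, sS, gS, dS, Sd, SS, PP, sP, gP, PdP, ee, se, Pe, ge, vv, sv, Pv, gv, ev,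
    vk, ke, kk, kk', Pde, PSe, dv, ed, uu, dP, SP⟩ := h
  have gD : g * star d = -(star d * g) := by
    have := congrArg star gd
    rw [star_mul, star_neg, star_mul, sg] at this
    rw [this, neg_neg]
  have Pu : P * u = 0 := by
    have h1 : P * (d * P - P * d * P) = 0 := by
      rw [mul_sub, ← mul_assoc, ← mul_assoc, ← mul_assoc, PP, sub_self]
    rw [dP, mul_neg, neg_eq_zero] at h1
    exact h1
  have uP : star u * P = 0 := by
    have := congrArg star Pu
    rwa [star_mul, sP, star_zero] at this
  have hPd : P * d = d * P + u := by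
    have h1 : d * P + u = P * d * P := by rw [sub_eq_iff_eq_add] at dP; rw [dP]; abel
    rw [h1, PdP]
  have hDP : star d * P = P * star d + star u := by
    have := congrArg star hPd
    rwa [star_mul, star_add, star_mul, sP] at this
  have PDP : P * star d * P = star d * P := by
    have := congrArg star PdP
    rwa [star_mul, star_mul, sP, ← mul_assoc] at this
  have hSP : S * P = P * S * P + (2⁻¹ : ℂ) • u := by
    rw [← SP]; abel
  have hPS : P * S = P * S * P + (2⁻¹ : ℂ) • star u := by
    have := congrArg star hSP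
    rw [star_mul, star_add, star_mul, star_mul, sP, sS, star_smul, ← mul_assoc] at this
    simpa using this
  -- the three products
  have e1 : P * S * P * d = P * S * d * P + (2⁻¹ : ℂ) • e := by
    have h1 : P * S * u = (2⁻¹ : ℂ) • e := by
      rw [hPS, add_mul, mul_assoc (P * S), Pu, mul_zero, zero_add, smul_mul_assoc, uu]
    rw [mul_assoc (P * S) P d, hPd, mul_add, h1, ← mul_assoc]
  have e1' : star d * P * S * P = P * star d * S * P + (2⁻¹ : ℂ) • e := by
    have := congrArg star e1
    simp only [star_mul, star_add, star_smul, sP, sS, se] at this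
    rw [← mul_assoc, ← mul_assoc, ← mul_assoc, ← mul_assoc] at this
    simpa using this
  have e2 : P * star d * P * d = P * star d * d * P - e := by
    have h1 : P * star d * u = -e := by
      have h2 : P * star d = star d * P - star u := by rw [hDP]; abel
      rw [h2, sub_mul, mul_assoc, Pu, mul_zero, zero_sub, uu]
    rw [mul_assoc (P * star d) P d, hPd, mul_add, h1, ← mul_assoc]
    abel
  have e3 : P * S * P * S * P = P * S * S * P - (4⁻¹ : ℂ) • e := by
    have h1 : P * S * (S * P) = (P * S * P + (2⁻¹ : ℂ) • star u) * (P * S * P + (2⁻¹ : ℂ) • u) := by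
      rw [← hSP, ← hPS]
    have h2 : (P * S * P + (2⁻¹ : ℂ) • star u) * (P * S * P + (2⁻¹ : ℂ) • u) =
        P * S * P * S * P + (4⁻¹ : ℂ) • e := by
      rw [add_mul, mul_add, mul_add]
      have a1 : P * S * P * (P * S * P) = P * S * P * S * P := by
        rw [← mul_assoc, ← mul_assoc, mul_assoc (P * S) P P, PP]
      have a2 : P * S * P * ((2⁻¹ : ℂ) • u) = 0 := by
        rw [mul_smul_comm, mul_assoc, Pu, mul_zero, smul_zero]
      have a3 : ((2⁻¹ : ℂ) • star u) * (P * S * P) = 0 := by
        rw [smul_mul_assoc, ← mul_assoc, ← mul_assoc, uP, zero_mul, zero_mul, smul_zero]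
      have a4 : ((2⁻¹ : ℂ) • star u) * ((2⁻¹ : ℂ) • u) = (4⁻¹ : ℂ) • e := by
        rw [smul_mul_smul_comm, uu]; norm_num
      rw [a1, a2, a3, a4]
      abel
    rw [← mul_assoc, h2] at h1
    rw [h1]
    abel
  have e4 : P * S * d * P + P * star d * S * P = 0 := by
    have : P * S * d * P + P * star d * S * P = P * (S * d + star d * S) * P := by noncomm_ring
    rw [this, Sd, mul_zero, zero_mul]
  have e5 : P * S * S * P = P - (4⁻¹ : ℂ) • (P * d * star d * P + P * star d * d * P) := by
    have : P * S * S * P = P * (S * S) * P := by noncomm_ring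
    rw [this, SS, mul_sub, sub_mul, mul_one, PP, mul_smul_comm, smul_mul_assoc]
    congr 2
    noncomm_ring
  refine ⟨gg, sg, dd, gd, sS, gS, dS, Sd, SS, PP, sP, gP, PdP, ee, se, Pe, ge, vv, sv, Pv, gv, ev,
    vk, ke, kk, kk', Pde, PSe, dv, ed, ?_, ?_, ?_, ?_, ?_, ?_, ?_, ?_, ?_, ?_, ?_, ?_, ?_⟩
  · simp only [lineOf, mul_smul_comm, ← mul_assoc, PP]
  · simp only [lineOf, smul_mul_assoc, mul_assoc, PP]
  · simp only [lineOf, ← mul_assoc, PP]
  · simp only [lineOf, mul_assoc, PP]
  · simp only [lineOf, mul_smul_comm, ← mul_assoc, PP]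
  · simp only [lineOf, smul_mul_assoc, mul_assoc, PP]
  · simp only [lineOf, mul_smul_comm, smul_mul_assoc]
    rw [← smul_neg]
    congr 1
    rw [← mul_assoc, ← mul_assoc, gP, mul_assoc P g, gD, mul_neg, neg_mul, mul_assoc (P * star d),
      ← gP]
    simp only [mul_assoc]
  · simp only [lineOf]
    rw [← mul_assoc, ← mul_assoc, gP, mul_assoc P g, gS, mul_neg, neg_mul, mul_assoc (P * S),
      ← gP]
    simp only [mul_assoc]
  · simp only [lineOf, mul_smul_comm, smul_mul_assoc]
    rw [← smul_neg]
    congr 1
    rw [← mul_assoc, ← mul_assoc, gP, mul_assoc P g, gd, mul_neg, neg_mul, mul_assoc (P * d),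
      ← gP]
    simp only [mul_assoc]
  · -- h11
    simp only [lineOf, mul_smul_comm, smul_mul_assoc]
    have a1 : P * d * (P * star d * P) = P * d * star d * P := by
      rw [← mul_assoc, ← mul_assoc, PdP]
    have a2 : P * star d * P * (P * d) = P * star d * d * P - e := by
      rw [← mul_assoc, mul_assoc (P * star d) P P, PP, e2]
    have a3 : P * S * P * (P * S * P) = P * S * P * S * P := by
      rw [← mul_assoc, ← mul_assoc, mul_assoc (P * S) P P, PP]
    rw [a1, a2, a3, e3, e5]
    module
  · -- h12
    simp only [lineOf, mul_smul_comm, smul_mul_assoc]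
    have a1 : P * S * P * (P * d * P) = P * S * d * P + (2⁻¹ : ℂ) • e := by
      rw [PdP, ← mul_assoc, mul_assoc (P * S) P P, PP, e1]
    have a2 : P * star d * P * (P * S * P) = P * star d * S * P + (2⁻¹ : ℂ) • e := by
      rw [← e1', ← mul_assoc, ← mul_assoc, mul_assoc (P * star d) P P, PP, PDP]
    rw [a1, a2, ← smul_add]
    have : P * S * d * P + (2⁻¹ : ℂ) • e + (P * star d * S * P + (2⁻¹ : ℂ) • e) = e := by
      rw [add_add_add_comm, e4, zero_add, ← add_smul]; norm_num
    rw [this]
  · -- h21
    simp only [lineOf]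
    have a1 : P * S * P * (P * d) = P * S * d * P + (2⁻¹ : ℂ) • e := by
      rw [← mul_assoc, mul_assoc (P * S) P P, PP, e1]
    have a2 : star d * P * (P * S * P) = P * star d * S * P + (2⁻¹ : ℂ) • e := by
      rw [← e1', ← mul_assoc, ← mul_assoc, mul_assoc (star d) P P, PP]
    rw [a1, a2, add_add_add_comm, add_comm (P * star d * S * P), e4, zero_add, ← add_smul]
    norm_num
  · -- h22
    simp only [lineOf, mul_smul_comm, smul_mul_assoc]
    have a1 : star d * P * (P * d * P) = P * star d * d * P - e := by
      rw [← e2, PdP, ← mul_assoc, mul_assoc (star d) P P, PP, PDP]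
    have a2 : P * d * P * (star d * P) = P * d * star d * P := by
      rw [PdP, ← mul_assoc]
    have a3 : P * S * P * (P * S * P) = P * S * P * S * P := by
      rw [← mul_assoc, ← mul_assoc, mul_assoc (P * S) P P, PP]
    rw [a1, a2, a3, e3, e5]
    module

end Crest.Agent.R217.Grid897
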