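import Crest.Agent.R217.Norm_551

/-!
Row 217 (S0336), part C1, piece M5-N : the product with a line, for commuting elements of one
algebra.
-/

set_option autoImplicit false
set_option linter.unusedSectionVars false

namespace Crest.Agent.R217.Norm551

open PC473 Matrix

variable {A : Type*} [Ring A] [StarRing A] [Algebra ℂ A] [StarModule ℂ A]

/-- the pairing of a set with its centralizer -/
noncomputable def TPc (s : Set A) :
    TP (StarAlgebra.adjoin ℂ s) (StarSubalgebra.centralizer ℂ s) A where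
  t := LinearMap.mk₂ ℂ (fun x y => (x : A) * (y : A))
    (fun _ _ _ => by simp [add_mul]) (fun _ _ _ => by simp)
    (fun _ _ _ => by simp [mul_add]) (fun _ _ _ => by simp)
  mul x y x' y' := by
    simp only [LinearMap.mk₂_apply, MulMemClass.coe_mul]
    have h : (y : A) * (x' : A) = (x' : A) * (y : A) := by
      have h1 := StarAlgebra.adjoin_le_centralizer_centralizer ℂ s x'.2
      have h2 := (StarSubalgebra.mem_centralizer_iff ℂ).1 h1 (y : A) y.2
      exact h2.1
    rw [mul_assoc, ← mul_assoc (y : A), h]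
    noncomm_ring
  str x y := by
    simp only [LinearMap.mk₂_apply, star_mul]
    have h : star (y : A) * star (x : A) = star (x : A) * star (y : A) := by
      have h1 := StarAlgebra.adjoin_le_centralizer_centralizer ℂ s (star x).2
      have h2 := (StarSubalgebra.mem_centralizer_iff ℂ).1 h1 (star y : A) (star y).2
      exact h2.1
    exact h

theorem TPc_t (s : Set A) (x : StarAlgebra.adjoin ℂ s) (y : StarSubalgebra.centralizer ℂ s) :
    (TPc s).t x y = (x : A) * (y : A) := rfl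

/-- entries of a line -/
def Line.set (x : Line A) : Set A := {x.g, x.d, x.S, x.P, x.e, x.v, x.k, x.a, x.b, x.c}

/-- a line as a line in its own algebra -/
noncomputable def Line.up (x : Line A) : Line (StarAlgebra.adjoin ℂ x.set) where
  g := ⟨x.g, StarAlgebra.subset_adjoin ℂ _ (by simp [Line.set])⟩
  d := ⟨x.d, StarAlgebra.subset_adjoin ℂ _ (by simp [Line.set])⟩
  S := ⟨x.S, StarAlgebra.subset_adjoin ℂ _ (by simp [Line.set])⟩
  P := ⟨x.P, StarAlgebra.subset_adjoin ℂ _ (by simp [Line.set])⟩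
  e := ⟨x.e, StarAlgebra.subset_adjoin ℂ _ (by simp [Line.set])⟩
  v := ⟨x.v, StarAlgebra.subset_adjoin ℂ _ (by simp [Line.set])⟩
  k := ⟨x.k, StarAlgebra.subset_adjoin ℂ _ (by simp [Line.set])⟩
  a := ⟨x.a, StarAlgebra.subset_adjoin ℂ _ (by simp [Line.set])⟩
  b := ⟨x.b, StarAlgebra.subset_adjoin ℂ _ (by simp [Line.set])⟩
  c := ⟨x.c, StarAlgebra.subset_adjoin ℂ _ (by simp [Line.set])⟩

theorem Line.Is.up {x : Line A} (hx : x.Is) : x.up.Is where
  gg := Subtype.ext hx.gg
  sg := Subtype.ext hx.sg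
  dd := Subtype.ext hx.dd
  gd := Subtype.ext hx.gd
  sS := Subtype.ext hx.sS
  gS := Subtype.ext hx.gS
  dS := Subtype.ext hx.dS
  Sd := Subtype.ext hx.Sd
  SS := Subtype.ext hx.SS
  PP := Subtype.ext hx.PP
  sP := Subtype.ext hx.sP
  gP := Subtype.ext hx.gP
  PdP := Subtype.ext hx.PdP
  ee := Subtype.ext hx.ee
  se := Subtype.ext hx.se
  Pe := Subtype.ext hx.Pe
  ge := Subtype.ext hx.ge
  vv := Subtype.ext hx.vv
  sv := Subtype.ext hx.sv
  Pv := Subtype.ext hx.Pv
  gv := Subtype.ext hx.gv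
  ev := Subtype.ext hx.ev
  vk := Subtype.ext hx.vk
  ke := Subtype.ext hx.ke
  kk := Subtype.ext hx.kk
  kk' := Subtype.ext hx.kk'
  Pde := Subtype.ext hx.Pde
  PSe := Subtype.ext hx.PSe
  dv := Subtype.ext hx.dv
  ed := Subtype.ext hx.ed
  Pa := Subtype.ext hx.Pa
  aP := Subtype.ext hx.aP
  Pb := Subtype.ext hx.Pb
  bP := Subtype.ext hx.bP
  Pc := Subtype.ext hx.Pc
  cP := Subtype.ext hx.cP
  ga := Subtype.ext hx.ga
  gb := Subtype.ext hx.gb
  gc := Subtype.ext hx.gc
  h11 := Subtype.ext hx.h11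
  h12 := Subtype.ext hx.h12
  h21 := Subtype.ext hx.h21
  h22 := Subtype.ext hx.h22

/-- a tuple commuting with a line -/
structure ComT (x : Line A) (y : Tup A) : Prop where
  p : y.p ∈ StarSubalgebra.centralizer ℂ x.set
  g : y.g ∈ StarSubalgebra.centralizer ℂ x.set
  d : y.d ∈ StarSubalgebra.centralizer ℂ x.set
  S : y.S ∈ StarSubalgebra.centralizer ℂ x.set
  T : y.T ∈ StarSubalgebra.centralizer ℂ x.set
  H : y.H ∈ StarSubalgebra.centralizer ℂ x.set

/-- the lifted tuple -/
def ComT.up {x : Line A} {y : Tup A} (h : ComT x y) :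
    Tup (StarSubalgebra.centralizer ℂ x.set) :=
  ⟨⟨y.p, h.p⟩, ⟨y.g, h.g⟩, ⟨y.d, h.d⟩, ⟨y.S, h.S⟩, ⟨y.T, h.T⟩, ⟨y.H, h.H⟩⟩

theorem coe_neg_one_pow (s : Set A) (m : ℕ) :
    (((-1 : StarSubalgebra.centralizer ℂ s) ^ m : StarSubalgebra.centralizer ℂ s) : A)
      = (-1 : A) ^ m := by
  simp

theorem ComT.up_isPC {x : Line A} {y : Tup A} (h : ComT x y) {m : ℕ} (hy : y.IsPC m) :
    h.up.IsPC m where
  pp := Subtype.ext hy.pp
  sp := Subtype.ext hy.sp
  gg := Subtype.ext hy.gg
  sg := Subtype.ext hy.sg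
  pg := Subtype.ext hy.pg
  pd := Subtype.ext hy.pd
  dp := Subtype.ext hy.dp
  pS := Subtype.ext hy.pS
  pT := Subtype.ext hy.pT
  pH := Subtype.ext hy.pH
  Hp := Subtype.ext hy.Hp
  dd := Subtype.ext hy.dd
  sS := Subtype.ext hy.sS
  sT := Subtype.ext hy.sT
  dS := Subtype.ext hy.dS
  Td := Subtype.ext hy.Td
  ST := Subtype.ext hy.ST
  gd := Subtype.ext hy.gd
  gS := Subtype.ext (by
    have := hy.gS
    simpa [ComT.up] using this)
  gT := Subtype.ext (by
    have := hy.gT
    simpa [ComT.up] using this)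
  gH := Subtype.ext hy.gH

/-- the product of a line with a commuting tuple -/
noncomputable def prodA (m : ℕ) (x : Line A) (y : Tup A) : Tup A where
  p := y.p
  g := x.g * y.g
  d := x.d * y.p + x.g * y.d
  S := cc m • (x.S * (y.g * y.S))
  T := star (cc m) • (x.S * (y.T * y.g))
  H := -((4⁻¹ : ℂ) • (star x.d * MM y)) + x.g * y.H

/-- the tuple at the edge -/
def edgeA (e : A) (y : Tup A) : Tup A where
  p := e * y.p
  g := e * y.g
  d := e * y.d
  S := e * y.S
  T := e * y.T
  H := e * y.H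

theorem prod_eq {x : Line A} {y : Tup A} (h : ComT x y) (m : ℕ) :
    prod (TPc x.set) m x.up h.up = prodA m x y := by
  unfold prod prodA
  simp only [TPc_t, ComT.up, Line.up, MM]
  ext1 <;> simp

theorem edge_eq {x : Line A} {y : Tup A} (h : ComT x y) :
    edge (TPc x.set) x.up h.up = edgeA x.e y := rfl

theorem prodA_isPC {x : Line A} {y : Tup A} (h : ComT x y) (hx : x.Is) {m : ℕ}
    (hy : y.IsPC m) : (prodA m x y).IsPC (m + 1) := by
  rw [← prod_eq h]; exact prod_isPC _ hx.up (h.up_isPC hy)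

theorem prodA_coh {x : Line A} {y : Tup A} (h : ComT x y) (hx : x.Is) {m : ℕ}
    (hy : y.IsPC m) (hR : y.S * star y.H + y.H * y.S = 0) :
    (prodA m x y).S * star (prodA m x y).H + (prodA m x y).H * (prodA m x y).S = 0 := by
  rw [← prod_eq h]; exact prod_coh _ hx.up (h.up_isPC hy) (Subtype.ext hR)

end Crest.Agent.R217.Norm551
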