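import Crest.Agent.R217.Grid4_897
import Crest.Agent.R217.Line1_897
import Crest.Agent.R217.Line2_897
import Crest.Agent.R217.LineCom_551

/-! Row 217: matrices acting on one coordinate of the torus grid; `gridT` as a word in them. -/

set_option autoImplicit false
set_option linter.unusedSectionVars false

open Matrix Finset
open scoped BigOperators

namespace Crest.Agent.R217.Grid897

open Crest.Agent.R217.PC473

noncomputable section

variable {n : ℕ} {N : ℕ} [NeZero N]

/-- `M` acting on coordinate `i` -/
def opm (i : Fin n) (M : Matrix (C1 N) (C1 N) ℂ) : Matrix (Cell n N) (Cell n N) ℂ :=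
  tens (Function.update (fun _ => 1) i M)

theorem opm_apply (i : Fin n) (M : Matrix (C1 N) (C1 N) ℂ) (x y : Cell n N) :
    opm i M x y = if ∀ j, j ≠ i → x j = y j then M (x i) (y i) else 0 := by
  rw [opm, tens_apply, ← Finset.mul_prod_erase _ _ (Finset.mem_univ i), Function.update_self]
  split_ifs with h
  · rw [Finset.prod_eq_one, mul_one]
    intro j hj
    rw [Function.update_of_ne (Finset.ne_of_mem_erase hj), h j (Finset.ne_of_mem_erase hj),
      Matrix.one_apply_eq]
  · push Not at h
    obtain ⟨j, hj, hne⟩ := h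
    rw [Finset.prod_eq_zero (Finset.mem_erase.2 ⟨hj, Finset.mem_univ j⟩), mul_zero]
    rw [Function.update_of_ne hj, Matrix.one_apply_ne hne]

theorem opm_mul (i : Fin n) (M M' : Matrix (C1 N) (C1 N) ℂ) :
    opm i (M * M') = opm i M * opm i M' := by
  rw [opm, opm, opm, tens_mul]
  refine tens_congr fun j => ?_
  by_cases h : j = i
  · subst h; simp
  · simp [Function.update_of_ne h]

theorem opm_one (i : Fin n) : opm i (1 : Matrix (C1 N) (C1 N) ℂ) = 1 := by
  rw [opm, ← tens_one]
  exact tens_congr fun j => by by_cases h : j = i <;> simp [h]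

theorem opm_add (i : Fin n) (M M' : Matrix (C1 N) (C1 N) ℂ) :
    opm i (M + M') = opm i M + opm i M' := by
  ext x y
  rw [Matrix.add_apply, opm_apply, opm_apply, opm_apply]
  split_ifs <;> simp

theorem opm_smul (i : Fin n) (c : ℂ) (M : Matrix (C1 N) (C1 N) ℂ) :
    opm i (c • M) = c • opm i M := by
  ext x y
  rw [Matrix.smul_apply, opm_apply, opm_apply]
  split_ifs <;> simp

theorem opm_zero (i : Fin n) : opm i (0 : Matrix (C1 N) (C1 N) ℂ) = 0 := by
  ext x y
  rw [opm_apply]
  split_ifs <;> simp

theorem opm_star (i : Fin n) (M : Matrix (C1 N) (C1 N) ℂ) :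
    opm i (star M) = star (opm i M) := by
  ext x y
  rw [Matrix.star_apply, opm_apply, opm_apply]
  by_cases h : ∀ j, j ≠ i → x j = y j
  · rw [if_pos h, if_pos (fun j hj => (h j hj).symm), Matrix.star_apply]
  · rw [if_neg h, if_neg (fun h' => h fun j hj => (h' j hj).symm), star_zero]

/-- `opm` as a star algebra hom -/
def opi (n N : ℕ) [NeZero N] (i : Fin n) :
    Matrix (C1 N) (C1 N) ℂ →⋆ₐ[ℂ] Matrix (Cell n N) (Cell n N) ℂ where
  toFun := opm i
  map_one' := opm_one i
  map_mul' := opm_mul i
  map_zero' := opm_zero i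
  map_add' := opm_add i
  commutes' c := by rw [Algebra.algebraMap_eq_smul_one, opm_smul, opm_one,
    Algebra.algebraMap_eq_smul_one]
  map_star' := opm_star i

theorem opi_apply (i : Fin n) (M : Matrix (C1 N) (C1 N) ℂ) (x y : Cell n N) :
    opi n N i M x y = if ∀ j, j ≠ i → x j = y j then M (x i) (y i) else 0 := opm_apply i M x y

theorem opi_comm {i j : Fin n} (h : i ≠ j) (M M' : Matrix (C1 N) (C1 N) ℂ) :
    opi n N i M * opi n N j M' = opi n N j M' * opi n N i M := by
  show opm i M * opm j M' = opm j M' * opm i M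
  rw [opm, opm, tens_mul, tens_mul]
  refine tens_congr fun l => ?_
  by_cases h1 : l = i
  · subst h1
    simp [Function.update_of_ne h]
  · by_cases h2 : l = j
    · subst h2
      simp [Function.update_of_ne h.symm]
    · simp [Function.update_of_ne h1, Function.update_of_ne h2]

theorem opi_diagonal (i : Fin n) (D : C1 N → ℂ) :
    opi n N i (Matrix.diagonal D) = Matrix.diagonal fun x => D (x i) := by
  ext x y
  rw [opi_apply, Matrix.diagonal_apply, Matrix.diagonal_apply]
  by_cases h : x = y
  · subst h; simp
  · rw [if_neg h]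
    split_ifs with h1 h2
    · exfalso
      apply h
      funext j
      by_cases hj : j = i
      · subst hj; exact h2
      · exact h1 j hj
    · rfl
    · rfl

/-- `1 ⊗ B` as a star algebra hom -/
def tl (n N : ℕ) [NeZero N] :
    Matrix (Cell n N) (Cell n N) ℂ →⋆ₐ[ℂ] Matrix (Cell (n + 1) N) (Cell (n + 1) N) ℂ where
  toFun B := tc 1 B
  map_one' := tc_one
  map_mul' B B' := by rw [tc_mul, one_mul]
  map_zero' := tc_zero_right _
  map_add' := tc_add_right _
  commutes' c := by rw [Algebra.algebraMap_eq_smul_one, tc_smul_right, tc_one,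
    Algebra.algebraMap_eq_smul_one]
  map_star' B := by rw [star_tc, star_one]

theorem tl_apply (B : Matrix (Cell n N) (Cell n N) ℂ) : tl n N B = tc 1 B := rfl

theorem opi_zero (M : Matrix (C1 N) (C1 N) ℂ) : opi (n + 1) N 0 M = tc M 1 := by
  show opm 0 M = _
  rw [opm, tens_succ, Function.update_self, ← tens_one]
  congr 1

theorem opi_succ (i : Fin n) (M : Matrix (C1 N) (C1 N) ℂ) :
    opi (n + 1) N i.succ M = tl n N (opi n N i M) := by
  show opm i.succ M = tc 1 (opm i M)
  rw [opm, tens_succ, opm, Function.update_of_ne (Fin.succ_ne_zero i).symm]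
  congr 1
  refine tens_congr fun k => ?_
  by_cases h : k = i
  · subst h; simp
  · rw [Function.update_of_ne h, Function.update_of_ne (fun h' => h (Fin.succ_injective _ h'))]

end

/-! ### the word -/

open Norm551

section word

variable {A B : Type*} [Ring A] [StarRing A] [Algebra ℂ A] [StarModule ℂ A]
  [Ring B] [StarRing B] [Algebra ℂ B] [StarModule ℂ B] {ι κ : Type*}

/-- iterated product of lines -/
noncomputable def gl (X : ι → Line A) : List ι → Tup A
  | [] => ⟨1, 1, 0, 1, 1, 0⟩
  | i :: L => prodA L.length (X i) (gl X L)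

theorem gl_map (f : A →⋆ₐ[ℂ] B) (X : ι → Line A) (X' : κ → Line B) (s : ι → κ)
    (hg : ∀ i, (X' (s i)).g = f (X i).g) (hd : ∀ i, (X' (s i)).d = f (X i).d)
    (hS : ∀ i, (X' (s i)).S = f (X i).S) (L : List ι) :
    gl X' (L.map s) = (gl X L).map f := by
  induction L with
  | nil => simp [gl, Tup.map]
  | cons i L ih =>
    rw [List.map_cons, gl, gl, ih, List.length_map]
    simp only [prodA, Tup.map, MM, hg, hd, hS, map_mul, map_add, map_smul, map_neg, map_star]

end word

noncomputable section

/-- the line of the coordinate `i` in the finite matrix algebra -/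
def lineF (n N : ℕ) [NeZero N] (i : Fin n) : Line (Matrix (Cell n N) (Cell n N) ℂ) :=
  lineOf (opi n N i (g1 N)) (opi n N i (d1 N)) (opi n N i (s1 N)) (opi n N i (Pw N))
    (opi n N i (ew N)) (opi n N i (vw N)) (opi n N i (kw N))

theorem gridT_eq_gl (N : ℕ) [NeZero N] : (n : ℕ) →
    gridT N n = gl (lineF n N) (List.finRange n)
  | 0 => by simp [gridT, gl]
  | (n + 1) => by
    have ih := gridT_eq_gl N n
    have hx := gridT_isPC N n
    have h : gl (lineF (n + 1) N) ((List.finRange n).map Fin.succ) =
        (gl (lineF n N) (List.finRange n)).map (tl n N) :=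
      gl_map (tl n N) (lineF n N) (lineF (n + 1) N) Fin.succ
        (fun i => opi_succ i _) (fun i => opi_succ i _) (fun i => opi_succ i _) _
    rw [List.finRange_succ, gl, h, ← ih, List.length_map, List.length_finRange]
    have hMM : MM (gridT N n) = (gridT N n).S * (gridT N n).T := hx.ST.symm
    show circ N n (gridT N n) = _
    unfold circ prodA
    have e0 : MM ((gridT N n).map (tl n N)) = tl n N (MM (gridT N n)) := by
      simp only [MM, Tup.map, map_add, map_mul]
    rw [e0, hMM]
    simp only [Tup.map, lineF, lineOf, opi_zero, tl_apply, tc_mul, mul_one, one_mul,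
      star_tc, star_one, neg_smul, one_div, tc_neg_left]
    simp only [tc_smul_left]

end

end Crest.Agent.R217.Grid897
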