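import Crest.Agent.R217.NormC_551

/-!
Row 217 (S0336), part C1, piece M5-N : iterated products with lines.
-/

set_option autoImplicit false
set_option linter.unusedSectionVars false

namespace Crest.Agent.R217.Norm551

open PC473 Matrix Obj52 RE531

section edge

variable {A : Type*} [Ring A] [StarRing A] [Algebra ℂ A] [StarModule ℂ A]

/-- the unit tuple of a projection -/
def unitT (E : A) : Tup A := ⟨E, E, 0, E, E, 0⟩

theorem edgeA_unitT (e E : A) : edgeA e (unitT E) = unitT (e * E) := by
  simp [edgeA, unitT]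

/-- commutation of a projection with the entries of a tuple -/
structure ComE (e : A) (y : Tup A) : Prop where
  p : e * y.p = y.p * e
  g : e * y.g = y.g * e
  d : e * y.d = y.d * e
  S : e * y.S = y.S * e
  T : e * y.T = y.T * e
  H : e * y.H = y.H * e

theorem key_e {e a b : A} (ee : e * e = e) (h : e * a = a * e) :
    e * a * (e * b) = e * (a * b) := by
  rw [h, mul_assoc, ← mul_assoc e e, ee, ← mul_assoc, ← h, mul_assoc]

/-- restriction to a projection commutes with the product with a line -/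
theorem edgeA_prodA (m : ℕ) {e : A} {x : Line A} {y : Tup A} (ee : e * e = e)
    (hg : e * x.g = x.g * e) (hd : e * x.d = x.d * e) (hsd : e * star x.d = star x.d * e)
    (hS : e * x.S = x.S * e) (hy : ComE e y) :
    edgeA e (prodA m x y) = prodA m x (edgeA e y) := by
  have c : ∀ {a b : A}, e * a = a * e → e * (a * b) = a * (e * b) := fun h => by
    rw [← mul_assoc, h, mul_assoc]
  have k : ∀ {a b : A}, e * a = a * e → e * a * (e * b) = e * (a * b) := fun h => key_e ee h
  ext1 <;> simp only [edgeA, prodA, MM, mul_add, mul_neg, mul_smul_comm]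
  · rw [c hg]
  · rw [c hd, c hg]
  · rw [c hS, k hy.g]
  · rw [c hS, k hy.T]
  · rw [c hsd, c hsd, c hsd, c hg, k hy.d, k hy.H]

theorem comE_edgeA {e e' : A} {y : Tup A} (h : e * e' = e' * e) (hy : ComE e y) :
    ComE e (edgeA e' y) := by
  have c : ∀ {a : A}, e * a = a * e → e * (e' * a) = e' * a * e := fun ha => by
    rw [← mul_assoc, h, mul_assoc, ha, mul_assoc]
  exact ⟨c hy.p, c hy.g, c hy.d, c hy.S, c hy.T, c hy.H⟩

theorem comE_prodA (m : ℕ) {e : A} {x : Line A} {y : Tup A}
    (hg : e * x.g = x.g * e) (hd : e * x.d = x.d * e) (hsd : e * star x.d = star x.d * e)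
    (hS : e * x.S = x.S * e) (hy : ComE e y) : ComE e (prodA m x y) := by
  have c : ∀ {a b : A}, e * a = a * e → e * b = b * e → e * (a * b) = a * b * e :=
    fun ha hb => by rw [← mul_assoc, ha, mul_assoc, hb, mul_assoc]
  have ca : ∀ {a b : A}, e * a = a * e → e * b = b * e → e * (a + b) = (a + b) * e :=
    fun ha hb => by rw [mul_add, add_mul, ha, hb]
  have cs : ∀ {a : A} (z : ℂ), e * a = a * e → e * (z • a) = (z • a) * e :=
    fun z ha => by rw [mul_smul_comm, smul_mul_assoc, ha]
  refine ⟨hy.p, c hg hy.g, ca (c hd hy.p) (c hg hy.d), cs _ (c hS (c hy.g hy.S)),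
    cs _ (c hS (c hy.T hy.g)), ca ?_ (c hg hy.H)⟩
  have h1 : e * MM y = MM y * e := ca (ca hy.p (c hy.d hy.H)) (c hy.H hy.d)
  have h2 := cs (4⁻¹ : ℂ) (c hsd h1)
  rw [mul_neg, h2, neg_mul]

theorem comE_unitT {e E : A} (h : e * E = E * e) : ComE e (unitT E) :=
  ⟨h, h, by simp [unitT], h, h, by simp [unitT]⟩

/-- the iterated product -/
noncomputable def gl (y : Tup A) : List (Line A) → Tup A
  | [] => y
  | x :: L => prodA L.length x (gl y L)

theorem comE_gl {e : A} {y : Tup A} {L : List (Line A)}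
    (hL : ∀ x ∈ L, x.set ⊆ (StarSubalgebra.centralizer ℂ ({e} : Set A) : Set A))
    (hy : ComE e y) : ComE e (gl y L) := by
  induction L with
  | nil => exact hy
  | cons x L ih =>
    have h := hL x List.mem_cons_self
    have hc : ∀ z ∈ x.set, e * z = z * e ∧ star e * z = z * star e := fun z hz =>
      (StarSubalgebra.mem_centralizer_iff ℂ).1 (h hz) e rfl
    have hs : ∀ z ∈ x.set, e * star z = star z * e := fun z hz =>
      ((StarSubalgebra.mem_centralizer_iff ℂ).1 (star_mem (h hz)) e rfl).1
    refine comE_prodA _ ?_ ?_ ?_ ?_ (ih fun x hx => hL x (List.mem_cons_of_mem _ hx))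
    · exact (hc _ (by simp [Line.set])).1
    · exact (hc _ (by simp [Line.set])).1
    · exact hs _ (by simp [Line.set])
    · exact (hc _ (by simp [Line.set])).1

theorem edgeA_gl {e E : A} {L : List (Line A)} (ee : e * e = e) (he : e * E = E * e)
    (hL : ∀ x ∈ L, x.set ⊆ (StarSubalgebra.centralizer ℂ ({e} : Set A) : Set A)) :
    edgeA e (gl (unitT E) L) = gl (unitT (e * E)) L := by
  induction L with
  | nil => exact edgeA_unitT e E
  | cons x L ih =>
    have h := hL x List.mem_cons_self
    have hc : ∀ z ∈ x.set, e * z = z * e ∧ star e * z = z * star e := fun z hz =>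
      (StarSubalgebra.mem_centralizer_iff ℂ).1 (h hz) e rfl
    have hs : ∀ z ∈ x.set, e * star z = star z * e := fun z hz =>
      ((StarSubalgebra.mem_centralizer_iff ℂ).1 (star_mem (h hz)) e rfl).1
    have hL' := fun x hx => hL x (List.mem_cons_of_mem _ hx)
    show edgeA e (prodA L.length x (gl (unitT E) L)) = prodA L.length x (gl (unitT (e * E)) L)
    rw [edgeA_prodA L.length ee (hc _ (by simp [Line.set])).1 (hc _ (by simp [Line.set])).1
      (hs _ (by simp [Line.set])) (hc _ (by simp [Line.set])).1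
      (comE_gl hL' (comE_unitT he)), ih hL']

theorem comT_gl {x : Line A} {y : Tup A} {L : List (Line A)}
    (hL : ∀ x' ∈ L, x'.set ⊆ (StarSubalgebra.centralizer ℂ x.set : Set A))
    (hy : ComT x y) : ComT x (gl y L) := by
  induction L with
  | nil => exact hy
  | cons x' L ih =>
    have h := hL x' List.mem_cons_self
    have ih' := ih fun x hx => hL x (List.mem_cons_of_mem _ hx)
    have hg : x'.g ∈ StarSubalgebra.centralizer ℂ x.set := h (by simp [Line.set])
    have hd : x'.d ∈ StarSubalgebra.centralizer ℂ x.set := h (by simp [Line.set])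
    have hS : x'.S ∈ StarSubalgebra.centralizer ℂ x.set := h (by simp [Line.set])
    refine ⟨ih'.p, mul_mem hg ih'.g, add_mem (mul_mem hd ih'.p) (mul_mem hg ih'.d),
      SMulMemClass.smul_mem _ (mul_mem hS (mul_mem ih'.g ih'.S)),
      SMulMemClass.smul_mem _ (mul_mem hS (mul_mem ih'.T ih'.g)),
      add_mem (neg_mem (SMulMemClass.smul_mem _ (mul_mem (star_mem hd) ?_))) (mul_mem hg ih'.H)⟩
    exact add_mem (add_mem ih'.p (mul_mem ih'.d ih'.H)) (mul_mem ih'.H ih'.d)

theorem comT_unitT {x : Line A} {E : A} (h : E ∈ StarSubalgebra.centralizer ℂ x.set) :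
    ComT x (unitT E) := ⟨h, h, zero_mem _, h, h, zero_mem _⟩

theorem unitT_isPC {E : A} (h : E * E = E) (hs : star E = E) : (unitT E).IsPC 0 := by
  constructor <;> simp [unitT, h, hs]

end edge

section frame

variable {κ : Type*} {R : Type*} [Ring R] [StarRing R] [Algebra ℂ R] [StarModule ℂ R]
variable {J : Type*} [Fintype J] [DecidableEq J]

/-- a line with its direction and degree function -/
structure LD (κ : Type*) (J R : Type*) where
  k : κ
  dg : J → ℤ
  X : Line (Matrix J J R)

/-- the degree function of the product -/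
def dgl (L : List (LD κ J R)) : J → ℤ :=
  match L with
  | [] => fun _ => 0
  | a :: L => fun j => a.dg j + dgl L j

/-- compatibility of two lines -/
structure Cmp (a b : LD κ J R) : Prop where
  ab : Pres b.dg a.X
  ba : Pres a.dg b.X
  com : b.X.set ⊆ (StarSubalgebra.centralizer ℂ a.X.set : Set (Matrix J J R))

variable {F : Frame κ R} {m : ℕ} {S : Set κ} {L : List (LD κ J R)} {a : LD κ J R}
  {y : Tup (Matrix J J R)} {E : Matrix J J R}

theorem pres_dgl (h : ∀ b ∈ L, Pres b.dg a.X) : Pres (dgl L) a.X := by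
  induction L with
  | nil => constructor <;> exact fun i j h => absurd rfl h
  | cons b L ih =>
    have h1 := h b List.mem_cons_self
    have h2 := ih fun b hb => h b (List.mem_cons_of_mem _ hb)
    exact ⟨Hm.both h1.hd h2.hd, Hm.both h1.hS h2.hS, Hm.both h1.ha h2.ha, Hm.both h1.hb h2.hb,
      Hm.both h1.hc h2.hc⟩

theorem presT_prodA {dx dy : J → ℤ} {x : Line (Matrix J J R)} (hg : DgC F x.g)
    (hx : Pres dx x) (hy : PresT dx y) (hyp : DgC F y.p) (hyg : DgC F y.g) :
    PresT dx (prodA m x y) := by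
  have kg : Hm dx dx x.g := hg.hmc fun _ => rfl
  have kp : Hm dx dx y.p := hyp.hmc fun _ => rfl
  have kyg : Hm dx dx y.g := hyg.hmc fun _ => rfl
  constructor
  · exact (hx.hd.mulc kp).addc (kg.mulc hy.hd)
  · exact (hx.hS.mulc (kyg.mulc hy.hS)).smulCc _
  · exact (hx.hS.mulc (hy.hT.mulc kyg)).smulCc _
  · refine Hm.addc (Hm.negc (Hm.smulCc (hx.hd.starc.mulc ?_) _)) (kg.mulc hy.hH)
    exact (kp.addc (hy.hd.mulc hy.hH)).addc (hy.hH.mulc hy.hd)

theorem unitT_isOT (hE : E * E = E) (hs : star E = E) (hD : DgC F E)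
    (hlo : ∀ k ∈ S, BdLo F k E) (hhi : ∀ k ∈ S, BdHi F k E) :
    IsOT F 0 S (fun _ => 0) (unitT E) where
  pc := unitT_isPC hE hs
  pd := hD
  gd := hD
  hd := Hm.zeroc
  hS := hD.hmc fun _ => rfl
  hT := hD.hmc fun _ => rfl
  hH := Hm.zeroc
  lo := hlo
  hi := hhi

theorem presT_unitT (dx : J → ℤ) (hD : DgC F E) : PresT dx (unitT E) :=
  ⟨Hm.zeroc, hD.hmc fun _ => rfl, hD.hmc fun _ => rfl, Hm.zeroc⟩

/-- a list of compatible lines -/
structure Good (F : Frame κ R) (L : List (LD κ J R)) : Prop where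
  line : ∀ a ∈ L, LineF F a.k a.dg a.X
  cmp : L.Pairwise Cmp

theorem Good.tail (h : Good F (a :: L)) : Good F L :=
  ⟨fun b hb => h.line b (List.mem_cons_of_mem _ hb), (List.pairwise_cons.1 h.cmp).2⟩

/-- hypotheses on the base projection -/
structure Base (F : Frame κ R) (S : Set κ) (L : List (LD κ J R)) (E : Matrix J J R) : Prop where
  EE : E * E = E
  sE : star E = E
  ED : DgC F E
  lo : ∀ k ∈ S, BdLo F k E
  hi : ∀ k ∈ S, BdHi F k E
  com : ∀ a ∈ L, E ∈ StarSubalgebra.centralizer ℂ a.X.set

/-- the product tuple -/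
noncomputable def glL (E : Matrix J J R) (L : List (LD κ J R)) : Tup (Matrix J J R) :=
  gl (unitT E) (L.map LD.X)

theorem glL_cons : glL E (a :: L) = prodA L.length a.X (glL E L) := by
  simp [glL, gl]

theorem glL_p : (glL E L).p = E := by
  induction L with
  | nil => rfl
  | cons a L ih => rw [glL_cons]; exact ih

/-- everything about the product tuple -/
structure Tot (F : Frame κ R) (S : Set κ) (L : List (LD κ J R)) (E : Matrix J J R) : Prop where
  ot : IsOT F L.length S (dgl L) (glL E L)
  coh : (glL E L).S * star (glL E L).H + (glL E L).H * (glL E L).S = 0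

theorem comT_glL (h : ∀ b ∈ L, b.X.set ⊆ (StarSubalgebra.centralizer ℂ a.X.set : Set _))
    (hE : E ∈ StarSubalgebra.centralizer ℂ a.X.set) : ComT a.X (glL E L) := by
  refine comT_gl ?_ (comT_unitT hE)
  intro x hx
  obtain ⟨b, hb, rfl⟩ := List.mem_map.1 hx
  exact h b hb

theorem presT_glL (hg : Good F L) (hb : Base F S L E) (ht : ∀ L', L' <:+ L → Tot F S L' E)
    {dx : J → ℤ} (h : ∀ b ∈ L, Pres dx b.X) : PresT dx (glL E L) := by
  induction L with
  | nil => exact presT_unitT dx hb.ED
  | cons a L ih =>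
    rw [glL_cons]
    have h1 := ht L (List.suffix_cons _ _)
    refine presT_prodA (F := F) (dy := dx) (hg.line a List.mem_cons_self).gD
      (h a List.mem_cons_self)
      (ih hg.tail ⟨hb.EE, hb.sE, hb.ED, hb.lo, hb.hi, fun b hb' =>
        hb.com b (List.mem_cons_of_mem _ hb')⟩ (fun L' hL' => ht L' (hL'.trans
          (List.suffix_cons _ _))) fun b hb => h b (List.mem_cons_of_mem _ hb)) h1.ot.pd h1.ot.gd

theorem Base.tail (hb : Base F S (a :: L) E) : Base F S L E :=
  ⟨hb.EE, hb.sE, hb.ED, hb.lo, hb.hi, fun b hb' => hb.com b (List.mem_cons_of_mem _ hb')⟩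

theorem tot (hg : Good F L) (hb : Base F S L E) : ∀ L', L' <:+ L → Tot F S L' E := by
  induction L with
  | nil =>
    intro L' hL'
    rw [List.suffix_nil.1 hL']
    refine ⟨unitT_isOT hb.EE hb.sE hb.ED hb.lo hb.hi, ?_⟩
    simp [glL, gl, unitT]
  | cons a L ih =>
    intro L' hL'
    have ih' := ih hg.tail hb.tail
    rcases List.suffix_cons_iff.1 hL' with rfl | h
    · have h1 := ih' L List.suffix_rfl
      have hcm := (List.pairwise_cons.1 hg.cmp).1
      have hla := hg.line a List.mem_cons_self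
      have hc : ComT a.X (glL E L) :=
        comT_glL (fun b hb' => (hcm b hb').com) (hb.com a List.mem_cons_self)
      have hP : PresT a.dg (glL E L) :=
        presT_glL hg.tail hb.tail ih' fun b hb' => (hcm b hb').ba
      refine ⟨?_, ?_⟩
      · rw [glL_cons]
        exact isOT_prodA hla (pres_dgl fun b hb' => (hcm b hb').ab) hc h1.ot hP
      · rw [glL_cons]
        exact prodA_coh hc hla.is h1.ot.pc h1.coh
    · exact ih' L' h

end frame

end Crest.Agent.R217.Norm551
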