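import Crest.Agent.R217.NormD_551
import Crest.Agent.R217.Ind_52
import Crest.Agent.R217.RE4_531

/-!
Row 217 (S0336), part C1, piece M5-N : the normalisation induction.
-/

set_option autoImplicit false
set_option linter.unusedSectionVars false

namespace Crest.Agent.R217.Norm551

open PC473 Matrix Obj52 RE531 Sig52 Ind52

section main

variable {κ : Type*} {R0 R1 : Type*} [Ring R0] [StarRing R0] [Algebra ℂ R0] [StarModule ℂ R0]
    [Ring R1] [StarRing R1] [Algebra ℂ R1] [StarModule ℂ R1]
    {F0 : Frame κ R0} {F1 : Frame κ R1} {G : Type*} [AddCommGroup G] (P : SgP F0 F1 G)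

/-- independence of the cut -/
def CutInd : Prop :=
  ∀ {J : Type} [Fintype J] [DecidableEq J] {a : Par κ} {l : List (Par κ)},
    (∀ b ∈ a :: l, b.Ok F0) → ∀ {S : Set κ} {deg : J → ℤ} {z : Tup (Matrix J J R0)},
    IsOT F0 (l.length + 1) S deg z → Cov S (a :: l) → ∀ {Pw : Matrix J J R0}
    {Gw Qw : Matrix (Fin 2) (Fin 2) (Matrix J J R0)},
    Adm F0 a.k l.length deg z Pw Gw Qw →
    sig F0 P.L l (ob (degB l.length deg) (cutT F0 a l.length deg z))
      = sig F0 P.L l (ob (degB l.length deg) (cutR l.length z Pw Gw Qw))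

/-- the double of an honest object -/
def Two : Prop :=
  ∀ {J : Type} [Fintype J] [DecidableEq J] {a : Par κ} {l : List (Par κ)},
    (∀ b ∈ a :: l, b.Ok F0) → ∀ {S : Set κ} {deg : J → ℤ} {z : Tup (Matrix J J R0)},
    IsOT F0 (l.length + 1) S deg z → Cov S (a :: l) →
    sig F0 P.L (a :: l) (ob deg (rpT z))
      = 2 • sig F0 P.L l (ob (degB l.length deg) (cutT F0 a l.length deg z))

/-- lemma RE -/
def Re : Prop :=
  ∀ {J J' : Type} [Fintype J] [DecidableEq J] [Fintype J'] [DecidableEq J'] {l : List (Par κ)},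
    (∀ b ∈ l, b.Ok F0) → ∀ {S : Set κ} {deg : J → ℤ} {deg' : J' → ℤ}
    {x : RPr (Matrix J J R0)} {y : RPr (Matrix J' J' R0)} {α : Matrix J' J R0},
    IsOb F0 l.length S deg x → IsOb F0 l.length S deg' y → Cov S l →
    HypR l.length x y α 0 0 → HmR deg' deg α →
    sig F0 P.L l (ob deg x) = sig F0 P.L l (ob deg' y)

variable {J : Type} [Fintype J] [DecidableEq J]

/-- the product of the edge projections -/
noncomputable def prodE (L : List (LD κ J R0)) (E : Matrix J J R0) : Matrix J J R0 :=
  match L with
  | [] => E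
  | a :: L => prodE L (a.X.e * E)

theorem cmp_e {a b : LD κ J R0} (h : Cmp a b) :
    b.X.set ⊆ (StarSubalgebra.centralizer ℂ ({a.X.e} : Set (Matrix J J R0)) : Set _) := by
  intro z hz
  have h1 := (StarSubalgebra.mem_centralizer_iff ℂ).1 (h.com hz) a.X.e (by simp [Line.set])
  refine (StarSubalgebra.mem_centralizer_iff ℂ).2 fun w hw => ?_
  rw [Set.mem_singleton_iff.1 hw]
  exact h1

theorem base_step {S : Set κ} {L : List (LD κ J R0)} {a : LD κ J R0} {E : Matrix J J R0}
    (hg : Good F0 (a :: L)) (hb : Base F0 S (a :: L) E) :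
    Base F0 (insert a.k S) L (a.X.e * E) := by
  have hla := hg.line a List.mem_cons_self
  have hcm := (List.pairwise_cons.1 hg.cmp).1
  have hcE : a.X.e * E = E * a.X.e :=
    ((StarSubalgebra.mem_centralizer_iff ℂ).1 (hb.com a List.mem_cons_self) a.X.e
      (by simp [Line.set])).1
  have hc : ComT a.X (unitT E) := comT_unitT (hb.com a List.mem_cons_self)
  have h1 := isOT_edgeA hla hc (unitT_isOT hb.EE hb.sE hb.ED hb.lo hb.hi)
  rw [edgeA_unitT] at h1
  refine ⟨h1.pc.pp, h1.pc.sp, h1.pd, h1.lo, h1.hi, fun b hb' => ?_⟩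
  have h2 := hb.com b (List.mem_cons_of_mem _ hb')
  refine mul_mem ?_ h2
  refine (StarSubalgebra.mem_centralizer_iff ℂ).2 fun z hz => ?_
  have h3 := (StarSubalgebra.mem_centralizer_iff ℂ).1 ((hcm b hb').com hz) a.X.e
    (by simp [Line.set])
  refine ⟨h3.1.symm, ?_⟩
  have h4 := congrArg star h3.1
  rw [star_mul, star_mul, hla.is.se] at h4
  exact h4

/-- the normalisation induction -/
theorem norm_ind (hI : CutInd P) (h2 : Two P) (hRe : Re P) {l : List (Par κ)}
    (hl : ∀ a ∈ l, a.Ok F0) {S : Set κ} {L : List (LD κ J R0)} {E : Matrix J J R0}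
    (hk : l.map Par.k = L.map LD.k) (hc : Cov S l) (hg : Good F0 L) (hb : Base F0 S L E) :
    sig F0 P.L l (ob (dgl L) (rpT (glL E L)))
      = (2 ^ L.length) • sig F0 P.L [] (ob (fun _ => 0) (rpT (unitT (prodE L E)))) := by
  induction l generalizing S L E with
  | nil =>
    cases L with
    | nil => simp [prodE, glL, gl, dgl]
    | cons a L => simp at hk
  | cons a l ih =>
    cases L with
    | nil => simp at hk
    | cons b L =>
      simp only [List.map_cons, List.cons.injEq] at hk
      obtain ⟨hk1, hk2⟩ := hk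
      have hlen : l.length = L.length := by
        have := congrArg List.length hk2
        simpa using this
      have hl' : ∀ b ∈ l, b.Ok F0 := fun b hb => hl b (List.mem_cons_of_mem _ hb)
      have hla := hg.line b List.mem_cons_self
      have hcm := (List.pairwise_cons.1 hg.cmp).1
      have ht := tot hg.tail hb.tail L List.suffix_rfl
      have htt := tot hg hb _ List.suffix_rfl
      have hcT : ComT b.X (glL E L) :=
        comT_glL (fun b hb' => (hcm b hb').com) (hb.com b List.mem_cons_self)
      have hP : PresT b.dg (glL E L) :=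
        presT_glL hg.tail hb.tail (tot hg.tail hb.tail) fun b hb' => (hcm b hb').ba
      have hPr : Pres (dgl L) b.X := pres_dgl fun b hb' => (hcm b hb').ab
      have hot : IsOT F0 (l.length + 1) S (dgl (b :: L)) (glL E (b :: L)) := by
        have := htt.ot
        rwa [List.length_cons, ← hlen] at this
      have hy : IsOT F0 l.length S (dgl L) (glL E L) := by rw [hlen]; exact ht.ot
      have hadm := adm hla hPr hcT hy hP ht.coh
      have hcut := isOT_edgeA hla hcT hy
      have hz : prodA l.length b.X (glL E L) = glL E (b :: L) := by rw [glL_cons, hlen]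
      have hbs := base_step hg hb
      rw [h2 hl hot hc]
      have e1 : sig F0 P.L l (ob (degB l.length (dgl (b :: L)))
          (cutT F0 a l.length (dgl (b :: L)) (glL E (b :: L))))
          = sig F0 P.L l (ob (degB l.length (dgl (b :: L)))
            (cutR l.length (glL E (b :: L)) (b.X.P * (glL E L).p) (Lc l.length hcT) (Qc hcT))) := by
        refine hI hl hot hc ?_
        rw [hk1, ← hz]
        exact hadm
      have e2 : sig F0 P.L l (ob (dgl L) (rpT (edgeA b.X.e (glL E L))))
          = sig F0 P.L l (ob (degB l.length (dgl (b :: L)))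
            (cutR l.length (glL E (b :: L)) (b.X.P * (glL E L).p) (Lc l.length hcT) (Qc hcT))) := by
        refine hRe (S := insert b.k S) hl' (isOb_rpT hcut) ?_ ?_ ?_ (hmR_alp hla hPr hcT hy)
        · rw [← hz]
          refine Cut1x473.T2 ?_ hadm
          rw [hz]; exact hot
        · rw [← hk1]; exact hc.tail
        · rw [← hz]
          exact hypR hla.is hcT hy.pc ht.coh hcut.pc
      have e3 : edgeA b.X.e (glL E L) = glL (b.X.e * E) L := by
        unfold glL
        refine edgeA_gl hla.is.ee ?_ ?_
        · exact ((StarSubalgebra.mem_centralizer_iff ℂ).1 (hb.com b List.mem_cons_self) b.X.e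
            (by simp [Line.set])).1
        · intro x hx
          obtain ⟨b', hb', rfl⟩ := List.mem_map.1 hx
          exact cmp_e (hcm b' hb')
      rw [e1, ← e2, e3, ih hl' (S := insert b.k S) hk2 (by rw [← hk1]; exact hc.tail) hg.tail hbs]
      rw [smul_smul, List.length_cons, pow_succ, mul_comm]
      rfl

end main

end Crest.Agent.R217.Norm551
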