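import Crest.Agent.R217.NormE_551

/-!
Row 217 (S0336), part C1, piece M5-N : the base of the normalisation: a single projection.
-/

set_option autoImplicit false
set_option linter.unusedSectionVars false

namespace Crest.Agent.R217.Norm551

open PC473 Matrix Obj52 RE531 Sig52 Ind52 Sum52 Nat52 TForm555 LocF555

section base

variable {κ : Type*} {R0 R1 : Type*} [Ring R0] [StarRing R0] [Algebra ℂ R0] [StarModule ℂ R0]
    [Ring R1] [StarRing R1] [Algebra ℂ R1] [StarModule ℂ R1]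
    {F0 : Frame κ R0} {F1 : Frame κ R1} {G : Type*} [AddCommGroup G] (P : SgP F0 F1 G)
    {J : Type} [Fintype J] [DecidableEq J]

theorem sg_sm {a b : Matrix J J R0} (oa : P.L.ok a) (ob : P.L.ok b) (ha : aᴴ = a) (hb : bᴴ = b) :
    P.L.sg (sm a b) = P.L.sg a + P.L.sg b := by
  have ok0 : P.L.ok (0 : Matrix J J R0) := by
    have := P.L.ok_sub _ _ oa oa
    rwa [sub_self] at this
  have okB : P.L.ok (fromBlocks a 0 0 b) := P.L.ok_blocks _ _ _ _ oa ok0 ok0 ob
  have hhB : (fromBlocks a 0 0 b)ᴴ = fromBlocks a 0 0 b := by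
    rw [fromBlocks_conjTranspose, ha, hb, conjTranspose_zero]
  rw [← cj_s2, sg_cj P _ hhB okB, P.L.sg_blocks _ _ oa ob ha hb]

theorem frm_unit {E : Matrix J J R0} (hE : E * E = E) (hs : star E = E) :
    frm (rpT (unitT E)) = sm (fl !![E, E; E, 2 * E]) (fl !![2 * E, -E; -E, E]) := by
  have e0 : cc 0 = 1 := by simp [cc]
  have hd : dblT 0 (rpT (unitT E)) = ⟨fl !![E, 0; 0, E], fl !![E, 0; 0, E], 0,
      fl !![E, E; E, 2 * E], fl !![2 * E, -E; -E, E], 0⟩ := by
    unfold dblT dbl rpT unitT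
    have h1 : (2 : Matrix J J R0) * (2 * E - E) = 2 * E := by
      congr 1
      rw [two_mul E, add_sub_cancel_right]
    simp only [Tup.map, Tup.mk.injEq, pow_zero, one_mul, aa, e0, one_smul, hE, star_zero, zero_mul,
      mul_zero, h1]
    refine ⟨trivial, trivial, ?_, trivial, ?_, ?_⟩
    · rw [← zero_fin2]; rfl
    · congr 1
      have h2 : (2 : Matrix J J R0) * E - E = E := by
        rw [two_mul E, add_sub_cancel_right]
      rw [h2, hE]
    · rw [← zero_fin2]; rfl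
  unfold frm
  rw [hd]
  have a1 : (fl !![E, E; E, 2 * E] : Matrix (Fin 2 × J) (Fin 2 × J) R0) * fl !![E, 0; 0, E]
      = fl !![E, E; E, 2 * E] := by
    rw [← Nat52.fl_mul, mul_fin_two]
    simp only [mul_zero, zero_mul, add_zero, zero_add, hE, mul_assoc]
  have a2 : (fl !![2 * E, -E; -E, E] : Matrix (Fin 2 × J) (Fin 2 × J) R0) * fl !![E, E; E, 2 * E]
      = fl !![E, 0; 0, E] := by
    rw [← Nat52.fl_mul, mul_fin_two]
    congr 1
    refine fin2_eq ?_ ?_ ?_ ?_ <;>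
      simp only [mul_assoc, hE, two_mul, mul_add, add_mul, neg_mul, mul_neg] <;> abel
  have a3 : (fl !![E, 0; 0, E] : Matrix (Fin 2 × J) (Fin 2 × J) R0) * fl !![2 * E, -E; -E, E]
      = fl !![2 * E, -E; -E, E] := by
    rw [← Nat52.fl_mul, mul_fin_two]
    congr 1
    refine fin2_eq ?_ ?_ ?_ ?_ <;>
      simp only [mul_assoc, hE, two_mul, mul_add, add_mul, neg_mul, mul_neg, zero_mul] <;> abel
  have a4 : (fl !![2 * E, -E; -E, E] : Matrix (Fin 2 × J) (Fin 2 × J) R0) * fl !![E, 0; 0, E]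
      = fl !![2 * E, -E; -E, E] := by
    rw [← Nat52.fl_mul, mul_fin_two]
    congr 1
    refine fin2_eq ?_ ?_ ?_ ?_ <;>
      simp only [mul_assoc, hE, two_mul, mul_add, add_mul, neg_mul, mul_neg, mul_zero] <;> abel
  have hx : xi (⟨fl !![E, 0; 0, E], fl !![E, 0; 0, E], 0,
      fl !![E, E; E, 2 * E], fl !![2 * E, -E; -E, E], 0⟩ : Tup (Matrix (Fin 2 × J) (Fin 2 × J) R0))
      = 0 := by
    simp [xi]
  unfold tform ac dc gc TForm555.uu yy TForm555.sw
  rw [hx]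
  unfold sm
  congr 1
  simp only [mul_fin_two, add_fin2, mul_zero, zero_mul, add_zero, zero_add, star_zero, neg_zero,
    smul_zero, a1, a2, a3, a4]

theorem sig_unit {E : Matrix J J R0} (hE : E * E = E) (hs : star E = E) (hD : DgC F0 E)
    (hlo : ∀ k, BdLo F0 k E) (hhi : ∀ k, BdHi F0 k E) :
    sig F0 P.L [] (ob (fun _ => 0) (rpT (unitT E))) = 4 • P.L.sg E := by
  show P.L.sg (frm (rpT (unitT E))) = _
  rw [frm_unit hE hs]
  have okE : P.L.ok E := P.ok_cpt E E hD hE hs hlo hhi hE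
  have hsE : Eᴴ = E := hs
  have okD : P.L.ok (sm E E) := by
    refine P.ok_cpt (sm E E) _ (hD.fl2c hD) ?_ ?_ (fun k => BdLo_sm (hlo k) (hlo k))
      (fun k => BdHi_sm (hhi k) (hhi k)) ?_
    · rw [sm_mul, hE]
    · rw [sm_star, hs]
    · rw [sm_mul, hE]
  have hhD : (sm E E)ᴴ = sm E E := by
    have := sm_star E E
    rw [hs] at this
    exact this
  have hsgD : P.L.sg (sm E E) = P.L.sg E + P.L.sg E := sg_sm P okE okE hsE hsE
  have hC : IsUnit (fl !![1, 1; 0, 1] : Matrix (Fin 2 × J) (Fin 2 × J) R0) := by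
    refine ⟨⟨fl !![1, 1; 0, 1], fl !![1, -1; 0, 1], ?_, ?_⟩, rfl⟩ <;>
    · rw [← Nat52.fl_mul, mul_fin_two, ← Nat52.fl_one (R := R0) (J := J)]
      congr 1
      rw [one_fin_two]
      refine fin2_eq ?_ ?_ ?_ ?_ <;> simp
  have hC' : IsUnit (fl !![1, 0; -1, 1] : Matrix (Fin 2 × J) (Fin 2 × J) R0) := by
    refine ⟨⟨fl !![1, 0; -1, 1], fl !![1, 0; 1, 1], ?_, ?_⟩, rfl⟩ <;>
    · rw [← Nat52.fl_mul, mul_fin_two, ← Nat52.fl_one (R := R0) (J := J)]
      congr 1
      rw [one_fin_two]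
      refine fin2_eq ?_ ?_ ?_ ?_ <;> simp
  have hX : (fl !![E, E; E, 2 * E] : Matrix (Fin 2 × J) (Fin 2 × J) R0)
      = (fl !![1, 1; 0, 1])ᴴ * sm E E * fl !![1, 1; 0, 1] := by
    have h1 : (fl !![1, 1; 0, 1] : Matrix (Fin 2 × J) (Fin 2 × J) R0)ᴴ = fl !![1, 0; 1, 1] := by
      have := Cut1x473.fl_star (!![1, 1; 0, 1] : Matrix (Fin 2) (Fin 2) (Matrix J J R0))
      rw [star_fin2] at this
      simp only [star_one, star_zero] at this
      exact this.symm
    rw [h1]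
    unfold sm
    rw [← Nat52.fl_mul, ← Nat52.fl_mul, mul_fin_two, mul_fin_two]
    congr 1
    refine fin2_eq ?_ ?_ ?_ ?_ <;> simp [two_mul]
  have hY : (fl !![2 * E, -E; -E, E] : Matrix (Fin 2 × J) (Fin 2 × J) R0)
      = (fl !![1, 0; -1, 1])ᴴ * sm E E * fl !![1, 0; -1, 1] := by
    have h1 : (fl !![1, 0; -1, 1] : Matrix (Fin 2 × J) (Fin 2 × J) R0)ᴴ = fl !![1, -1; 0, 1] := by
      have := Cut1x473.fl_star (!![1, 0; -1, 1] : Matrix (Fin 2) (Fin 2) (Matrix J J R0))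
      rw [star_fin2] at this
      simp only [star_one, star_zero, star_neg] at this
      exact this.symm
    rw [h1]
    unfold sm
    rw [← Nat52.fl_mul, ← Nat52.fl_mul, mul_fin_two, mul_fin_two]
    congr 1
    refine fin2_eq ?_ ?_ ?_ ?_ <;> simp [two_mul]
  have okX : P.L.ok (fl !![E, E; E, 2 * E] : Matrix (Fin 2 × J) (Fin 2 × J) R0) := by
    rw [hX]; exact P.L.ok_mul_right _ _ (P.L.ok_mul_left _ _ okD)
  have okY : P.L.ok (fl !![2 * E, -E; -E, E] : Matrix (Fin 2 × J) (Fin 2 × J) R0) := by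
    rw [hY]; exact P.L.ok_mul_right _ _ (P.L.ok_mul_left _ _ okD)
  have hhX : (fl !![E, E; E, 2 * E] : Matrix (Fin 2 × J) (Fin 2 × J) R0)ᴴ
      = fl !![E, E; E, 2 * E] := by
    rw [hX]
    simp only [conjTranspose_mul, conjTranspose_conjTranspose, hhD, Matrix.mul_assoc]
  have hhY : (fl !![2 * E, -E; -E, E] : Matrix (Fin 2 × J) (Fin 2 × J) R0)ᴴ
      = fl !![2 * E, -E; -E, E] := by
    rw [hY]
    simp only [conjTranspose_mul, conjTranspose_conjTranspose, hhD, Matrix.mul_assoc]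
  rw [sg_sm P okX okY hhX hhY, hX, hY, P.L.sg_congr _ _ okD hhD hC, P.L.sg_congr _ _ okD hhD hC',
    hsgD]
  abel

end base

end Crest.Agent.R217.Norm551
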