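import Crest.Agent.R217.NormF_551
import Crest.Agent.R217.SgPAsy_476

/-!
Row 217 (S0336), part C1, piece M5-N : the normalisation in the asymptotic algebra.
-/

set_option autoImplicit false
set_option linter.unusedSectionVars false

open Filter Topology Matrix

namespace Crest.Agent.R217.Norm551

open PC473 Obj52 RE531 Sig52 Ind52 Asym476 Sig330

section base

variable {κ : Type*} {R0 R1 : Type*} [Ring R0] [StarRing R0] [Algebra ℂ R0] [StarModule ℂ R0]
    [Ring R1] [StarRing R1] [Algebra ℂ R1] [StarModule ℂ R1]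
    {F0 : Frame κ R0} {F1 : Frame κ R1} {G : Type*} [AddCommGroup G] (P : SgP F0 F1 G)
    {J : Type} [Fintype J] [DecidableEq J]

theorem base_prodE {S : Set κ} {L : List (LD κ J R0)} {E : Matrix J J R0}
    (hg : Good F0 L) (hb : Base F0 S L E) :
    Base F0 (S ∪ {k | ∃ a ∈ L, a.k = k}) [] (prodE L E) := by
  induction L generalizing S E with
  | nil =>
    have : S ∪ {k | ∃ a ∈ ([] : List (LD κ J R0)), a.k = k} = S := by ext; simp
    rw [this]; exact hb
  | cons a L ih =>
    have h := ih hg.tail (base_step hg hb)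
    have e : S ∪ {k | ∃ b ∈ a :: L, b.k = k} = insert a.k S ∪ {k | ∃ b ∈ L, b.k = k} := by
      ext k
      simp only [Set.mem_union, Set.mem_setOf_eq, List.mem_cons, Set.mem_insert_iff,
        exists_eq_or_imp]
      constructor
      · rintro (h | h | h)
        · exact Or.inl (Or.inr h)
        · exact Or.inl (Or.inl h.symm)
        · exact Or.inr h
      · rintro ((h | h) | h)
        · exact Or.inr (Or.inl h.symm)
        · exact Or.inl h
        · exact Or.inr (Or.inr h)
    rw [e]; exact h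

theorem base_one {L : List (LD κ J R0)} : Base F0 ∅ L (1 : Matrix J J R0) where
  EE := one_mul _
  sE := star_one _
  ED := dgc_one
  lo := fun k hk => absurd hk (Set.notMem_empty k)
  hi := fun k hk => absurd hk (Set.notMem_empty k)
  com := fun a _ => one_mem _

/-- the normalisation: signature of the iterated product of lines -/
theorem norm_all (hI : CutInd P) (h2 : Two P) (hRe : Re P) {l : List (Par κ)}
    (hl : ∀ a ∈ l, a.Ok F0) {L : List (LD κ J R0)}
    (hk : l.map Par.k = L.map LD.k) (hc : ∀ k, ∃ a ∈ l, a.k = k) (hg : Good F0 L) :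
    sig F0 P.L l (ob (dgl L) (rpT (glL 1 L))) = (2 ^ L.length * 4) • P.L.sg (prodE L 1) := by
  have hcov : Cov ∅ l := fun k => Or.inr (hc k)
  have hb := base_prodE hg (base_one (F0 := F0) (L := L))
  have hall : ∀ k, k ∈ (∅ : Set κ) ∪ {k | ∃ a ∈ L, a.k = k} := by
    intro k
    right
    obtain ⟨a, ha, rfl⟩ := hc k
    have h1 : a.k ∈ l.map Par.k := List.mem_map_of_mem ha
    rw [hk] at h1
    obtain ⟨b, hb, h2⟩ := List.mem_map.1 h1
    exact ⟨b, hb, h2⟩
  rw [norm_ind P hI h2 hRe hl hk hcov hg base_one,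
    sig_unit P hb.EE hb.sE hb.ED (fun k => hb.lo k (hall k)) (fun k => hb.hi k (hall k)),
    smul_smul]

theorem dgl_eq_sum (L : List (LD κ J R0)) (j : J) :
    dgl L j = (L.map fun a => a.dg j).sum := by
  induction L with
  | nil => rfl
  | cons a L ih => simp [dgl, ih]

end base

section asy

variable {A : Type} {B : A → Type} [∀ a, Fintype (B a)] [∀ a, DecidableEq (B a)]
variable {κ : Type} [Fintype κ] {C : Ctl B}
  {J : Type} [Fintype J] [DecidableEq J]

theorem diag_ind_mul (E E' : J → ∀ a, B a → Prop) :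
    (Matrix.diagonal fun j => (ind (E j) : Asy C ℂ)) * Matrix.diagonal (fun j => ind (E' j))
      = Matrix.diagonal fun j => ind fun a s => E j a s ∧ E' j a s := by
  rw [diagonal_mul_diagonal]
  congr 1
  funext j
  exact ind_mul _ _

theorem prodE_ind {ι : Type*} (L : List ι) (f : ι → LD κ J (Asy C ℂ))
    (Ee : ι → J → ∀ a, B a → Prop) (hE : ∀ i ∈ L, (f i).X.e = diagonal fun j => ind (Ee i j))
    (E0 : J → ∀ a, B a → Prop) :
    prodE (L.map f) (diagonal fun j => (ind (E0 j) : Asy C ℂ))
      = diagonal fun j => ind fun a s => E0 j a s ∧ ∀ i ∈ L, Ee i j a s := by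
  induction L generalizing E0 with
  | nil => simp [prodE]
  | cons i L ih =>
    rw [List.map_cons]
    show prodE (L.map f) ((f i).X.e * _) = _
    rw [hE i List.mem_cons_self, diag_ind_mul, ih fun i hi => hE i (List.mem_cons_of_mem _ hi)]
    congr 1
    funext j
    congr 1
    funext a s
    simp only [List.mem_cons, forall_eq_or_imp, eq_iff_iff]
    tauto

theorem one_eq_ind : (1 : Matrix J J (Asy C ℂ)) = diagonal fun _ => ind fun _ _ => True := by
  rw [← diagonal_one]
  congr 1
  funext j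
  have := one_sub_ind (C := C) (K := ℂ) fun _ _ => False
  have h0 : (ind (fun _ _ => False) : Asy C ℂ) = 0 := by
    unfold ind
    simp only [if_false]
    exact map_zero (dg C ℂ)
  rw [h0, sub_zero] at this
  rw [this]
  simp

/-- signature of a finite set of cells -/
theorem sg_diag_ind (E : J → ∀ a, B a → Prop) {r : ℝ} (hr : r < 1)
    (h : ∀ᶠ a in C.l, ∀ j s, E j a s → C.u C.o a s ≤ r)
    (m : ℕ) (hm : ∀ᶠ a in C.l, Nat.card {p : J × B a // E p.1 a p.2} = m) :
    sg (diagonal fun j => (ind (E j) : Asy C ℂ)) = ((fun _ => (m : ℤ) : A → ℤ) : Germ C.l ℤ) := by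
  classical
  have hc : CRep (diagonal fun j => (ind (E j) : Asy C ℂ))
      (fun a => diagonal fun p : J × B a => if E p.1 a p.2 then (1 : ℂ) else 0) := by
    refine ⟨?_, r, hr, ?_⟩
    · have := RepM.diagonal (C := C) (K := ℂ) fun j a s => if E j a s then 1 else 0
      convert this using 4
      unfold ind
      congr 1
    · filter_upwards [h] with a h1 p q h2
      by_cases hpq : p = q
      · subst hpq
        rw [diagonal_apply_eq] at h2
        have h3 : E p.1 a p.2 := by
          by_contra h3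
          exact h2 (by simp [h3])
        exact ⟨h1 _ _ h3, h1 _ _ h3⟩
      · exact absurd (diagonal_apply_ne _ hpq) h2
  rw [sg_eq hc, Germ.coe_eq]
  filter_upwards [hm] with a ha
  have e1 : (fun p : J × B a => if E p.1 a p.2 then (1 : ℂ) else 0)
      = fun p => ((if E p.1 a p.2 then (1 : ℝ) else 0 : ℝ) : ℂ) := by
    funext p; split_ifs <;> simp
  have e2 : -(diagonal fun p : J × B a => ((if E p.1 a p.2 then (1 : ℝ) else 0 : ℝ) : ℂ))
      = diagonal fun p => ((-(if E p.1 a p.2 then (1 : ℝ) else 0) : ℝ) : ℂ) := by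
    rw [diagonal_neg]; congr 1; funext p; simp
  unfold sgn
  rw [e1, e2, pos_diagonal, pos_diagonal]
  have h1 : Fintype.card {p : J × B a // 0 < (if E p.1 a p.2 then (1 : ℝ) else 0)} = m := by
    rw [← ha, Nat.card_eq_fintype_card]
    refine Fintype.card_congr (Equiv.subtypeEquivRight fun p => ?_)
    split_ifs with h <;> simp [h]
  have h2 : Fintype.card {p : J × B a // 0 < -(if E p.1 a p.2 then (1 : ℝ) else 0)} = 0 := by
    rw [Fintype.card_eq_zero_iff]
    refine ⟨fun p => ?_⟩
    have := p.2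
    split_ifs at this <;> norm_num at this
  rw [h1, h2]
  simp

variable {dir : κ → C.Φ} {lo hi : κ → ℝ} {lt : ∀ k, lo k < hi k}

/-- NORMALISATION in the asymptotic algebra -/
theorem norm_asy (hC : Cpt C dir lo hi) (hI : CutInd (sgP lt hC)) (h2 : Two (sgP lt hC))
    (hRe : Re (sgP lt hC)) {l : List (Par κ)} (hl : ∀ a ∈ l, a.Ok (frame C ℂ dir lo hi lt))
    {ι : Type*} (Li : List ι) (f : ι → LD κ J (Asy C ℂ))
    (hk : l.map Par.k = Li.map fun i => (f i).k) (hc : ∀ k, ∃ a ∈ l, a.k = k)
    (hg : Good (frame C ℂ dir lo hi lt) (Li.map f))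
    (Ee : ι → J → ∀ a, B a → Prop) (hE : ∀ i ∈ Li, (f i).X.e = diagonal fun j => ind (Ee i j))
    {r : ℝ} (hr : r < 1)
    (h : ∀ᶠ a in C.l, ∀ j s, (∀ i ∈ Li, Ee i j a s) → C.u C.o a s ≤ r)
    (hm : ∀ᶠ a in C.l, Nat.card {p : J × B a // ∀ i ∈ Li, Ee i p.1 a p.2} = 1) :
    sig (frame C ℂ dir lo hi lt) (sgP lt hC).L l
        (ob (dgl (Li.map f)) (rpT (glL 1 (Li.map f))))
      = ((fun _ => (2 ^ Li.length * 4 : ℤ) : A → ℤ) : Germ C.l ℤ) := by
  have hk' : l.map Par.k = (Li.map f).map LD.k := by rw [List.map_map]; exact hk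
  rw [norm_all (sgP lt hC) hI h2 hRe hl hk' hc hg, one_eq_ind,
    prodE_ind Li f Ee hE]
  have e : (sgP lt hC).L.sg (diagonal fun j => (ind (fun a s => True ∧ ∀ i ∈ Li, Ee i j a s)
      : Asy C ℂ)) = ((fun _ => ((1 : ℕ) : ℤ) : A → ℤ) : Germ C.l ℤ) := by
    refine sg_diag_ind (C := C) _ hr ?_ 1 ?_
    · filter_upwards [h] with a h1 j s h2
      exact h1 j s h2.2
    · filter_upwards [hm] with a h1
      simpa using h1
  rw [e, List.length_map]
  have : ∀ n : ℕ, n • (((fun _ => ((1 : ℕ) : ℤ)) : A → ℤ) : Germ C.l ℤ)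
      = ((fun _ => (n : ℤ) : A → ℤ) : Germ C.l ℤ) := by
    intro n
    rw [← Germ.coe_smul]
    congr 1
    funext a
    simp
  rw [this]
  congr 1

end asy

end Crest.Agent.R217.Norm551
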