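import Crest.Agent.R217.NormG_551
import Crest.Agent.R217.RE6_531
import Crest.Agent.R217.Param_52

/-!
Row 217 (S0336), part C1, piece M5-N : the normalisation without hypotheses.
-/

set_option autoImplicit false
set_option linter.unusedSectionVars false

open Filter Topology Matrix

namespace Crest.Agent.R217.Norm551

open PC473 Obj52 RE531 Sig52 Ind52 Asym476 Sig330 Param52

section gen

variable {κ : Type*} {R0 R1 : Type} [Ring R0] [StarRing R0] [Algebra ℂ R0] [StarModule ℂ R0]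
    [Ring R1] [StarRing R1] [Algebra ℂ R1] [StarModule ℂ R1]
    {F0 : Frame κ R0} {F1 : Frame κ R1} {G : Type*} [AddCommGroup G] (P : SgP F0 F1 G)

theorem cutInd_all : CutInd P := by
  intro J _ _ a l hl S deg z hz hc Pw Gw Qw ha
  exact cut_indep P (fun b hb => hl b (List.mem_cons_of_mem _ hb)) hc.tail hz
    (Cut2x473.canon_adm (hl a List.mem_cons_self) hz) ha

theorem two_all : Two P := by
  intro J _ _ a l hl S deg z hz hc
  have := sig_two P hl (h := z.H * z.S) hz (isOb_rpT hz) hc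
  rw [two_smul]
  exact this

theorem re_all : Re P := by
  intro J J' _ _ _ _ l hl S deg deg' x y α hx hy hc h hα
  exact sig_re P hl hx hy hc h ⟨hα, fun _ _ _ => rfl, fun _ _ _ => rfl⟩

end gen

section asy

variable {A : Type} {B : A → Type} [∀ a, Fintype (B a)] [∀ a, DecidableEq (B a)]
variable {κ : Type} [Fintype κ] {C : Ctl B}
  {J : Type} [Fintype J] [DecidableEq J]
variable {dir : κ → C.Φ} {lo hi : κ → ℝ} {lt : ∀ k, lo k < hi k}

/-- NORMALISATION in the asymptotic algebra -/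
theorem norm_asy' (hC : Cpt C dir lo hi)
    {l : List (Par κ)} (hl : ∀ a ∈ l, a.Ok (frame C ℂ dir lo hi lt))
    {ι : Type*} (Li : List ι) (f : ι → LD κ J (Asy C ℂ))
    (hk : l.map Par.k = Li.map fun i => (f i).k) (hc : ∀ k, ∃ a ∈ l, a.k = k)
    (hg : Good (frame C ℂ dir lo hi lt) (Li.map f))
    (Ee : ι → J → ∀ a, B a → Prop) (hE : ∀ i ∈ Li, (f i).X.e = diagonal fun j => ind (Ee i j))
    {r : ℝ} (hr : r < 1)
    (h : ∀ᶠ a in C.l, ∀ j s, (∀ i ∈ Li, Ee i j a s) → C.u C.o a s ≤ r)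
    (hm : ∀ᶠ a in C.l, Nat.card {p : J × B a // ∀ i ∈ Li, Ee i p.1 a p.2} = 1) :
    sig (frame C ℂ dir lo hi lt) (sgP lt hC).L l
        (ob (dgl (Li.map f)) (rpT (glL 1 (Li.map f))))
      = ((fun _ => (2 ^ Li.length * 4 : ℤ) : A → ℤ) : Germ C.l ℤ) :=
  norm_asy hC (cutInd_all _) (two_all _) (re_all _) hl Li f hk hc hg Ee hE hr h hm

end asy

end Crest.Agent.R217.Norm551
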