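import Crest.Agent.R217.NormH_551
import Crest.Agent.R217.LineAsy_897

/-!
Row 217 (S0336), part C1, piece M5-N : the signature of the grid.
-/

set_option autoImplicit false
set_option linter.unusedSectionVars false

open Filter Topology Matrix
open scoped BigOperators

namespace Crest.Agent.R217.Norm551

open PC473 Obj52 RE531 Sig52 Ind52 Asym476 Grid897 AsyCell970

section close

variable {κ κ' : Type*} {R : Type*} [Ring R] [StarRing R] [Algebra ℂ R] [StarModule ℂ R]
variable {J : Type*} [Fintype J] [DecidableEq J]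

/-- a line in a direction which is close to another one -/
theorem LineF.close {F : Frame κ R} {F' : Frame κ' R} {k : κ} {k' : κ'} {dx : J → ℤ}
    {x : Line (Matrix J J R)} (h : LineF F k dx x)
    (hg : DgC F' x.g) (hP : DgC F' x.P) (he : DgC F' x.e) (hv : DgC F' x.v)
    (hlo : F'.lo k' < 0) (hhi : 0 < F'.hi k')
    (h1 : ∀ s t : ℝ, s < t → F'.pu k' s * F.pu k t = F'.pu k' s)
    (h2 : ∀ s t : ℝ, s < t → F.pu k s * F'.pu k' t = F.pu k s)
    (hc : ∀ s t : ℝ, F.pu k s * F'.pu k' t = F'.pu k' t * F.pu k s) :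
    LineF F' k' dx x where
  is := h.is
  gD := hg
  PD := hP
  eD := he
  vD := hv
  lo0 := hlo
  hi0 := hhi
  Plo s hs := by
    have e : PU F' k' (fun _ : J => s) = PU F' k' (fun _ => s) * PU F k (fun _ => s / 2) := by
      unfold PU
      rw [diagonal_mul_diagonal]
      congr 1; funext j
      exact (h1 _ _ (by linarith)).symm
    rw [e, Matrix.mul_assoc, h.Plo _ (by linarith), Matrix.mul_zero]
  Phi t ht := up h2 hc ht (h.Phi _ (by linarith))
  ehi t ht := up h2 hc ht (h.ehi _ (by linarith))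
  vhi t ht := up h2 hc ht (h.vhi _ (by linarith))
  hd := h.hd
  hS := h.hS
  he := h.he
  hv := h.hv
  ha := h.ha
  hb := h.hb
  hc := h.hc
where
  up {F : Frame κ R} {F' : Frame κ' R} {k : κ} {k' : κ'} {a : Matrix J J R}
      (h2 : ∀ s t : ℝ, s < t → F.pu k s * F'.pu k' t = F.pu k s)
      (hc : ∀ s t : ℝ, F.pu k s * F'.pu k' t = F'.pu k' t * F.pu k s) {t : ℝ} (ht : 0 < t)
      (ha : PU F k (fun _ => t / 2) * a = a) : PU F' k' (fun _ => t) * a = a := by
    have e : PU F' k' (fun _ : J => t) * PU F k (fun _ => t / 2) = PU F k (fun _ => t / 2) := by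
      unfold PU
      rw [diagonal_mul_diagonal]
      congr 1; funext j
      rw [← hc]
      exact h2 _ _ (by linarith)
    conv_lhs => rw [← ha, ← Matrix.mul_assoc, e, ha]

end close

section grid

variable {n : ℕ} {A : Type} {N : A → ℕ} [∀ a, NeZero (N a)] {C : Ctl (BV n N)}

variable (h : GridCtl C) {dir : Fin n → C.Φ} {lo hi : Fin n → ℝ} {lt : ∀ k, lo k < hi k}

theorem lineF_LA (hdir : ∀ i, ∀ r < (1 : ℝ), ∀ ε > (0 : ℝ), ∀ᶠ a in C.l, ∀ v,
      C.u C.o a v ≤ r → |C.u (h.ξ i) a v - C.u (dir i) a v| < ε)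
    (h0 : ∀ i, lo i < 0) (h1 : ∀ i, 0 < hi i) (i : Fin n) :
    LineF (frame C ℂ dir lo hi lt) i (dgi i) (LA h i) := by
  have hb : LineF (frame C ℂ h.ξ (fun _ => -1) (fun _ => 1) (fun _ => by norm_num)) i (dgi i)
      (LA h i) := LA_LineF h i _ _ _ _ i rfl (by norm_num) (by norm_num)
  have hdir' : ∀ r < (1 : ℝ), ∀ ε > (0 : ℝ), ∀ᶠ a in C.l, ∀ v,
      C.u C.o a v ≤ r → |C.u (dir i) a v - C.u (h.ξ i) a v| < ε := by
    intro r hr ε hε
    filter_upwards [hdir i r hr ε hε] with a ha v hv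
    rw [abs_sub_comm]
    exact ha v hv
  refine LineF.close hb ?_ ?_ ?_ ?_ (h0 i) (h1 i) ?_ ?_ ?_
  · exact dgc_diag i dir lo hi lt _ (gL i) fun a => rfl
  · exact dgc_diag i dir lo hi lt _ (PL i) fun a => rfl
  · exact dgc_diag i dir lo hi lt _ (eL i) fun a => rfl
  · exact dgc_diag i dir lo hi lt _ (vL i) fun a => rfl
  · intro s t hst
    exact pu_mul_pu_close hdir' hst
  · intro s t hst
    exact pu_mul_pu_close (hdir i) hst
  · intro s t
    exact ind_comm _ _

/-- the lines with their directions and degrees -/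
noncomputable def fLD (i : Fin n) : LD (Fin n) (JJ n) (Asy C ℂ) := ⟨i, dgi i, LA h i⟩

theorem good_LA (hdir : ∀ i, ∀ r < (1 : ℝ), ∀ ε > (0 : ℝ), ∀ᶠ a in C.l, ∀ v,
      C.u C.o a v ≤ r → |C.u (h.ξ i) a v - C.u (dir i) a v| < ε)
    (h0 : ∀ i, lo i < 0) (h1 : ∀ i, 0 < hi i) :
    Good (frame C ℂ dir lo hi lt) ((List.finRange n).map (fLD h)) where
  line := by
    intro a ha
    obtain ⟨i, _, rfl⟩ := List.mem_map.1 ha
    exact lineF_LA h hdir h0 h1 i
  cmp := by
    rw [List.pairwise_map]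
    refine (List.nodup_finRange n).imp ?_
    intro i j hij
    exact ⟨LA_Pres h i (Ne.symm hij), LA_Pres h j hij, LA_comm h hij⟩

theorem glL_LA (L : List (Fin n)) : glL 1 (L.map (fLD h)) = Grid897.gl (LA h) L := by
  induction L with
  | nil => rfl
  | cons i L ih =>
    rw [List.map_cons, glL_cons, ih, List.length_map]
    rfl

theorem dgl_LA : dgl ((List.finRange n).map (fLD h)) = fun j => ((Grid897.degJ j : ℕ) : ℤ) := by
  funext j
  rw [dgl_eq_sum, List.map_map, Grid897.degJ, Nat.cast_sum, Fin.sum_univ_def]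
  congr 1
  refine List.map_congr_left fun i _ => ?_
  show dgi i j = _
  unfold dgi
  split_ifs <;> simp

/-- NORMALISATION: the signature of the grid is the constant `4 * 2 ^ n` -/
theorem norm_grid (hC : Cpt C dir lo hi)
    (hdir : ∀ i, ∀ r < (1 : ℝ), ∀ ε > (0 : ℝ), ∀ᶠ a in C.l, ∀ v,
      C.u C.o a v ≤ r → |C.u (h.ξ i) a v - C.u (dir i) a v| < ε)
    (h0 : ∀ i, lo i < 0) (h1 : ∀ i, 0 < hi i)
    {r : ℝ} (hr : r < 1) (hor : ∀ᶠ a in C.l, C.u C.o a (fun _ => 0) ≤ r)
    {l : List (Par (Fin n))} (hl : ∀ a ∈ l, a.Ok (frame C ℂ dir lo hi lt))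
    (hk : l.map Par.k = List.finRange n) :
    sig (frame C ℂ dir lo hi lt) (sgP lt hC).L l 
        (ob (fun j => ((Grid897.degJ j : ℕ) : ℤ)) (rpT (gridA h.cont)))
      = ((fun _ => (2 ^ n * 4 : ℤ) : A → ℤ) : Germ C.l ℤ) := by
  have hk' : l.map Par.k = (List.finRange n).map fun i => (fLD h i).k := by
    rw [hk]; exact (List.map_id _).symm
  have hc : ∀ k, ∃ a ∈ l, a.k = k := by
    intro k
    have : k ∈ l.map Par.k := by rw [hk]; exact List.mem_finRange k
    exact List.mem_map.1 this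
  have hE : ∀ i ∈ List.finRange n, (fLD h i).X.e
      = diagonal fun j => ind fun a (v : VV n (N a)) => (v i, j i) = ((0 : ZMod (N a)), true) := by
    intro i _
    show Th C i (eL i) = _
    rw [Th_diag' i (eL i) _ fun a => rfl]
    congr 1
    funext j
    unfold ind
    congr 1
    funext a v
    congr 1
  have hcell : ∀ a (j : JJ n) (v : VV n (N a)),
      (∀ i ∈ List.finRange n, (v i, j i) = ((0 : ZMod (N a)), true)) ↔
        j = (fun _ => true) ∧ v = fun _ => 0 := by
    intro a j v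
    constructor
    · intro h1
      exact ⟨funext fun i => congrArg Prod.snd (h1 i (List.mem_finRange i)),
        funext fun i => congrArg Prod.fst (h1 i (List.mem_finRange i))⟩
    · rintro ⟨rfl, rfl⟩ i _
      rfl
  have key := norm_asy' hC hl (List.finRange n) (fLD h) hk' hc (good_LA h hdir h0 h1)
    (fun i j a (v : VV n (N a)) => (v i, j i) = ((0 : ZMod (N a)), true)) hE hr ?_ ?_
  · rw [glL_LA, dgl_LA, ← gridA_eq_gl, List.length_finRange] at key
    exact key
  · filter_upwards [hor] with a ha j v hv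
    obtain ⟨_, rfl⟩ := (hcell a j v).1 hv
    exact ha
  · refine Eventually.of_forall fun a => ?_
    rw [Nat.card_eq_one_iff_unique]
    constructor
    · constructor
      rintro ⟨⟨j, v⟩, hp⟩ ⟨⟨j', v'⟩, hp'⟩
      obtain ⟨rfl, rfl⟩ := (hcell a j v).1 hp
      obtain ⟨rfl, rfl⟩ := (hcell a j' v').1 hp'
      rfl
    · exact ⟨⟨(fun _ => true, fun _ => 0), (hcell a _ _).2 ⟨rfl, rfl⟩⟩⟩

end grid

end Crest.Agent.R217.Norm551
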