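import Crest.Agent.R217.PC_473

/-!
Row 217 (S0336), part C1: the three operations DOUBLE, BDRY, COMPRESS on Poincaré tuples over an
abstract `*`-algebra, with explicit words.
-/

set_option autoImplicit false
set_option linter.unusedSectionVars false
set_option linter.unusedSimpArgs false
set_option linter.unusedVariables false

namespace Crest.Agent.R217.PC473

open Matrix

section base

variable {A : Type*} [Ring A] [StarRing A]

namespace Tup.IsPC

variable {m : ℕ} {x : Tup A}

theorem gp (h : x.IsPC m) : x.g * x.p = x.g := by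
  have := congrArg star h.pg
  rwa [star_mul, h.sp, h.sg] at this

theorem Sp (h : x.IsPC m) : x.S * x.p = x.S := by
  have := congrArg star h.pS
  rwa [star_mul, h.sp, h.sS] at this

theorem Tp (h : x.IsPC m) : x.T * x.p = x.T := by
  have := congrArg star h.pT
  rwa [star_mul, h.sp, h.sT] at this

theorem sdp (h : x.IsPC m) : star x.d * x.p = star x.d := by
  have := congrArg star h.pd
  rwa [star_mul, h.sp] at this

theorem psd (h : x.IsPC m) : x.p * star x.d = star x.d := by
  have := congrArg star h.dp
  rwa [star_mul, h.sp] at this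

theorem sHp (h : x.IsPC m) : star x.H * x.p = star x.H := by
  have := congrArg star h.pH
  rwa [star_mul, h.sp] at this

theorem psH (h : x.IsPC m) : x.p * star x.H = star x.H := by
  have := congrArg star h.Hp
  rwa [star_mul, h.sp] at this

theorem sdd (h : x.IsPC m) : star x.d * star x.d = 0 := by
  rw [← star_mul, h.dd, star_zero]

theorem TS (h : x.IsPC m) :
    x.T * x.S = x.p + star x.d * star x.H + star x.H * star x.d := by
  have := congrArg star h.ST
  simp only [star_mul, star_add, h.sS, h.sT, h.sp] at this
  rw [this]; abel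

theorem gsd (h : x.IsPC m) : x.g * star x.d = -(star x.d * x.g) := by
  have := congrArg star h.gd
  simp only [star_mul, star_neg, h.sg] at this
  rw [this, neg_neg]

theorem gsH (h : x.IsPC m) : x.g * star x.H = -(star x.H * x.g) := by
  have := congrArg star h.gH
  simp only [star_mul, star_neg, h.sg] at this
  rw [this, neg_neg]

end Tup.IsPC

namespace RPr.IsRP

variable {m : ℕ} {x : RPr A}

theorem gp (h : x.IsRP m) : x.g * x.p = x.g := by
  have := congrArg star h.pg
  rwa [star_mul, h.sp, h.sg] at this

theorem fp (h : x.IsRP m) : x.f * x.p = x.f := by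
  have := congrArg star h.pf
  rwa [star_mul, h.sp, h.sf] at this

theorem qp (h : x.IsRP m) : x.q * x.p = x.q := by
  have := congrArg star h.pq
  rwa [star_mul, h.sp, h.sq] at this

theorem sdp (h : x.IsRP m) : star x.d * x.p = star x.d := by
  have := congrArg star h.pd
  rwa [star_mul, h.sp] at this

theorem psd (h : x.IsRP m) : x.p * star x.d = star x.d := by
  have := congrArg star h.dp
  rwa [star_mul, h.sp] at this

theorem sdd (h : x.IsRP m) : star x.d * star x.d = 0 := by
  rw [← star_mul, h.dd, star_zero]

theorem gsd (h : x.IsRP m) : x.g * star x.d = -(star x.d * x.g) := by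
  have := congrArg star h.gd
  simp only [star_mul, star_neg, h.sg] at this
  rw [this, neg_neg]

theorem gsh (h : x.IsRP m) : x.g * star x.h = -((-1 : A) ^ m * (star x.h * x.g)) := by
  have := congrArg star h.gh
  simp only [star_mul, star_neg, h.sg, star_pow, star_one] at this
  rcases neg_one_pow_eq_or A m with h1 | h1 <;> rw [h1] at this ⊢
  · simpa using (congrArg Neg.neg this).symm
  · simpa using this.symm

end RPr.IsRP

/-- homotopy of `f q` and its square -/
theorem RPr.IsRP.fqfq {m : ℕ} {x : RPr A} (h : x.IsRP m) :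
    x.f * x.q * x.f * x.q = x.f * x.q + (x.d * (x.h * x.q) + (x.h * x.q) * x.d) := by
  rw [h.fqf]
  have h1 : star x.d * x.q = -(x.q * x.d) := eq_neg_of_add_eq_zero_right h.qd
  have : (x.f + x.d * x.h - x.h * star x.d) * x.q
      = x.f * x.q + x.d * (x.h * x.q) - x.h * (star x.d * x.q) := by noncomm_ring
  rw [this, h1]; noncomm_ring

end base

section double

variable {A : Type*} [Ring A] [StarRing A] [Algebra ℂ A] [StarModule ℂ A]

theorem two_mul_star (x : A) : star (2 * x) = 2 * star x := by
  rw [star_mul, show star (2 : A) = 2 by simp, mul_two, two_mul]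

theorem four_mul_star (x : A) : star (4 * x) = 4 * star x := by
  have h4 : (4 : A) * x = 2 * (2 * x) := by rw [← mul_assoc]; norm_num
  have h5 : (4 : A) * star x = 2 * (2 * star x) := by rw [← mul_assoc]; norm_num
  rw [h4, h5, two_mul_star, two_mul_star]

/-- the double of a regular pair -/
noncomputable def dbl (m : ℕ) (x : RPr A) : Tup (Matrix (Fin 2) (Fin 2) A) where
  p := !![x.p, 0; 0, x.p]
  g := !![x.g, 0; 0, (-1) ^ m * x.g]
  d := !![x.d, 0; 0, star x.d]
  S := !![x.f, aa m x.g; (-1) ^ m * aa m x.g, 2 * ((-1) ^ m * x.q)]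
  T := !![2 * (2 * (x.q * x.f * x.q) - x.q), -(aa m x.g * (2 * (x.q * x.f) - x.p));
          -((-1) ^ m * (aa m x.g * (2 * (x.f * x.q) - x.p))),
          (-1) ^ m * (2 * (x.f * x.q * x.f) - x.f)]
  H := !![4 * (x.h * x.q), 0; 0, 4 * star (x.h * x.q)]


section fin2

variable {R : Type*}

theorem fin2_eq {a b c d a' b' c' d' : R} (h1 : a = a') (h2 : b = b') (h3 : c = c')
    (h4 : d = d') : (!![a, b; c, d] : Matrix (Fin 2) (Fin 2) R) = !![a', b'; c', d'] := by
  rw [h1, h2, h3, h4]

theorem star_fin2 [Star R] (a b c d : R) :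
    star (!![a, b; c, d] : Matrix (Fin 2) (Fin 2) R) = !![star a, star c; star b, star d] := by
  ext i j; fin_cases i <;> fin_cases j <;> rfl

theorem add_fin2 [Add R] (a b c d a' b' c' d' : R) :
    (!![a, b; c, d] : Matrix (Fin 2) (Fin 2) R) + !![a', b'; c', d']
      = !![a + a', b + b'; c + c', d + d'] := by
  ext i j; fin_cases i <;> fin_cases j <;> rfl

theorem sub_fin2 [Sub R] (a b c d a' b' c' d' : R) :
    (!![a, b; c, d] : Matrix (Fin 2) (Fin 2) R) - !![a', b'; c', d']
      = !![a - a', b - b'; c - c', d - d'] := by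
  ext i j; fin_cases i <;> fin_cases j <;> rfl

theorem neg_fin2 [Neg R] (a b c d : R) :
    -(!![a, b; c, d] : Matrix (Fin 2) (Fin 2) R) = !![-a, -b; -c, -d] := by
  ext i j; fin_cases i <;> fin_cases j <;> rfl

theorem zero_fin2 [Zero R] : (0 : Matrix (Fin 2) (Fin 2) R) = !![0, 0; 0, 0] := by
  ext i j; fin_cases i <;> fin_cases j <;> rfl

theorem npow_fin2 [Ring R] (m : ℕ) (a b c d : R) :
    (-1 : Matrix (Fin 2) (Fin 2) R) ^ m * !![a, b; c, d]
      = !![(-1) ^ m * a, (-1) ^ m * b; (-1) ^ m * c, (-1) ^ m * d] := by
  rcases Nat.even_or_odd m with h | h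
  · simp [h.neg_one_pow]
  · simp only [h.neg_one_pow, neg_mul, one_mul, neg_fin2]

end fin2

/-- reassociated form of a relation -/
theorem ra {R : Type*} [Semigroup R] {x y z : R} (h : x * y = z) (w : R) : x * (y * w) = z * w := by
  rw [← mul_assoc, h]

theorem star_two' : star (2 : A) = 2 := by simp

theorem aa_comm {m : ℕ} {g x : A} {s : A} (h : g * x = s * (x * g)) :
    aa m g * x = s * (x * aa m g) := by
  rw [aa_mul, h, mul_aa, mul_smul_comm]

set_option maxHeartbeats 2000000 in
theorem dbl_isPC {m : ℕ} {x : RPr A} (hx : x.IsRP m) : (dbl m x).IsPC m := by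
  obtain ⟨p, g, d, f, q, h⟩ := x
  have hgp := hx.gp
  have hfp := hx.fp
  have hqp := hx.qp
  have hsdp := hx.sdp
  have hpsd := hx.psd
  have hsdd := hx.sdd
  have hgsd := hx.gsd
  have hgsh := hx.gsh
  have hfq := hx.fqfq
  obtain ⟨pp, sp, gg, sg, pg, pd, dp, pf, pq, ph, hp, dd, sf, sq, df, qd, fqf, gd, gf, gq, gh⟩ := hx
  simp only at *
  have ha2 : aa m g * aa m g = (-1 : A) ^ m * p := aa_mul_self m gg
  have hsa : star (aa m g) = (-1 : A) ^ m * aa m g := star_aa m sg
  have had : aa m g * d = -(d * aa m g) := by
    rw [aa_mul, gd, mul_aa, smul_neg]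
  have hasd : aa m g * star d = -(star d * aa m g) := by
    rw [aa_mul, hgsd, mul_aa, smul_neg]
  have haf : aa m g * f = (-1 : A) ^ m * (f * aa m g) := aa_comm gf
  have haq : aa m g * q = (-1 : A) ^ m * (q * aa m g) := aa_comm gq
  have hag : g * aa m g = aa m g * g := by rw [mul_aa, aa_mul]
  have hpa : p * aa m g = aa m g := by rw [mul_aa, pg]; rfl
  have hap : aa m g * p = aa m g := by rw [aa_mul, hgp]; rfl
  have hqfqf : q * f * q * f = q * f + (star (h * q) * star d + star d * star (h * q)) := by
    have := congrArg star hfq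
    simp only [star_mul, star_add, sf, sq] at this
    simp only [star_mul, sq]
    rw [show q * f * q * f = q * (f * (q * f)) by noncomm_ring, this]
  have hsda : q * d = -(star d * q) := eq_neg_of_add_eq_zero_left qd
  have hdf : f * star d = -(d * f) := eq_neg_of_add_eq_zero_right df
  have hga : g * aa m g = aa m g * g := hag
  have hshp : star h * p = star h := by
    have := congrArg star ph
    rwa [star_mul, sp] at this
  have hfq' : f * (q * (f * q)) = f * q + d * (h * q) - h * (star d * q) := by
    have h1 : f * (q * (f * q)) = f * q * f * q := by noncomm_ring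
    rw [h1, hfq, mul_assoc h q d, hsda]; noncomm_ring
  have hqf' : q * (f * (q * f)) = q * f + star d * (q * star h) + q * (star h * star d) := by
    have h1 : q * (f * (q * f)) = q * f * q * f := by noncomm_ring
    rw [h1, hqfqf, star_mul, sq]; noncomm_ring
  constructor <;>
    simp only [dbl, mul_fin_two, star_fin2, npow_fin2, zero_fin2, add_fin2, neg_fin2,
      zero_mul, mul_zero, add_zero, zero_add, star_zero, neg_zero, star_star,
      star_mul, star_add, star_sub, star_neg, star_pow, star_one, hsa, star_two', sf, sq, sp] <;>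
    generalize aa m g = a at * <;>
    rcases neg_one_pow_eq_or A m with hε | hε <;>
    simp only [hε, one_mul, neg_mul, mul_neg, neg_neg, mul_one] at * <;>
    refine fin2_eq ?_ ?_ ?_ ?_
  all_goals try first
    | rfl
    | assumption
    | noncomm_ring
  all_goals
    try simp only [mul_assoc, ha2, ra ha2, had, ra had, hasd, ra hasd, haf, ra haf, haq, ra haq,
      hpa, ra hpa, hap, ra hap, gd, ra gd, gf, ra gf, gq, ra gq, gh, ra gh, hgsd, ra hgsd, hgsh,
      ra hgsh, pp, ra pp, pd, ra pd, dp, ra dp, pf, ra pf, pq, ra pq, ph, ra ph, hp, ra hp, hgp,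
      ra hgp, hfp, ra hfp, hqp, ra hqp, hsdp, ra hsdp, hpsd, ra hpsd, pg, ra pg, gg, ra gg,
      hshp, ra hshp, hfq', hqf', hsda, ra hsda, hdf, ra hdf, dd, ra dd, hsdd, ra hsdd, hga, ra hga, sf, sq, sp, sg, star_mul,
      mul_neg, neg_mul, neg_neg, smul_neg, neg_smul, mul_zero, zero_mul]
  all_goals try abel
  all_goals try noncomm_ring


end double

section sym

/-- `m`-dimensional strictly symmetric complex (no invertibility) -/
structure Tup.IsSym {A : Type*} [Ring A] [StarRing A] (m : ℕ) (x : Tup A) : Prop where
  pp : x.p * x.p = x.p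
  sp : star x.p = x.p
  gg : x.g * x.g = x.p
  sg : star x.g = x.g
  pg : x.p * x.g = x.g
  pd : x.p * x.d = x.d
  dp : x.d * x.p = x.d
  pS : x.p * x.S = x.S
  dd : x.d * x.d = 0
  sS : star x.S = x.S
  dS : x.d * x.S + x.S * star x.d = 0
  gd : x.g * x.d = -(x.d * x.g)
  gS : x.g * x.S = (-1 : A) ^ m * (x.S * x.g)

theorem Tup.IsPC.isSym {A : Type*} [Ring A] [StarRing A] {m : ℕ} {x : Tup A} (h : x.IsPC m) :
    x.IsSym m :=
  ⟨h.pp, h.sp, h.gg, h.sg, h.pg, h.pd, h.dp, h.pS, h.dd, h.sS, h.dS, h.gd, h.gS⟩

variable {A : Type*} [Ring A] [StarRing A] [Algebra ℂ A] [StarModule ℂ A]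

/-- truncation to the quotient complex `P D`, `P = 1 - F` -/
def trunc (x : Tup A) (P : A) : Tup A := ⟨P, P * x.g, P * x.d, P * x.S * P, 0, 0⟩

/-- hypotheses on the projection `P` (complement of a based subcomplex) -/
structure IsQuot (x : Tup A) (P : A) : Prop where
  PP : P * P = P
  sP : star P = P
  pP : x.p * P = P
  Pd : P * x.d * P = P * x.d
  gP : x.g * P = P * x.g

omit [Algebra ℂ A] [StarModule ℂ A] in
theorem trunc_isSym {m : ℕ} {x : Tup A} {P : A} (hx : x.IsSym m) (hP : IsQuot x P) :
    (trunc x P).IsSym m := by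
  obtain ⟨p, g, d, S, T, H⟩ := x
  obtain ⟨pp, sp, gg, sg, pg, pd, dp, pS, dd, sS, dS, gd, gS⟩ := hx
  obtain ⟨PP, sP, pP, Pd, gP⟩ := hP
  simp only at *
  have Pp : P * p = P := by
    have := congrArg star pP
    rwa [star_mul, sp, sP] at this
  have sPd : star d * P = P * (star d * P) := by
    have := congrArg star Pd
    simp only [star_mul, sP] at this
    exact this.symm
  constructor <;> simp only [trunc]
  · exact PP
  · exact sP
  · rw [mul_assoc, ← mul_assoc g, gP, mul_assoc P, gg, Pp, PP]
  · rw [star_mul, sg, sP, gP]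
  · rw [← mul_assoc, PP]
  · rw [← mul_assoc, PP]
  · rw [Pd]
  · simp only [← mul_assoc, PP]
  · rw [← mul_assoc, Pd, mul_assoc, dd, mul_zero]
  · simp only [star_mul, sP, sS, mul_assoc]
  · rw [star_mul, sP]
    have h1 : P * d * (P * S * P) = P * (d * S) * P := by
      rw [← mul_assoc, ← mul_assoc, Pd]; noncomm_ring
    have h2 : P * S * P * (star d * P) = P * (S * star d) * P := by
      rw [show P * S * P * (star d * P) = P * S * (P * (star d * P)) by noncomm_ring, ← sPd]
      noncomm_ring
    rw [h1, h2, ← add_mul, ← mul_add, dS, mul_zero, zero_mul]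
  · rw [show P * g * (P * d) = P * (g * P) * d by noncomm_ring, gP,
      show P * (P * g) * d = (P * P) * (g * d) by noncomm_ring, PP, gd,
      show P * d * (P * g) = (P * d * P) * g by noncomm_ring, Pd]
    noncomm_ring
  · rw [show P * g * (P * S * P) = P * (g * P) * S * P by noncomm_ring, gP,
      show P * (P * g) * S * P = (P * P) * (g * S) * P by noncomm_ring, PP, gS,
      show P * S * P * (P * g) = P * S * (P * P) * g by noncomm_ring, PP,
      show P * S * P * g = P * S * (P * g) by noncomm_ring, ← gP]
    rcases neg_one_pow_eq_or A m with h | h <;> rw [h] <;> noncomm_ring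

/-- the boundary (cone of `S`) of a symmetric complex of dimension `m + 1`; dimension `m` -/
noncomputable def bdry0 (m : ℕ) (x : Tup A) : Tup (Matrix (Fin 2) (Fin 2) A) where
  p := !![x.p, 0; 0, x.p]
  g := !![-x.g, 0; 0, (-1) ^ (m + 1) * x.g]
  d := !![x.d, x.S; 0, star x.d]
  S := !![0, aa m x.g; (-1) ^ m * aa m x.g, 0]
  T := !![0, aa m x.g; (-1) ^ m * aa m x.g, 0]
  H := 0

/-- the boundary of the quotient complex `P D` -/
noncomputable def bdry (m : ℕ) (x : Tup A) (P : A) : Tup (Matrix (Fin 2) (Fin 2) A) :=
  bdry0 m (trunc x P)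

set_option maxHeartbeats 2000000 in
theorem bdry0_isPC {m : ℕ} {x : Tup A} (hx : x.IsSym (m + 1)) : (bdry0 m x).IsPC m := by
  obtain ⟨p, g, d, S, T, H⟩ := x
  obtain ⟨pp, sp, gg, sg, pg, pd, dp, pS, dd, sS, dS, gd, gS⟩ := hx
  simp only at *
  have hgp : g * p = g := by
    have := congrArg star pg
    rwa [star_mul, sp, sg] at this
  have hSp : S * p = S := by
    have := congrArg star pS
    rwa [star_mul, sp, sS] at this
  have hsdp : star d * p = star d := by
    have := congrArg star pd
    rwa [star_mul, sp] at this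
  have hpsd : p * star d = star d := by
    have := congrArg star dp
    rwa [star_mul, sp] at this
  have hsdd : star d * star d = 0 := by rw [← star_mul, dd, star_zero]
  have hgsd : g * star d = -(star d * g) := by
    have := congrArg star gd
    simp only [star_mul, star_neg, sg] at this
    rw [this, neg_neg]
  have ha2 : aa m g * aa m g = (-1 : A) ^ m * p := aa_mul_self m gg
  have hsa : star (aa m g) = (-1 : A) ^ m * aa m g := star_aa m sg
  have had : aa m g * d = -(d * aa m g) := by
    rw [aa_mul, gd, mul_aa, smul_neg]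
  have hasd : aa m g * star d = -(star d * aa m g) := by
    rw [aa_mul, hgsd, mul_aa, smul_neg]
  have haS : aa m g * S = (-1 : A) ^ (m + 1) * (S * aa m g) := aa_comm gS
  have hga : g * aa m g = aa m g * g := by rw [mul_aa, aa_mul]
  have hpa : p * aa m g = aa m g := by rw [mul_aa, pg]; rfl
  have hap : aa m g * p = aa m g := by rw [aa_mul, hgp]; rfl
  have hdS : S * star d = -(d * S) := eq_neg_of_add_eq_zero_right dS
  constructor <;>
    simp only [bdry0, mul_fin_two, star_fin2, npow_fin2, zero_fin2, add_fin2, neg_fin2,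
      zero_mul, mul_zero, add_zero, zero_add, star_zero, neg_zero, star_star,
      star_mul, star_add, star_sub, star_neg, star_pow, star_one, hsa, star_two', sS, sp,
      pow_succ] at * <;>
    generalize aa m g = a at * <;>
    rcases neg_one_pow_eq_or A m with hε | hε <;>
    simp only [hε, one_mul, neg_mul, mul_neg, neg_neg, mul_one] at * <;>
    refine fin2_eq ?_ ?_ ?_ ?_
  all_goals try first
    | rfl
    | assumption
    | noncomm_ring
  all_goals
    try simp only [mul_assoc, ha2, ra ha2, had, ra had, hasd, ra hasd, haS, ra haS,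
      hpa, ra hpa, hap, ra hap, gd, ra gd, gS, ra gS, hgsd, ra hgsd,
      pp, ra pp, pd, ra pd, dp, ra dp, pS, ra pS, hgp,
      ra hgp, hSp, ra hSp, hsdp, ra hsdp, hpsd, ra hpsd, pg, ra pg, gg, ra gg,
      hdS, ra hdS, dd, ra dd, hsdd, ra hsdd, hga, ra hga, sS, sp, sg, star_mul,
      mul_neg, neg_mul, neg_neg, smul_neg, neg_smul, mul_zero, zero_mul]
  all_goals try abel
  all_goals try noncomm_ring

end sym

section compress

variable {A : Type*} [Ring A] [StarRing A]

/-- `K = p - d G - G d` -/
def KK (x : Tup A) (G : A) : A := x.p - x.d * G - G * x.d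

/-- compression of a Poincaré complex by an odd operator `G` onto the subcomplex `B` -/
def compr (x : Tup A) (G B : A) : RPr A where
  p := B
  g := B * x.g
  d := x.d * B
  f := KK x G * x.S * star (KK x G)
  q := B * x.T * B
  h := KK x G * ((x.H + x.S * star G * x.T) - G
    - (x.H + x.S * star G * x.T) * (x.d * G + G * x.d)) * x.S * star (KK x G)

/-- hypotheses of the compression -/
structure IsComp (x : Tup A) (G B : A) : Prop where
  pG : x.p * G = G
  Gp : G * x.p = G
  gG : x.g * G = -(G * x.g)
  BB : B * B = B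
  sB : star B = B
  pB : x.p * B = B
  dB : B * x.d * B = x.d * B
  gB : x.g * B = B * x.g
  BK : B * KK x G = KK x G

theorem KK_comm {m : ℕ} {x : Tup A} {G : A} (hx : x.IsPC m) (hpG : x.p * G = G)
    (hGp : G * x.p = G) : x.d * KK x G = KK x G * x.d := by
  unfold KK
  have h1 : x.d * (x.p - x.d * G - G * x.d) = x.d * x.p - (x.d * x.d) * G - x.d * G * x.d := by
    noncomm_ring
  have h2 : (x.p - x.d * G - G * x.d) * x.d = x.p * x.d - x.d * G * x.d - G * (x.d * x.d) := by
    noncomm_ring
  rw [h1, h2, hx.dd, hx.dp, hx.pd]; noncomm_ring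

/-- homotopy `S K* T K S ≃ S` -/
theorem comp_key {m : ℕ} {x : Tup A} {G : A} (hx : x.IsPC m) (hpG : x.p * G = G)
    (hGp : G * x.p = G) :
    x.S * star (KK x G) * x.T * KK x G * x.S = x.S +
      (x.d * (((x.H + x.S * star G * x.T) - G
        - (x.H + x.S * star G * x.T) * (x.d * G + G * x.d)) * x.S)
      - (((x.H + x.S * star G * x.T) - G
        - (x.H + x.S * star G * x.T) * (x.d * G + G * x.d)) * x.S) * star x.d) := by
  obtain ⟨p, g, d, S, T, H⟩ := x
  have hSp := hx.Sp
  obtain ⟨pp, sp, gg, sg, pg, pd, dp, pS, pT, pH, Hp, dd, sS, sT, dS, Td, ST, gd, gS, gT, gH⟩ := hx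
  simp only [KK] at *
  have hSd : S * star d = -(d * S) := eq_neg_of_add_eq_zero_right dS
  have hTd : star d * T = -(T * d) := eq_neg_of_add_eq_zero_right Td
  -- claim 1
  have c1 : S * star (p - d * G - G * d) = S + d * (S * star G) - (S * star G) * star d := by
    simp only [star_sub, star_mul, sp]
    rw [show S * (p - star G * star d - star d * star G)
      = S * p - S * star G * star d - (S * star d) * star G by noncomm_ring, hSd, hSp]
    noncomm_ring
  have c2 : S * star (p - d * G - G * d) * T = p + d * (H + S * star G * T)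
      + (H + S * star G * T) * d := by
    rw [c1, show (S + d * (S * star G) - S * star G * star d) * T
      = S * T + d * (S * star G * T) - S * star G * (star d * T) by noncomm_ring, hTd, ST]
    noncomm_ring
  rw [c2]
  have hU : p * (H + S * star G * T) = H + S * star G * T := by
    rw [mul_add, pH, show p * (S * star G * T) = (p * S) * star G * T by noncomm_ring, pS]
  have hTp : T * p = T := by
    have := congrArg star pT
    rwa [star_mul, sp, sT] at this
  have hU' : (H + S * star G * T) * p = H + S * star G * T := by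
    rw [add_mul, Hp, mul_assoc _ T p, hTp]
  generalize H + S * star G * T = U at *
  have hdS : d * S = -(S * star d) := eq_neg_of_add_eq_zero_left dS
  have e1 : (p + d * U + U * d) * (p - d * G - G * d) * S
      = (p * p) * S + (d * (U * p) + U * (d * p)) * S - ((p * d) * G + (p * G) * d) * S
        - (d * U * (d * G + G * d) + U * d * G * d) * S - U * (d * d) * G * S := by
    noncomm_ring
  rw [e1, pp, hU', dp, pd, hpG, dd, pS]
  have e2 : d * ((U - G - U * (d * G + G * d)) * S) - (U - G - U * (d * G + G * d)) * S * star d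
      = d * (U - G - U * (d * G + G * d)) * S
        - (U - G - U * (d * G + G * d)) * (S * star d) := by noncomm_ring
  rw [e2, hSd]
  have e3 : S + (d * (U - G - U * (d * G + G * d)) * S - (U - G - U * (d * G + G * d)) * -(d * S))
      = S + (d * U + U * d) * S - (d * G + G * d) * S
        - (d * U * (d * G + G * d) + U * d * G * d) * S - U * G * (d * d) * S := by
    noncomm_ring
  rw [e3, dd]
  noncomm_ring

theorem compr_isRP {m : ℕ} {x : Tup A} {G B : A} (hx : x.IsPC m) (hc : IsComp x G B) :
    (compr x G B).IsRP m := by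
  have hkey := comp_key hx hc.pG hc.Gp
  have hKd := KK_comm hx hc.pG hc.Gp
  have hK : KK x G = x.p - x.d * G - G * x.d := rfl
  obtain ⟨p, g, d, S, T, H⟩ := x
  have hgp := hx.gp
  have hgsd := hx.gsd
  have hsdp := hx.sdp
  obtain ⟨pp, sp, gg, sg, pg, pd, dp, pS, pT, pH, Hp, dd, sS, sT, dS, Td, ST, gd, gS, gT, gH⟩ := hx
  obtain ⟨pG, Gp, gG, BB, sB, pB, dB, gB, BK⟩ := hc
  simp only at *
  have Bp : B * p = B := by
    have := congrArg star pB
    rwa [star_mul, sp, sB] at this
  have hgG' : g * star G = -(star G * g) := by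
    have := congrArg star gG
    simp only [star_mul, star_neg, sg] at this
    rw [this, neg_neg]
  have hgK : g * KK ⟨p, g, d, S, T, H⟩ G = KK ⟨p, g, d, S, T, H⟩ G * g := by
    rw [hK]
    rw [show g * (p - d * G - G * d) = g * p - (g * d) * G - (g * G) * d by noncomm_ring,
      gd, gG, hgp,
      show g - -(d * g) * G - -(G * g) * d = g + d * (g * G) + G * (g * d) by noncomm_ring,
      gd, gG, show (p - d * G - G * d) * g = p * g - d * G * g - G * d * g by noncomm_ring, pg]
    noncomm_ring
  have hsK : star (KK ⟨p, g, d, S, T, H⟩ G) * B = star (KK ⟨p, g, d, S, T, H⟩ G) := by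
    have := congrArg star BK
    rwa [star_mul, sB] at this
  have hsKd : star (KK ⟨p, g, d, S, T, H⟩ G) * star d
      = star d * star (KK ⟨p, g, d, S, T, H⟩ G) := by
    have := congrArg star hKd
    simp only [star_mul] at this
    exact this
  have hgsK : g * star (KK ⟨p, g, d, S, T, H⟩ G) = star (KK ⟨p, g, d, S, T, H⟩ G) * g := by
    have := congrArg star hgK
    simp only [star_mul, sg] at this
    exact this.symm
  set U := H + S * star G * T with hU
  have hgX : g * U = -(U * g) := by
    rw [hU, mul_add, gH, show g * (S * star G * T) = (g * S) * star G * T by noncomm_ring, gS,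
      show (-1 : A) ^ m * (S * g) * star G * T = (-1 : A) ^ m * (S * (g * star G) * T)
        by noncomm_ring, hgG', show (-1 : A) ^ m * (S * -(star G * g) * T)
        = -((-1 : A) ^ m * (S * star G * (g * T))) by noncomm_ring, gT]
    rcases neg_one_pow_eq_or A m with h | h <;> rw [h] <;> noncomm_ring
  simp only [compr]
  rw [← hU]
  clear_value U
  generalize KK ⟨p, g, d, S, T, H⟩ G = K at *
  have hsdB : B * star d * B = B * star d := by
    have := congrArg star dB
    simp only [star_mul, sB] at this
    rw [mul_assoc, this]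
  have hgTh : g * (U - G - U * (d * G + G * d)) = -((U - G - U * (d * G + G * d)) * g) := by
    rw [mul_sub, mul_sub, ← mul_assoc g U, hgX, gG, show -(U * g) - -(G * g) - -(U * g) * (d * G + G * d)
      = -(U * g) + G * g + U * ((g * d) * G + (g * G) * d) by noncomm_ring, gd, gG,
      show -(U * g) + G * g + U * (-(d * g) * G + -(G * g) * d)
      = -(U * g) + G * g - U * (d * (g * G) + G * (g * d)) by noncomm_ring, gd, gG]
    noncomm_ring
  generalize hΘ : U - G - U * (d * G + G * d) = Θ at *
  constructor <;> simp only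
  · exact BB
  · exact sB
  · rw [show B * g * (B * g) = B * (g * B) * g by noncomm_ring, gB,
      show B * (B * g) * g = (B * B) * (g * g) by noncomm_ring, BB, gg, Bp]
  · rw [star_mul, sg, sB, gB]
  · rw [← mul_assoc, BB]
  · rw [← mul_assoc, dB]
  · rw [mul_assoc, BB]
  · simp only [← mul_assoc, BK]
  · simp only [← mul_assoc, BB]
  · simp only [← mul_assoc, BK]
  · rw [show K * Θ * S * star K * B = K * Θ * S * (star K * B) by noncomm_ring, hsK]
  · rw [show d * B * (d * B) = d * (B * d * B) by noncomm_ring, dB, ← mul_assoc, dd, zero_mul]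
  · simp only [star_mul, star_star, sS, mul_assoc]
  · simp only [star_mul, sB, sT, mul_assoc]
  · rw [star_mul, sB]
    rw [show d * B * (K * S * star K) = d * (B * K) * S * star K by noncomm_ring, BK,
      show K * S * star K * (B * star d) = K * S * ((star K * B) * star d) by noncomm_ring, hsK,
      hsKd, hKd, show K * d * S * star K + K * S * (star d * star K)
        = K * (d * S + S * star d) * star K by noncomm_ring, dS]
    noncomm_ring
  · rw [star_mul, sB]
    rw [show B * T * B * (d * B) + B * star d * (B * T * B)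
      = B * T * (B * d * B) + (B * star d * B) * T * B by noncomm_ring, dB, hsdB,
      show B * T * (d * B) + B * star d * T * B = B * (T * d + star d * T) * B by noncomm_ring, Td]
    noncomm_ring
  · rw [star_mul, sB]
    rw [show K * S * star K * (B * T * B) * (K * S * star K)
      = K * (S * (star K * B) * T * (B * K) * S) * star K by noncomm_ring, hsK, BK, hkey,
      show d * B * (K * Θ * S * star K) = d * (B * K) * Θ * S * star K by noncomm_ring, BK, hKd,
      show K * Θ * S * star K * (B * star d) = K * Θ * S * ((star K * B) * star d)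
        by noncomm_ring, hsK, hsKd]
    noncomm_ring
  · rw [show B * g * (d * B) = B * (g * d) * B by noncomm_ring, gd,
      show B * -(d * g) * B = -(B * d * (g * B)) by noncomm_ring, gB,
      show d * B * (B * g) = d * (B * B) * g by noncomm_ring, BB,
      show B * d * (B * g) = B * d * B * g by noncomm_ring, dB]
  · rw [show B * g * (K * S * star K) = B * (g * K) * S * star K by noncomm_ring, hgK,
      show B * (K * g) * S * star K = (B * K) * (g * S) * star K by noncomm_ring, BK, gS,
      show K * S * star K * (B * g) = K * S * ((star K * B) * g) by noncomm_ring, hsK, ← hgsK]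
    rcases neg_one_pow_eq_or A m with h | h <;> rw [h] <;> noncomm_ring
  · rw [show B * g * (B * T * B) = B * (g * B) * T * B by noncomm_ring, gB,
      show B * (B * g) * T * B = (B * B) * (g * T) * B by noncomm_ring, BB, gT,
      show B * T * B * (B * g) = B * T * (B * B) * g by noncomm_ring, BB,
      show B * T * B * g = B * T * (B * g) by noncomm_ring, ← gB]
    rcases neg_one_pow_eq_or A m with h | h <;> rw [h] <;> noncomm_ring
  · rw [show B * g * (K * Θ * S * star K) = B * (g * K) * Θ * S * star K by noncomm_ring, hgK,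
      show B * (K * g) * Θ * S * star K = (B * K) * (g * Θ) * S * star K by noncomm_ring, BK, hgTh,
      show K * -(Θ * g) * S * star K = -(K * Θ * (g * S) * star K) by noncomm_ring, gS,
      show K * Θ * S * star K * (B * g) = K * Θ * S * ((star K * B) * g) by noncomm_ring, hsK,
      ← hgsK]
    rcases neg_one_pow_eq_or A m with h | h <;> rw [h] <;> noncomm_ring

end compress

end Crest.Agent.R217.PC473
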