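import Crest.Agent.R217.NormA_551
import Crest.Agent.R217.PCops_473

/-!
Row 217 (S0336), part C1, piece M5-N : NORMALISATION, second part: the cut of `C(Z) ⊗ D'`.
-/

set_option autoImplicit false
set_option linter.unusedSectionVars false
set_option linter.unusedSimpArgs false

namespace Crest.Agent.R217.Norm551

open PC473 Matrix

section words

variable {A1 A' A : Type*} [Ring A1] [StarRing A1] [Algebra ℂ A1] [StarModule ℂ A1]
    [Ring A'] [StarRing A'] [Algebra ℂ A'] [StarModule ℂ A']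
    [Ring A] [StarRing A] [Algebra ℂ A] [StarModule ℂ A]

/-- the wall -/
def PP (T : TP A1 A' A) (x : Line A1) (y : Tup A') : A := T.t x.P y.p

noncomputable def G1 (T : TP A1 A' A) (x : Line A1) (y : Tup A') : A :=
  (2⁻¹ : ℂ) • T.t x.e y.g - (2⁻¹ : ℂ) • T.t x.k (y.g * y.H)
noncomputable def G2 (T : TP A1 A' A) (m : ℕ) (x : Line A1) (y : Tup A') : A :=
  -(star (cc m) • T.t x.e y.T)
noncomputable def B1 (T : TP A1 A' A) (x : Line A1) (y : Tup A') : A := T.t x.e y.g
noncomputable def B2 (T : TP A1 A' A) (m : ℕ) (x : Line A1) (y : Tup A') : A :=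
  -((cc m * 2⁻¹) • T.t x.e y.S)

noncomputable def L11 (T : TP A1 A' A) (x : Line A1) (y : Tup A') : A :=
  T.t x.a y.p + T.t (x.P * x.S * x.P * x.g * x.b) y.H
noncomputable def L12 (T : TP A1 A' A) (m : ℕ) (x : Line A1) (y : Tup A') : A :=
  cc m • T.t (x.P * x.S * x.P * x.g * x.c) (y.H * (y.g * y.S))
noncomputable def L21 (T : TP A1 A' A) (m : ℕ) (x : Line A1) (y : Tup A') : A :=
  star (cc m) • T.t x.b (y.T * y.g)
noncomputable def L22 (T : TP A1 A' A) (x : Line A1) (y : Tup A') : A :=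
  T.t x.c (y.T * y.S) - T.t (x.P * x.g) (star y.H)

variable (T : TP A1 A' A) {m : ℕ} {x : Line A1} {y : Tup A'} (hx : x.Is) (hy : y.IsPC m)
include hx hy

theorem PP_d : PP T x y * (prod T m x y).d = T.t (x.P * x.d) y.p + T.t (x.P * x.g) y.d := by
  simp only [PP, prod, mul_add, T.mul, hy.pp, hy.pd]

theorem sd_PP : star (prod T m x y).d * PP T x y
    = T.t (star x.d * x.P) y.p + T.t (x.P * x.g) (star y.d) := by
  simp only [PP, prod, star_add, add_mul, T.str, T.mul, hy.sp, hy.pp, y_sdp hy, hx.sg, hx.gP]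

theorem PSP : PP T x y * (prod T m x y).S * PP T x y
    = cc m • T.t (x.P * x.S * x.P) (y.g * y.S) := by
  have h : y.p * (y.g * y.S) * y.p = y.g * y.S := by
    rw [← mul_assoc, hy.pg, mul_assoc, y_Sp hy]
  simp only [PP, prod, mul_smul_comm, smul_mul_assoc, T.mul, h]

omit hy in
theorem al1 : x.P * x.g * x.a = -(x.a * (x.P * x.g)) := by
  rw [hx.gP.symm, mul_assoc x.g, hx.Pa, hx.ga, hx.gP, ← mul_assoc, hx.aP]
omit hy in
theorem al2 (b : A1) (hb : x.P * b = b) :
    x.P * x.g * (x.P * x.S * x.P * x.g * b) = -(x.P * x.S * x.P * b) := by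
  calc x.P * x.g * (x.P * x.S * x.P * x.g * b)
      = x.P * (x.g * x.P) * x.S * x.P * x.g * b := by noncomm_ring
    _ = (x.P * x.P) * (x.g * x.S) * x.P * x.g * b := by rw [hx.gP]; noncomm_ring
    _ = -(x.P * x.S * (x.g * x.P) * x.g * b) := by rw [hx.PP, hx.gS]; noncomm_ring
    _ = -(x.P * x.S * x.P * (x.g * x.g) * b) := by rw [hx.gP]; noncomm_ring
    _ = -(x.P * x.S * x.P * b) := by rw [hx.gg, mul_one]
omit hy in
theorem al3 (b : A1) (hb : b * x.P = b) (hg : x.g * b = -(b * x.g)) :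
    x.P * x.S * x.P * x.g * b * (x.P * x.g) = -(x.P * x.S * x.P * b) := by
  calc x.P * x.S * x.P * x.g * b * (x.P * x.g)
      = x.P * x.S * x.P * x.g * ((b * x.P) * x.g) := by noncomm_ring
    _ = x.P * x.S * x.P * x.g * -(x.g * b) := by rw [hb, hg, neg_neg]
    _ = -(x.P * x.S * x.P * (x.g * x.g) * b) := by noncomm_ring
    _ = _ := by rw [hx.gg, mul_one]
omit hy in
theorem al4 : x.P * x.d * (x.P * x.S * x.P * x.g * x.b)
    + x.P * x.S * x.P * x.g * x.b * (x.P * x.d) = -((2⁻¹ : ℂ) • x.k) := by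
  have h1 : x.b * (x.P * x.d) = x.e - star x.d * x.P * x.b := by
    rw [← hx.h21]; abel
  have h2 : x.P * x.d * (x.P * x.S * x.P) = - ((x.P * x.S * x.P) * (star x.d * x.P)) :=
    eq_neg_of_add_eq_zero_left (x_wall hx)
  calc x.P * x.d * (x.P * x.S * x.P * x.g * x.b) + x.P * x.S * x.P * x.g * x.b * (x.P * x.d)
      = (x.P * x.d * (x.P * x.S * x.P)) * x.g * x.b
        + x.P * x.S * x.P * x.g * (x.b * (x.P * x.d)) := by noncomm_ring
    _ = - ((x.P * x.S * x.P) * (star x.d * (x.P * x.g)) * x.b)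
        + x.P * x.S * x.P * (x.g * x.e) - x.P * x.S * x.P * (x.g * star x.d) * (x.P * x.b) := by
          rw [h1, h2]; noncomm_ring
    _ = x.P * x.S * x.P * -x.e := by
          rw [hx.ge, x_gsd hx, ← hx.gP]; noncomm_ring
    _ = _ := by rw [mul_neg, x_PSPe hx]
omit hy in
theorem al5 : x.P * x.d * (x.P * x.S * x.P * x.g * x.c)
    + x.P * x.S * x.P * x.g * x.c * (star x.d * x.P)
    + x.P * x.S * x.P * x.g * x.b * (x.P * x.S * x.P)
    = x.P * x.S * x.P * x.g + (4⁻¹ : ℂ) • x.k := by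
  have h1 : x.b * (x.P * x.S * x.P) + x.c * (star x.d * x.P)
      = x.P - (2⁻¹ : ℂ) • x.e - star x.d * x.P * x.c := by
    rw [← hx.h22]; abel
  have h2 : x.P * x.d * (x.P * x.S * x.P) = - ((x.P * x.S * x.P) * (star x.d * x.P)) :=
    eq_neg_of_add_eq_zero_left (x_wall hx)
  calc x.P * x.d * (x.P * x.S * x.P * x.g * x.c) + x.P * x.S * x.P * x.g * x.c * (star x.d * x.P)
        + x.P * x.S * x.P * x.g * x.b * (x.P * x.S * x.P)
      = (x.P * x.d * (x.P * x.S * x.P)) * x.g * x.c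
        + x.P * x.S * x.P * x.g * (x.b * (x.P * x.S * x.P) + x.c * (star x.d * x.P)) := by
          noncomm_ring
    _ = x.P * x.S * (x.P * (x.g * x.P)) - (2⁻¹ : ℂ) • (x.P * x.S * x.P * (x.g * x.e))
        - ((x.P * x.S * x.P) * (star x.d * (x.P * x.g)) * x.c)
        - x.P * x.S * x.P * (x.g * star x.d) * (x.P * x.c) := by
          rw [h1, h2]
          simp only [mul_sub, mul_smul_comm, mul_assoc, neg_mul]
          abel
    _ = x.P * x.S * (x.P * (x.g * x.P)) + (2⁻¹ : ℂ) • (x.P * x.S * x.P * x.e) := by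
          rw [hx.ge, x_gsd hx, ← hx.gP]
          simp only [mul_neg, smul_neg, neg_mul, mul_assoc]
          abel
    _ = _ := by
          rw [x_PSPe hx, hx.gP, ← mul_assoc x.P x.P, hx.PP, smul_smul]
          norm_num [mul_assoc]

theorem key11 : PP T x y * (prod T m x y).d * L11 T x y
      + (PP T x y * (prod T m x y).S * PP T x y) * L21 T m x y
      + L11 T x y * (PP T x y * (prod T m x y).d)
    = PP T x y - G1 T x y * B1 T x y := by
  rw [PP_d T hx hy, PSP T hx hy]
  unfold L11 L21 G1 B1 PP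
  have f1 : (y.g * y.S) * (y.T * y.g) = y.p + y.d * y.H + y.H * y.d := by
    rw [mul_assoc, ← mul_assoc y.S, MM_eq hy, ← mul_assoc, gMMg hy]; rfl
  have f2 : (y.g * y.H) * y.g = -y.H := by
    rw [hy.gH, neg_mul, mul_assoc, hy.gg, hy.Hp]
  have a1 := al1 hx
  have a2 := al2 hx x.b hx.Pb
  have a3 := al3 hx x.b hx.bP hx.gb
  have a4 := al4 hx
  simp only [mul_add, add_mul, sub_mul, mul_smul_comm, smul_mul_assoc, T.mul, smul_smul, hy.pp,
    hy.pH, hy.Hp, hy.pd, hy.dp, f1, f2, a1, a2, a3, cc_star, star_cc', one_smul, map_neg,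
    LinearMap.neg_apply, hx.ee, hx.ke, hy.gg]
  have b1 : T.t (x.P * x.d * (x.P * x.S * x.P * x.g * x.b)) y.H
      + T.t (x.P * x.S * x.P * x.g * x.b * (x.P * x.d)) y.H = -((2⁻¹ : ℂ) • T.t x.k y.H) := by
    rw [← LinearMap.add_apply, ← map_add, a4]; simp
  have b2 : T.t (x.P * x.d * x.a) y.p + T.t (x.a * (x.P * x.d)) y.p
      + T.t (x.P * x.S * x.P * x.b) y.p = T.t x.P y.p - (2⁻¹ : ℂ) • T.t x.e y.p := by
    rw [← LinearMap.add_apply, ← map_add, ← LinearMap.add_apply, ← map_add, hx.h11]; simp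
  simp only [map_add]
  linear_combination (norm := module) b1 + b2

theorem key21 : star (prod T m x y).d * PP T x y * L21 T m x y
      + L21 T m x y * (PP T x y * (prod T m x y).d)
    = - (G2 T m x y * B1 T x y) := by
  rw [PP_d T hx hy, sd_PP T hx hy]
  unfold L21 G2 B1
  have f1 : star y.d * (y.T * y.g) = (y.T * y.g) * y.d := by
    have := hy.Td
    rw [mul_assoc, hy.gd, mul_neg, ← mul_assoc y.T, eq_neg_of_add_eq_zero_left this, neg_mul,
      neg_neg, mul_assoc]
  have f2 : y.p * (y.T * y.g) = y.T * y.g := by rw [← mul_assoc, hy.pT]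
  have f3 : (y.T * y.g) * y.p = y.T * y.g := by rw [mul_assoc, y_gp hy]
  have a1 : x.P * x.g * x.b = -(x.b * (x.P * x.g)) := by
    rw [hx.gP.symm, mul_assoc x.g, hx.Pb, hx.gb, hx.gP, ← mul_assoc, hx.bP]
  simp only [mul_add, add_mul, sub_mul, mul_smul_comm, smul_mul_assoc, T.mul, smul_smul, f1, f2, f3,
    a1, map_neg, LinearMap.neg_apply, hx.ee, neg_mul]
  have b1 : T.t (star x.d * x.P * x.b) (y.T * y.g) + T.t (x.b * (x.P * x.d)) (y.T * y.g)
      = T.t x.e (y.T * y.g) := by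
    rw [← LinearMap.add_apply, ← map_add, hx.h21]
  linear_combination (norm := module) (star (cc m)) • b1

theorem key12 (hR : y.S * star y.H + y.H * y.S = 0) :
    PP T x y * (prod T m x y).d * L12 T m x y
      + (PP T x y * (prod T m x y).S * PP T x y) * L22 T x y
      + L11 T x y * (PP T x y * (prod T m x y).S * PP T x y)
      + L12 T m x y * (star (prod T m x y).d * PP T x y)
    = - (G1 T x y * B2 T m x y) := by
  rw [PP_d T hx hy, PSP T hx hy, sd_PP T hx hy]
  unfold L12 L22 L11 G1 B2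
  have hSd : y.S * star y.d = -(y.d * y.S) := eq_neg_of_add_eq_zero_right hy.dS
  have f1 : (y.g * y.S) * (y.T * y.S) = (y.p + y.d * y.H + y.H * y.d) * (y.g * y.S) := by
    have : y.p + y.d * y.H + y.H * y.d = MM y := rfl
    rw [this, ← mul_assoc (MM y), ← g_MM hy, mul_assoc, mul_assoc, ← mul_assoc y.S, MM_eq hy]
  have f2 : (y.g * y.S) * star y.H = y.H * (y.g * y.S) := by
    have h1 : y.g * y.H = -(y.H * y.g) := hy.gH
    have h2 : y.H * y.g = -(y.g * y.H) := by rw [h1, neg_neg]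
    rw [← mul_assoc y.H, h2, neg_mul, mul_assoc, mul_assoc, eq_neg_of_add_eq_zero_right hR, mul_neg,
      neg_neg]
  have f3 : y.H * (y.g * y.S) * star y.d = y.H * (y.d * (y.g * y.S)) := by
    rw [mul_assoc, mul_assoc, hSd, mul_neg, ← mul_assoc y.g, hy.gd]
    noncomm_ring
  have f4 : (y.g * y.S) * y.p = y.g * y.S := by rw [mul_assoc, y_Sp hy]
  have f5 : y.p * (y.g * y.S) = y.g * y.S := by rw [← mul_assoc, hy.pg]
  have f6 : y.p * (y.H * (y.g * y.S)) = y.H * (y.g * y.S) := by rw [← mul_assoc, hy.pH]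
  have f7 : y.H * (y.g * y.S) * y.p = y.H * (y.g * y.S) := by rw [mul_assoc, f4]
  have f8 : (y.g * y.H) * y.S = -(y.H * (y.g * y.S)) := by rw [hy.gH]; noncomm_ring
  have f9 : y.g * y.S * (y.H * (y.g * y.S)) = y.g * y.S * (y.H * (y.g * y.S)) := rfl
  have a2 := al2 hx x.c hx.Pc
  have a3 := al3 hx x.c hx.cP hx.gc
  have a5 := al5 hx
  have a6 : x.P * x.S * x.P * (x.P * x.g) = x.P * x.S * x.P * x.g := by
    rw [← mul_assoc, mul_assoc (x.P * x.S), hx.PP]
  simp only [mul_add, add_mul, mul_sub, sub_mul, mul_smul_comm, smul_mul_assoc, T.mul, smul_smul, 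
    f1, f2, f3, f4, f5, f6, f7, f8, a2, a3, a6, map_neg, mul_neg,
    LinearMap.neg_apply, hx.ee, hx.ke, hy.gg]
  have b1 : T.t (x.P * x.d * (x.P * x.S * x.P * x.g * x.c)) (y.H * (y.g * y.S))
      + T.t (x.P * x.S * x.P * x.g * x.c * (star x.d * x.P)) (y.H * (y.g * y.S))
      + T.t (x.P * x.S * x.P * x.g * x.b * (x.P * x.S * x.P)) (y.H * (y.g * y.S))
      = T.t (x.P * x.S * x.P * x.g) (y.H * (y.g * y.S))
        + (4⁻¹ : ℂ) • T.t x.k (y.H * (y.g * y.S)) := by
    rw [← LinearMap.add_apply, ← map_add, ← LinearMap.add_apply, ← map_add, a5]; simp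
  have b2 : T.t (x.P * x.S * x.P * x.c) (y.g * y.S) + T.t (x.a * (x.P * x.S * x.P)) (y.g * y.S)
      = (4⁻¹ : ℂ) • T.t x.e (y.g * y.S) := by
    rw [← LinearMap.add_apply, ← map_add, hx.h12]; simp
  have f10 : y.d * (y.H * (y.g * y.S)) = y.d * y.H * (y.g * y.S) := by rw [mul_assoc]
  have f11 : y.H * (y.d * (y.g * y.S)) = y.H * y.d * (y.g * y.S) := by rw [mul_assoc]
  rw [f10, f11]
  simp only [map_add]
  linear_combination (norm := module) (cc m) • b1 + (cc m) • b2

theorem key22 :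
    star (prod T m x y).d * PP T x y * L22 T x y
      + L22 T x y * (star (prod T m x y).d * PP T x y)
      + L21 T m x y * (PP T x y * (prod T m x y).S * PP T x y)
    = PP T x y - (G2 T m x y * B2 T m x y) := by
  rw [PSP T hx hy, sd_PP T hx hy]
  unfold L22 L21 G2 B2 PP
  have hTS : y.T * y.S = y.p + star y.d * star y.H + star y.H * star y.d := by
    have := congrArg star hy.ST
    rw [star_mul, star_add, star_add, star_mul, star_mul, hy.sp, hy.sT, hy.sS] at this
    rw [this]; abel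
  have hSd : y.S * star y.d = -(y.d * y.S) := eq_neg_of_add_eq_zero_right hy.dS
  have hTd : y.T * y.d = -(star y.d * y.T) := eq_neg_of_add_eq_zero_left hy.Td
  have f1 : (y.T * y.g) * (y.g * y.S) = y.T * y.S := by
    rw [mul_assoc, ← mul_assoc y.g, hy.gg, ← mul_assoc, y_Tp hy]
  have f2 : (y.T * y.S) * star y.d = star y.d * (y.T * y.S) := by
    rw [mul_assoc, hSd, mul_neg, ← mul_assoc, hTd, neg_mul, neg_neg, mul_assoc]
  have f3 : y.p * (y.T * y.S) = y.T * y.S := by rw [← mul_assoc, hy.pT]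
  have f4 : (y.T * y.S) * y.p = y.T * y.S := by rw [mul_assoc, y_Sp hy]
  have f5 : y.p * star y.H = star y.H := by
    have := congrArg star hy.Hp
    rwa [star_mul, hy.sp] at this
  have f6 : star y.H * y.p = star y.H := by
    have := congrArg star hy.pH
    rwa [star_mul, hy.sp] at this
  have a1 : x.P * x.g * x.c = -(x.c * (x.P * x.g)) := by
    rw [hx.gP.symm, mul_assoc x.g, hx.Pc, hx.gc, hx.gP, ← mul_assoc, hx.cP]
  have a2 : star x.d * x.P * (x.P * x.g) = star x.d * x.P * x.g := by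
    rw [← mul_assoc, mul_assoc (star x.d), hx.PP]
  have a3 : x.P * x.g * (star x.d * x.P) = -(star x.d * x.P * x.g) := by
    calc x.P * x.g * (star x.d * x.P) = x.P * (x.g * star x.d) * x.P := by noncomm_ring
      _ = -((x.P * star x.d) * (x.g * x.P)) := by rw [x_gsd hx]; noncomm_ring
      _ = -((x.P * star x.d * x.P) * x.g) := by rw [hx.gP]; noncomm_ring
      _ = _ := by rw [x_PsdP hx]
  have a4 : x.P * x.g * (x.P * x.g) = x.P := by
    calc x.P * x.g * (x.P * x.g) = x.P * (x.g * x.P) * x.g := by noncomm_ring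
      _ = (x.P * x.P) * (x.g * x.g) := by rw [hx.gP]; noncomm_ring
      _ = _ := by rw [hx.PP, hx.gg, mul_one]
  have b1 : T.t (star x.d * x.P * x.c) (y.T * y.S) + T.t (x.c * (star x.d * x.P)) (y.T * y.S)
      + T.t (x.b * (x.P * x.S * x.P)) (y.T * y.S)
      = T.t x.P (y.T * y.S) - (2⁻¹ : ℂ) • T.t x.e (y.T * y.S) := by
    rw [← LinearMap.add_apply, ← map_add, ← LinearMap.add_apply, ← map_add, hx.h22]; simp
  have b2 : T.t x.P (y.T * y.S)
      = T.t x.P y.p + T.t x.P (star y.d * star y.H) + T.t x.P (star y.H * star y.d) := by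
    rw [hTS]; simp
  have hc := star_cc' m
  simp only [mul_add, add_mul, mul_sub, sub_mul, mul_smul_comm, smul_mul_assoc, T.mul, smul_smul, 
    f1, f2, f3, f4, f5, f6, a1, a2, a3, a4, map_neg, mul_neg, neg_mul,
    LinearMap.neg_apply, hx.ee, neg_neg]
  have hc2 : cc m * 2⁻¹ * star (cc m) = 2⁻¹ := by
    linear_combination (2⁻¹ : ℂ) * hc
  have hc3 : star (cc m) * (cc m * 2⁻¹) = 2⁻¹ := by
    linear_combination (2⁻¹ : ℂ) * hc
  have hc4 : cc m * star (cc m) = 1 := cc_star m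
  simp only [hc, hc4, one_smul]
  have b3 : (cc m * 2⁻¹ * star (cc m)) • T.t x.e (y.T * y.S) = (2⁻¹ : ℂ) • T.t x.e (y.T * y.S) := by
    rw [hc2]
  linear_combination (norm := module) b1 + b2 + b3

/-- the boundary of the product along the wall -/
noncomputable def WW (T : TP A1 A' A) (m : ℕ) (x : Line A1) (y : Tup A') :
    Tup (Matrix (Fin 2) (Fin 2) A) := bdry m (prod T m x y) (PP T x y)

/-- the contraction -/
noncomputable def LL (T : TP A1 A' A) (m : ℕ) (x : Line A1) (y : Tup A') :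
    Matrix (Fin 2) (Fin 2) A := !![L11 T x y, L12 T m x y; L21 T m x y, L22 T x y]

/-- the chain map `D' → W` (in the first column) -/
noncomputable def GG (T : TP A1 A' A) (m : ℕ) (x : Line A1) (y : Tup A') :
    Matrix (Fin 2) (Fin 2) A := !![G1 T x y, 0; G2 T m x y, 0]

/-- the chain map `W → D'` (in the first row) -/
noncomputable def BB (T : TP A1 A' A) (m : ℕ) (x : Line A1) (y : Tup A') :
    Matrix (Fin 2) (Fin 2) A := !![B1 T x y, B2 T m x y; 0, 0]

/-- the strip -/
noncomputable def QQ (T : TP A1 A' A) (x : Line A1) (y : Tup A') :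
    Matrix (Fin 2) (Fin 2) A := !![T.t (x.e + x.v) y.p, 0; 0, T.t x.e y.p]

/-- `D'` placed at the edge `e_0` -/
def edge (T : TP A1 A' A) (x : Line A1) (y : Tup A') : Tup A where
  p := T.t x.e y.p
  g := T.t x.e y.g
  d := T.t x.e y.d
  S := T.t x.e y.S
  T := T.t x.e y.T
  H := T.t x.e y.H

omit hx hy in
theorem sub_fin2' (a b c d a' b' c' d' : A) :
    (!![a, b; c, d] : Matrix (Fin 2) (Fin 2) A) - !![a', b'; c', d']
      = !![a - a', b - b'; c - c', d - d'] := sub_fin2 a b c d a' b' c' d'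

theorem isQuot : IsQuot (prod T m x y) (PP T x y) where
  PP := by simp only [PP, T.mul, hx.PP, hy.pp]
  sP := by simp only [PP, T.str, hx.sP, hy.sp]
  pP := by simp only [PP, prod, T.mul, one_mul, hy.pp]
  Pd := by
    rw [PP_d T hx hy]
    simp only [PP, add_mul, T.mul, hx.PdP, hy.pp, hy.dp]
    congr 2
    rw [mul_assoc, hx.gP, ← mul_assoc, hx.PP]
  gP := by
    simp only [PP, prod, T.mul, hx.gP, hy.pg, y_gp hy]

theorem WW_isPC : (WW T m x y).IsPC m :=
  bdry0_isPC (trunc_isSym (prod_isPC T hx hy).isSym (isQuot T hx hy))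

theorem KK_eq (hR : y.S * star y.H + y.H * y.S = 0) :
    KK (WW T m x y) (LL T m x y) = GG T m x y * BB T m x y := by
  have k11 := key11 T hx hy
  have k12 := key12 T hx hy hR
  have k21 := key21 T hx hy
  have k22 := key22 T hx hy
  have hsP : star (PP T x y) = PP T x y := (isQuot T hx hy).sP
  unfold KK WW LL GG BB bdry bdry0 trunc
  simp only [mul_fin_two, sub_fin2', mul_zero, zero_mul, add_zero, zero_add, star_mul, hsP]
  refine fin2_eq ?_ ?_ ?_ ?_
  · linear_combination (norm := module) (-1 : ℂ) • k11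
  · linear_combination (norm := module) (-1 : ℂ) • k12
  · linear_combination (norm := module) (-1 : ℂ) • k21
  · linear_combination (norm := module) (-1 : ℂ) • k22

theorem GG_chain : (WW T m x y).d * GG T m x y = GG T m x y * !![T.t x.e y.d, 0; 0, 0] := by
  have hsP : star (PP T x y) = PP T x y := (isQuot T hx hy).sP
  unfold WW GG bdry bdry0 trunc
  simp only [mul_fin_two, sub_fin2', mul_zero, zero_mul, add_zero, zero_add, star_mul, hsP]
  rw [PP_d T hx hy, sd_PP T hx hy, PSP T hx hy]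
  have f1 : (y.g * y.S) * y.T = y.g + y.g * (y.d * y.H) + y.g * (y.H * y.d) := by
    rw [mul_assoc, hy.ST, mul_add, mul_add, y_gp hy]
  have f2 : y.d * y.g = -(y.g * y.d) := by rw [hy.gd, neg_neg]
  have f3 : star y.d * y.T = -(y.T * y.d) := eq_neg_of_add_eq_zero_right hy.Td
  have f4 : y.d * (y.g * y.H) = -(y.g * (y.d * y.H)) := by rw [← mul_assoc, f2, neg_mul, mul_assoc]
  have f5 : y.p * (y.g * y.H) = y.g * y.H := by rw [← mul_assoc, hy.pg]
  have f6 : (y.g * y.H) * y.d = y.g * (y.H * y.d) := by rw [mul_assoc]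
  have a1 : x.P * x.g * x.e = -x.e := by rw [mul_assoc, hx.ge, mul_neg, hx.Pe]
  have a2 : x.P * x.d * x.e = x.k := hx.Pde
  have a3 : x.P * x.d * x.k = 0 := by
    rw [← hx.vk, ← mul_assoc, mul_assoc x.P, hx.dv, mul_zero, zero_mul]
  have a4 : x.P * x.g * x.k = x.k := by rw [mul_assoc, x_gk hx, x_Pk hx]
  have a5 : star x.d * x.P * x.e = 0 := by rw [mul_assoc, hx.Pe, x_sde hx]
  refine fin2_eq ?_ ?_ ?_ ?_
  · unfold G1 G2
    simp only [mul_add, add_mul, mul_sub, sub_mul, mul_smul_comm, smul_mul_assoc, T.mul, smul_smul,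
      f1, f2, f4, f5, f6, hy.pg, a1, a2, a3, a4, map_neg, mul_neg, neg_mul, map_add, x_PSPe hx,
      LinearMap.neg_apply, LinearMap.smul_apply, map_smul, hx.ee, neg_neg, hx.ke, map_zero,
      LinearMap.zero_apply, smul_zero, sub_zero, zero_add, cc_star, star_cc']
    have h3 : T.t x.k (y.g * y.H * y.d) = T.t x.k (y.g * (y.H * y.d)) := by rw [mul_assoc]
    module
  · rfl
  · unfold G2
    simp only [mul_add, add_mul, mul_smul_comm, smul_mul_assoc, T.mul, hy.pT, f3, a1, a5, map_neg,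
      mul_neg, neg_mul, LinearMap.neg_apply, hx.ee, neg_neg, map_zero, LinearMap.zero_apply,
      smul_zero, zero_add, neg_zero]
  · rfl

theorem GG_grad : (WW T m x y).g * GG T m x y = GG T m x y * !![T.t x.e y.g, 0; 0, 0] := by
  unfold WW GG bdry bdry0 trunc G1 G2 PP prod
  have f1 : y.p * y.g = y.g := hy.pg
  have f2 : y.g * (y.g * y.H) = y.H := by rw [← mul_assoc, hy.gg, hy.pH]
  have f3 : (y.g * y.H) * y.g = -y.H := by
    rw [hy.gH, neg_mul, mul_assoc, hy.gg, hy.Hp]
  have f4 : y.p * y.g * (y.g * y.H) = y.H := by rw [hy.pg, f2]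
  have a1 : x.P * x.g * x.e = -x.e := by rw [mul_assoc, hx.ge, mul_neg, hx.Pe]
  have a2 : x.P * x.g * x.k = x.k := by rw [mul_assoc, x_gk hx, x_Pk hx]
  simp only [mul_fin_two, mul_zero, zero_mul, add_zero, zero_add]
  refine fin2_eq ?_ ?_ ?_ ?_
  · simp only [mul_add, add_mul, mul_sub, sub_mul, mul_smul_comm, smul_mul_assoc, T.mul, smul_smul,
      f1, f2, f3, f4, hy.gg, a1, a2, map_neg, mul_neg, neg_mul, map_add,
      LinearMap.neg_apply, LinearMap.smul_apply, map_smul, hx.ee, neg_neg, hx.ke, map_zero,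
      LinearMap.zero_apply, smul_zero, sub_zero, zero_add]
  · rfl
  · rcases neg_one_pow_cases (A := A) m with ⟨h1, h2⟩ | ⟨h1, h2⟩
    · have f5 : y.g * y.T = y.T * y.g := by
        rcases Nat.even_or_odd m with h | h
        · rw [hy.gT, h.neg_one_pow, one_mul]
        · exfalso
          rw [h.neg_one_pow] at h2; norm_num at h2
      simp only [pow_succ, h1, mul_smul_comm, smul_mul_assoc, T.mul, f1, f5, a1, map_neg,
        LinearMap.neg_apply, mul_neg, neg_mul, one_mul, mul_one, hx.ee, neg_neg]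
    · have f5 : y.g * y.T = -(y.T * y.g) := by
        rcases Nat.even_or_odd m with h | h
        · exfalso
          rw [h.neg_one_pow] at h2; norm_num at h2
        · rw [hy.gT, h.neg_one_pow, neg_one_mul]
      simp only [pow_succ, h1, mul_smul_comm, smul_mul_assoc, T.mul, f1, f5, a1, map_neg,
        LinearMap.neg_apply, mul_neg, neg_mul, one_mul, mul_one, hx.ee, neg_neg, smul_neg]
  · rfl

/-- `G* J G = T'` -/
theorem GG_T : star (GG T m x y) * ((WW T m x y).T * GG T m x y) = !![T.t x.e y.T, 0; 0, 0] := by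
  unfold WW GG bdry bdry0 trunc G1 G2 PP prod aa
  simp only [mul_fin_two, star_fin2, mul_zero, zero_mul, add_zero, zero_add, star_zero]
  have a1 : x.P * x.g * x.e = -x.e := by rw [mul_assoc, hx.ge, mul_neg, hx.Pe]
  have a2 : x.P * x.g * x.k = x.k := by rw [mul_assoc, x_gk hx, x_Pk hx]
  have f1 : y.p * y.g = y.g := hy.pg
  have f2 : y.g * (y.g * y.H) = y.H := by rw [← mul_assoc, hy.gg, hy.pH]
  have f3 : y.g * (y.g * y.T) = y.T := by rw [← mul_assoc, hy.gg, hy.pT]
  have hcc2 := cc_mul_self m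
  have hcs := cc_star m
  refine fin2_eq ?_ ?_ ?_ ?_
  · simp only [star_sub, star_neg, star_smul, T.str, star_mul, hx.se, hy.sg, hy.sT, star_star]
    have hcs' : (starRingEnd ℂ) (cc m) * cc m = 1 := star_cc' m
    rcases neg_one_pow_cases (A := A) m with ⟨h1, h2⟩ | ⟨h1, h2⟩ <;>
    · rw [h2] at hcc2
      simp only [h1, one_mul, neg_mul, mul_add, add_mul, mul_sub, sub_mul, mul_neg, neg_mul,
        mul_smul_comm, smul_mul_assoc, T.mul, smul_smul, f1, f2, f3, hy.gg, a1, a2, hx.ee,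
        x_ek hx, x_ske hx, map_neg, map_zero, LinearMap.neg_apply, LinearMap.zero_apply, smul_zero,
        sub_zero, smul_neg, neg_neg, y_Tp hy, star_inv₀, RCLike.star_def, map_ofNat, neg_zero,
        add_zero]
      rw [hcs', mul_assoc, hcc2]
      module
  · rfl
  · rfl
  · rfl

/-- `Gb J Gb* = S'` -/
theorem BB_S : BB T m x y * ((WW T m x y).S * star (BB T m x y)) = !![T.t x.e y.S, 0; 0, 0] := by
  unfold WW BB bdry bdry0 trunc B1 B2 PP prod aa
  simp only [mul_fin_two, star_fin2, mul_zero, zero_mul, add_zero, zero_add, star_zero]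
  have a1 : x.P * x.g * x.e = -x.e := by rw [mul_assoc, hx.ge, mul_neg, hx.Pe]
  have f1 : y.p * y.g = y.g := hy.pg
  have f3 : y.g * (y.g * y.S) = y.S := by rw [← mul_assoc, hy.gg, hy.pS]
  have hcc2 := cc_mul_self m
  refine fin2_eq ?_ ?_ ?_ ?_
  · simp only [star_sub, star_neg, star_smul, T.str, star_mul, hx.se, hy.sg, hy.sS, star_star]
    have hcs' : (starRingEnd ℂ) (cc m) * cc m = 1 := star_cc' m
    have hcs'' : cc m * (starRingEnd ℂ) (cc m) = 1 := cc_star m
    rcases neg_one_pow_cases (A := A) m with ⟨h1, h2⟩ | ⟨h1, h2⟩ <;>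
    · rw [h2] at hcc2
      simp only [h1, one_mul, neg_mul, mul_add, add_mul, mul_sub, sub_mul, mul_neg, neg_mul,
        mul_smul_comm, smul_mul_assoc, T.mul, smul_smul, f1, f3, hy.gg, a1, hx.ee,
        map_neg, map_zero, LinearMap.neg_apply, LinearMap.zero_apply, smul_zero,
        sub_zero, smul_neg, neg_neg, y_Sp hy, star_inv₀, RCLike.star_def, map_ofNat, neg_zero,
        add_zero, star_mul]
      rw [mul_assoc (2⁻¹ : ℂ), hcs', ← mul_assoc (cc m) (cc m), hcc2]
      module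
  · rfl
  · rfl
  · rfl

theorem y_gTS : y.g * (y.T * y.S) = (y.T * y.S) * y.g := by
  rw [← mul_assoc, hy.gT]
  rcases neg_one_pow_eq_or A' m with h | h
  · have := hy.gS
    rw [h, one_mul] at this ⊢
    rw [mul_assoc, this, mul_assoc]
  · have := hy.gS
    rw [h, neg_one_mul] at this ⊢
    rw [neg_mul, mul_assoc, this, mul_neg, neg_neg, mul_assoc]

theorem QQ_GG : QQ T x y * GG T m x y = GG T m x y := by
  unfold QQ GG G1 G2
  have f1 : y.p * (y.g * y.H) = y.g * y.H := by rw [← mul_assoc, hy.pg]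
  simp only [mul_fin_two, mul_zero, zero_mul, add_zero, zero_add]
  refine fin2_eq ?_ rfl ?_ rfl
  · simp only [mul_sub, mul_smul_comm, T.mul, add_mul, hx.ee, x_ve hx, x_ek hx, hx.vk, f1, hy.pg,
      add_zero, zero_add]
  · simp only [mul_neg, mul_smul_comm, T.mul, hx.ee, hy.pT]

theorem isComp (hR : y.S * star y.H + y.H * y.S = 0) :
    IsComp (WW T m x y) (LL T m x y) (QQ T x y) := by
  have hsP : star (PP T x y) = PP T x y := (isQuot T hx hy).sP
  have f1 : y.p * (y.H * (y.g * y.S)) = y.H * (y.g * y.S) := by rw [← mul_assoc, hy.pH]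
  have f2 : y.p * (y.T * y.g) = y.T * y.g := by rw [← mul_assoc, hy.pT]
  have f3 : y.p * (y.T * y.S) = y.T * y.S := by rw [← mul_assoc, hy.pT]
  have f4 : y.p * star y.H = star y.H := by
    have := congrArg star hy.Hp
    rwa [star_mul, hy.sp] at this
  have f5 : star y.H * y.p = star y.H := by
    have := congrArg star hy.pH
    rwa [star_mul, hy.sp] at this
  have f6 : (y.g * y.S) * y.p = y.g * y.S := by rw [mul_assoc, y_Sp hy]
  have f7 : y.H * (y.g * y.S) * y.p = y.H * (y.g * y.S) := by rw [mul_assoc, f6]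
  have f8 : (y.T * y.g) * y.p = y.T * y.g := by rw [mul_assoc, y_gp hy]
  have f9 : (y.T * y.S) * y.p = y.T * y.S := by rw [mul_assoc, y_Sp hy]
  have f10 : y.g * star y.H = -(star y.H * y.g) := hy.gsH
  have f11 := y_gTS (A' := A') hx hy
  have p1 : ∀ z : A1, x.P * (x.P * x.S * x.P * x.g * z) = x.P * x.S * x.P * x.g * z := by
    intro z
    calc x.P * (x.P * x.S * x.P * x.g * z) = (x.P * x.P) * x.S * x.P * x.g * z := by noncomm_ring
      _ = _ := by rw [hx.PP]
  have p2 : x.P * (x.P * x.g) = x.P * x.g := by rw [← mul_assoc, hx.PP]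
  have p3 : x.P * x.g * x.P = x.P * x.g := by rw [mul_assoc, hx.gP, p2]
  have p4 : ∀ z : A1, z * x.P = z → x.P * x.S * x.P * x.g * z * x.P = x.P * x.S * x.P * x.g * z := by
    intro z hz; rw [mul_assoc, hz]
  have q1 := al1 hx
  have q2 := al2 hx x.b hx.Pb
  have q3 := al3 hx x.b hx.bP hx.gb
  have q4 := al2 hx x.c hx.Pc
  have q5 := al3 hx x.c hx.cP hx.gc
  have q6 : x.P * x.g * x.b = -(x.b * (x.P * x.g)) := by
    rw [hx.gP.symm, mul_assoc x.g, hx.Pb, hx.gb, hx.gP, ← mul_assoc, hx.bP]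
  have q7 : x.P * x.g * x.c = -(x.c * (x.P * x.g)) := by
    rw [hx.gP.symm, mul_assoc x.g, hx.Pc, hx.gc, hx.gP, ← mul_assoc, hx.cP]
  have q8 : x.P * x.g * (x.P * x.g) = x.P := by
    calc x.P * x.g * (x.P * x.g) = x.P * (x.g * x.P) * x.g := by noncomm_ring
      _ = (x.P * x.P) * (x.g * x.g) := by rw [hx.gP]; noncomm_ring
      _ = _ := by rw [hx.PP, hx.gg, mul_one]
  refine ⟨?_, ?_, ?_, ?_, ?_, ?_, ?_, ?_, ?_⟩
  · unfold WW LL L11 L12 L21 L22 bdry bdry0 trunc PP
    simp only [mul_fin_two, mul_zero, zero_mul, add_zero, zero_add, mul_add, mul_sub, T.mul,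
      mul_smul_comm, hy.pp, hy.pH, f1, f2, f3, f4, hx.Pa, hx.Pb, hx.Pc, p1, p2, smul_zero,
      sub_zero]
  · unfold WW LL L11 L12 L21 L22 bdry bdry0 trunc PP
    simp only [mul_fin_two, mul_zero, zero_mul, add_zero, zero_add, add_mul, sub_mul, T.mul,
      smul_mul_assoc, hy.pp, hy.Hp, f5, f7, f8, f9, hx.aP, hx.bP, hx.cP, p3, p4 x.b hx.bP,
      p4 x.c hx.cP, smul_zero, sub_zero]
  · unfold WW LL L11 L12 L21 L22 bdry bdry0 trunc PP prod
    simp only [mul_fin_two, mul_zero, zero_mul, add_zero, zero_add, neg_fin2]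
    have r1 : y.g * (y.H * (y.g * y.S)) = -(y.H * y.S) := by
      rw [← mul_assoc, hy.gH, neg_mul, mul_assoc, ← mul_assoc y.g y.g, hy.gg, ← mul_assoc,
        hy.Hp]
    have r3 : y.T * y.g * y.g = y.T := by rw [mul_assoc, hy.gg, y_Tp hy]
    rcases Nat.even_or_odd m with h | h
    · have g1 : y.g * y.S = y.S * y.g := by rw [hy.gS, h.neg_one_pow, one_mul]
      have g2 : y.g * y.T = y.T * y.g := by rw [hy.gT, h.neg_one_pow, one_mul]
      have r2 : y.H * (y.g * y.S) * y.g = y.H * y.S := by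
        rw [g1, mul_assoc, mul_assoc, hy.gg, y_Sp hy]
      have r4 : y.g * (y.T * y.g) = y.T := by rw [← mul_assoc, g2, r3]
      simp only [pow_succ, h.neg_one_pow, one_mul, T.mul, hy.pg, mul_add, add_mul, mul_sub, sub_mul,
        mul_smul_comm, smul_mul_assoc, neg_mul, mul_neg, neg_neg, q1, q2, q3, q4, q5, q6, q7, q8,
        y_gp hy, hy.gH, r1, r2, r3, r4, f10, f11, map_neg, LinearMap.neg_apply, smul_neg]
    · have g1 : y.g * y.S = -(y.S * y.g) := by rw [hy.gS, h.neg_one_pow, neg_one_mul]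
      have g2 : y.g * y.T = -(y.T * y.g) := by rw [hy.gT, h.neg_one_pow, neg_one_mul]
      have r2 : y.H * (y.g * y.S) * y.g = -(y.H * y.S) := by
        rw [g1, mul_neg, neg_mul, mul_assoc, mul_assoc, hy.gg, y_Sp hy]
      have r4 : y.g * (y.T * y.g) = -y.T := by rw [← mul_assoc, g2, neg_mul, r3]
      simp only [pow_succ, h.neg_one_pow, one_mul, T.mul, hy.pg, mul_add, add_mul, mul_sub, sub_mul,
        mul_smul_comm, smul_mul_assoc, neg_mul, mul_neg, neg_neg, q1, q2, q3, q4, q5, q6, q7, q8,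
        y_gp hy, hy.gH, r1, r2, r3, r4, f10, f11, map_neg, LinearMap.neg_apply, smul_neg]
      refine fin2_eq ?_ ?_ ?_ ?_ <;> first | rfl | abel | module
  · unfold QQ
    simp only [mul_fin_two, mul_zero, zero_mul, add_zero, zero_add, T.mul, hy.pp, mul_add, add_mul,
      hx.ee, hx.vv, hx.ev, x_ve hx]
  · unfold QQ
    simp only [star_fin2, T.str, star_zero, star_add, hx.se, hx.sv, hy.sp]
  · unfold WW QQ bdry bdry0 trunc PP
    simp only [mul_fin_two, mul_zero, zero_mul, add_zero, zero_add, T.mul, hy.pp, mul_add, hx.Pe,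
      hx.Pv]
  · unfold WW QQ bdry bdry0
    simp only [trunc, mul_fin_two, mul_zero, zero_mul, add_zero, zero_add, star_mul, hsP]
    rw [PP_d T hx hy, sd_PP T hx hy, PSP T hx hy]
    have a1 : x.P * x.g * x.e = -x.e := by rw [mul_assoc, hx.ge, mul_neg, hx.Pe]
    have a2 : x.P * x.g * x.v = x.v := by rw [mul_assoc, hx.gv, hx.Pv]
    have a3 : x.P * x.d * x.v = 0 := by rw [mul_assoc, hx.dv, mul_zero]
    have a4 : star x.d * x.P * x.e = 0 := by rw [mul_assoc, hx.Pe, x_sde hx]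
    have b1 : y.p * (y.g * y.S) = y.g * y.S := by rw [← mul_assoc, hy.pg]
    have b2 : y.p * star y.d = star y.d := hy.psd
    have b3 : star y.d * y.p = star y.d := hy.sdp
    simp only [T.mul, mul_add, add_mul, mul_smul_comm, smul_mul_assoc, mul_assoc x.P x.d,
      a1, a2, a4, hy.pp, hy.pd, hy.dp, b1, b2, b3, f6, hx.ee, hx.vv, hx.ev, x_ve hx, mul_neg,
      x_PSPe hx, hx.Pde, a3, hx.vk, x_ek hx, map_neg, map_zero, map_smul, LinearMap.neg_apply,
      LinearMap.zero_apply, LinearMap.smul_apply]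
    simp only [← mul_assoc x.P x.d, hx.Pde, a3]
    have c1 : x.e * (x.P * x.d) * x.e = 0 := by rw [mul_assoc, hx.Pde, x_ek hx]
    have c2 : x.v * (x.P * x.d) * x.e = x.k := by rw [mul_assoc, hx.Pde, hx.vk]
    have c3 : x.e * (x.P * x.d) * x.v = 0 := by rw [mul_assoc, a3, mul_zero]
    have c4 : x.v * (x.P * x.d) * x.v = 0 := by rw [mul_assoc, a3, mul_zero]
    have c5 : x.e * (x.P * x.g) * x.e = -x.e := by rw [mul_assoc, a1, mul_neg, hx.ee]
    have c6 : x.v * (x.P * x.g) * x.e = 0 := by rw [mul_assoc, a1, mul_neg, x_ve hx, neg_zero]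
    have c7 : x.e * (x.P * x.g) * x.v = 0 := by rw [mul_assoc, a2, hx.ev]
    have c8 : x.v * (x.P * x.g) * x.v = x.v := by rw [mul_assoc, a2, hx.vv]
    have c9 : x.e * (x.P * x.S * x.P) * x.e = 0 := by
      rw [mul_assoc, x_PSPe hx, mul_smul_comm, x_ek hx, smul_zero]
    have c10 : x.v * (x.P * x.S * x.P) * x.e = (2⁻¹ : ℂ) • x.k := by
      rw [mul_assoc, x_PSPe hx, mul_smul_comm, hx.vk]
    have c11 : x.e * (star x.d * x.P) * x.e = 0 := by rw [mul_assoc, a4, mul_zero]
    simp only [c1, c2, c3, c4, c5, c6, c7, c8, c9, c10, c11, zero_add, add_zero, map_smul,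
      LinearMap.smul_apply, map_neg, LinearMap.neg_apply, map_zero, LinearMap.zero_apply]
  · unfold WW QQ bdry bdry0 trunc PP prod
    have a1 : x.P * x.g * x.e = -x.e := by rw [mul_assoc, hx.ge, mul_neg, hx.Pe]
    have a2 : x.P * x.g * x.v = x.v := by rw [mul_assoc, hx.gv, hx.Pv]
    have a3 : x.e * (x.P * x.g) = -x.e := by rw [← mul_assoc, x_eP hx, x_eg hx]
    have a4 : x.v * (x.P * x.g) = x.v := by rw [← mul_assoc, x_vP hx, x_vg hx]
    simp only [mul_fin_two, mul_zero, zero_mul, add_zero, zero_add]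
    rcases neg_one_pow_eq_or A (m + 1) with h | h <;>
    simp only [h, one_mul, T.mul, mul_add, add_mul, neg_mul, mul_neg, a1, a2, a3, a4, hy.pg,
      y_gp hy, map_neg, LinearMap.neg_apply]
  · rw [KK_eq T hx hy hR, ← mul_assoc, QQ_GG T hx hy]

end words

end Crest.Agent.R217.Norm551
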