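import Crest.Agent.R217.RE2_531
import Crest.Agent.R217.PCops_473

/-!
Row 217 (S0336), part C1: the double of an honest tuple `(S, T)` is RE-related to `x ⊕ x`.

`HypA` : ring-level form of the hypotheses of lemma RE.
-/

set_option autoImplicit false
set_option linter.unusedSectionVars false
set_option linter.unusedSimpArgs false

namespace Crest.Agent.R217.RE531

open Crest.Agent.R217.PC473 Crest.Agent.R217.Frame52 Crest.Agent.R217.Obj52
open Matrix

universe u v w

section ring

variable {A : Type*} [Ring A] [StarRing A]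

/-- ring-level hypotheses of lemma RE for tuples -/
structure HypA (m : ℕ) (x y : Tup A) (α k l : A) : Prop where
  hx : x.IsPC m
  hy : y.IsPC m
  pα : y.p * α = α
  αp : α * x.p = α
  gα : y.g * α = α * x.g
  dα : y.d * α = α * x.d
  hS : y.S = α * x.S * star α + y.d * k - k * star y.d
  hT : x.T = star α * y.T * α + l * x.d - star x.d * l
  pk : y.p * k = k
  kp : k * y.p = k
  gk : y.g * k = -((-1 : A) ^ m * (k * y.g))
  pl : x.p * l = l
  lp : l * x.p = l
  gl : x.g * l = -((-1 : A) ^ m * (l * x.g))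

/-- ring-level hypotheses of lemma RE for regular pairs -/
structure HypRA (m : ℕ) (x y : RPr A) (α k l : A) : Prop where
  hx : x.IsRP m
  hy : y.IsRP m
  pα : y.p * α = α
  αp : α * x.p = α
  gα : y.g * α = α * x.g
  dα : y.d * α = α * x.d
  hf : y.f = α * x.f * star α + y.d * k - k * star y.d
  hq : x.q = star α * y.q * α + l * x.d - star x.d * l
  pk : y.p * k = k
  kp : k * y.p = k
  gk : y.g * k = -((-1 : A) ^ m * (k * y.g))
  pl : x.p * l = l
  lp : l * x.p = l
  gl : x.g * l = -((-1 : A) ^ m * (l * x.g))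

/-- `x ⊕ y` in `M_2(A)` -/
def sum2 (x y : Tup A) : Tup (Matrix (Fin 2) (Fin 2) A) where
  p := !![x.p, 0; 0, y.p]
  g := !![x.g, 0; 0, y.g]
  d := !![x.d, 0; 0, y.d]
  S := !![x.S, 0; 0, y.S]
  T := !![x.T, 0; 0, y.T]
  H := !![x.H, 0; 0, y.H]

theorem sum2_isPC {m : ℕ} {x y : Tup A} (hx : x.IsPC m) (hy : y.IsPC m) :
    (sum2 x y).IsPC m where
  pp := by simp [sum2, mul_fin_two, hx.pp, hy.pp]
  sp := by simp [sum2, star_fin2, hx.sp, hy.sp]
  gg := by simp [sum2, mul_fin_two, hx.gg, hy.gg]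
  sg := by simp [sum2, star_fin2, hx.sg, hy.sg]
  pg := by simp [sum2, mul_fin_two, hx.pg, hy.pg]
  pd := by simp [sum2, mul_fin_two, hx.pd, hy.pd]
  dp := by simp [sum2, mul_fin_two, hx.dp, hy.dp]
  pS := by simp [sum2, mul_fin_two, hx.pS, hy.pS]
  pT := by simp [sum2, mul_fin_two, hx.pT, hy.pT]
  pH := by simp [sum2, mul_fin_two, hx.pH, hy.pH]
  Hp := by simp [sum2, mul_fin_two, hx.Hp, hy.Hp]
  dd := by simp [sum2, mul_fin_two, hx.dd, hy.dd, zero_fin2]
  sS := by simp [sum2, star_fin2, hx.sS, hy.sS]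
  sT := by simp [sum2, star_fin2, hx.sT, hy.sT]
  dS := by simp [sum2, mul_fin_two, star_fin2, add_fin2, hx.dS, hy.dS, zero_fin2]
  Td := by simp [sum2, mul_fin_two, star_fin2, add_fin2, hx.Td, hy.Td, zero_fin2]
  ST := by simp [sum2, mul_fin_two, add_fin2, hx.ST, hy.ST]
  gd := by simp [sum2, mul_fin_two, neg_fin2, hx.gd, hy.gd]
  gS := by simp [sum2, mul_fin_two, npow_fin2, hx.gS, hy.gS]
  gT := by simp [sum2, mul_fin_two, npow_fin2, hx.gT, hy.gT]
  gH := by simp [sum2, mul_fin_two, neg_fin2, hx.gH, hy.gH]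

end ring

section dbl

variable {A : Type*} [Ring A] [StarRing A] [Algebra ℂ A] [StarModule ℂ A]

/-- chain map `dbl (S, T) → x ⊕ x` -/
noncomputable def dα (m : ℕ) (x : Tup A) : Matrix (Fin 2) (Fin 2) A :=
  !![x.p, 0; -((-1) ^ m * x.p), aa m x.g * x.S]

/-- homotopy on the target side -/
noncomputable def dk (x : Tup A) : Matrix (Fin 2) (Fin 2) A :=
  !![0, 0; 0, -(2 * (x.H * x.S))]

/-- homotopy on the source side -/
noncomputable def dl (m : ℕ) (x : Tup A) : Matrix (Fin 2) (Fin 2) A :=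
  !![4 * (x.T * x.H), -(aa m x.g * star x.H);
     -((-1) ^ m * (aa m x.g * x.H)), -((-1) ^ m * (x.H * x.S))]

set_option maxHeartbeats 4000000 in
theorem dbl_hypA {m : ℕ} {x : Tup A} (hx : x.IsPC m) {h : A}
    (hr : (RPr.mk x.p x.g x.d x.S x.T h).IsRP m) :
    HypA m (dbl m (RPr.mk x.p x.g x.d x.S x.T h)) (sum2 x x) (dα m x) (dk x) (dl m x) := by
  have hgp := hx.gp
  have hSp := hx.Sp
  have hTp := hx.Tp
  have hsdp := hx.sdp
  have hpsd := hx.psd
  have hsHp := hx.sHp
  have hpsH := hx.psH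
  have hsdd := hx.sdd
  have hTS := hx.TS
  have hgsd := hx.gsd
  have hgsH := hx.gsH
  have h1 := dbl_isPC hr
  have h2 := sum2_isPC hx hx
  obtain ⟨p, g, d, S, T, H⟩ := x
  obtain ⟨pp, sp, gg, sg, pg, pd, dp, pS, pT, pH, Hp, dd, sS, sT, dS, Td, ST, gd, gS, gT, gH⟩ := hx
  simp only at *
  have ha2 : aa m g * aa m g = (-1 : A) ^ m * p := aa_mul_self m gg
  have hsa : star (aa m g) = (-1 : A) ^ m * aa m g := star_aa m sg
  have had : aa m g * d = -(d * aa m g) := by
    rw [aa_mul, gd, mul_aa, smul_neg]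
  have haH : aa m g * H = -(H * aa m g) := by
    rw [aa_mul, gH, mul_aa, smul_neg]
  have hasd : aa m g * star d = -(star d * aa m g) := by
    rw [aa_mul, hgsd, mul_aa, smul_neg]
  have hasH : aa m g * star H = -(star H * aa m g) := by
    rw [aa_mul, hgsH, mul_aa, smul_neg]
  have haS : aa m g * S = (-1 : A) ^ m * (S * aa m g) := aa_comm gS
  have haT : aa m g * T = (-1 : A) ^ m * (T * aa m g) := aa_comm gT
  have hga : g * aa m g = aa m g * g := by rw [mul_aa, aa_mul]
  have hpa : p * aa m g = aa m g := by rw [mul_aa, pg]; rfl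
  have hap : aa m g * p = aa m g := by rw [aa_mul, hgp]; rfl
  have hdS : d * S = -(S * star d) := eq_neg_of_add_eq_zero_left dS
  have hTd : star d * T = -(T * d) := eq_neg_of_add_eq_zero_right Td
  have hSS : S * (star d * star H) = d * (H * S) - H * (S * star d) - S * (star H * star d) := by
    have e1 : S * (T * S) = S + S * (star d * star H) + S * (star H * star d) := by
      rw [hTS]; simp only [mul_add, hSp]
    have e2 : S * (T * S) = S + d * (H * S) - H * (S * star d) := by
      rw [← mul_assoc, ST]; simp only [add_mul, mul_assoc, pS, hdS, mul_neg]; abel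
    have e3 : S * (star d * star H) =
        (S + S * (star d * star H) + S * (star H * star d)) - S - S * (star H * star d) := by abel
    rw [e3, ← e1, e2]; abel
  refine ⟨h1, h2, ?_, ?_, ?_, ?_, ?_, ?_, ?_, ?_, ?_, ?_, ?_, ?_⟩ <;>
    simp only [dbl, sum2, dα, dk, dl, mul_fin_two, star_fin2, npow_fin2, zero_fin2, add_fin2,
      neg_fin2, sub_fin2,
      zero_mul, mul_zero, add_zero, zero_add, star_zero, neg_zero, star_star, sub_zero, zero_sub,
      star_mul, star_add, star_sub, star_neg, star_pow, star_one, hsa, star_two', sS, sT, sp] <;>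
    generalize aa m g = a at * <;>
    rcases neg_one_pow_eq_or A m with hε | hε <;>
    simp only [hε, one_mul, neg_mul, mul_neg, neg_neg, mul_one] at * <;>
    refine fin2_eq ?_ ?_ ?_ ?_
  all_goals try first
    | rfl
    | assumption
    | noncomm_ring
  all_goals
    try simp only [mul_assoc, ha2, ra ha2, had, ra had, haH, ra haH, hasH, ra hasH, hasd, ra hasd,
      haS, ra haS, haT, ra haT, hpa, ra hpa, hap, ra hap, gd, ra gd, gS, ra gS, gT, ra gT, gH,
      ra gH, hgsd, ra hgsd, hgsH,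
      ra hgsH, pp, ra pp, pd, ra pd, dp, ra dp, pS, ra pS, pT, ra pT, pH, ra pH, Hp, ra Hp, hgp,
      ra hgp, hSp, ra hSp, hTp, ra hTp, hsdp, ra hsdp, hpsd, ra hpsd, pg, ra pg, gg, ra gg,
      hsHp, ra hsHp, hpsH, ra hpsH, hTS, ra hTS, ST, ra ST, hdS, ra hdS, hTd, ra hTd, dd, ra dd,
      hsdd, ra hsdd, hga, ra hga, sS, sT, sp, sg, star_mul, mul_add, add_mul, mul_sub, sub_mul,
      mul_neg, neg_mul, neg_neg, smul_neg, neg_smul, mul_zero, zero_mul, add_zero, zero_add,
      sub_zero, zero_sub]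
  all_goals try abel
  all_goals try noncomm_ring
  all_goals
    simp only [hSS]
    noncomm_ring

end dbl

end Crest.Agent.R217.RE531
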