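import Crest.Agent.R217.RE6_531
import Crest.Agent.R217.Avg_557

/-!
Row 217 (S0336), part C1: homogenisation of homotopies, and the signatures of `(e S e*, e* T e)`
for `e ~ p` and `e ~ 0`.
-/

set_option autoImplicit false
set_option linter.unusedSectionVars false
set_option linter.unusedSimpArgs false

namespace Crest.Agent.R217.RE531

open Crest.Agent.R217.PC473 Crest.Agent.R217.Obj52
open Crest.Agent.R217.Frame52 (SHom)
open Crest.Agent.R217.Nat52 Crest.Agent.R217.Sum52 Crest.Agent.R217.Sig52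
open Crest.Agent.R217.LocF555
open Crest.Agent.R217.Ind52
open Crest.Agent.R217.Avg557
open Matrix

section comp

variable {R : Type*} [Ring R] [StarRing R]
variable {J J' J'' : Type*} [Fintype J] [DecidableEq J] [Fintype J'] [DecidableEq J']
  [Fintype J''] [DecidableEq J'']

/-- homogeneous component -/
def hcm (α : J → ℤ) (β : J' → ℤ) (a : Matrix J J' R) : Matrix J J' R :=
  fun i j => if α i = β j then a i j else 0

theorem hcm_hm (α : J → ℤ) (β : J' → ℤ) (a : Matrix J J' R) (i : J) (j : J') (h : α i ≠ β j) :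
    hcm α β a i j = 0 := if_neg h

theorem hcm_of_hm {α : J → ℤ} {β : J' → ℤ} {a : Matrix J J' R}
    (h : ∀ i j, α i ≠ β j → a i j = 0) : hcm α β a = a := by
  ext i j
  unfold hcm
  split_ifs with h1
  · rfl
  · exact (h i j h1).symm

theorem hcm_congr {α α' : J → ℤ} {β β' : J' → ℤ} (h : ∀ i j, α i = β j ↔ α' i = β' j)
    (a : Matrix J J' R) : hcm α β a = hcm α' β' a := by
  ext i j
  simp only [hcm, h]

theorem hcm_add (α : J → ℤ) (β : J' → ℤ) (a b : Matrix J J' R) :
    hcm α β (a + b) = hcm α β a + hcm α β b := by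
  ext i j; simp only [hcm, Matrix.add_apply]; split_ifs <;> simp

theorem hcm_sub (α : J → ℤ) (β : J' → ℤ) (a b : Matrix J J' R) :
    hcm α β (a - b) = hcm α β a - hcm α β b := by
  ext i j; simp only [hcm, Matrix.sub_apply]; split_ifs <;> simp

theorem hcm_neg (α : J → ℤ) (β : J' → ℤ) (a : Matrix J J' R) :
    hcm α β (-a) = -hcm α β a := by
  ext i j; simp only [hcm, Matrix.neg_apply]; split_ifs <;> simp

theorem hcm_npow (α : J → ℤ) (β : J → ℤ) (a : Matrix J J R) (m : ℕ) :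
    hcm α β ((-1) ^ m * a) = (-1) ^ m * hcm α β a := by
  rcases Nat.even_or_odd m with h | h <;>
    simp only [h.neg_one_pow, one_mul, neg_mul, hcm_neg]

theorem hcm_mul_left {α : J → ℤ} {γ : J' → ℤ} {β : J'' → ℤ} {d : Matrix J J' R}
    (h : ∀ i j, α i ≠ γ j → d i j = 0) (a : Matrix J' J'' R) :
    hcm α β (d * a) = d * hcm γ β a := by
  ext i j
  simp only [hcm, Matrix.mul_apply]
  split_ifs with h1
  · refine Finset.sum_congr rfl fun x _ => ?_
    by_cases h2 : α i = γ x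
    · rw [if_pos (h2.symm.trans h1)]
    · rw [h i x h2, zero_mul, zero_mul]
  · symm
    refine Finset.sum_eq_zero fun x _ => ?_
    by_cases h2 : α i = γ x
    · rw [if_neg (fun h3 => h1 (h2.trans h3)), mul_zero]
    · rw [h i x h2, zero_mul]

theorem hcm_mul_right {α : J → ℤ} {γ : J' → ℤ} {β : J'' → ℤ} {d : Matrix J' J'' R}
    (h : ∀ i j, γ i ≠ β j → d i j = 0) (a : Matrix J J' R) :
    hcm α β (a * d) = hcm α γ a * d := by
  ext i j
  simp only [hcm, Matrix.mul_apply]
  split_ifs with h1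
  · refine Finset.sum_congr rfl fun x _ => ?_
    by_cases h2 : γ x = β j
    · rw [if_pos (h1.trans h2.symm)]
    · rw [h x j h2, mul_zero, mul_zero]
  · symm
    refine Finset.sum_eq_zero fun x _ => ?_
    by_cases h2 : γ x = β j
    · rw [if_neg (fun h3 => h1 (h3.trans h2)), zero_mul]
    · rw [h x j h2, mul_zero]

theorem diag_hm {e : J → R} (α : J → ℤ) (i j : J) (h : α i ≠ α j) :
    (diagonal e : Matrix J J R) i j = 0 :=
  diagonal_apply_ne _ (fun hij => h (by rw [hij]))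

theorem diag_hm' {e : J → R} {i j : J} {a b : ℤ} (h : a ≠ b) (hab : i = j → a = b) :
    (diagonal e : Matrix J J R) i j = 0 :=
  diagonal_apply_ne _ (fun hij => h (hab hij))

end comp

section isob

variable {κ : Type*} {R : Type*} [Ring R] [StarRing R]
variable {J J' : Type} [Fintype J] [DecidableEq J] [Fintype J'] [DecidableEq J']
  {F : Frame κ R} {m : ℕ} {S : Set κ} {deg : J → ℤ} {deg' : J' → ℤ}

/-- (H1) a regular pair whose homotopy is only `ℤ/2`-graded can be made an object. -/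
theorem isOb_of_rp {x : RPr (Matrix J J R)} (hr : x.IsRP m) (pd : DgC F x.p) (gd : DgC F x.g)
    (hd : Hm (fun j => deg j + 1) deg x.d) (hf : Hm deg (fun j => m - deg j) x.f)
    (hq : Hm (fun j => m - deg j) deg x.q) (lo : ∀ k ∈ S, BdLo F k x.p)
    (hi : ∀ k ∈ S, BdHi F k x.p) :
    IsOb F m S deg ⟨x.p, x.g, x.d, x.f, x.q, hcm deg (fun j => m + 1 - deg j) x.h⟩ := by
  obtain ⟨e, he, -⟩ := id pd
  obtain ⟨g, hg, -⟩ := id gd
  have hd1 : ∀ i j, deg i ≠ deg j - 1 → x.d i j = 0 := fun i j h => hd i j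
    (fun h' => h (by have h2 : deg i + 1 = deg j := h'; omega))
  have hd2 : ∀ i j, (m : ℤ) + 1 - deg i ≠ m - deg j → (star x.d) i j = 0 := fun i j h => by
    rw [star_apply, hd j i (fun h' => h (by have h2 : deg j + 1 = deg i := h'; omega)), star_zero]
  refine ⟨⟨hr.pp, hr.sp, hr.gg, hr.sg, hr.pg, hr.pd, hr.dp, hr.pf, hr.pq, ?_, ?_, hr.dd, hr.sf,
    hr.sq, hr.df, hr.qd, ?_, hr.gd, hr.gf, hr.gq, ?_⟩, pd, gd, hd, hf, hq,
    fun i j h => hcm_hm deg (fun j => (m : ℤ) + 1 - deg j) x.h i j h, lo, hi⟩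
  · simp only
    rw [← hcm_mul_left (α := deg) (by rw [he]; exact fun i j h => diag_hm' h (fun hij => by rw [hij])), hr.ph]
  · simp only
    rw [← hcm_mul_right (β := fun j => (m : ℤ) + 1 - deg j)
      (by rw [he]; exact fun i j h => diag_hm' h (fun hij => by rw [hij])), hr.hp]
  · simp only
    have h1 : Hm deg (fun j => (m : ℤ) - deg j) (x.f * x.q * x.f) := by
      intro i j hij
      have h2 := hcm_of_hm (fun i j (h : deg i ≠ (m : ℤ) - deg j) => hf i j h)
      have h3 := hcm_of_hm (fun i j (h : (m : ℤ) - deg i ≠ deg j) => hq i j h)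
      have h4 : hcm deg (fun j => (m : ℤ) - deg j) (x.f * x.q * x.f) = x.f * x.q * x.f := by
        rw [Matrix.mul_assoc, hcm_mul_left (γ := fun j => (m : ℤ) - deg j) hf,
          hcm_mul_left (γ := deg) hq, h2]
      rw [← h4]
      exact hcm_hm _ _ _ i j hij
    have h5 := congrArg (hcm deg (fun j => (m : ℤ) - deg j)) hr.fqf
    rw [hcm_of_hm h1, hcm_sub, hcm_add, hcm_of_hm hf,
      hcm_mul_left (γ := fun j => deg j - 1) hd1,
      hcm_mul_right (γ := fun j => (m : ℤ) + 1 - deg j) hd2,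
      hcm_congr (α := fun j => deg j - 1) (β := fun j => (m : ℤ) - deg j) (α' := deg)
        (β' := fun j => (m : ℤ) + 1 - deg j) (by intro i j; constructor <;> intro h <;> omega)]
      at h5
    exact h5
  · simp only
    rw [← hcm_mul_left (α := deg) (by rw [hg]; exact fun i j h => diag_hm' h (fun hij => by rw [hij])), hr.gh,
      hcm_neg, hcm_npow, hcm_mul_right (γ := fun j => (m : ℤ) + 1 - deg j)
      (by rw [hg]; exact fun i j h => diag_hm' h (fun hij => by rw [hij]))]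

/-- (H2) the homotopies of lemma RE can be made homogeneous. -/
theorem hypR_hom {x : RPr (Matrix J J R)} {y : RPr (Matrix J' J' R)} (hx : IsOb F m S deg x)
    (hy : IsOb F m S deg' y) {α : Matrix J' J R} {k : Matrix J' J' R} {l : Matrix J J R}
    (hα : ∀ i j, deg' i ≠ deg j → α i j = 0) (h : HypR m x y α k l) :
    HypR m x y α (hcm deg' (fun j => (m : ℤ) + 1 - deg' j) k)
      (hcm (fun j => (m : ℤ) - deg j) (fun j => deg j + 1) l) := by
  obtain ⟨e, he, -⟩ := id hx.pd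
  obtain ⟨g, hg, -⟩ := id hx.gd
  obtain ⟨e', he', -⟩ := id hy.pd
  obtain ⟨g', hg', -⟩ := id hy.gd
  have hd1 : ∀ i j, deg' i ≠ deg' j - 1 → y.d i j = 0 := fun i j h => hy.hd i j
    (fun h' => h (by have h2 : deg' i + 1 = deg' j := h'; omega))
  have hd2 : ∀ i j, (m : ℤ) + 1 - deg' i ≠ m - deg' j → (y.dᴴ) i j = 0 := fun i j h => by
    rw [conjTranspose_apply, hy.hd j i
      (fun h' => h (by have h2 : deg' j + 1 = deg' i := h'; omega)), star_zero]
  have hd3 : ∀ i j, deg i + 1 ≠ deg j → x.d i j = 0 := hx.hd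
  have hd4 : ∀ i j, (m : ℤ) - deg i ≠ m - 1 - deg j → (x.dᴴ) i j = 0 := fun i j h => by
    rw [conjTranspose_apply, hx.hd j i
      (fun h' => h (by have h2 : deg j + 1 = deg i := h'; omega)), star_zero]
  have hαs : ∀ i j, (m : ℤ) - deg i ≠ m - deg' j → (αᴴ) i j = 0 := fun i j h => by
    rw [conjTranspose_apply, hα j i (by intro h'; apply h; omega), star_zero]
  have hαs' : ∀ i j, deg i ≠ deg' j → (αᴴ) i j = 0 := fun i j h => by
    rw [conjTranspose_apply, hα j i (by intro h'; apply h; omega), star_zero]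
  refine ⟨h.hx, h.hy, h.pα, h.αp, h.gα, h.dα, ?_, ?_, ?_, ?_, ?_, ?_, ?_, ?_⟩
  · have h5 := congrArg (hcm deg' (fun j => (m : ℤ) - deg' j)) h.hf
    rw [hcm_of_hm hy.hf, hcm_sub, hcm_add, Matrix.mul_assoc,
      hcm_mul_left (γ := deg) hα, hcm_mul_left (γ := fun j => (m : ℤ) - deg j) hx.hf,
      hcm_of_hm hαs,
      hcm_mul_left (γ := fun j => deg' j - 1) hd1,
      hcm_mul_right (γ := fun j => (m : ℤ) + 1 - deg' j) hd2,
      hcm_congr (α := fun j => deg' j - 1) (β := fun j => (m : ℤ) - deg' j) (α' := deg')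
        (β' := fun j => (m : ℤ) + 1 - deg' j) (by intro i j; constructor <;> intro h <;> omega)]
      at h5
    rw [Matrix.mul_assoc]
    exact h5
  · have h5 := congrArg (hcm (fun j => (m : ℤ) - deg j) deg) h.hq
    have hαs2 : ∀ i j, (m : ℤ) - deg i ≠ m - deg' j → (αᴴ) i j = 0 := hαs
    rw [hcm_of_hm hx.hq, hcm_sub, hcm_add, Matrix.mul_assoc,
      hcm_mul_left (γ := fun j => (m : ℤ) - deg' j) hαs,
      hcm_mul_left (γ := deg') hy.hq, hcm_of_hm hα,
      hcm_mul_right (γ := fun j => deg j + 1) hd3,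
      hcm_mul_left (γ := fun j => (m : ℤ) - 1 - deg j) hd4,
      hcm_congr (α := fun j => (m : ℤ) - 1 - deg j) (β := deg) (α' := fun j => (m : ℤ) - deg j)
        (β' := fun j => deg j + 1) (by intro i j; constructor <;> intro h <;> omega)]
      at h5
    rw [Matrix.mul_assoc]
    exact h5
  · rw [← hcm_mul_left (α := deg') (by rw [he']; exact fun i j h => diag_hm' h (fun hij => by rw [hij])), h.pk]
  · rw [← hcm_mul_right (β := fun j => (m : ℤ) + 1 - deg' j)
      (by rw [he']; exact fun i j h => diag_hm' h (fun hij => by rw [hij])), h.kp]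
  · rw [← hcm_mul_left (α := deg') (by rw [hg']; exact fun i j h => diag_hm' h (fun hij => by rw [hij])), h.gk,
      hcm_neg, hcm_npow, hcm_mul_right (γ := fun j => (m : ℤ) + 1 - deg' j)
      (by rw [hg']; exact fun i j h => diag_hm' h (fun hij => by rw [hij]))]
  · rw [← hcm_mul_left (α := fun j => (m : ℤ) - deg j)
      (by rw [he]; exact fun i j h => diag_hm' h (fun hij => by rw [hij])), h.pl]
  · rw [← hcm_mul_right (β := fun j => deg j + 1)
      (by rw [he]; exact fun i j h => diag_hm' h (fun hij => by rw [hij])), h.lp]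
  · rw [← hcm_mul_left (α := fun j => (m : ℤ) - deg j)
      (by rw [hg]; exact fun i j h => diag_hm' h (fun hij => by rw [hij])), h.gl,
      hcm_neg, hcm_npow, hcm_mul_right (γ := fun j => deg j + 1)
      (by rw [hg]; exact fun i j h => diag_hm' h (fun hij => by rw [hij]))]

end isob

section ho

variable {A : Type*} [Ring A] [StarRing A] {m : ℕ} {x : Tup A} {e : A}

theorem ho_f (hx : x.IsPC m) (he : IsMap x.p x.g 1 x.d x.d e) {y : A}
    (hy : IsMap x.p x.g 1 x.d x.d y) (h : Ho x.p x.g 1 x.d x.d e y) :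
    Ho x.p x.g ((-1) ^ m) x.d (-star x.d) (e * x.S * star e) (y * x.S * star y) := by
  have h1 : (1 : A) = 1 ∨ (1 : A) = -1 := Or.inl rfl
  have hm := sg_pow (A := A) m
  have a1 := h.mul_right hm h1 (isMap_S hx)
  have a2 := a1.mul_right h1 (by rcases hm with h | h <;> simp [h])
    (he.adj h1 hx.sp hx.sg)
  have b1 : IsMap x.p x.g (1 * (-1) ^ m) x.d (-star x.d) (y * x.S) :=
    hy.mul h1 hm (isMap_S hx)
  have a3 := (h.adj h1 hx.sp hx.sg).mul_left (by rcases hm with h | h <;> simp [h]) h1 b1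
  simp only [one_mul, mul_one] at a2 a3
  exact a2.trans a3

theorem ho_q (hx : x.IsPC m) (he : IsMap x.p x.g 1 x.d x.d e) {y : A}
    (hy : IsMap x.p x.g 1 x.d x.d y) (h : Ho x.p x.g 1 x.d x.d e y) :
    Ho x.p x.g ((-1) ^ m) (-star x.d) x.d (star e * x.T * e) (star y * x.T * y) := by
  have h1 : (1 : A) = 1 ∨ (1 : A) = -1 := Or.inl rfl
  have hm := sg_pow (A := A) m
  have a1 := (h.adj h1 hx.sp hx.sg).mul_right hm h1 (isMap_T hx)
  have a2 := a1.mul_right h1 (by rcases hm with h | h <;> simp [h]) he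
  have b1 : IsMap x.p x.g (1 * (-1) ^ m) (-star x.d) x.d (star y * x.T) :=
    (hy.adj h1 hx.sp hx.sg).mul h1 hm (isMap_T hx)
  have a3 := h.mul_left (by rcases hm with h | h <;> simp [h]) h1 b1
  simp only [one_mul, mul_one] at a2 a3
  exact a2.trans a3

end ho

section laws3

variable {κ : Type*} {R0 R1 : Type*} [Ring R0] [StarRing R0] [Algebra ℂ R0] [StarModule ℂ R0]
    [Ring R1] [StarRing R1] [Algebra ℂ R1] [StarModule ℂ R1]
    {F0 : Frame κ R0} {F1 : Frame κ R1} {G : Type*} [AddCommGroup G] (P : SgP F0 F1 G)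
    {J J' : Type} [Fintype J] [DecidableEq J] [Fintype J'] [DecidableEq J']
    {S : Set κ} {deg : J → ℤ} {deg' : J' → ℤ}

/-- `sig_re` without homogeneity of the homotopies. -/
theorem sig_re' {l : List (Par κ)} (hl : ∀ a ∈ l, a.Ok F0) {x : RPr (Matrix J J R0)}
    {y : RPr (Matrix J' J' R0)} (hx : IsOb F0 l.length S deg x)
    (hy : IsOb F0 l.length S deg' y) (hc : Cov S l) {α : Matrix J' J R0}
    {k : Matrix J' J' R0} {q : Matrix J J R0} (hα : ∀ i j, deg' i ≠ deg j → α i j = 0)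
    (h : HypR l.length x y α k q) :
    sig F0 P.L l (ob deg x) = sig F0 P.L l (ob deg' y) :=
  sig_re P hl hx hy hc (hypR_hom hx hy hα h)
    ⟨hα, fun i j hij => hcm_hm _ _ _ i j hij, fun i j hij => hcm_hm _ _ _ i j hij⟩

/-- homotopic forms have the same signature. -/
theorem sig_ho {l : List (Par κ)} (hl : ∀ a ∈ l, a.Ok F0) {p g d f q f' q' h h' : Matrix J J R0}
    (hx : IsOb F0 l.length S deg ⟨p, g, d, f, q, h⟩)
    (hy : IsOb F0 l.length S deg ⟨p, g, d, f', q', h'⟩) (hc : Cov S l)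
    (hf : Ho p g ((-1) ^ l.length) d (-star d) f' f)
    (hq : Ho p g ((-1) ^ l.length) (-star d) d q' q) :
    sig F0 P.L l (ob deg ⟨p, g, d, f', q', h'⟩) = sig F0 P.L l (ob deg ⟨p, g, d, f, q, h⟩) := by
  obtain ⟨k, k1, k2, k3, k4⟩ := hf
  obtain ⟨r, r1, r2, r3, r4⟩ := hq.symm
  have hpp : p * p = p := hx.rp.pp
  have hsp : pᴴ = p := hx.rp.sp
  have hpd : p * d = d := hx.rp.pd
  have hdp : d * p = d := hx.rp.dp
  have hpg : p * g = g := hx.rp.pg
  have hgp : g * p = g := hx.rp.gp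
  have hpf : p * f = f := hx.rp.pf
  have hfp : f * p = f := hx.rp.fp
  have hpq : p * q' = q' := hy.rp.pq
  have hqp : q' * p = q' := hy.rp.qp
  refine (sig_re' P hl hx hy hc (α := p) (k := k) (q := r) ?_ ?_).symm
  · obtain ⟨e, he, -⟩ := hx.pd
    simp only at he
    rw [he]
    exact fun i j hij => diag_hm' hij (fun h => by rw [h])
  · refine ⟨hx.rp, hy.rp, hpp, hpp, ?_, ?_, ?_, ?_, k1, k2, k3, r1, r2, r3⟩
    · simp only; rw [hgp, hpg]
    · simp only; rw [hpd, hdp]
    · simp only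
      rw [hsp, hpf, hfp, k4, mul_neg, ← sub_eq_add_neg]
      rfl
    · simp only
      rw [hsp, hpq, hqp, r4, neg_mul]
      rw [show dᴴ = star d from rfl]
      abel

/-- `e ~ p` : the pair `(e S e*, e* T e)` has the same signature as `(S, T)`. -/
theorem sig_e_one {l : List (Par κ)} (hl : ∀ a ∈ l, a.Ok F0) {z : Tup (Matrix J J R0)}
    (hz : z.IsPC l.length) {e h h' : Matrix J J R0}
    (he : IsMap z.p z.g 1 z.d z.d e) (ho : Ho z.p z.g 1 z.d z.d e z.p)
    (hx : IsOb F0 l.length S deg ⟨z.p, z.g, z.d, z.S, z.T, h'⟩)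
    (hy : IsOb F0 l.length S deg ⟨z.p, z.g, z.d, e * z.S * star e, star e * z.T * e, h⟩)
    (hc : Cov S l) :
    sig F0 P.L l (ob deg ⟨z.p, z.g, z.d, e * z.S * star e, star e * z.T * e, h⟩) =
      sig F0 P.L l (ob deg ⟨z.p, z.g, z.d, z.S, z.T, h'⟩) := by
  have hf := ho_f hz he (isMap_p hz) ho
  have hq := ho_q hz he (isMap_p hz) ho
  have e1 : z.p * z.S * star z.p = z.S := by rw [hz.sp, hz.pS, hz.Sp]
  have e2 : star z.p * z.T * z.p = z.T := by rw [hz.sp, hz.pT, hz.Tp]
  rw [e1] at hf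
  rw [e2] at hq
  exact sig_ho P hl hx hy hc hf hq

/-- `e ~ 0` : the pair `(e S e*, e* T e)` has signature zero. -/
theorem sig_e_zero {l : List (Par κ)} (hl : ∀ a ∈ l, a.Ok F0) {z : Tup (Matrix J J R0)}
    (hz : z.IsPC l.length) {e h : Matrix J J R0}
    (he : IsMap z.p z.g 1 z.d z.d e) (ho : Ho z.p z.g 1 z.d z.d e 0)
    (hy : IsOb F0 l.length S deg ⟨z.p, z.g, z.d, e * z.S * star e, star e * z.T * e, h⟩)
    (hc : Cov S l) :
    sig F0 P.L l (ob deg ⟨z.p, z.g, z.d, e * z.S * star e, star e * z.T * e, h⟩) = 0 := by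
  have h0 : IsOb F0 l.length S deg ⟨z.p, z.g, z.d, 0, 0, 0⟩ := by
    have hr : (RPr.mk z.p z.g z.d 0 0 0).IsRP l.length :=
      ⟨hz.pp, hz.sp, hz.gg, hz.sg, hz.pg, hz.pd, hz.dp, by simp, by simp, by simp, by simp,
        hz.dd, by simp, by simp, by simp, by simp, by simp, hz.gd, by simp, by simp, by simp⟩
    exact ⟨hr, hy.pd, hy.gd, hy.hd, fun _ _ _ => rfl, fun _ _ _ => rfl, fun _ _ _ => rfl, hy.lo,
      hy.hi⟩
  have hf := ho_f hz he IsMap.zero ho
  have hq := ho_q hz he IsMap.zero ho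
  have e1 : (0 : Matrix J J R0) * z.S * star 0 = 0 := by simp
  have e2 : star (0 : Matrix J J R0) * z.T * 0 = 0 := by simp
  rw [e1] at hf
  rw [e2] at hq
  rw [sig_ho P hl h0 hy hc hf hq]
  have h1 := sig_neg P hl (X := ob deg ⟨z.p, z.g, z.d, 0, 0, 0⟩) h0 hc
  apply eq_zero_of_neg P
  have e3 : (RPr.mk z.p z.g z.d 0 0 0).neg = RPr.mk z.p z.g z.d 0 0 0 := by
    simp only [RPr.neg, neg_zero]
  refine Eq.trans ?_ h1
  show sig F0 P.L l (ob deg ⟨z.p, z.g, z.d, 0, 0, 0⟩)
    = sig F0 P.L l (ob deg (RPr.mk z.p z.g z.d 0 0 0).neg)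
  rw [e3]

end laws3

end Crest.Agent.R217.RE531
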