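import Crest.Agent.R217.PC_473

/-!
Row 217 (S0336), part C1: LEMMA RE (helper555 #5777, one-path form of helper170), in the block
form `Matrix (J ⊕ J') (J ⊕ J') R` with a rectangular chain map `α : Matrix J' J R`.

Scalars `c s : K` (selfadjoint, `c * c + s * s = 1`) in a commutative star ring `K` acting on `R`.

* `tsumB`, `tneg`, `rsumB`, `rneg` : block sum and negation of tuples / regular pairs.
* `reT c s x y α k l` : the path of tuples, `reT_isPC`.
* `reR c s x y α k l` : the path of regular pairs, `reR_isRP`.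
* `(c, s) = (1, 0)` : `x ⊕ (-y)`; `(c, s) = (0, 1)` : its own negative under `diag (1, -1)`.
-/

set_option autoImplicit false
set_option linter.unusedSectionVars false
set_option linter.unusedSimpArgs false

namespace Crest.Agent.R217.RE531

open Crest.Agent.R217.PC473
open Matrix

universe u v w

section ops

variable {R : Type w} [Ring R] [StarRing R]
variable {J J' : Type u} [Fintype J] [DecidableEq J] [Fintype J'] [DecidableEq J']

/-- block sum of tuples -/
def tsumB (x : Tup (Matrix J J R)) (y : Tup (Matrix J' J' R)) :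
    Tup (Matrix (J ⊕ J') (J ⊕ J') R) where
  p := fromBlocks x.p 0 0 y.p
  g := fromBlocks x.g 0 0 y.g
  d := fromBlocks x.d 0 0 y.d
  S := fromBlocks x.S 0 0 y.S
  T := fromBlocks x.T 0 0 y.T
  H := fromBlocks x.H 0 0 y.H

/-- block sum of regular pairs -/
def rsumB (x : RPr (Matrix J J R)) (y : RPr (Matrix J' J' R)) :
    RPr (Matrix (J ⊕ J') (J ⊕ J') R) where
  p := fromBlocks x.p 0 0 y.p
  g := fromBlocks x.g 0 0 y.g
  d := fromBlocks x.d 0 0 y.d
  f := fromBlocks x.f 0 0 y.f
  q := fromBlocks x.q 0 0 y.q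
  h := fromBlocks x.h 0 0 y.h

theorem zeroB : (0 : Matrix (J ⊕ J') (J ⊕ J') R) = fromBlocks 0 0 0 0 := fromBlocks_zero.symm

theorem sgnB (m : ℕ) (a : Matrix J J R) (b : Matrix J J' R) (c : Matrix J' J R)
    (d : Matrix J' J' R) :
    (-1 : Matrix (J ⊕ J') (J ⊕ J') R) ^ m * fromBlocks a b c d =
      fromBlocks ((-1 : Matrix J J R) ^ m * a) ((-1 : Matrix J J R) ^ m * b)
        ((-1 : Matrix J' J' R) ^ m * c) ((-1 : Matrix J' J' R) ^ m * d) := by
  rcases Nat.even_or_odd m with h | h <;>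
    simp only [h.neg_one_pow, Matrix.one_mul, Matrix.neg_mul, one_mul, neg_mul, fromBlocks_neg]

theorem starB (a : Matrix J J R) (b : Matrix J J' R) (c : Matrix J' J R)
    (d : Matrix J' J' R) :
    star (fromBlocks a b c d) = fromBlocks aᴴ cᴴ bᴴ dᴴ := by
  rw [star_eq_conjTranspose, fromBlocks_conjTranspose]

theorem subB (a : Matrix J J R) (b : Matrix J J' R) (c : Matrix J' J R) (d : Matrix J' J' R)
    (a' : Matrix J J R) (b' : Matrix J J' R) (c' : Matrix J' J R) (d' : Matrix J' J' R) :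
    fromBlocks a b c d - fromBlocks a' b' c' d' =
      fromBlocks (a - a') (b - b') (c - c') (d - d') := by
  rw [sub_eq_add_neg, fromBlocks_neg, fromBlocks_add]
  simp only [← sub_eq_add_neg]

theorem tsumB_isPC {m : ℕ} {x : Tup (Matrix J J R)} {y : Tup (Matrix J' J' R)}
    (hx : x.IsPC m) (hy : y.IsPC m) : (tsumB x y).IsPC m where
  pp := by simp [tsumB, fromBlocks_multiply, hx.pp, hy.pp]
  sp := by have h1 := hx.sp; have h2 := hy.sp; rw [star_eq_conjTranspose] at h1 h2
           simp [tsumB, starB, h1, h2]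
  gg := by simp [tsumB, fromBlocks_multiply, hx.gg, hy.gg]
  sg := by have h1 := hx.sg; have h2 := hy.sg; rw [star_eq_conjTranspose] at h1 h2
           simp [tsumB, starB, h1, h2]
  pg := by simp [tsumB, fromBlocks_multiply, hx.pg, hy.pg]
  pd := by simp [tsumB, fromBlocks_multiply, hx.pd, hy.pd]
  dp := by simp [tsumB, fromBlocks_multiply, hx.dp, hy.dp]
  pS := by simp [tsumB, fromBlocks_multiply, hx.pS, hy.pS]
  pT := by simp [tsumB, fromBlocks_multiply, hx.pT, hy.pT]
  pH := by simp [tsumB, fromBlocks_multiply, hx.pH, hy.pH]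
  Hp := by simp [tsumB, fromBlocks_multiply, hx.Hp, hy.Hp]
  dd := by simp [tsumB, fromBlocks_multiply, hx.dd, hy.dd]
  sS := by have h1 := hx.sS; have h2 := hy.sS; rw [star_eq_conjTranspose] at h1 h2
           simp [tsumB, starB, h1, h2]
  sT := by have h1 := hx.sT; have h2 := hy.sT; rw [star_eq_conjTranspose] at h1 h2
           simp [tsumB, starB, h1, h2]
  dS := by
    have h1 := hx.dS; have h2 := hy.dS; rw [star_eq_conjTranspose] at h1 h2
    simp [tsumB, starB, fromBlocks_multiply, fromBlocks_add, h1, h2]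
  Td := by
    have h1 := hx.Td; have h2 := hy.Td; rw [star_eq_conjTranspose] at h1 h2
    simp [tsumB, starB, fromBlocks_multiply, fromBlocks_add, h1, h2]
  ST := by simp [tsumB, fromBlocks_multiply, fromBlocks_add, hx.ST, hy.ST]
  gd := by simp [tsumB, fromBlocks_multiply, fromBlocks_neg, hx.gd, hy.gd]
  gS := by simp [tsumB, fromBlocks_multiply, sgnB, hx.gS, hy.gS]
  gT := by simp [tsumB, fromBlocks_multiply, sgnB, hx.gT, hy.gT]
  gH := by simp [tsumB, fromBlocks_multiply, fromBlocks_neg, hx.gH, hy.gH]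

theorem rsumB_isRP {m : ℕ} {x : RPr (Matrix J J R)} {y : RPr (Matrix J' J' R)}
    (hx : x.IsRP m) (hy : y.IsRP m) : (rsumB x y).IsRP m where
  pp := by simp [rsumB, fromBlocks_multiply, hx.pp, hy.pp]
  sp := by have h1 := hx.sp; have h2 := hy.sp; rw [star_eq_conjTranspose] at h1 h2
           simp [rsumB, starB, h1, h2]
  gg := by simp [rsumB, fromBlocks_multiply, hx.gg, hy.gg]
  sg := by have h1 := hx.sg; have h2 := hy.sg; rw [star_eq_conjTranspose] at h1 h2
           simp [rsumB, starB, h1, h2]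
  pg := by simp [rsumB, fromBlocks_multiply, hx.pg, hy.pg]
  pd := by simp [rsumB, fromBlocks_multiply, hx.pd, hy.pd]
  dp := by simp [rsumB, fromBlocks_multiply, hx.dp, hy.dp]
  pf := by simp [rsumB, fromBlocks_multiply, hx.pf, hy.pf]
  pq := by simp [rsumB, fromBlocks_multiply, hx.pq, hy.pq]
  ph := by simp [rsumB, fromBlocks_multiply, hx.ph, hy.ph]
  hp := by simp [rsumB, fromBlocks_multiply, hx.hp, hy.hp]
  dd := by simp [rsumB, fromBlocks_multiply, hx.dd, hy.dd]
  sf := by have h1 := hx.sf; have h2 := hy.sf; rw [star_eq_conjTranspose] at h1 h2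
           simp [rsumB, starB, h1, h2]
  sq := by have h1 := hx.sq; have h2 := hy.sq; rw [star_eq_conjTranspose] at h1 h2
           simp [rsumB, starB, h1, h2]
  df := by
    have h1 := hx.df; have h2 := hy.df; rw [star_eq_conjTranspose] at h1 h2
    simp [rsumB, starB, fromBlocks_multiply, fromBlocks_add, h1, h2]
  qd := by
    have h1 := hx.qd; have h2 := hy.qd; rw [star_eq_conjTranspose] at h1 h2
    simp [rsumB, starB, fromBlocks_multiply, fromBlocks_add, h1, h2]
  fqf := by
    have h1 := hx.fqf; have h2 := hy.fqf; rw [star_eq_conjTranspose] at h1 h2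
    simp [rsumB, starB, fromBlocks_multiply, fromBlocks_add, subB, h1, h2]
  gd := by simp [rsumB, fromBlocks_multiply, fromBlocks_neg, hx.gd, hy.gd]
  gf := by simp [rsumB, fromBlocks_multiply, sgnB, hx.gf, hy.gf]
  gq := by simp [rsumB, fromBlocks_multiply, sgnB, hx.gq, hy.gq]
  gh := by simp [rsumB, fromBlocks_multiply, fromBlocks_neg, sgnB, hx.gh, hy.gh]

end ops

section negs

variable {A : Type*} [Ring A] [StarRing A]

/-- the negative tuple -/
def tneg (x : Tup A) : Tup A := ⟨x.p, x.g, x.d, -x.S, -x.T, x.H⟩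

/-- the negative regular pair -/
def rneg (x : RPr A) : RPr A := ⟨x.p, x.g, x.d, -x.f, -x.q, -x.h⟩

theorem tneg_isPC {m : ℕ} {x : Tup A} (hx : x.IsPC m) : (tneg x).IsPC m where
  pp := hx.pp
  sp := hx.sp
  gg := hx.gg
  sg := hx.sg
  pg := hx.pg
  pd := hx.pd
  dp := hx.dp
  pS := by simp [tneg, hx.pS]
  pT := by simp [tneg, hx.pT]
  pH := hx.pH
  Hp := hx.Hp
  dd := hx.dd
  sS := by simp [tneg, hx.sS]
  sT := by simp [tneg, hx.sT]
  dS := by simp only [tneg, mul_neg, neg_mul]; rw [← neg_add, hx.dS, neg_zero]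
  Td := by simp only [tneg, mul_neg, neg_mul]; rw [← neg_add, hx.Td, neg_zero]
  ST := by simp only [tneg, mul_neg, neg_mul, neg_neg]; exact hx.ST
  gd := hx.gd
  gS := by simp [tneg, hx.gS]
  gT := by simp [tneg, hx.gT]
  gH := hx.gH

theorem rneg_isRP {m : ℕ} {x : RPr A} (hx : x.IsRP m) : (rneg x).IsRP m where
  pp := hx.pp
  sp := hx.sp
  gg := hx.gg
  sg := hx.sg
  pg := hx.pg
  pd := hx.pd
  dp := hx.dp
  pf := by simp [rneg, hx.pf]
  pq := by simp [rneg, hx.pq]
  ph := by simp [rneg, hx.ph]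
  hp := by simp [rneg, hx.hp]
  dd := hx.dd
  sf := by simp [rneg, hx.sf]
  sq := by simp [rneg, hx.sq]
  df := by simp only [rneg, mul_neg, neg_mul]; rw [← neg_add, hx.df, neg_zero]
  qd := by simp only [rneg, mul_neg, neg_mul]; rw [← neg_add, hx.qd, neg_zero]
  fqf := by simp only [rneg, mul_neg, neg_mul, neg_neg]; rw [hx.fqf]; abel
  gd := hx.gd
  gf := by simp [rneg, hx.gf]
  gq := by simp [rneg, hx.gq]
  gh := by simp [rneg, hx.gh]

/-- conjugation of a tuple by a symmetry `u` -/
def tconj (u : A) (x : Tup A) : Tup A :=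
  ⟨u * x.p * u, u * x.g * u, u * x.d * u, u * x.S * u, u * x.T * u, u * x.H * u⟩

/-- conjugation of a regular pair by a symmetry `u` -/
def rconj (u : A) (x : RPr A) : RPr A :=
  ⟨u * x.p * u, u * x.g * u, u * x.d * u, u * x.f * u, u * x.q * u, u * x.h * u⟩

end negs

section re

variable {K : Type v} {R : Type w} [CommRing K] [StarRing K] [Ring R] [StarRing R] [Algebra K R]
  [StarModule K R]
variable {J J' : Type u} [Fintype J] [DecidableEq J] [Fintype J'] [DecidableEq J']

/-- hypotheses of lemma RE for tuples -/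
structure HypT (m : ℕ) (x : Tup (Matrix J J R)) (y : Tup (Matrix J' J' R)) (α : Matrix J' J R)
    (k : Matrix J' J' R) (l : Matrix J J R) : Prop where
  hx : x.IsPC m
  hy : y.IsPC m
  pα : y.p * α = α
  αp : α * x.p = α
  gα : y.g * α = α * x.g
  dα : y.d * α = α * x.d
  hS : y.S = α * x.S * αᴴ + y.d * k - k * y.dᴴ
  hT : x.T = αᴴ * y.T * α + l * x.d - x.dᴴ * l
  pk : y.p * k = k
  kp : k * y.p = k
  gk : y.g * k = -((-1 : Matrix J' J' R) ^ m * (k * y.g))
  pl : x.p * l = l
  lp : l * x.p = l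
  gl : x.g * l = -((-1 : Matrix J J R) ^ m * (l * x.g))

/-- the path of tuples of lemma RE -/
def reT (c s : K) (x : Tup (Matrix J J R)) (y : Tup (Matrix J' J' R)) (α : Matrix J' J R)
    (k : Matrix J' J' R) (l : Matrix J J R) : Tup (Matrix (J ⊕ J') (J ⊕ J') R) where
  p := fromBlocks x.p 0 0 y.p
  g := fromBlocks x.g 0 0 y.g
  d := fromBlocks x.d 0 0 y.d
  S := fromBlocks (c • x.S) (s • (x.S * αᴴ)) (s • (α * x.S)) (-(c • y.S))
  T := fromBlocks (c • x.T) (s • (αᴴ * y.T)) (s • (y.T * α)) (-(c • y.T))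
  H := fromBlocks (x.H - (s * s) • (x.S * l)) 0
    ((c * s) • (α * x.S * l - k * y.T * α)) (y.H - (s * s) • (k * y.T))

theorem assocR {J₁ J₂ J₃ : Type u} [Fintype J₁] [Fintype J₂] [Fintype J₃]
    {a : Matrix J₁ J₂ R} {b : Matrix J₂ J₃ R} {c : Matrix J₁ J₃ R} (h : a * b = c)
    {L : Type u} [Fintype L] (X : Matrix J₃ L R) : a * (b * X) = c * X := by
  rw [← Matrix.mul_assoc, h]

theorem reT_isPC {m : ℕ} {x : Tup (Matrix J J R)} {y : Tup (Matrix J' J' R)}
    {α : Matrix J' J R} {k : Matrix J' J' R} {l : Matrix J J R} (h : HypT m x y α k l)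
    {c s : K} (hc : star c = c) (hs : star s = s) (hcs : c * c + s * s = 1) :
    (reT c s x y α k l).IsPC m := by
  have xpp := h.hx.pp
  have xsp : x.pᴴ = x.p := by have := h.hx.sp; rwa [star_eq_conjTranspose] at this
  have xgg := h.hx.gg
  have xsg : x.gᴴ = x.g := by have := h.hx.sg; rwa [star_eq_conjTranspose] at this
  have xpg := h.hx.pg
  have xpd := h.hx.pd
  have xdp := h.hx.dp
  have xpS := h.hx.pS
  have xpT := h.hx.pT
  have xpH := h.hx.pH
  have xHp := h.hx.Hp
  have xdd := h.hx.dd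
  have xsS : x.Sᴴ = x.S := by have := h.hx.sS; rwa [star_eq_conjTranspose] at this
  have xsT : x.Tᴴ = x.T := by have := h.hx.sT; rwa [star_eq_conjTranspose] at this
  have xdS : x.d * x.S = -(x.S * x.dᴴ) := by
    have := h.hx.dS; rw [star_eq_conjTranspose] at this; exact eq_neg_of_add_eq_zero_left this
  have xTd : x.dᴴ * x.T = -(x.T * x.d) := by
    have := h.hx.Td; rw [star_eq_conjTranspose] at this; exact eq_neg_of_add_eq_zero_right this
  have xST := h.hx.ST
  have xgd := h.hx.gd
  have xgS := h.hx.gS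
  have xgT := h.hx.gT
  have xgH := h.hx.gH
  have ypp := h.hy.pp
  have ysp : y.pᴴ = y.p := by have := h.hy.sp; rwa [star_eq_conjTranspose] at this
  have ygg := h.hy.gg
  have ysg : y.gᴴ = y.g := by have := h.hy.sg; rwa [star_eq_conjTranspose] at this
  have ypg := h.hy.pg
  have ypd := h.hy.pd
  have ydp := h.hy.dp
  have ypS := h.hy.pS
  have ypT := h.hy.pT
  have ypH := h.hy.pH
  have yHp := h.hy.Hp
  have ydd := h.hy.dd
  have ysS : y.Sᴴ = y.S := by have := h.hy.sS; rwa [star_eq_conjTranspose] at this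
  have ysT : y.Tᴴ = y.T := by have := h.hy.sT; rwa [star_eq_conjTranspose] at this
  have ydS : y.d * y.S = -(y.S * y.dᴴ) := by
    have := h.hy.dS; rw [star_eq_conjTranspose] at this; exact eq_neg_of_add_eq_zero_left this
  have yTd : y.dᴴ * y.T = -(y.T * y.d) := by
    have := h.hy.Td; rw [star_eq_conjTranspose] at this; exact eq_neg_of_add_eq_zero_right this
  have yST := h.hy.ST
  have ygd := h.hy.gd
  have ygS := h.hy.gS
  have ygT := h.hy.gT
  have ygH := h.hy.gH
  have pα := h.pα
  have αp := h.αp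
  have gα := h.gα
  have dα := h.dα
  have hS := h.hS
  have hT := h.hT
  have pk := h.pk
  have kp := h.kp
  have gk := h.gk
  have pl := h.pl
  have lp := h.lp
  have gl := h.gl
  have αp' : x.p * αᴴ = αᴴ := by
    have := congrArg conjTranspose αp; rwa [conjTranspose_mul, xsp] at this
  have pα' : αᴴ * y.p = αᴴ := by
    have := congrArg conjTranspose pα; rwa [conjTranspose_mul, ysp] at this
  have gα' : x.g * αᴴ = αᴴ * y.g := by
    have := congrArg conjTranspose gα
    rw [conjTranspose_mul, conjTranspose_mul, xsg, ysg] at this; exact this.symm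
  have dα' : x.dᴴ * αᴴ = αᴴ * y.dᴴ := by
    have := congrArg conjTranspose dα
    rw [conjTranspose_mul, conjTranspose_mul] at this; exact this.symm
  have xSp : x.S * x.p = x.S := by
    have := congrArg conjTranspose xpS; rwa [conjTranspose_mul, xsp, xsS] at this
  have xTp : x.T * x.p = x.T := by
    have := congrArg conjTranspose xpT; rwa [conjTranspose_mul, xsp, xsT] at this
  have ySp : y.S * y.p = y.S := by
    have := congrArg conjTranspose ypS; rwa [conjTranspose_mul, ysp, ysS] at this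
  have yTp : y.T * y.p = y.T := by
    have := congrArg conjTranspose ypT; rwa [conjTranspose_mul, ysp, ysT] at this
  have hTα : αᴴ * (y.T * α) = x.T - l * x.d + x.dᴴ * l := by
    rw [hT, Matrix.mul_assoc]; abel
  have hSα : α * (x.S * αᴴ) = y.S - y.d * k + k * y.dᴴ := by
    rw [hS, Matrix.mul_assoc]; abel
  have hss : s * s = 1 - c * c := by rw [← hcs]; ring
  refine ⟨?_, ?_, ?_, ?_, ?_, ?_, ?_, ?_, ?_, ?_, ?_, ?_, ?_, ?_, ?_, ?_, ?_, ?_, ?_, ?_, ?_⟩
  · simp [reT, fromBlocks_multiply, xpp, ypp]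
  · simp [reT, starB, xsp, ysp]
  · simp [reT, fromBlocks_multiply, xgg, ygg]
  · simp [reT, starB, xsg, ysg]
  · simp [reT, fromBlocks_multiply, xpg, ypg]
  · simp [reT, fromBlocks_multiply, xpd, ypd]
  · simp [reT, fromBlocks_multiply, xdp, ydp]
  · simp [reT, fromBlocks_multiply, xpS, ypS, assocR xpS, assocR pα, Matrix.mul_smul]
  · simp [reT, fromBlocks_multiply, xpT, ypT, assocR ypT, assocR αp', Matrix.mul_smul]
  · simp [reT, fromBlocks_multiply, xpH, ypH, assocR xpS, assocR pα, Matrix.mul_smul,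
      Matrix.mul_sub, Matrix.mul_assoc, assocR pk]
  · simp [reT, fromBlocks_multiply, xHp, yHp, Matrix.smul_mul, Matrix.sub_mul, Matrix.mul_assoc,
      lp, αp, yTp]
  · simp [reT, fromBlocks_multiply, xdd, ydd]
  · simp [reT, starB, xsS, ysS, hc, hs]
  · simp [reT, starB, xsT, ysT, hc, hs]
  · have e1 : x.d * (x.S * αᴴ) = -(x.S * (αᴴ * y.dᴴ)) := by
      rw [← Matrix.mul_assoc, xdS, Matrix.neg_mul, Matrix.mul_assoc, dα']
    have e2 : y.d * (α * x.S) = -(α * (x.S * x.dᴴ)) := by
      rw [← Matrix.mul_assoc, dα, Matrix.mul_assoc, xdS, Matrix.mul_neg]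
    simp [reT, starB, fromBlocks_multiply, fromBlocks_add, e1, e2, xdS, ydS, Matrix.mul_assoc]
  · have e1 : x.dᴴ * (αᴴ * y.T) = -(αᴴ * (y.T * y.d)) := by
      rw [← Matrix.mul_assoc, dα', Matrix.mul_assoc, yTd, Matrix.mul_neg]
    have e2 : y.dᴴ * (y.T * α) = -(y.T * (α * x.d)) := by
      rw [← Matrix.mul_assoc, yTd, Matrix.neg_mul, Matrix.mul_assoc, dα]
    simp [reT, starB, fromBlocks_multiply, fromBlocks_add, e1, e2, xTd, yTd, Matrix.mul_assoc]
  · simp only [reT, starB, fromBlocks_multiply, fromBlocks_add, Matrix.mul_smul, Matrix.smul_mul,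
      smul_smul, Matrix.mul_assoc, Matrix.zero_mul, Matrix.mul_zero, add_zero, zero_add,
      Matrix.mul_neg, Matrix.neg_mul, neg_neg]
    have e1 : x.S * (αᴴ * (y.T * α)) = x.S * x.T - x.S * (l * x.d) - x.d * (x.S * l) := by
      rw [hTα, Matrix.mul_add, Matrix.mul_sub, ← Matrix.mul_assoc x.d x.S l, xdS, Matrix.neg_mul,
        Matrix.mul_assoc]
      abel
    have e2 : α * (x.S * (αᴴ * y.T)) = y.S * y.T - y.d * (k * y.T) - k * (y.T * y.d) := by
      rw [← Matrix.mul_assoc x.S, ← Matrix.mul_assoc α, hSα, Matrix.add_mul, Matrix.sub_mul,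
        Matrix.mul_assoc, Matrix.mul_assoc, yTd, Matrix.mul_neg]
      abel
    have e3 : α * (x.S * x.T) = α * (x.S * (αᴴ * (y.T * α))) + α * (x.S * (l * x.d))
        + y.d * (α * (x.S * l)) := by
      rw [e1, ← Matrix.mul_assoc y.d, dα, Matrix.mul_sub, Matrix.mul_sub, Matrix.mul_assoc]
      abel
    have e4 : y.S * (y.T * α) = α * (x.S * (αᴴ * (y.T * α))) + y.d * (k * (y.T * α))
        + k * (y.T * (α * x.d)) := by
      have e5 : α * (x.S * (αᴴ * (y.T * α))) = (α * (x.S * (αᴴ * y.T))) * α := by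
        simp only [Matrix.mul_assoc]
      rw [e5, e2, Matrix.sub_mul, Matrix.sub_mul]
      simp only [Matrix.mul_assoc, dα]
      abel
    rw [e1, e2, e3, e4, xST, yST]
    refine (fromBlocks_inj.2 ⟨?_, ?_, ?_, ?_⟩)
    · simp only [Matrix.mul_add, Matrix.add_mul, Matrix.mul_sub, Matrix.sub_mul, smul_add,
        smul_sub, Matrix.mul_smul, Matrix.smul_mul, Matrix.mul_assoc]
      rw [hss]
      module
    · module
    · simp only [Matrix.mul_add, Matrix.add_mul, Matrix.mul_sub, Matrix.sub_mul, smul_add,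
        smul_sub, Matrix.mul_smul, Matrix.smul_mul, Matrix.mul_assoc]
      module
    · simp only [Matrix.mul_add, Matrix.add_mul, Matrix.mul_sub, Matrix.sub_mul, smul_add,
        smul_sub, Matrix.mul_smul, Matrix.smul_mul, Matrix.mul_assoc]
      rw [hss]
      module
  · simp [reT, fromBlocks_multiply, fromBlocks_neg, xgd, ygd]
  · have e1 : x.g * (x.S * αᴴ) = (-1 : Matrix J J R) ^ m * (x.S * αᴴ * y.g) := by
      rw [← Matrix.mul_assoc, xgS]
      simp only [Matrix.mul_assoc, gα']
    have e2 : y.g * (α * x.S) = (-1 : Matrix J' J' R) ^ m * (α * x.S * x.g) := by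
      rw [← Matrix.mul_assoc, gα, Matrix.mul_assoc, xgS]
      rcases Nat.even_or_odd m with h | h <;> simp [h.neg_one_pow, Matrix.mul_assoc]
    simp [reT, fromBlocks_multiply, sgnB, xgS, ygS, e1, e2]
  · have e1 : x.g * (αᴴ * y.T) = (-1 : Matrix J J R) ^ m * (αᴴ * y.T * y.g) := by
      rw [← Matrix.mul_assoc, gα', Matrix.mul_assoc, ygT]
      rcases Nat.even_or_odd m with h | h <;> simp [h.neg_one_pow, Matrix.mul_assoc]
    have e2 : y.g * (y.T * α) = (-1 : Matrix J' J' R) ^ m * (y.T * α * x.g) := by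
      rw [← Matrix.mul_assoc, ygT]
      simp only [Matrix.mul_assoc, gα]
    simp [reT, fromBlocks_multiply, sgnB, xgT, ygT, e1, e2]
  · have e1 : x.g * (x.S * l) = -(x.S * l * x.g) := by
      rw [← Matrix.mul_assoc, xgS, Matrix.mul_assoc, Matrix.mul_assoc, gl]
      rcases Nat.even_or_odd m with h | h <;> simp [h.neg_one_pow, Matrix.mul_assoc]
    have e2 : y.g * (k * y.T) = -(k * y.T * y.g) := by
      rw [← Matrix.mul_assoc, gk, Matrix.mul_assoc k y.T, eq_comm]
      have := ygT
      rcases Nat.even_or_odd m with h | h <;>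
        simp only [h.neg_one_pow, one_mul, neg_mul, Matrix.neg_mul, Matrix.one_mul, neg_neg,
          Matrix.mul_neg, Matrix.mul_assoc] at this ⊢ <;> simp [this]
    have e3 : y.g * (α * x.S * l - k * y.T * α) = -((α * x.S * l - k * y.T * α) * x.g) := by
      have a1 : y.g * (α * x.S * l) = -(α * x.S * l * x.g) := by
        rw [Matrix.mul_assoc α, ← Matrix.mul_assoc y.g, gα, Matrix.mul_assoc, e1]
        simp [Matrix.mul_assoc]
      have a2 : y.g * (k * y.T * α) = -(k * y.T * α * x.g) := by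
        rw [← Matrix.mul_assoc y.g, e2]
        simp [Matrix.mul_assoc, gα]
      rw [Matrix.mul_sub, a1, a2, Matrix.sub_mul]
      abel
    have e4 : x.g * (x.H - (s * s) • (x.S * l)) = -((x.H - (s * s) • (x.S * l)) * x.g) := by
      rw [Matrix.mul_sub, Matrix.mul_smul, e1, xgH, Matrix.sub_mul, Matrix.smul_mul, smul_neg]
      abel
    have e5 : y.g * (y.H - (s * s) • (k * y.T)) = -((y.H - (s * s) • (k * y.T)) * y.g) := by
      rw [Matrix.mul_sub, Matrix.mul_smul, e2, ygH, Matrix.sub_mul, Matrix.smul_mul, smul_neg]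
      abel
    simp [reT, fromBlocks_multiply, fromBlocks_neg, xgH, ygH, e3, e4, e5]

/-- hypotheses of lemma RE for regular pairs -/
structure HypR (m : ℕ) (x : RPr (Matrix J J R)) (y : RPr (Matrix J' J' R)) (α : Matrix J' J R)
    (k : Matrix J' J' R) (l : Matrix J J R) : Prop where
  hx : x.IsRP m
  hy : y.IsRP m
  pα : y.p * α = α
  αp : α * x.p = α
  gα : y.g * α = α * x.g
  dα : y.d * α = α * x.d
  hf : y.f = α * x.f * αᴴ + y.d * k - k * y.dᴴ
  hq : x.q = αᴴ * y.q * α + l * x.d - x.dᴴ * l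
  pk : y.p * k = k
  kp : k * y.p = k
  gk : y.g * k = -((-1 : Matrix J' J' R) ^ m * (k * y.g))
  pl : x.p * l = l
  lp : l * x.p = l
  gl : x.g * l = -((-1 : Matrix J J R) ^ m * (l * x.g))

/-- the path of regular pairs of lemma RE -/
def reR (c s : K) (x : RPr (Matrix J J R)) (y : RPr (Matrix J' J' R)) (α : Matrix J' J R)
    (k : Matrix J' J' R) (l : Matrix J J R) : RPr (Matrix (J ⊕ J') (J ⊕ J') R) where
  p := fromBlocks x.p 0 0 y.p
  g := fromBlocks x.g 0 0 y.g
  d := fromBlocks x.d 0 0 y.d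
  f := fromBlocks (c • x.f) (s • (x.f * αᴴ)) (s • (α * x.f)) (-(c • y.f))
  q := fromBlocks (c • x.q) (s • (αᴴ * y.q)) (s • (y.q * α)) (-(c • y.q))
  h := fromBlocks (c • x.h - (c * (s * s)) • (x.f * l * x.f))
    (s • (x.h * αᴴ) - (s * (s * s)) • (x.f * l * x.f * αᴴ))
    (s • (α * x.h) - (s * (s * s)) • (α * x.f * l * x.f))
    (-(c • y.h) + (c * (s * s)) • (α * x.f * l * x.f * αᴴ + k * y.q * (y.f - α * x.f * αᴴ)))

theorem reR_isRP {m : ℕ} {x : RPr (Matrix J J R)} {y : RPr (Matrix J' J' R)}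
    {α : Matrix J' J R} {k : Matrix J' J' R} {l : Matrix J J R} (h : HypR m x y α k l)
    {c s : K} (hc : star c = c) (hs : star s = s) (hcs : c * c + s * s = 1) :
    (reR c s x y α k l).IsRP m := by
  have xpp := h.hx.pp
  have xsp : x.pᴴ = x.p := by have := h.hx.sp; rwa [star_eq_conjTranspose] at this
  have xgg := h.hx.gg
  have xsg : x.gᴴ = x.g := by have := h.hx.sg; rwa [star_eq_conjTranspose] at this
  have xpg := h.hx.pg
  have xpd := h.hx.pd
  have xdp := h.hx.dp
  have xpf := h.hx.pf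
  have xpq := h.hx.pq
  have xph := h.hx.ph
  have xhp := h.hx.hp
  have xdd := h.hx.dd
  have xsf : x.fᴴ = x.f := by have := h.hx.sf; rwa [star_eq_conjTranspose] at this
  have xsq : x.qᴴ = x.q := by have := h.hx.sq; rwa [star_eq_conjTranspose] at this
  have xdf : x.d * x.f = -(x.f * x.dᴴ) := by
    have := h.hx.df; rw [star_eq_conjTranspose] at this; exact eq_neg_of_add_eq_zero_left this
  have xqd : x.dᴴ * x.q = -(x.q * x.d) := by
    have := h.hx.qd; rw [star_eq_conjTranspose] at this; exact eq_neg_of_add_eq_zero_right this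
  have xfqf : x.f * (x.q * x.f) = x.f + x.d * x.h - x.h * x.dᴴ := by
    have := h.hx.fqf; rwa [star_eq_conjTranspose, Matrix.mul_assoc] at this
  have xgd := h.hx.gd
  have xgf := h.hx.gf
  have xgq := h.hx.gq
  have xgh := h.hx.gh
  have ypp := h.hy.pp
  have ysp : y.pᴴ = y.p := by have := h.hy.sp; rwa [star_eq_conjTranspose] at this
  have ygg := h.hy.gg
  have ysg : y.gᴴ = y.g := by have := h.hy.sg; rwa [star_eq_conjTranspose] at this
  have ypg := h.hy.pg
  have ypd := h.hy.pd
  have ydp := h.hy.dp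
  have ypf := h.hy.pf
  have ypq := h.hy.pq
  have yph := h.hy.ph
  have yhp := h.hy.hp
  have ydd := h.hy.dd
  have ysf : y.fᴴ = y.f := by have := h.hy.sf; rwa [star_eq_conjTranspose] at this
  have ysq : y.qᴴ = y.q := by have := h.hy.sq; rwa [star_eq_conjTranspose] at this
  have ydf : y.d * y.f = -(y.f * y.dᴴ) := by
    have := h.hy.df; rw [star_eq_conjTranspose] at this; exact eq_neg_of_add_eq_zero_left this
  have yqd : y.dᴴ * y.q = -(y.q * y.d) := by
    have := h.hy.qd; rw [star_eq_conjTranspose] at this; exact eq_neg_of_add_eq_zero_right this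
  have yfqf : y.f * (y.q * y.f) = y.f + y.d * y.h - y.h * y.dᴴ := by
    have := h.hy.fqf; rwa [star_eq_conjTranspose, Matrix.mul_assoc] at this
  have ygd := h.hy.gd
  have ygf := h.hy.gf
  have ygq := h.hy.gq
  have ygh := h.hy.gh
  have pα := h.pα
  have αp := h.αp
  have gα := h.gα
  have dα := h.dα
  have hf := h.hf
  have hq := h.hq
  have pk := h.pk
  have kp := h.kp
  have gk := h.gk
  have pl := h.pl
  have lp := h.lp
  have gl := h.gl
  have αp' : x.p * αᴴ = αᴴ := by
    have := congrArg conjTranspose αp; rwa [conjTranspose_mul, xsp] at this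
  have pα' : αᴴ * y.p = αᴴ := by
    have := congrArg conjTranspose pα; rwa [conjTranspose_mul, ysp] at this
  have gα' : x.g * αᴴ = αᴴ * y.g := by
    have := congrArg conjTranspose gα
    rw [conjTranspose_mul, conjTranspose_mul, xsg, ysg] at this; exact this.symm
  have dα' : x.dᴴ * αᴴ = αᴴ * y.dᴴ := by
    have := congrArg conjTranspose dα
    rw [conjTranspose_mul, conjTranspose_mul] at this; exact this.symm
  have xfp : x.f * x.p = x.f := by
    have := congrArg conjTranspose xpf; rwa [conjTranspose_mul, xsp, xsf] at this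
  have xqp : x.q * x.p = x.q := by
    have := congrArg conjTranspose xpq; rwa [conjTranspose_mul, xsp, xsq] at this
  have yfp : y.f * y.p = y.f := by
    have := congrArg conjTranspose ypf; rwa [conjTranspose_mul, ysp, ysf] at this
  have yqp : y.q * y.p = y.q := by
    have := congrArg conjTranspose ypq; rwa [conjTranspose_mul, ysp, ysq] at this
  have ydd' : y.dᴴ * y.dᴴ = 0 := by
    have := congrArg conjTranspose ydd; rwa [conjTranspose_mul, conjTranspose_zero] at this
  have hss : s * s = 1 - c * c := by rw [← hcs]; ring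
  refine ⟨?_, ?_, ?_, ?_, ?_, ?_, ?_, ?_, ?_, ?_, ?_, ?_, ?_, ?_, ?_, ?_, ?_, ?_, ?_, ?_, ?_⟩
  · simp [reR, fromBlocks_multiply, xpp, ypp]
  · simp [reR, starB, xsp, ysp]
  · simp [reR, fromBlocks_multiply, xgg, ygg]
  · simp [reR, starB, xsg, ysg]
  · simp [reR, fromBlocks_multiply, xpg, ypg]
  · simp [reR, fromBlocks_multiply, xpd, ypd]
  · simp [reR, fromBlocks_multiply, xdp, ydp]
  · simp [reR, fromBlocks_multiply, xpf, ypf, assocR xpf, assocR pα, Matrix.mul_smul]
  · simp [reR, fromBlocks_multiply, xpq, ypq, assocR ypq, assocR αp', Matrix.mul_smul]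
  · simp [reR, fromBlocks_multiply, xph, yph, assocR xpf, assocR xph, assocR pα, Matrix.mul_smul,
      Matrix.mul_sub, Matrix.mul_add, Matrix.mul_neg, Matrix.mul_assoc, assocR pk]
  · simp [reR, fromBlocks_multiply, xhp, yhp, Matrix.smul_mul, Matrix.sub_mul, Matrix.add_mul,
      Matrix.mul_sub, Matrix.neg_mul, Matrix.mul_assoc, lp, αp, pα', xfp, yfp, yqp]
  · simp [reR, fromBlocks_multiply, xdd, ydd]
  · simp [reR, starB, xsf, ysf, hc, hs]
  · simp [reR, starB, xsq, ysq, hc, hs]
  · have e1 : x.d * (x.f * αᴴ) = -(x.f * (αᴴ * y.dᴴ)) := by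
      rw [← Matrix.mul_assoc, xdf, Matrix.neg_mul, Matrix.mul_assoc, dα']
    have e2 : y.d * (α * x.f) = -(α * (x.f * x.dᴴ)) := by
      rw [← Matrix.mul_assoc, dα, Matrix.mul_assoc, xdf, Matrix.mul_neg]
    simp [reR, starB, fromBlocks_multiply, fromBlocks_add, e1, e2, xdf, ydf, Matrix.mul_assoc]
  · have e1 : x.dᴴ * (αᴴ * y.q) = -(αᴴ * (y.q * y.d)) := by
      rw [← Matrix.mul_assoc, dα', Matrix.mul_assoc, yqd, Matrix.mul_neg]
    have e2 : y.dᴴ * (y.q * α) = -(y.q * (α * x.d)) := by
      rw [← Matrix.mul_assoc, yqd, Matrix.neg_mul, Matrix.mul_assoc, dα]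
    simp [reR, starB, fromBlocks_multiply, fromBlocks_add, e1, e2, xqd, yqd, Matrix.mul_assoc]
  · -- pushing rules
    have r1 : ∀ {L : Type u} [Fintype L] (X : Matrix J L R),
        x.d * (x.f * X) = -(x.f * (x.dᴴ * X)) := fun X => by
      rw [← Matrix.mul_assoc, xdf, Matrix.neg_mul, Matrix.mul_assoc]
    have r2 : ∀ {L : Type u} [Fintype L] (X : Matrix J L R),
        y.d * (α * X) = α * (x.d * X) := fun X => by
      rw [← Matrix.mul_assoc, dα, Matrix.mul_assoc]
    have r3 : ∀ {L : Type u} [Fintype L] (X : Matrix J' L R),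
        x.dᴴ * (αᴴ * X) = αᴴ * (y.dᴴ * X) := fun X => by
      rw [← Matrix.mul_assoc, dα', Matrix.mul_assoc]
    have r4 : ∀ {L : Type u} [Fintype L] (X : Matrix J' L R),
        y.dᴴ * (y.q * X) = -(y.q * (y.d * X)) := fun X => by
      rw [← Matrix.mul_assoc, yqd, Matrix.neg_mul, Matrix.mul_assoc]
    have r6 : ∀ {L : Type u} [Fintype L] (X : Matrix J' L R),
        y.d * (y.d * X) = 0 := fun X => by
      rw [← Matrix.mul_assoc, ydd, Matrix.zero_mul]
    -- `f α* q' α f`
    have w2 : x.f * (αᴴ * (y.q * (α * x.f))) =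
        x.f * (x.q * x.f) + x.f * (l * (x.f * x.dᴴ)) - x.d * (x.f * (l * x.f)) := by
      have e : αᴴ * (y.q * (α * x.f)) = x.q * x.f - l * (x.d * x.f) + x.dᴴ * (l * x.f) := by
        rw [hq]
        simp only [Matrix.add_mul, Matrix.sub_mul, Matrix.mul_assoc]
        abel
      rw [e, Matrix.mul_add, Matrix.mul_sub, xdf, r1]
      simp only [Matrix.mul_neg]
      abel
    have w2' : x.f * (αᴴ * (y.q * (α * (x.f * αᴴ)))) =
        x.f * (x.q * (x.f * αᴴ)) + x.f * (l * (x.f * (αᴴ * y.dᴴ)))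
          - x.d * (x.f * (l * (x.f * αᴴ))) := by
      have := congrArg (· * αᴴ) w2
      simpa only [Matrix.add_mul, Matrix.sub_mul, Matrix.mul_assoc, dα'] using this
    have w1' : x.f * (x.q * (x.f * αᴴ)) = x.f * αᴴ + x.d * (x.h * αᴴ) - x.h * (αᴴ * y.dᴴ) := by
      have := congrArg (· * αᴴ) xfqf
      simpa only [Matrix.add_mul, Matrix.sub_mul, Matrix.mul_assoc, dα'] using this
    have eA : α * (x.f * (x.q * (x.f * αᴴ))) =
        y.d * (α * (x.f * (l * (x.f * αᴴ))) + k * (y.q * (y.f - α * (x.f * αᴴ))))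
        - (α * (x.f * (l * (x.f * αᴴ))) + k * (y.q * (y.f - α * (x.f * αᴴ)))) * y.dᴴ
        + α * (x.f * (αᴴ * (y.q * y.f))) + y.f * (y.q * (α * (x.f * αᴴ)))
        - y.f * (y.q * y.f) := by
      rw [hq, hf]
      simp only [Matrix.add_mul, Matrix.sub_mul, Matrix.mul_add, Matrix.mul_sub,
        Matrix.mul_assoc, r1, r2, r3, r4, r6, dα', xdf, dα, ydd, ydd', Matrix.mul_neg,
        Matrix.neg_mul, Matrix.mul_zero]
      abel
    simp only [reR, starB, fromBlocks_multiply, fromBlocks_add, subB, Matrix.mul_smul,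
      Matrix.smul_mul, smul_smul, Matrix.mul_assoc, Matrix.zero_mul, Matrix.mul_zero, add_zero,
      zero_add, Matrix.mul_neg, Matrix.neg_mul, neg_neg, Matrix.add_mul, Matrix.mul_add,
      conjTranspose_zero]
    refine (fromBlocks_inj.2 ⟨?_, ?_, ?_, ?_⟩)
    · simp only [Matrix.mul_assoc, Matrix.mul_sub, Matrix.sub_mul, Matrix.mul_smul,
        Matrix.smul_mul, smul_sub, smul_add, smul_neg, w2, xfqf]
      linear_combination (norm := module) hcs • (c • (x.f + x.d * x.h - x.h * x.dᴴ))
    · simp only [Matrix.mul_assoc, Matrix.mul_sub, Matrix.sub_mul, Matrix.mul_smul,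
        Matrix.smul_mul, smul_sub, smul_add, smul_neg, w2', w1']
      linear_combination (norm := module)
        hcs • (s • ((x.f * αᴴ : Matrix J J' R) + (x.d * (x.h * αᴴ) : Matrix J J' R)
          - (x.h * (αᴴ * y.dᴴ) : Matrix J J' R)))
    · simp only [Matrix.mul_assoc, Matrix.mul_sub, Matrix.sub_mul, Matrix.mul_smul,
        Matrix.smul_mul, smul_sub, smul_add, smul_neg, w2, xfqf, Matrix.mul_add, r2, dα]
      linear_combination (norm := module)
        hcs • (s • ((α * x.f : Matrix J' J R) + (α * (x.d * x.h) : Matrix J' J R)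
          - (α * (x.h * x.dᴴ) : Matrix J' J R)))
    · simp only [eA, yfqf, Matrix.add_mul, Matrix.mul_add, Matrix.mul_assoc]
      linear_combination (norm := module) hcs • ((-c) • (y.f + y.d * y.h - y.h * y.dᴴ))
  · simp [reR, fromBlocks_multiply, fromBlocks_neg, xgd, ygd]
  · have e1 : x.g * (x.f * αᴴ) = (-1 : Matrix J J R) ^ m * (x.f * αᴴ * y.g) := by
      rw [← Matrix.mul_assoc, xgf]
      simp only [Matrix.mul_assoc, gα']
    have e2 : y.g * (α * x.f) = (-1 : Matrix J' J' R) ^ m * (α * x.f * x.g) := by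
      rw [← Matrix.mul_assoc, gα, Matrix.mul_assoc, xgf]
      rcases Nat.even_or_odd m with h | h <;> simp [h.neg_one_pow, Matrix.mul_assoc]
    simp [reR, fromBlocks_multiply, sgnB, xgf, ygf, e1, e2]
  · have e1 : x.g * (αᴴ * y.q) = (-1 : Matrix J J R) ^ m * (αᴴ * y.q * y.g) := by
      rw [← Matrix.mul_assoc, gα', Matrix.mul_assoc, ygq]
      rcases Nat.even_or_odd m with h | h <;> simp [h.neg_one_pow, Matrix.mul_assoc]
    have e2 : y.g * (y.q * α) = (-1 : Matrix J' J' R) ^ m * (y.q * α * x.g) := by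
      rw [← Matrix.mul_assoc, ygq]
      simp only [Matrix.mul_assoc, gα]
    simp [reR, fromBlocks_multiply, sgnB, xgq, ygq, e1, e2]
  · -- parity of the homotopy
    simp only [reR, fromBlocks_multiply, fromBlocks_neg, sgnB, Matrix.mul_zero, Matrix.zero_mul,
      add_zero, zero_add]
    rcases Nat.even_or_odd m with hm | hm
    · simp only [hm.neg_one_pow, Matrix.one_mul, one_mul] at xgf ygf xgq ygq xgh ygh gk gl ⊢
      have a1 : ∀ {L : Type u} [Fintype L] (X : Matrix J L R),
          x.g * (x.f * X) = x.f * (x.g * X) := fun X => by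
        rw [← Matrix.mul_assoc, xgf, Matrix.mul_assoc]
      have a2 : ∀ {L : Type u} [Fintype L] (X : Matrix J' L R),
          y.g * (y.q * X) = y.q * (y.g * X) := fun X => by
        rw [← Matrix.mul_assoc, ygq, Matrix.mul_assoc]
      have a3 : ∀ {L : Type u} [Fintype L] (X : Matrix J L R),
          y.g * (α * X) = α * (x.g * X) := fun X => by
        rw [← Matrix.mul_assoc, gα, Matrix.mul_assoc]
      have a4 : ∀ {L : Type u} [Fintype L] (X : Matrix J L R),
          x.g * (l * X) = -(l * (x.g * X)) := fun X => by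
        rw [← Matrix.mul_assoc, gl, Matrix.neg_mul, Matrix.mul_assoc]
      have a5 : ∀ {L : Type u} [Fintype L] (X : Matrix J' L R),
          y.g * (k * X) = -(k * (y.g * X)) := fun X => by
        rw [← Matrix.mul_assoc, gk, Matrix.neg_mul, Matrix.mul_assoc]
      have a6 : ∀ {L : Type u} [Fintype L] (X : Matrix J L R),
          x.g * (x.h * X) = -(x.h * (x.g * X)) := fun X => by
        rw [← Matrix.mul_assoc, xgh, Matrix.neg_mul, Matrix.mul_assoc]
      refine (fromBlocks_inj.2 ⟨?_, ?_, ?_, ?_⟩) <;>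
      · simp only [Matrix.mul_assoc, Matrix.mul_sub, Matrix.sub_mul, Matrix.mul_add,
          Matrix.add_mul, Matrix.mul_smul, Matrix.smul_mul, Matrix.mul_neg, Matrix.neg_mul,
          xgf, ygf, xgq, ygq, xgh, ygh, gk, gl, a1, a2, a3, a4, a5, a6, gα, gα', smul_neg,
          smul_sub, smul_add, neg_neg, neg_sub, neg_add_rev]
        abel
    · simp only [hm.neg_one_pow, Matrix.neg_mul, Matrix.one_mul, neg_mul, one_mul, neg_neg]
        at xgf ygf xgq ygq xgh ygh gk gl ⊢
      have a1 : ∀ {L : Type u} [Fintype L] (X : Matrix J L R),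
          x.g * (x.f * X) = -(x.f * (x.g * X)) := fun X => by
        rw [← Matrix.mul_assoc, xgf, Matrix.neg_mul, Matrix.mul_assoc]
      have a2 : ∀ {L : Type u} [Fintype L] (X : Matrix J' L R),
          y.g * (y.q * X) = -(y.q * (y.g * X)) := fun X => by
        rw [← Matrix.mul_assoc, ygq, Matrix.neg_mul, Matrix.mul_assoc]
      have a3 : ∀ {L : Type u} [Fintype L] (X : Matrix J L R),
          y.g * (α * X) = α * (x.g * X) := fun X => by
        rw [← Matrix.mul_assoc, gα, Matrix.mul_assoc]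
      have a4 : ∀ {L : Type u} [Fintype L] (X : Matrix J L R),
          x.g * (l * X) = l * (x.g * X) := fun X => by
        rw [← Matrix.mul_assoc, gl, Matrix.mul_assoc]
      have a5 : ∀ {L : Type u} [Fintype L] (X : Matrix J' L R),
          y.g * (k * X) = k * (y.g * X) := fun X => by
        rw [← Matrix.mul_assoc, gk, Matrix.mul_assoc]
      have a6 : ∀ {L : Type u} [Fintype L] (X : Matrix J L R),
          x.g * (x.h * X) = x.h * (x.g * X) := fun X => by
        rw [← Matrix.mul_assoc, xgh, Matrix.mul_assoc]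
      refine (fromBlocks_inj.2 ⟨?_, ?_, ?_, ?_⟩) <;>
      · simp only [Matrix.mul_assoc, Matrix.mul_sub, Matrix.sub_mul, Matrix.mul_add,
          Matrix.add_mul, Matrix.mul_smul, Matrix.smul_mul, Matrix.mul_neg, Matrix.neg_mul,
          xgf, ygf, xgq, ygq, xgh, ygh, gk, gl, a1, a2, a3, a4, a5, a6, gα, gα', smul_neg,
          smul_sub, smul_add, neg_neg, neg_sub, neg_add_rev]

theorem reT_one_zero (x : Tup (Matrix J J R)) (y : Tup (Matrix J' J' R)) (α : Matrix J' J R)
    (k : Matrix J' J' R) (l : Matrix J J R) :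
    reT (1 : K) 0 x y α k l = tsumB x (tneg y) := by
  simp [reT, tsumB, tneg]

theorem reR_one_zero (x : RPr (Matrix J J R)) (y : RPr (Matrix J' J' R)) (α : Matrix J' J R)
    (k : Matrix J' J' R) (l : Matrix J J R) :
    reR (1 : K) 0 x y α k l = rsumB x (rneg y) := by
  simp [reR, rsumB, rneg]

theorem reT_zero_one (x : Tup (Matrix J J R)) (y : Tup (Matrix J' J' R)) (α : Matrix J' J R)
    (k : Matrix J' J' R) (l : Matrix J J R) :
    tconj (fromBlocks 1 0 0 (-1)) (reT (0 : K) 1 x y α k l) = tneg (reT (0 : K) 1 x y α k l) := by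
  simp [reT, tneg, tconj, fromBlocks_multiply, fromBlocks_neg]

theorem reR_zero_one (x : RPr (Matrix J J R)) (y : RPr (Matrix J' J' R)) (α : Matrix J' J R)
    (k : Matrix J' J' R) (l : Matrix J J R) :
    rconj (fromBlocks 1 0 0 (-1)) (reR (0 : K) 1 x y α k l) = rneg (reR (0 : K) 1 x y α k l) := by
  simp [reR, rneg, rconj, fromBlocks_multiply, fromBlocks_neg]

end re

end Crest.Agent.R217.RE531
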