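import Mathlib

/-!
Row 217 (S0336, Hilbert-Smith): INTERFACE between the chain-level core (part C) and the
group/topology side (part B2, file `RedB_368.lean`, which proves `(∀ n, CoreC n) → S0336`).

helper368, following helper561 (#5609): ONE theorem `CoreC n`, used twice.
The chain-level people only have to prove `CoreC n` (for every `n`).
-/

set_option autoImplicit false

open Topology Metric

namespace Crest.Agent.R217.SpecCore368

universe u

/-- The group data: `A` is topologically generated by the powers of `a`; `χ : A → Circle` is a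
continuous character, `χ a` is a primitive `q`-th root of unity (`q` prime), and every closed
subgroup of `A` not contained in `ker χ` is all of `A`. -/
structure Mono (A : Type*) [CommGroup A] [TopologicalSpace A] where
  a : A
  dense : Dense ((Subgroup.zpowers a : Subgroup A) : Set A)
  q : ℕ
  hq : q.Prime
  χ : A →* Circle
  hχ : Continuous χ
  prim : IsPrimitiveRoot (χ a) q
  min : ∀ B : Subgroup A, IsClosed (B : Set A) → ¬ B ≤ χ.ker → B = ⊤

/-- the norm here is the sup norm of `Fin n → ℝ` (so closed balls are cubes). -/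
def CoreC (n : ℕ) : Prop := ∃ c : ℝ, 0 < c ∧
  ∀ (A : Type u) [CommGroup A] [TopologicalSpace A] [IsTopologicalGroup A] [CompactSpace A]
    [T2Space A] [SecondCountableTopology A] (_m : Mono A)
    -- an open set `W` of `ℝⁿ` with a global continuous action of `A`
    (W : Set (Fin n → ℝ)) (_hW : IsOpen W) [MulAction A W] [ContinuousSMul A W]
    -- an invariant map `f : W → ℝⁿ`
    (f : W → (Fin n → ℝ)) (_hf : Continuous f) (_hinv : ∀ (g : A) (v : W), f (g • v) = f v)
    -- proper over the connected open set `Ω`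
    (Ω : Set (Fin n → ℝ)) (_hΩ : IsOpen Ω) (_hΩc : IsPreconnected Ω)
    (_hprop : ∀ K : Set (Fin n → ℝ), K ⊆ Ω → IsCompact K → IsCompact (f ⁻¹' K))
    -- near `y₁` the action and `f` are close to the identity, relative to the radius `ρ`
    (y₁ : Fin n → ℝ) (ρ : ℝ) (_hρ : 0 < ρ) (_h₁Ω : closedBall y₁ ρ ⊆ Ω)
    (_h₁W : closedBall y₁ ρ ⊆ W)
    (_h₁ : ∀ v : W, (v.1 ∈ closedBall y₁ ρ ∨ f v ∈ closedBall y₁ ρ) →
      dist (f v) v.1 ≤ c * ρ ∧ ∀ g : A, dist (g • v).1 v.1 ≤ c * ρ)
    -- over `y₂` there is no fixed point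
    (y₂ : Fin n → ℝ) (_h₂Ω : y₂ ∈ Ω) (_h₂ : ∀ v : W, f v = y₂ → ∃ g : A, g • v ≠ v),
    False

end Crest.Agent.R217.SpecCore368
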