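import Crest.Agent.R217.PCops_473

/-!
Row 217 (S0336), part C1, helper555: the total hermitian form of a Poincaré tuple.

`D_c = [[d,S],[0,d*]]` (cone of `S`), `Γ = [[u',Y],[T,u'*]]` a contraction with `XΓ*X = Γ`,
`Γ₁ = Γ D_c Γ`, `𝔸 = D_c + Γ₁` (`𝔸² = p`) and `tform x = 𝔸 X` is hermitian with inverse
`tinv x = X 𝔸` in the corner of `diag(p,p)`.
-/

set_option autoImplicit false
set_option linter.unusedSectionVars false

namespace Crest.Agent.R217.TForm555

open Matrix PC473

section words

variable {A : Type*} [Ring A] [StarRing A] [Algebra ℂ A]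

/-- `ξ = H S + S H*` -/
def xi (x : Tup A) : A := x.H * x.S + x.S * star x.H

/-- `u' = -H + ξ T / 2` -/
noncomputable def uu (x : Tup A) : A := -x.H + (1 / 2 : ℂ) • (xi x * x.T)

/-- `Y = -(H ξ + ξ H*) / 2` -/
noncomputable def yy (x : Tup A) : A := -((1 / 2 : ℂ) • (x.H * xi x + xi x * star x.H))

/-- differential of the cone -/
def dc (x : Tup A) : Matrix (Fin 2) (Fin 2) A := !![x.d, x.S; 0, star x.d]

/-- contraction of the cone -/
noncomputable def gc (x : Tup A) : Matrix (Fin 2) (Fin 2) A := !![uu x, yy x; x.T, star (uu x)]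

/-- the swap -/
def sw (x : Tup A) : Matrix (Fin 2) (Fin 2) A := !![0, x.p; x.p, 0]

/-- the unit of the corner -/
def pc (x : Tup A) : Matrix (Fin 2) (Fin 2) A := !![x.p, 0; 0, x.p]

/-- the odd operator -/
noncomputable def ac (x : Tup A) : Matrix (Fin 2) (Fin 2) A := dc x + gc x * dc x * gc x

/-- the total hermitian form -/
noncomputable def tform (x : Tup A) : Matrix (Fin 2) (Fin 2) A := ac x * sw x

/-- its inverse -/
noncomputable def tinv (x : Tup A) : Matrix (Fin 2) (Fin 2) A := sw x * ac x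

end words

section abs

variable {M : Type*} [Ring M] [StarRing M]

/-- abstract part -/
theorem abs_sq {p D G : M} (pD : p * D = D) (Dp : D * p = D) (Gp : G * p = G)
    (DD : D * D = 0) (h : D * G + G * D = p) :
    (D + G * D * G) * (D + G * D * G) = p := by
  have h1 : D * G * D = D := by
    have : (D * G + G * D) * D = D := by rw [h, pD]
    rw [add_mul, mul_assoc G D D, DD, mul_zero, add_zero] at this
    exact this
  have h2 : D * G * G * D = 0 := by
    have e1 : D * G = p - G * D := eq_sub_of_add_eq h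
    have e2 : D * G * G * D = (p - G * D) * G * D := by rw [e1]
    rw [e2, sub_mul, sub_mul]
    have e3 : p * G * D = (D * G + G * D) * G * D := by rw [h]
    have e4 : G * D * G * D = G * (D * G * D) := by noncomm_ring
    have e5 : p * (G * D) = G * D := by
      have : G * D * (G * D) = G * D := by rw [← mul_assoc, e4, h1]
      have e6 : D * G * (G * D) = p * (G * D) - G * D := by
        rw [e1, sub_mul, this]
      have e7 : p * (D * G * (G * D)) = D * G * (G * D) := by
        simp only [← mul_assoc, pD]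
      -- p * G * D = G * D follows from Gp and h
      have e8 : G * D = G * p * D := by rw [Gp]
      have e9 : p * p = p := by
        have a1 : D * G * (D * G) = D * G := by rw [← mul_assoc, h1]
        have a2 : G * D * (D * G) = 0 := by
          have : G * D * (D * G) = G * (D * D) * G := by noncomm_ring
          rw [this, DD]; simp
        have a3 : p * (D * G) = D * G := by rw [← mul_assoc, pD]
        have a4 : G * D * p = G * D := by rw [mul_assoc, Dp]
        have a5 : D * G * p = D * G := by rw [mul_assoc, Gp]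
        calc p * p = (D * G + G * D) * p := by rw [h]
          _ = p := by rw [add_mul, a5, a4, h]
      have a3 : p * (D * G) = D * G := by rw [← mul_assoc, pD]
      have : p * (D * G + G * D) = D * G + G * D := by rw [h, e9]
      rw [mul_add, a3] at this
      exact add_left_cancel this
    rw [e4, h1, mul_assoc p G D, e5, sub_self]
  have e : (D + G * D * G) * (D + G * D * G)
      = D * D + (D * G * D) * G + G * (D * G * D) + G * (D * G * G * D) * G := by noncomm_ring
  rw [e, DD, h1, h2, mul_zero, zero_mul, zero_add, add_zero, h]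

end abs

section main

variable {A : Type*} [Ring A] [StarRing A] [Algebra ℂ A] [StarModule ℂ A]
  {m : ℕ} {x : Tup A}

theorem sxi (hx : x.IsPC m) : star (xi x) = xi x := by
  unfold xi
  rw [star_add, star_mul, star_mul, star_star, hx.sS, add_comm]

theorem star_half : star (1 / 2 : ℂ) = 1 / 2 := by
  simp

theorem suu (hx : x.IsPC m) : star (uu x) = -star x.H + (1 / 2 : ℂ) • (x.T * xi x) := by
  unfold uu
  rw [star_add, star_neg, star_smul, star_half, star_mul, hx.sT, sxi hx]

theorem syy (hx : x.IsPC m) : star (yy x) = yy x := by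
  unfold yy
  rw [star_neg, star_smul, star_half, star_add, star_mul, star_mul, star_star, sxi hx, add_comm]

/-- `d ξ = ξ d*` -/
theorem dxi (hx : x.IsPC m) : x.d * xi x = xi x * star x.d := by
  unfold xi
  have h1 : x.d * x.H = x.S * x.T - x.p - x.H * x.d := by
    rw [hx.ST]; abel
  have h2 : star x.H * star x.d = x.T * x.S - x.p - star x.d * star x.H := by
    rw [hx.TS]; abel
  have h3 : x.S * star x.d = -(x.d * x.S) := eq_neg_of_add_eq_zero_right hx.dS
  calc x.d * (x.H * x.S + x.S * star x.H)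
      = x.d * x.H * x.S + x.d * x.S * star x.H := by noncomm_ring
    _ = (x.S * x.T - x.p - x.H * x.d) * x.S + x.d * x.S * star x.H := by rw [h1]
    _ = x.S * (x.T * x.S) - x.p * x.S - x.H * (x.d * x.S) + x.d * x.S * star x.H := by
        noncomm_ring
    _ = x.S * (x.T * x.S) - x.S * x.p - x.H * (x.d * x.S) + x.d * x.S * star x.H := by
        rw [hx.pS, hx.Sp]
    _ = x.H * (x.S * star x.d) + x.S * (x.T * x.S - x.p - star x.d * star x.H) := by
        rw [mul_sub, mul_sub, ← mul_assoc x.S (star x.d), h3]; noncomm_ring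
    _ = (x.H * x.S + x.S * star x.H) * star x.d := by rw [← h2]; noncomm_ring

theorem dc_sq (hx : x.IsPC m) : dc x * dc x = 0 := by
  unfold dc
  rw [mul_fin_two, zero_fin2]
  refine fin2_eq ?_ ?_ ?_ ?_
  · rw [hx.dd]; simp
  · rw [hx.dS]
  · simp
  · rw [hx.sdd]; simp

theorem pc_dc (hx : x.IsPC m) : pc x * dc x = dc x := by
  unfold pc dc
  rw [mul_fin_two]
  refine fin2_eq ?_ ?_ ?_ ?_
  · rw [hx.pd]; simp
  · rw [hx.pS]; simp
  · simp
  · rw [hx.psd]; simp

theorem dc_pc (hx : x.IsPC m) : dc x * pc x = dc x := by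
  unfold pc dc
  rw [mul_fin_two]
  refine fin2_eq ?_ ?_ ?_ ?_
  · rw [hx.dp]; simp
  · rw [hx.Sp]; simp
  · simp
  · rw [hx.sdp]; simp

theorem pxi (hx : x.IsPC m) : x.p * xi x = xi x := by
  unfold xi; rw [mul_add, ← mul_assoc, ← mul_assoc, hx.pH, hx.pS]

theorem xip (hx : x.IsPC m) : xi x * x.p = xi x := by
  unfold xi; rw [add_mul, mul_assoc, mul_assoc, hx.Sp, hx.sHp]

theorem gc_pc (hx : x.IsPC m) : gc x * pc x = gc x := by
  unfold pc gc
  rw [mul_fin_two, suu hx]
  refine fin2_eq ?_ ?_ ?_ ?_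
  · unfold uu
    rw [mul_zero, add_zero, add_mul, neg_mul, smul_mul_assoc, mul_assoc, hx.Tp, hx.Hp]
  · unfold yy
    rw [mul_zero, zero_add, neg_mul, smul_mul_assoc, add_mul, mul_assoc, mul_assoc, hx.sHp, xip hx]
  · rw [mul_zero, add_zero, hx.Tp]
  · rw [mul_zero, zero_add, add_mul, neg_mul, smul_mul_assoc, mul_assoc, hx.sHp, xip hx]

theorem pc_gc (hx : x.IsPC m) : pc x * gc x = gc x := by
  unfold pc gc
  rw [mul_fin_two, suu hx]
  refine fin2_eq ?_ ?_ ?_ ?_
  · unfold uu
    rw [zero_mul, add_zero, mul_add, mul_neg, mul_smul_comm, ← mul_assoc, pxi hx, hx.pH]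
  · unfold yy
    rw [zero_mul, add_zero, mul_neg, mul_smul_comm, mul_add, ← mul_assoc, ← mul_assoc, hx.pH,
      pxi hx]
  · rw [zero_mul, zero_add, hx.pT]
  · rw [zero_mul, zero_add, mul_add, mul_neg, mul_smul_comm, ← mul_assoc, hx.psH, hx.pT]

theorem dc_gc (hx : x.IsPC m) : dc x * gc x + gc x * dc x = pc x := by
  have hd := dxi hx
  have h1 : star x.d * x.T = -(x.T * x.d) := eq_neg_of_add_eq_zero_right hx.Td
  have e11 : x.d * uu x + x.S * x.T + (uu x * x.d + yy x * 0) = x.p := by
    unfold uu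
    have : x.d * (xi x * x.T) = -(xi x * x.T * x.d) := by
      rw [← mul_assoc, hd, mul_assoc, h1, mul_neg, mul_assoc]
    rw [mul_add, add_mul, mul_smul_comm, smul_mul_assoc, this, mul_neg, neg_mul, mul_zero,
      add_zero, hx.ST, smul_neg]
    abel
  unfold dc gc pc
  rw [mul_fin_two, mul_fin_two, add_fin2]
  refine fin2_eq e11 ?_ ?_ ?_
  · -- d Y + S u'* + (u' S + Y d*) = 0
    rw [suu hx]
    unfold uu yy
    have hTS : x.T * x.S = x.p + star x.d * star x.H + star x.H * star x.d := hx.TS
    have hST := hx.ST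
    have a1 : x.S * (x.T * xi x) = xi x + x.d * x.H * xi x + x.H * (xi x * star x.d) := by
      rw [← mul_assoc, hST, add_mul, add_mul, pxi hx, mul_assoc x.H x.d, hd]
    have a2 : xi x * x.T * x.S = xi x + x.d * xi x * star x.H + xi x * star x.H * star x.d := by
      rw [mul_assoc, hTS, mul_add, mul_add, xip hx, ← mul_assoc, ← mul_assoc, ← hd]
    have a3 : x.d * (x.H * xi x + xi x * star x.H) = x.d * x.H * xi x + x.d * xi x * star x.H := by
      noncomm_ring
    have a4 : (x.H * xi x + xi x * star x.H) * star x.d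
        = x.H * (xi x * star x.d) + xi x * star x.H * star x.d := by noncomm_ring
    have e : x.d * -((1 / 2 : ℂ) • (x.H * xi x + xi x * star x.H))
        + x.S * (-star x.H + (1 / 2 : ℂ) • (x.T * xi x))
        + ((-x.H + (1 / 2 : ℂ) • (xi x * x.T)) * x.S
          + -((1 / 2 : ℂ) • (x.H * xi x + xi x * star x.H)) * star x.d)
        = (1 / 2 : ℂ) • (x.S * (x.T * xi x) + xi x * x.T * x.S
            - x.d * (x.H * xi x + xi x * star x.H)
            - (x.H * xi x + xi x * star x.H) * star x.d) - (x.H * x.S + x.S * star x.H) := by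
      simp only [mul_add, add_mul, mul_neg, neg_mul, mul_smul_comm, smul_mul_assoc, smul_add,
        smul_sub]
      abel
    rw [e, a1, a2, a3, a4]
    have e2 : (xi x + x.d * x.H * xi x + x.H * (xi x * star x.d)
        + (xi x + x.d * xi x * star x.H + xi x * star x.H * star x.d)
        - (x.d * x.H * xi x + x.d * xi x * star x.H)
        - (x.H * (xi x * star x.d) + xi x * star x.H * star x.d)) = xi x + xi x := by abel
    rw [e2, ← two_smul ℂ (xi x), smul_smul]
    have : (1 / 2 : ℂ) * 2 = 1 := by norm_num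
    rw [this, one_smul]
    unfold xi; exact sub_self _
  · rw [zero_mul, zero_add, mul_zero, add_zero, h1]; abel
  · have := congrArg star e11
    simp only [star_add, star_mul, mul_zero, add_zero, hx.sS, hx.sT, hx.sp] at this
    rw [zero_mul, zero_add, ← this]; abel

theorem sw_sw (hx : x.IsPC m) : sw x * sw x = pc x := by
  unfold sw pc
  rw [mul_fin_two]
  refine fin2_eq ?_ ?_ ?_ ?_ <;> simp [hx.pp]

theorem star_sw (hx : x.IsPC m) : star (sw x) = sw x := by
  unfold sw
  rw [star_fin2, hx.sp, star_zero]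

theorem sw_sdc (hx : x.IsPC m) : sw x * star (dc x) = dc x * sw x := by
  unfold sw dc
  rw [star_fin2, mul_fin_two, mul_fin_two, star_zero, star_star, hx.sS]
  refine fin2_eq ?_ ?_ ?_ ?_
  · rw [hx.pS, hx.Sp]; simp
  · rw [hx.pd, hx.dp]; simp
  · rw [hx.psd, hx.sdp]; simp
  · simp

theorem sw_sgc (hx : x.IsPC m) : sw x * star (gc x) = gc x * sw x := by
  have h1 := pc_gc hx
  have h2 := gc_pc hx
  unfold pc gc at h1 h2
  rw [mul_fin_two] at h1 h2
  have f1 : ∀ {a b c d a' b' c' d' : A}, (!![a, b; c, d] : Matrix (Fin 2) (Fin 2) A)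
      = !![a', b'; c', d'] → a = a' ∧ b = b' ∧ c = c' ∧ d = d' := by
    intro a b c d a' b' c' d' h
    exact ⟨congrFun (congrFun h 0) 0, congrFun (congrFun h 0) 1, congrFun (congrFun h 1) 0,
      congrFun (congrFun h 1) 1⟩
  obtain ⟨l1, l2, l3, l4⟩ := f1 h1
  obtain ⟨r1, r2, r3, r4⟩ := f1 h2
  simp only [mul_zero, zero_mul, add_zero, zero_add] at l1 l2 l3 l4 r1 r2 r3 r4
  unfold sw gc
  rw [star_fin2, mul_fin_two, mul_fin_two, star_star, hx.sT, syy hx]
  refine fin2_eq ?_ ?_ ?_ ?_
  · rw [zero_mul, zero_add, mul_zero, zero_add, l2, r2]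
  · rw [zero_mul, zero_add, mul_zero, add_zero, l1, r1]
  · rw [zero_mul, add_zero, mul_zero, zero_add, l4, r4]
  · rw [zero_mul, add_zero, mul_zero, add_zero, l3, r3]

theorem ac_sq (hx : x.IsPC m) : ac x * ac x = pc x :=
  abs_sq (pc_dc hx) (dc_pc hx) (gc_pc hx) (dc_sq hx) (dc_gc hx)

theorem pc_ac (hx : x.IsPC m) : pc x * ac x = ac x := by
  unfold ac
  rw [mul_add, pc_dc hx, ← mul_assoc, ← mul_assoc, pc_gc hx]

theorem ac_pc (hx : x.IsPC m) : ac x * pc x = ac x := by
  unfold ac
  rw [add_mul, dc_pc hx, mul_assoc, gc_pc hx]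

theorem sw_sac (hx : x.IsPC m) : sw x * star (ac x) = ac x * sw x := by
  unfold ac
  rw [star_add, star_mul, star_mul, mul_add, sw_sdc hx]
  have : sw x * (star (gc x) * (star (dc x) * star (gc x))) = gc x * dc x * gc x * sw x := by
    calc sw x * (star (gc x) * (star (dc x) * star (gc x)))
        = (sw x * star (gc x)) * (star (dc x) * star (gc x)) := by noncomm_ring
      _ = gc x * (sw x * star (dc x)) * star (gc x) := by rw [sw_sgc hx]; noncomm_ring
      _ = gc x * dc x * (sw x * star (gc x)) := by rw [sw_sdc hx]; noncomm_ring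
      _ = gc x * dc x * gc x * sw x := by rw [sw_sgc hx]; noncomm_ring
  rw [this, add_mul]

theorem pc_sw (hx : x.IsPC m) : pc x * sw x = sw x := by
  unfold pc sw
  rw [mul_fin_two]
  refine fin2_eq ?_ ?_ ?_ ?_ <;> simp [hx.pp]

theorem sw_pc (hx : x.IsPC m) : sw x * pc x = sw x := by
  unfold pc sw
  rw [mul_fin_two]
  refine fin2_eq ?_ ?_ ?_ ?_ <;> simp [hx.pp]

/-- the form is invertible in the corner -/
theorem tform_tinv (hx : x.IsPC m) : tform x * tinv x = pc x := by
  unfold tform tinv
  calc ac x * sw x * (sw x * ac x) = ac x * (sw x * sw x) * ac x := by noncomm_ring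
    _ = pc x := by rw [sw_sw hx, ac_pc hx, ac_sq hx]

theorem tinv_tform (hx : x.IsPC m) : tinv x * tform x = pc x := by
  unfold tform tinv
  calc sw x * ac x * (ac x * sw x) = sw x * (ac x * ac x) * sw x := by noncomm_ring
    _ = pc x := by rw [ac_sq hx, sw_pc hx, sw_sw hx]

theorem star_tform (hx : x.IsPC m) : star (tform x) = tform x := by
  unfold tform
  rw [star_mul, star_sw hx, sw_sac hx]

theorem star_pc (hx : x.IsPC m) : star (pc x) = pc x := by
  unfold pc; rw [star_fin2, hx.sp, star_zero]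

theorem star_tinv (hx : x.IsPC m) : star (tinv x) = tinv x := by
  unfold tinv
  have h1 : pc x * star (ac x) = star (ac x) := by
    have := congrArg star (ac_pc hx)
    rwa [star_mul, star_pc hx] at this
  rw [star_mul, star_sw hx, ← h1, ← sw_sw hx, mul_assoc (sw x), sw_sac hx, mul_assoc,
    mul_assoc, sw_sw hx, ac_pc hx]

theorem pc_tform (hx : x.IsPC m) : pc x * tform x = tform x := by
  unfold tform; rw [← mul_assoc, pc_ac hx]

theorem tform_pc (hx : x.IsPC m) : tform x * pc x = tform x := by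
  unfold tform; rw [mul_assoc, sw_pc hx]

theorem pc_tinv (hx : x.IsPC m) : pc x * tinv x = tinv x := by
  unfold tinv; rw [← mul_assoc, pc_sw hx]

theorem tinv_pc (hx : x.IsPC m) : tinv x * pc x = tinv x := by
  unfold tinv; rw [mul_assoc, ac_pc hx]

theorem pc_pc (hx : x.IsPC m) : pc x * pc x = pc x := by
  unfold pc
  rw [mul_fin_two]
  refine fin2_eq ?_ ?_ ?_ ?_ <;> simp [hx.pp]

end main

section nat

variable {A B : Type*} [Ring A] [StarRing A] [Algebra ℂ A] [Ring B] [StarRing B] [Algebra ℂ B]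

theorem map_fin2 {α β : Type*} (f : α → β) (a b c d : α) :
    (!![a, b; c, d] : Matrix (Fin 2) (Fin 2) α).map f = !![f a, f b; f c, f d] := by
  ext i j; fin_cases i <;> fin_cases j <;> rfl

/-- naturality -/
theorem map_tform (F : A →⋆ₐ[ℂ] B) (x : Tup A) :
    (tform x).map F = tform (x.map F) := by
  simp only [tform, ac, dc, gc, sw, uu, yy, xi, Tup.map, mul_fin_two, add_fin2, map_fin2,
    map_add, map_mul, map_neg, map_smul, map_star, map_zero]

theorem map_tinv (F : A →⋆ₐ[ℂ] B) (x : Tup A) :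
    (tinv x).map F = tinv (x.map F) := by
  simp only [tinv, ac, dc, gc, sw, uu, yy, xi, Tup.map, mul_fin_two, add_fin2, map_fin2,
    map_add, map_mul, map_neg, map_smul, map_star, map_zero]

theorem map_pc (F : A →⋆ₐ[ℂ] B) (x : Tup A) :
    (pc x).map F = pc (x.map F) := by
  simp only [pc, Tup.map, map_fin2, map_zero]

/-- naturality for non-unital homomorphisms -/
theorem map_tform' (F : A →⋆ₙₐ[ℂ] B) (x : Tup A) :
    (tform x).map F = tform (x.map F) := by
  simp only [tform, ac, dc, gc, sw, uu, yy, xi, Tup.map, mul_fin_two, add_fin2, map_fin2,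
    map_add, map_mul, map_neg, map_smul, map_star, map_zero]

/-- the negative of a Poincaré tuple -/
def ng {A : Type*} [Neg A] (x : Tup A) : Tup A := ⟨x.p, x.g, x.d, -x.S, -x.T, x.H⟩

theorem ng_isPC {m : ℕ} {x : Tup A} (hx : x.IsPC m) : (ng x).IsPC m := by
  obtain ⟨pp, sp, gg, sg, pg, pd, dp, pS, pT, pH, Hp, dd, sS, sT, dS, Td, ST, gd, gS, gT, gH⟩ := hx
  constructor <;> simp only [ng] <;> try assumption
  · rw [mul_neg, pS]
  · rw [mul_neg, pT]
  · rw [star_neg, sS]
  · rw [star_neg, sT]
  · rw [mul_neg, neg_mul, ← neg_add, dS, neg_zero]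
  · rw [mul_neg, neg_mul, ← neg_add, Td, neg_zero]
  · rw [neg_mul_neg, ST]
  · rw [mul_neg, gS, neg_mul, mul_neg]
  · rw [mul_neg, gT, neg_mul, mul_neg]

/-- `diag(1,-1)` -/
def sgm : Matrix (Fin 2) (Fin 2) A := !![1, 0; 0, -1]

theorem tform_ng (x : Tup A) : tform (ng x) = -(sgm * tform x * sgm) := by
  have e1 : dc (ng x) = sgm * dc x * sgm := by
    simp only [dc, ng, sgm, mul_fin_two, one_mul, zero_mul, mul_zero, mul_one, add_zero,
      zero_add, neg_mul, mul_neg, neg_neg]
  have e2 : gc (ng x) = sgm * gc x * sgm := by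
    simp only [gc, uu, yy, xi, ng, sgm, mul_fin_two, one_mul, zero_mul, mul_zero, mul_one,
      add_zero, zero_add, neg_mul, mul_neg, neg_neg, star_add, star_neg,
      smul_neg, neg_zero, ← neg_add]
  have e3 : (sgm : Matrix (Fin 2) (Fin 2) A) * sgm = 1 := by
    simp only [sgm, mul_fin_two, one_fin_two, mul_zero, mul_one, add_zero,
      zero_add, mul_neg, neg_neg, neg_zero]
  have e4 : sw (ng x) = -(sgm * sw x * sgm) := by
    simp only [sw, ng, sgm, mul_fin_two, one_mul, zero_mul, mul_zero, mul_one, add_zero,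
      zero_add, neg_mul, mul_neg, neg_fin2, neg_neg, neg_zero]
  unfold tform ac
  rw [e1, e2, e4]
  have : ∀ a b : Matrix (Fin 2) (Fin 2) A, sgm * a * sgm * (sgm * b * sgm) = sgm * (a * b) * sgm := by
    intro a b
    calc sgm * a * sgm * (sgm * b * sgm) = sgm * a * (sgm * sgm) * b * sgm := by noncomm_ring
      _ = sgm * (a * b) * sgm := by rw [e3]; noncomm_ring
  rw [this, this, mul_neg, ← add_mul, ← mul_add, this]

end nat

end Crest.Agent.R217.TForm555
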