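import Mathlib

/-!
Row 217 (S0336), part C1: the form-level cut `Θ`.

`A` is a `*`-algebra over `ℂ`, `Q = Q*`, `R = R*`, `Q R = R Q = 1`, `P, P'` self-adjoint
commuting idempotents.  With `h = P Q P`, `r = P R P`, `ω = [[0,1],[-1,0]]`,

* `w = [[1,-r],[0,1]] [[1,0],[h,1]] [[1,-r],[0,1]]` is an isometry of `ω`,
* `β = w² (1 - 2P)` is an isometry of `ω`,
* `Θ = i ω (2 β P' β⁻¹ - 1)` is self-adjoint, with inverse `i ω Θ i ω`,
* `Θ = i ω (2P' - 1)` if `P` commutes with `Q, R` or if `P'` commutes with `Q, R`.
-/

set_option autoImplicit false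
set_option linter.unusedSectionVars false
set_option linter.unusedSimpArgs false
set_option linter.unusedVariables false

namespace Crest.Agent.R217.Theta880

open Matrix

variable {A : Type*} [Ring A] [StarRing A] [Algebra ℂ A] [StarModule ℂ A]

/-- two by two matrices -/
abbrev M2 (A : Type*) := Matrix (Fin 2) (Fin 2) A

theorem star_two (a b c d : A) : star !![a, b; c, d] = !![star a, star c; star b, star d] := by
  ext i j
  fin_cases i <;> fin_cases j <;> rfl

theorem one_two : (1 : M2 A) = !![1, 0; 0, 1] := by
  ext i j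
  fin_cases i <;> fin_cases j <;> rfl

theorem smul_two (z : ℂ) (a b c d : A) : z • !![a, b; c, d] = !![z • a, z • b; z • c, z • d] := by
  ext i j
  fin_cases i <;> fin_cases j <;> rfl

theorem neg_two (a b c d : A) : -!![a, b; c, d] = !![-a, -b; -c, -d] := by
  ext i j
  fin_cases i <;> fin_cases j <;> rfl

theorem add_two (a b c d a' b' c' d' : A) :
    !![a, b; c, d] + !![a', b'; c', d'] = !![a + a', b + b'; c + c', d + d'] := by
  ext i j
  fin_cases i <;> fin_cases j <;> rfl

theorem sub_two (a b c d a' b' c' d' : A) :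
    !![a, b; c, d] - !![a', b'; c', d'] = !![a - a', b - b'; c - c', d - d'] := by
  ext i j
  fin_cases i <;> fin_cases j <;> rfl

/-- the skew form -/
def om : M2 A := !![0, 1; -1, 0]

/-- upper unipotent -/
def up (r : A) : M2 A := !![1, -r; 0, 1]

/-- lower unipotent -/
def lo (h : A) : M2 A := !![1, 0; h, 1]

/-- block scalar -/
def dg (a : A) : M2 A := !![a, 0; 0, a]

/-- the sign `diag(1,-1)` -/
def sg : M2 A := !![1, 0; 0, -1]

/-- the isometry `w` -/
def ww (P Q R : A) : M2 A := up (P * R * P) * lo (P * Q * P) * up (P * R * P)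

/-- the isometry `β` -/
def be (P Q R : A) : M2 A := ww P Q R * ww P Q R * dg (1 - 2 * P)

/-- inverse of an isometry of `ω` -/
def oi (x : M2 A) : M2 A := -(om * star x * om)

/-- `i ω` -/
noncomputable def io : M2 A := Complex.I • om

/-- the form-level cut -/
noncomputable def Th (P P' Q R : A) : M2 A :=
  io * (2 * (be P Q R * dg P' * oi (be P Q R)) - 1)

/-- the standard form -/
noncomputable def std (P' : A) : M2 A := io * (2 * dg P' - 1)

theorem om_mul_om : (om : M2 A) * om = -1 := by
  simp [om, one_two, mul_fin_two, neg_two]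

theorem star_om : star (om : M2 A) = -om := by
  simp [om, star_two, neg_two]

theorem io_mul_io : (io : M2 A) * io = 1 := by
  unfold io
  rw [smul_mul_smul_comm, om_mul_om, Complex.I_mul_I]
  simp

theorem star_io : star (io : M2 A) = io := by
  unfold io
  rw [star_smul, star_om]
  simp

theorem dg_mul (a b : A) : dg (a * b) = dg a * dg b := by
  simp [dg, mul_fin_two]

theorem dg_one : dg (1 : A) = 1 := by
  simp [dg, one_two]

theorem dg_zero : dg (0 : A) = 0 := by
  ext i j; fin_cases i <;> fin_cases j <;> rfl

theorem dg_add (a b : A) : dg (a + b) = dg a + dg b := by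
  simp [dg, add_two]

theorem dg_sub (a b : A) : dg (a - b) = dg a - dg b := by
  simp [dg, sub_two]

theorem star_dg (a : A) : star (dg a) = dg (star a) := by
  simp [dg, star_two]

theorem om_dg (a : A) : om * dg a = dg a * om := by
  simp [dg, om, mul_fin_two]

theorem io_dg (a : A) : io * dg a = dg a * io := by
  unfold io
  rw [smul_mul_assoc, om_dg, mul_smul_comm]

theorem two_dg (a : A) : dg (2 * a) = 2 * dg a := by
  rw [two_mul, two_mul, dg_add]

theorem sg_sg : (sg : M2 A) * sg = 1 := by
  simp [sg, one_two, mul_fin_two]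

theorem star_sg : star (sg : M2 A) = sg := by
  simp [sg, star_two]

theorem sg_om : (sg : M2 A) * om = -(om * sg) := by
  simp [sg, om, mul_fin_two, neg_two]

theorem sg_io : (sg : M2 A) * io = -(io * sg) := by
  unfold io
  rw [mul_smul_comm, sg_om, smul_mul_assoc, smul_neg]

theorem sg_dg (a : A) : sg * dg a = dg a * sg := by
  simp [sg, dg, mul_fin_two]

theorem sg_up (a : A) : sg * up a * sg = up (-a) := by
  simp [sg, up, mul_fin_two]

theorem sg_lo (a : A) : sg * lo a * sg = lo (-a) := by
  simp [sg, lo, mul_fin_two]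

/-! ### isometries of `ω` -/

/-- `x` is an isometry of `ω` -/
def Iso (x : M2 A) : Prop := star x * om * x = om ∧ x * om * star x = om

theorem Iso.mul {x y : M2 A} (hx : Iso x) (hy : Iso y) : Iso (x * y) := by
  constructor
  · rw [star_mul]
    calc star y * star x * om * (x * y) = star y * (star x * om * x) * y := by noncomm_ring
      _ = om := by rw [hx.1, hy.1]
  · rw [star_mul]
    calc x * y * om * (star y * star x) = x * (y * om * star y) * star x := by noncomm_ring
      _ = om := by rw [hy.2, hx.2]

theorem Iso.mul_oi {x : M2 A} (hx : Iso x) : x * oi x = 1 := by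
  unfold oi
  have h := hx.2
  calc x * -(om * star x * om) = -((x * om * star x) * om) := by noncomm_ring
    _ = 1 := by rw [h, om_mul_om, neg_neg]

theorem Iso.oi_mul {x : M2 A} (hx : Iso x) : oi x * x = 1 := by
  unfold oi
  have h := hx.1
  calc -(om * star x * om) * x = -(om * (star x * om * x)) := by noncomm_ring
    _ = 1 := by rw [h, om_mul_om, neg_neg]

theorem oi_mul_rev (x y : M2 A) : oi (x * y) = oi y * oi x := by
  unfold oi
  rw [star_mul]
  calc -(om * (star y * star x) * om) = om * star y * (-1) * star x * om := by noncomm_ring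
    _ = om * star y * (om * om) * star x * om := by rw [om_mul_om]
    _ = -(om * star y * om) * -(om * star x * om) := by noncomm_ring

theorem star_oi (x : M2 A) : star (oi x) = -(om * x * om) := by
  unfold oi
  rw [star_neg, star_mul, star_mul, star_om, star_star]
  noncomm_ring

theorem oi_one : oi (1 : M2 A) = 1 := by
  unfold oi
  rw [star_one, mul_one, om_mul_om, neg_neg]

theorem iso_up {r : A} (hr : star r = r) : Iso (up r) := by
  constructor
  · simp [up, om, star_two, mul_fin_two, hr]
  · simp [up, om, star_two, mul_fin_two, hr]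

theorem iso_lo {h : A} (hh : star h = h) : Iso (lo h) := by
  constructor
  · simp [lo, om, star_two, mul_fin_two, hh]
  · simp [lo, om, star_two, mul_fin_two, hh]

theorem iso_dg {u : A} (h1 : star u * u = 1) (h2 : u * star u = 1) : Iso (dg u) := by
  constructor
  · rw [star_dg, ← om_dg, mul_assoc, ← dg_mul, h1, dg_one, mul_one]
  · rw [star_dg, mul_assoc, om_dg, ← mul_assoc, ← dg_mul, h2, dg_one, one_mul]

/-- hypotheses on a projection -/
structure Pr (P : A) : Prop where
  idem : P * P = P
  sa : star P = P

theorem Pr.sq {P : A} (hP : Pr P) : (1 - 2 * P) * (1 - 2 * P) = 1 := by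
  have : (1 - 2 * P) * (1 - 2 * P) = 1 - 4 * P + 4 * (P * P) := by noncomm_ring
  rw [this, hP.idem]; noncomm_ring

theorem Pr.star_sgn {P : A} (hP : Pr P) : star (1 - 2 * P) = 1 - 2 * P := by
  rw [star_sub, star_one, two_mul, star_add, hP.sa]

/-- hypotheses on a form with inverse -/
structure Fm (Q R : A) : Prop where
  sQ : star Q = Q
  sR : star R = R
  QR : Q * R = 1
  RQ : R * Q = 1

theorem iso_ww {P Q R : A} (hP : Pr P) (hQ : star Q = Q) (hR : star R = R) :
    Iso (ww P Q R) := by
  have h1 : star (P * R * P) = P * R * P := by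
    rw [star_mul, star_mul, hP.sa, hR, mul_assoc]
  have h2 : star (P * Q * P) = P * Q * P := by
    rw [star_mul, star_mul, hP.sa, hQ, mul_assoc]
  exact ((iso_up h1).mul (iso_lo h2)).mul (iso_up h1)

theorem iso_be {P Q R : A} (hP : Pr P) (hQ : star Q = Q) (hR : star R = R) :
    Iso (be P Q R) := by
  refine ((iso_ww hP hQ hR).mul (iso_ww hP hQ hR)).mul (iso_dg ?_ ?_)
  · rw [hP.star_sgn, hP.sq]
  · rw [hP.star_sgn, hP.sq]

/-! ### the cut is a form -/

theorem star_Th {P P' Q R : A} (hP' : Pr P') : star (Th P P' Q R) = Th P P' Q R := by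
  unfold Th
  rw [star_mul, star_sub, star_one, two_mul, star_add, star_mul, star_mul, star_dg, hP'.sa,
    star_io, star_oi]
  have h : (-(om * be P Q R * om) * (dg P' * star (be P Q R)) +
      -(om * be P Q R * om) * (dg P' * star (be P Q R)) - 1) * io =
      io * (be P Q R * dg P' * -(om * star (be P Q R) * om) +
      be P Q R * dg P' * -(om * star (be P Q R) * om) - 1) := by
    have e1 : (om : M2 A) * (dg P' * star (be P Q R)) = dg P' * (om * star (be P Q R)) := by
      rw [← mul_assoc, om_dg, mul_assoc]
    have e2 : -(om * be P Q R * om) * (dg P' * star (be P Q R)) =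
        -(om * be P Q R * dg P' * om * star (be P Q R)) := by
      calc -(om * be P Q R * om) * (dg P' * star (be P Q R))
          = -(om * be P Q R * (om * (dg P' * star (be P Q R)))) := by noncomm_ring
        _ = _ := by rw [e1]; noncomm_ring
    rw [e2]
    unfold io
    simp only [smul_mul_assoc, mul_smul_comm]
    congr 1
    noncomm_ring
  rw [h]
  unfold oi
  rfl

theorem inv_Th {P P' Q R : A} (hP : Pr P) (hP' : Pr P') (hQ : star Q = Q) (hR : star R = R) :
    Th P P' Q R * (io * Th P P' Q R * io) = 1 ∧ (io * Th P P' Q R * io) * Th P P' Q R = 1 := by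
  set e : M2 A := be P Q R * dg P' * oi (be P Q R) with he
  have hi := iso_be (P := P) (Q := Q) (R := R) hP hQ hR
  have hee : e * e = e := by
    calc e * e = be P Q R * dg P' * (oi (be P Q R) * be P Q R) * dg P' * oi (be P Q R) := by
          rw [he]; noncomm_ring
      _ = be P Q R * (dg P' * dg P') * oi (be P Q R) := by rw [hi.oi_mul]; noncomm_ring
      _ = e := by rw [← dg_mul, hP'.idem]
  have h2 : (2 * e - 1) * (2 * e - 1) = 1 := by
    calc (2 * e - 1) * (2 * e - 1) = 4 * (e * e) - 4 * e + 1 := by noncomm_ring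
      _ = 1 := by rw [hee]; noncomm_ring
  have hT : Th P P' Q R = io * (2 * e - 1) := rfl
  rw [hT]
  constructor
  · calc io * (2 * e - 1) * (io * (io * (2 * e - 1)) * io)
        = io * (2 * e - 1) * ((io * io) * (2 * e - 1)) * io := by noncomm_ring
      _ = io * ((2 * e - 1) * (2 * e - 1)) * io := by rw [io_mul_io]; noncomm_ring
      _ = 1 := by rw [h2, mul_one, io_mul_io]
  · calc (io * (io * (2 * e - 1)) * io) * (io * (2 * e - 1))
        = (io * io) * (2 * e - 1) * (io * io) * (2 * e - 1) := by noncomm_ring
      _ = (2 * e - 1) * (2 * e - 1) := by rw [io_mul_io]; noncomm_ring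
      _ = 1 := h2

theorem fm_Th {P P' Q R : A} (hP : Pr P) (hP' : Pr P') (hQ : star Q = Q) (hR : star R = R) :
    Fm (Th P P' Q R) (io * Th P P' Q R * io) where
  sQ := star_Th hP'
  sR := by rw [star_mul, star_mul, star_io, star_Th hP', mul_assoc]
  QR := (inv_Th hP hP' hQ hR).1
  RQ := (inv_Th hP hP' hQ hR).2

/-! ### the cut is standard away from the walls -/

theorem ww_of_comm {P Q R : A} (hP : Pr P) (hF : Fm Q R) (h1 : P * Q = Q * P)
    (h2 : P * R = R * P) : ww P Q R * ww P Q R = dg (1 - 2 * P) := by
  have e1 : P * R * P = P * R := by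
    rw [mul_assoc, ← h2, ← mul_assoc, hP.idem]
  have e2 : P * Q * P = P * Q := by
    rw [mul_assoc, ← h1, ← mul_assoc, hP.idem]
  have e3 : P * R * (P * Q) = P := by
    rw [← mul_assoc, mul_assoc P R P, ← h2, ← mul_assoc, hP.idem, mul_assoc, hF.RQ, mul_one]
  have e4 : P * Q * (P * R) = P := by
    rw [← mul_assoc, mul_assoc P Q P, ← h1, ← mul_assoc, hP.idem, mul_assoc, hF.QR, mul_one]
  have hPP := hP.idem
  have e5 : P * (P * R) = P * R := by rw [← mul_assoc, hPP]
  have e6 : P * (P * Q) = P * Q := by rw [← mul_assoc, hPP]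
  have e7 : P * R * P = P * R := e1
  have e8 : P * Q * P = P * Q := e2
  have hw : ww P Q R = !![1 - P, -(P * R); P * Q, 1 - P] := by
    unfold ww
    rw [e1, e2]
    simp only [up, lo, mul_fin_two, e3, e4, one_mul, mul_one, zero_mul, mul_zero, neg_mul,
      mul_neg, neg_neg, add_zero, zero_add]
    congr 1
    ext i j
    fin_cases i <;> fin_cases j
    · simp; noncomm_ring
    · simp [sub_mul, e5, e3, e4, add_mul]
    · simp
    · simp; noncomm_ring
  rw [hw]
  simp only [mul_fin_two, dg, mul_sub, sub_mul, mul_neg, neg_mul, e3, e4, hPP, e5, e6, e7, e8,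
    mul_one, one_mul]
  ext i j
  fin_cases i <;> fin_cases j
  · simp; noncomm_ring
  · simp
  · simp
  · simp; noncomm_ring

theorem be_of_comm {P Q R : A} (hP : Pr P) (hF : Fm Q R) (h1 : P * Q = Q * P)
    (h2 : P * R = R * P) : be P Q R = 1 := by
  unfold be
  rw [ww_of_comm hP hF h1 h2, ← dg_mul, hP.sq, dg_one]

theorem Th_of_comm {P P' Q R : A} (hP : Pr P) (hF : Fm Q R) (h1 : P * Q = Q * P)
    (h2 : P * R = R * P) : Th P P' Q R = std P' := by
  unfold Th std
  rw [be_of_comm hP hF h1 h2, oi_one, mul_one, one_mul]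

theorem dg_comm_be {P P' Q R : A} (h0 : P * P' = P' * P) (h1 : P' * Q = Q * P')
    (h2 : P' * R = R * P') : be P Q R * dg P' = dg P' * be P Q R := by
  have hc : Commute P' P := h0.symm
  have hq : Commute P' Q := h1
  have hr : Commute P' R := h2
  have c1 : Commute P' (P * R * P) := (hc.mul_right hr).mul_right hc
  have c2 : Commute P' (P * Q * P) := (hc.mul_right hq).mul_right hc
  have k1 : Commute (dg P') (up (P * R * P)) := by
    show dg P' * up (P * R * P) = up (P * R * P) * dg P'
    simp only [dg, up, mul_fin_two]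
    rw [show P' * (-(P * R * P)) = (-(P * R * P)) * P' from (c1.neg_right).eq]
    simp
  have k2 : Commute (dg P') (lo (P * Q * P)) := by
    show dg P' * lo (P * Q * P) = lo (P * Q * P) * dg P'
    simp only [dg, lo, mul_fin_two]
    rw [show P' * (P * Q * P) = (P * Q * P) * P' from c2.eq]
    simp
  have k3 : Commute (dg P') (dg (1 - 2 * P)) := by
    show dg P' * dg (1 - 2 * P) = dg (1 - 2 * P) * dg P'
    rw [← dg_mul, ← dg_mul, mul_sub, sub_mul, two_mul, mul_add, add_mul, hc.eq, one_mul, mul_one]
  have kw : Commute (dg P') (ww P Q R) := (k1.mul_right k2).mul_right k1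
  exact ((kw.mul_right kw).mul_right k3).eq.symm

theorem Th_of_comm' {P P' Q R : A} (hP : Pr P) (hQ : star Q = Q) (hR : star R = R)
    (h0 : P * P' = P' * P) (h1 : P' * Q = Q * P') (h2 : P' * R = R * P') :
    Th P P' Q R = std P' := by
  unfold Th std
  rw [dg_comm_be h0 h1 h2, mul_assoc, (iso_be hP hQ hR).mul_oi, mul_one]

/-! ### negation and unitary conjugation -/

theorem ww_neg (P Q R : A) : ww P (-Q) (-R) = sg * ww P Q R * sg := by
  unfold ww
  have e1 : P * -R * P = -(P * R * P) := by noncomm_ring
  have e2 : P * -Q * P = -(P * Q * P) := by noncomm_ring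
  rw [e1, e2, ← sg_up, ← sg_lo]
  calc sg * up (P * R * P) * sg * (sg * lo (P * Q * P) * sg) * (sg * up (P * R * P) * sg)
      = sg * up (P * R * P) * (sg * sg) * lo (P * Q * P) * (sg * sg) * up (P * R * P) * sg := by
        noncomm_ring
    _ = _ := by rw [sg_sg]; noncomm_ring

theorem be_neg (P Q R : A) : be P (-Q) (-R) = sg * be P Q R * sg := by
  unfold be
  rw [ww_neg]
  calc sg * ww P Q R * sg * (sg * ww P Q R * sg) * dg (1 - 2 * P)
      = sg * ww P Q R * (sg * sg) * ww P Q R * (sg * dg (1 - 2 * P)) := by noncomm_ring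
    _ = _ := by rw [sg_sg, sg_dg]; noncomm_ring

theorem oi_sg (x : M2 A) : oi (sg * x * sg) = sg * oi x * sg := by
  unfold oi
  rw [star_mul, star_mul, star_sg]
  have h : (om : M2 A) * sg = -(sg * om) := by rw [sg_om, neg_neg]
  calc -(om * (sg * (star x * sg)) * om) = -((om * sg) * star x * (sg * om)) := by noncomm_ring
    _ = -((-(sg * om)) * star x * (sg * om)) := by rw [h]
    _ = -((-(sg * om)) * star x * (-(om * sg))) := by
        conv_lhs => rw [mul_assoc (-(sg * om)) (star x) (sg * om)]
        conv_rhs => rw [mul_assoc (-(sg * om)) (star x) (-(om * sg))]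
        rw [← sg_om]
    _ = _ := by noncomm_ring

theorem Th_neg (P P' Q R : A) : Th P P' (-Q) (-R) = -(sg * Th P P' Q R * sg) := by
  unfold Th
  rw [be_neg, oi_sg]
  have h : (io : M2 A) * sg = -(sg * io) := by rw [sg_io, neg_neg]
  have e : sg * be P Q R * sg * dg P' * (sg * oi (be P Q R) * sg) =
      sg * (be P Q R * dg P' * oi (be P Q R)) * sg := by
    calc sg * be P Q R * sg * dg P' * (sg * oi (be P Q R) * sg)
        = sg * be P Q R * (sg * dg P') * sg * oi (be P Q R) * sg := by noncomm_ring
      _ = sg * be P Q R * dg P' * (sg * sg) * oi (be P Q R) * sg := by rw [sg_dg]; noncomm_ring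
      _ = _ := by rw [sg_sg]; noncomm_ring
  rw [e]
  have e2 : 2 * (sg * (be P Q R * dg P' * oi (be P Q R)) * sg) - 1 =
      sg * (2 * (be P Q R * dg P' * oi (be P Q R)) - 1) * sg := by
    calc 2 * (sg * (be P Q R * dg P' * oi (be P Q R)) * sg) - 1
        = 2 * (sg * (be P Q R * dg P' * oi (be P Q R)) * sg) - sg * sg := by rw [sg_sg]
      _ = _ := by noncomm_ring
  rw [e2]
  calc io * (sg * (2 * (be P Q R * dg P' * oi (be P Q R)) - 1) * sg)
      = (io * sg) * (2 * (be P Q R * dg P' * oi (be P Q R)) - 1) * sg := by noncomm_ring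
    _ = _ := by rw [h]; noncomm_ring

/-- conjugation by a unitary commuting with the projections -/
theorem Th_conj {P P' Q R u : A} (h1 : star u * u = 1) (h2 : u * star u = 1)
    (hP : P * u = u * P) (hPs : P * star u = star u * P)
    (hP' : P' * u = u * P') :
    Th P P' (u * Q * star u) (u * R * star u) = dg u * Th P P' Q R * dg (star u) := by
  have hcu : ∀ x : A, P * (u * x * star u) * P = u * (P * x * P) * star u := by
    intro x
    calc P * (u * x * star u) * P = (P * u) * x * (star u * P) := by noncomm_ring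
      _ = u * (P * x * P) * star u := by rw [hP, ← hPs]; noncomm_ring
  have d1 : dg u * dg (star u) = (1 : M2 A) := by rw [← dg_mul, h2, dg_one]
  have d2 : dg (star u) * dg u = (1 : M2 A) := by rw [← dg_mul, h1, dg_one]
  have hup : ∀ x : A, up (u * x * star u) = dg u * up x * dg (star u) := by
    intro x
    simp only [up, dg, mul_fin_two]
    simp [h2]
  have hlo : ∀ x : A, lo (u * x * star u) = dg u * lo x * dg (star u) := by
    intro x
    simp only [lo, dg, mul_fin_two]
    simp [h2]
  have hw : ww P (u * Q * star u) (u * R * star u) = dg u * ww P Q R * dg (star u) := by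
    unfold ww
    rw [hcu, hcu, hup, hlo]
    calc dg u * up (P * R * P) * dg (star u) * (dg u * lo (P * Q * P) * dg (star u)) *
        (dg u * up (P * R * P) * dg (star u))
        = dg u * up (P * R * P) * (dg (star u) * dg u) * lo (P * Q * P) *
          (dg (star u) * dg u) * up (P * R * P) * dg (star u) := by noncomm_ring
      _ = _ := by rw [d2]; noncomm_ring
  have hs : dg (star u) * dg (1 - 2 * P) = dg (1 - 2 * P) * dg (star u) := by
    rw [← dg_mul, ← dg_mul, mul_sub, sub_mul, mul_one, one_mul, two_mul, mul_add, add_mul, hPs]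
  have hb : be P (u * Q * star u) (u * R * star u) = dg u * be P Q R * dg (star u) := by
    unfold be
    rw [hw]
    calc dg u * ww P Q R * dg (star u) * (dg u * ww P Q R * dg (star u)) * dg (1 - 2 * P)
        = dg u * ww P Q R * (dg (star u) * dg u) * ww P Q R * (dg (star u) * dg (1 - 2 * P)) := by
          noncomm_ring
      _ = _ := by rw [d2, hs]; noncomm_ring
  have ho : oi (dg u * be P Q R * dg (star u)) = dg u * oi (be P Q R) * dg (star u) := by
    unfold oi
    rw [star_mul, star_mul, star_dg, star_dg, star_star]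
    calc -(om * (dg u * (star (be P Q R) * dg (star u))) * om)
        = -((om * dg u) * star (be P Q R) * (dg (star u) * om)) := by noncomm_ring
      _ = _ := by rw [om_dg, ← om_dg (star u)]; noncomm_ring
  have hd : dg (star u) * dg P' * dg u = dg P' := by
    rw [mul_assoc, ← dg_mul, hP', dg_mul, ← mul_assoc, d2, one_mul]
  unfold Th
  rw [hb, ho]
  have e : dg u * be P Q R * dg (star u) * dg P' * (dg u * oi (be P Q R) * dg (star u)) =
      dg u * (be P Q R * dg P' * oi (be P Q R)) * dg (star u) := by
    calc dg u * be P Q R * dg (star u) * dg P' * (dg u * oi (be P Q R) * dg (star u))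
        = dg u * be P Q R * (dg (star u) * dg P' * dg u) * oi (be P Q R) * dg (star u) := by
          noncomm_ring
      _ = _ := by rw [hd]; noncomm_ring
  rw [e]
  have e2 : 2 * (dg u * (be P Q R * dg P' * oi (be P Q R)) * dg (star u)) - 1 =
      dg u * (2 * (be P Q R * dg P' * oi (be P Q R)) - 1) * dg (star u) := by
    calc 2 * (dg u * (be P Q R * dg P' * oi (be P Q R)) * dg (star u)) - 1
        = 2 * (dg u * (be P Q R * dg P' * oi (be P Q R)) * dg (star u)) - dg u * dg (star u) := by
          rw [d1]
      _ = _ := by noncomm_ring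
  rw [e2]
  calc io * (dg u * (2 * (be P Q R * dg P' * oi (be P Q R)) - 1) * dg (star u))
      = (io * dg u) * (2 * (be P Q R * dg P' * oi (be P Q R)) - 1) * dg (star u) := by
        noncomm_ring
    _ = _ := by rw [io_dg]; noncomm_ring

/-! ### products -/

/-- product formula: `X` is a form (inverse `X'`) commuting with everything -/
theorem Th_mul {P P' Q R X X' : A} (hF : Fm X X')
    (cP : P * X = X * P) (cP' : P' * X = X * P') (cQ : Q * X = X * Q) (cR : R * X = X * R) :
    Th P P' (X * Q) (X' * R) = !![X, 0; 0, 1] * Th P P' Q R * !![1, 0; 0, X'] := by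
  have inv_comm : ∀ y : A, y * X = X * y → y * X' = X' * y := by
    intro y hy
    calc y * X' = (X' * X) * y * X' := by rw [hF.RQ, one_mul]
      _ = X' * (X * y) * X' := by noncomm_ring
      _ = X' * y * (X * X') := by rw [← hy]; noncomm_ring
      _ = X' * y := by rw [hF.QR, mul_one]
  have cP2 := inv_comm P cP
  have cP2' := inv_comm P' cP'
  have cQ2 := inv_comm Q cQ
  have cR2 := inv_comm R cR
  -- D = diag(1, X), Di = diag(1, X')
  set D : M2 A := !![1, 0; 0, X] with hD
  set Di : M2 A := !![1, 0; 0, X'] with hDi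
  have DDi : D * Di = 1 := by simp [hD, hDi, mul_fin_two, hF.QR, one_two]
  have DiD : Di * D = 1 := by simp [hD, hDi, mul_fin_two, hF.RQ, one_two]
  have e1 : P * (X' * R) * P = (P * R * P) * X' := by
    calc P * (X' * R) * P = (P * X') * R * P := by noncomm_ring
      _ = X' * (P * R * P) := by rw [cP2]; noncomm_ring
      _ = _ := by
        rw [← (show (P * R * P) * X' = X' * (P * R * P) from
          (((show Commute X' P from cP2.symm).mul_right
            (show Commute X' R from cR2.symm)).mul_right
            (show Commute X' P from cP2.symm)).eq.symm)]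
  have e2 : P * (X * Q) * P = X * (P * Q * P) := by
    calc P * (X * Q) * P = (P * X) * Q * P := by noncomm_ring
      _ = X * (P * Q * P) := by rw [cP]; noncomm_ring
  have hw : ww P (X * Q) (X' * R) = D * ww P Q R * Di := by
    unfold ww
    rw [e1, e2]
    have u1 : up (P * R * P * X') = D * up (P * R * P) * Di := by
      simp [up, hD, hDi, mul_fin_two, hF.QR]
    have l1 : lo (X * (P * Q * P)) = D * lo (P * Q * P) * Di := by
      simp [lo, hD, hDi, mul_fin_two, hF.QR]
    rw [u1, l1]
    calc D * up (P * R * P) * Di * (D * lo (P * Q * P) * Di) * (D * up (P * R * P) * Di)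
        = D * up (P * R * P) * (Di * D) * lo (P * Q * P) * (Di * D) * up (P * R * P) * Di := by
          noncomm_ring
      _ = _ := by rw [DiD]; noncomm_ring
  have hcs : Di * dg (1 - 2 * P) = dg (1 - 2 * P) * Di := by
    simp only [hDi, dg, mul_fin_two]
    simp [mul_sub, sub_mul, two_mul, mul_add, add_mul, cP2]
  have hb : be P (X * Q) (X' * R) = D * be P Q R * Di := by
    unfold be
    rw [hw]
    calc D * ww P Q R * Di * (D * ww P Q R * Di) * dg (1 - 2 * P)
        = D * ww P Q R * (Di * D) * ww P Q R * (Di * dg (1 - 2 * P)) := by noncomm_ring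
      _ = _ := by rw [DiD, hcs]; noncomm_ring
  -- om D = diag(X,1) om
  set C : M2 A := !![X, 0; 0, 1] with hC
  set Ci : M2 A := !![X', 0; 0, 1] with hCi
  have omD : om * D = C * om := by simp [om, hD, hC, mul_fin_two]
  have omDs : Di * om = om * Ci := by simp [om, hDi, hCi, mul_fin_two]
  have sD : star D = D := by simp [hD, star_two, hF.sQ]
  have sDi : star Di = Di := by simp [hDi, star_two, hF.sR]
  have omDi : om * Di = Ci * om := by simp [om, hDi, hCi, mul_fin_two]
  have Dom : D * om = om * C := by simp [om, hD, hC, mul_fin_two]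
  have CiC : Ci * C = 1 := by simp [hC, hCi, mul_fin_two, hF.RQ, one_two]
  have CCi : C * Ci = 1 := by simp [hC, hCi, mul_fin_two, hF.QR, one_two]
  -- oi (D x Di) = D (oi x) Di  requires D commuting pattern; compute directly
  have hX2 : ∀ x : M2 A, oi (D * x * Di) = Ci * oi x * C := by
    intro x
    unfold oi
    rw [star_mul, star_mul, sD, sDi]
    calc -(om * (Di * (star x * D)) * om) = -((om * Di) * star x * (D * om)) := by noncomm_ring
      _ = _ := by rw [omDi, Dom]; noncomm_ring
  have hbX : be P Q R * dg X = dg X * be P Q R := by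
    have c1 : Commute X (P * R * P) :=
      ((show Commute X P from cP.symm).mul_right (show Commute X R from cR.symm)).mul_right
        (show Commute X P from cP.symm)
    have c2 : Commute X (P * Q * P) :=
      ((show Commute X P from cP.symm).mul_right (show Commute X Q from cQ.symm)).mul_right
        (show Commute X P from cP.symm)
    have k1 : Commute (dg X) (up (P * R * P)) := by
      show dg X * up (P * R * P) = up (P * R * P) * dg X
      simp only [dg, up, mul_fin_two]
      rw [show X * (-(P * R * P)) = (-(P * R * P)) * X from (c1.neg_right).eq]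
      simp
    have k2 : Commute (dg X) (lo (P * Q * P)) := by
      show dg X * lo (P * Q * P) = lo (P * Q * P) * dg X
      simp only [dg, lo, mul_fin_two]
      rw [show X * (P * Q * P) = (P * Q * P) * X from c2.eq]
      simp
    have k3 : Commute (dg X) (dg (1 - 2 * P)) := by
      show dg X * dg (1 - 2 * P) = dg (1 - 2 * P) * dg X
      rw [← dg_mul, ← dg_mul, mul_sub, sub_mul, two_mul, mul_add, add_mul, cP, one_mul, mul_one]
    have kw : Commute (dg X) (ww P Q R) := (k1.mul_right k2).mul_right k1
    exact ((kw.mul_right kw).mul_right k3).eq.symm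
  have hoX : oi (be P Q R) * dg X = dg X * oi (be P Q R) := by
    unfold oi
    have : star (be P Q R) * dg X = dg X * star (be P Q R) := by
      have := congrArg star hbX
      rw [star_mul, star_mul, star_dg, hF.sQ] at this
      exact this.symm
    calc -(om * star (be P Q R) * om) * dg X = -(om * star (be P Q R) * (om * dg X)) := by
          noncomm_ring
      _ = -(om * (star (be P Q R) * dg X) * om) := by rw [om_dg]; noncomm_ring
      _ = -((om * dg X) * star (be P Q R) * om) := by rw [this]; noncomm_ring
      _ = _ := by rw [om_dg]; noncomm_ring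
  -- D * C = dg X, Ci = Di * dg X' ... : Ci * y * C = D * y * Di when y commutes with dg X
  have DC : D * C = dg X := by simp [hD, hC, dg, mul_fin_two]
  have key : Ci * oi (be P Q R) * C = D * oi (be P Q R) * Di := by
    have hCiD : Ci = D * dg X' := by
      simp [hD, hCi, dg, mul_fin_two, hF.QR]
    have hCDi : C = dg X * Di := by
      simp [hDi, hC, dg, mul_fin_two, hF.QR]
    have hXX : dg X' * dg X = (1 : M2 A) := by rw [← dg_mul, hF.RQ, dg_one]
    rw [hCiD]
    rw [hCDi]
    calc D * dg X' * oi (be P Q R) * (dg X * Di)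
        = D * dg X' * (oi (be P Q R) * dg X) * Di := by noncomm_ring
      _ = D * (dg X' * dg X) * oi (be P Q R) * Di := by rw [hoX]; noncomm_ring
      _ = _ := by rw [hXX, mul_one]
  unfold Th
  rw [hb, hX2, key]
  have hd : Di * dg P' * D = dg P' := by
    simp only [hDi, hD, dg, mul_fin_two]
    ext i j
    fin_cases i <;> fin_cases j
    · simp
    · simp
    · simp
    · simp [mul_assoc, cP', ← mul_assoc X' X P', hF.RQ]
  have e : D * be P Q R * Di * dg P' * (D * oi (be P Q R) * Di) =
      D * (be P Q R * dg P' * oi (be P Q R)) * Di := by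
    calc D * be P Q R * Di * dg P' * (D * oi (be P Q R) * Di)
        = D * be P Q R * (Di * dg P' * D) * oi (be P Q R) * Di := by noncomm_ring
      _ = _ := by rw [hd]; noncomm_ring
  rw [e]
  have e3 : 2 * (D * (be P Q R * dg P' * oi (be P Q R)) * Di) - 1 =
      D * (2 * (be P Q R * dg P' * oi (be P Q R)) - 1) * Di := by
    calc 2 * (D * (be P Q R * dg P' * oi (be P Q R)) * Di) - 1
        = 2 * (D * (be P Q R * dg P' * oi (be P Q R)) * Di) - D * Di := by rw [DDi]
      _ = _ := by noncomm_ring
  rw [e3]
  have ioD : io * D = C * io := by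
    unfold io
    rw [smul_mul_assoc, omD, mul_smul_comm]
  calc io * (D * (2 * (be P Q R * dg P' * oi (be P Q R)) - 1) * Di)
      = (io * D) * (2 * (be P Q R * dg P' * oi (be P Q R)) - 1) * Di := by noncomm_ring
    _ = _ := by rw [ioD]; noncomm_ring

end Crest.Agent.R217.Theta880
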