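import Mathlib
import Crest.Agent.R217.CoVal_559
import Crest.Agent.R217.FineX_970
import Crest.Agent.R217.Res_52
import Crest.Agent.R217.NormI_551
import Crest.Agent.R217.KDatEx_373

/-!
Row 217 (S0336), part C: the contradiction.
-/

set_option autoImplicit false
set_option linter.unusedSectionVars false
set_option linter.unusedVariables false

open Filter Topology Metric Set

namespace Crest.Agent.R217.TopC559

open Crest.Agent.R217.CruxN559 Crest.Agent.R217.Coarse889 Crest.Agent.R217.CtrlS970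
open Crest.Agent.R217.FinePkg970 Crest.Agent.R217.Flow373 Crest.Agent.R217.Glob559
open Crest.Agent.R217.Grid897 Crest.Agent.R217.Asym476 Crest.Agent.R217.Ctl559
open Crest.Agent.R217.AsyCell970 Crest.Agent.R217.PC473 Crest.Agent.R217.FineSeq970
open Crest.Agent.R217.CoSeq559 Crest.Agent.R217.Obj52 Crest.Agent.R217.CoVal559
open Crest.Agent.R217.Sig52 Crest.Agent.R217.Ind52 Crest.Agent.R217.Nat52
open Crest.Agent.R217.Box970 Crest.Agent.R217.FineX970 Crest.Agent.R217.Res52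

universe u

/-! ### restriction of the regular pairs -/

section res

variable {n : ℕ} {A : Type} {N : A → ℕ} [∀ a, NeZero (N a)] {C C' : Ctl (AsyCell970.BV n N)}

theorem gridA_res (h : C.Le C') (hg : GridCont C) (hg' : GridCont C') :
    (gridA hg).p.map (chg ℂ h) = (gridA hg').p ∧ (gridA hg).g.map (chg ℂ h) = (gridA hg').g ∧
    (gridA hg).d.map (chg ℂ h) = (gridA hg').d ∧ (gridA hg).S.map (chg ℂ h) = (gridA hg').S ∧
    (gridA hg).T.map (chg ℂ h) = (gridA hg').T :=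
  ⟨toA_chg h (gridL hg).p, toA_chg h (gridL hg).g, toA_chg h (gridL hg).d,
    toA_chg h (gridL hg).S, toA_chg h (gridL hg).T⟩

theorem rp_res (h : C.Le C') (hg : GridCont C) (hg' : GridCont C') (M : LocC C)
    (h0 : Matrix (JJ n) (JJ n) (Asy C ℂ)) :
    (rpOf hg (toA C M) h0).map (mapH (JJ n) (chgN h)) =
      RPr.mk (gridA hg').p (gridA hg').g (gridA hg').d
        (toA C' ⟨M.1, isLocC_res h (mem_LocC.1 M.2)⟩ * (gridA hg').S *
          star (toA C' ⟨M.1, isLocC_res h (mem_LocC.1 M.2)⟩))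
        (star (toA C' ⟨M.1, isLocC_res h (mem_LocC.1 M.2)⟩) * (gridA hg').T *
          toA C' ⟨M.1, isLocC_res h (mem_LocC.1 M.2)⟩)
        ((Homog970.prj (degZ n) (n + 1) h0).map (chg ℂ h)) := by
  obtain ⟨e1, e2, e3, e4, e5⟩ := gridA_res h hg hg'
  have e6 := toA_chg h M
  have m1 : ∀ X : Matrix (JJ n) (JJ n) (Asy C ℂ), mapH (JJ n) (chgN h) X = X.map (chg ℂ h) :=
    fun X => rfl
  have m2 := map_mul (mapH (JJ n) (chgN h))
  have m3 := map_star (mapH (JJ n) (chgN h))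
  unfold rpOf RPr.map
  simp only [m2, m3, m1, e1, e2, e3, e4, e5, e6]

end res

variable {n : ℕ} (D : ∀ k, KDat.{u} n (cs k))

/-! ### the central box -/

/-- lower corner of the central box -/
noncomputable def loC (n : ℕ) : Fin n → ℝ := fun _ => -(1 / 4)

/-- upper corner of the central box -/
noncomputable def hiC (n : ℕ) : Fin n → ℝ := fun _ => 1 / 4

theorem ltC (n : ℕ) : ∀ i, loC n i < hiC n i := fun i => by
  unfold loC hiC
  norm_num

theorem boxC_sub (n : ℕ) : Icc (loC n) (hiC n) ⊆ closedBall (0 : Fin n → ℝ) 1 := by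
  intro v hv
  rw [mem_closedBall_zero_iff, pi_norm_le_iff_of_nonneg zero_le_one]
  intro i
  have h1 : -(1 / 4) ≤ v i := hv.1 i
  have h2 : v i ≤ 1 / 4 := hv.2 i
  rw [Real.norm_eq_abs, abs_le]
  constructor <;> linarith

/-- cut parameters in the central box -/
noncomputable def lC (n : ℕ) : List (Par (Fin n)) := stdPar (loC n) (hiC n)

theorem lC_k (n : ℕ) : (lC n).map Par.k = List.finRange n := stdPar_k _ _

theorem lC_len (n : ℕ) : (lC n).length = n := by
  have := congrArg List.length (lC_k n)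
  rwa [List.length_map, List.length_finRange] at this

theorem lC_cov (n : ℕ) : Cov (∅ : Set (Fin n)) (lC n) := cov_of_k (lC_k n)

theorem lC_ok {R : Type*} [Ring R] [StarRing R] (F : Frame (Fin n) R) (h1 : F.lo = loC n)
    (h2 : F.hi = hiC n) : ∀ a ∈ lC n, a.Ok F := by
  intro a ha
  have h := stdPar_ok (ltC n) a ha
  exact ⟨h.1, by rw [h1]; exact h.2.1, h.2.2.1, by rw [h2]; exact h.2.2.2⟩

/-! ### germs -/

/-- the fine frame over all columns -/
noncomputable abbrev frF : Frame (Fin n) (Asy (CF D lf) ℂ) :=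
  frame (CF D lf) ℂ (dirF D lf) (loC n) (hiC n) (ltC n)

/-- the coarse frame -/
noncomputable abbrev frC : Frame (Fin n) (Asy (CC D) ℂ) :=
  frame (CC D) ℂ (dirCf D) (loC n) (hiC n) (ltC n)

theorem exists_v (t : ℤ) : ∃ v : ℕ × ℕ → ℤ,
    sig (frF D) (sgLaws (CF D lf)) (lC n) (xF D (le_refl lf) t) = (v : Germ (CF D lf).l ℤ) :=
  Germ.inductionOn (sig (frF D) (sgLaws (CF D lf)) (lC n) (xF D (le_refl lf) t))
    fun v => ⟨v, rfl⟩

/-- the germ in column `k` -/
theorem v_lk (t : ℤ) {v : ℕ × ℕ → ℤ}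
    (hv : sig (frF D) (sgLaws (CF D lf)) (lC n) (xF D (le_refl lf) t) = (v : Germ (CF D lf).l ℤ)) (k : ℕ) :
    vK D k (xF D (lk_le_lf k) t) (lC n) = (v : Germ (lk k) ℤ) := by
  have hX : IsOb (frF D) (lC n).length ∅ (xF D (le_refl lf) t).deg (xF D (le_refl lf) t).x := by
    rw [lC_len]
    exact xF_isOb D (le_refl lf) t _
  have h1 := sig_res (le_CF D (lk_le_lf k)) (dir := dirF D lf) (dir' := dirF D (lk k))
    (fun k a s => rfl) (lt := ltC n) (cpt_lf D (boxC_sub n)) (cptTo_F D) (lC_ok (frF D) rfl rfl) hX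
    (lC_cov n) v hv
  refine (sig_frK D k (loC n) (hiC n) (ltC n) _ _).symm.trans (Eq.trans ?_ h1)
  have hb : Icc (loC n) (hiC n) ⊆ (D k).U := (boxC_sub n).trans (D k).ball_U
  have hr := rp_res (le_CF D (lk_le_lf k)) (gridCont D (le_refl lf)) (gridCont D (lk_le_lf k))
    ⟨eS D t, isLocC_eS D (le_refl lf) t⟩ (exists_hA D (le_refl lf) t).choose
  have hx : IsOb (frK D k (loC n) (hiC n) (ltC n)) (lC n).length ∅ (degZ n)
      (xR D (lk_le_lf k) t) := by
    rw [lC_len]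
    exact xR_isOb D (lk_le_lf k) t _
  have hy : IsOb (frK D k (loC n) (hiC n) (ltC n)) (lC n).length ∅ (degZ n)
      ((xR D (le_refl lf) t).map (mapH (JJ n) (chgN (le_CF D (lk_le_lf k))))) :=
    isOb_res (le_CF D (lk_le_lf k)) (dir := dirF D lf) (dir' := dirF D (lk k))
      (fun k a s => rfl) hX
  refine sig_h (sgP (ltC n) (cpt_k D k hb)) (lC_ok _ rfl rfl) hx hy (lC_cov n) ?_ ?_ ?_ ?_ ?_
  · have q := congrArg RPr.p hr
    exact q
  · have q := congrArg RPr.g hr
    exact q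
  · have q := congrArg RPr.d hr
    exact q
  · have q := congrArg RPr.f hr
    exact q
  · have q := congrArg RPr.q hr
    exact q

/-- the germ in the coarse frame -/
theorem v_lc (t : ℤ) {v : ℕ × ℕ → ℤ}
    (hv : sig (frF D) (sgLaws (CF D lf)) (lC n) (xF D (le_refl lf) t) = (v : Germ (CF D lf).l ℤ)) :
    ∃ h, IsOb (frC D) n ∅ (TwObj555.dg' n) (rC D t h) ∧
      sig (frC D) (sgLaws (CC D)) (lC n) (ob (TwObj555.dg' n) (rC D t h)) =
        (v : Germ (CC D).l ℤ) := by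
  have hX : IsOb (frF D) (lC n).length ∅ (xF D (le_refl lf) t).deg (xF D (le_refl lf) t).x := by
    rw [lC_len]
    exact xF_isOb D (le_refl lf) t _
  have h1 := sig_res (le_CC D) (dir := dirF D lf) (dir' := dirCf D)
    (fun k a s => rfl) (lt := ltC n) (cpt_lf D (boxC_sub n))
    (cptTo_C D (fun i => le_refl _) (fun i => le_refl _)) (lC_ok (frF D) rfl rfl) hX
    (lC_cov n) v hv
  have hr := rp_res (le_CC D) (gridCont D (le_refl lf)) (gridCont_C D)
    ⟨eS D t, isLocC_eS D (le_refl lf) t⟩ (exists_hA D (le_refl lf) t).choose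
  have hy : IsOb (frC D) (lC n).length ∅ (degZ n)
      ((xR D (le_refl lf) t).map (mapH (JJ n) (chgN (le_CC D)))) :=
    isOb_res (le_CC D) (dir := dirF D lf) (dir' := dirCf D) (fun k a s => rfl) hX
  refine ⟨(Homog970.prj (degZ n) (n + 1) (exists_hA D (le_refl lf) t).choose).map
    (chg ℂ (le_CC D)), ?_, ?_⟩
  · have h2 : (xR D (le_refl lf) t).map (mapH (JJ n) (chgN (le_CC D))) = _ := hr
    rw [h2, lC_len] at hy
    exact hy
  · refine Eq.trans ?_ h1
    exact congrArg (fun x => sig (frC D) (sgLaws (CC D)) (lC n) (ob (degZ n) x)) hr.symm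

theorem v_zero {v : ℕ × ℕ → ℤ}
    (hv : sig (frF D) (sgLaws (CF D lf)) (lC n) (xF D (le_refl lf) 0) = (v : Germ (CF D lf).l ℤ)) :
    ∀ᶠ a in lc, v a = 2 ^ n * 4 := by
  obtain ⟨h, h1, h2⟩ := v_lc D 0 hv
  have hC : Cpt (CC D) (dirCf D) (loC n) (hiC n) :=
    cpt_Cf D (fun i => le_refl _) (fun i => le_refl _)
  have h3 := val_zero D (sgP (ltC n) hC) (lC_ok (frC D) rfl rfl) (lC_cov n) (lC_len n) h1
  have h4 := Norm551.norm_grid (gridCtl_C D) (lt := ltC n) hC (close_xf D)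
    (fun i => by unfold loC; norm_num) (fun i => by unfold hiC; norm_num)
    (r := 0) (by norm_num) (Eventually.of_forall fun a => by
      show 2 * ‖Ctl559.xv D a (fun _ => 0)‖ ≤ 0
      have : Ctl559.xv D a (fun _ => 0) = 0 := by
        funext i
        show Ctl559.mu D a * (((0 : ZMod (Ctl559.NN D a)).valMinAbs : ℤ) : ℝ) = 0
        rw [ZMod.valMinAbs_zero, Int.cast_zero, mul_zero]
      rw [this, norm_zero, mul_zero]) (lC_ok (frC D) rfl rfl) (lC_k n)
  have h5 : (v : Germ lc ℤ) = ((fun _ => (2 ^ n * 4 : ℤ) : ℕ × ℕ → ℤ) : Germ lc ℤ) :=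
    h2.symm.trans (h3.trans h4)
  exact Germ.coe_eq.1 h5

theorem v_one {v : ℕ × ℕ → ℤ}
    (hv : sig (frF D) (sgLaws (CF D lf)) (lC n) (xF D (le_refl lf) 1) = (v : Germ (CF D lf).l ℤ)) :
    ∀ᶠ a in lc, v a = 0 := by
  obtain ⟨h, h1, h2⟩ := v_lc D 1 hv
  have hC : Cpt (CC D) (dirCf D) (loC n) (hiC n) :=
    cpt_Cf D (fun i => le_refl _) (fun i => le_refl _)
  have h3 := val_one D (sgP (ltC n) hC) (lC_ok (frC D) rfl rfl) (lC_cov n) (lC_len n) h1
  have h5 : (v : Germ lc ℤ) = ((fun _ => (0 : ℤ) : ℕ × ℕ → ℤ) : Germ lc ℤ) := h2.symm.trans h3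
  exact Germ.coe_eq.1 h5

/-! ### the box at `y1` -/

/-- a small box around `y1` -/
theorem exists_box1 (k : ℕ) : ∃ s t : Fin n → ℝ, (∀ i, s i < t i) ∧ Icc s t ⊆ (D k).U ∧
    Icc s t ⊆ closedBall (D k).X.y1 ((D k).gr / 2) := by
  obtain ⟨r, hr, hr'⟩ := Metric.isOpen_iff.1 (D k).U_open _ (D k).y1_U
  set ρ : ℝ := min (r / 2) ((D k).gr / 2) with hρ
  have hpos : 0 < ρ := lt_min (by positivity) (by have := (D k).gr_pos; positivity)
  have key : Icc (fun i => (D k).X.y1 i - ρ) (fun i => (D k).X.y1 i + ρ) ⊆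
      closedBall (D k).X.y1 ρ := by
    intro v hv
    rw [mem_closedBall, dist_pi_le_iff hpos.le]
    intro i
    have h1 : (D k).X.y1 i - ρ ≤ v i := hv.1 i
    have h2 : v i ≤ (D k).X.y1 i + ρ := hv.2 i
    rw [Real.dist_eq, abs_le]
    constructor <;> linarith
  refine ⟨fun i => (D k).X.y1 i - ρ, fun i => (D k).X.y1 i + ρ, fun i => by linarith, ?_, ?_⟩
  · refine key.trans ((closedBall_subset_ball ?_).trans hr')
    have := min_le_left (r / 2) ((D k).gr / 2)
    linarith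
  · exact key.trans (closedBall_subset_closedBall (min_le_right _ _))

/-- **Contradiction**, given the twist theorem at `y1`. -/
theorem false_of_twist
    (htw : ∀ k : ℕ, ∀ s t : Fin n → ℝ, (∀ i, s i < t i) → Icc s t ⊆ (D k).U →
      Icc s t ⊆ closedBall (D k).X.y1 ((D k).gr / 2) →
      vK D k (xF D (lk_le_lf k) 1) (stdPar s t) = vK D k (xF D (lk_le_lf k) 0) (stdPar s t)) :
    False := by
  obtain ⟨v0, h0⟩ := exists_v D 0
  obtain ⟨v1, h1⟩ := exists_v D 1
  have key : ∀ k, ∀ᶠ a in lk k, v1 a = v0 a := by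
    intro k
    obtain ⟨s, t, hst, hU, hy⟩ := exists_box1 D k
    have hbC : Icc (loC n) (hiC n) ⊆ (D k).U := (boxC_sub n).trans (D k).ball_U
    have hbox : ∀ τ : ℤ, vK D k (xF D (lk_le_lf k) τ) (lC n) =
        vK D k (xF D (lk_le_lf k) τ) (stdPar s t) := fun τ =>
      box_indep D k (fun lo hi lt => xF_isOb D (lk_le_lf k) τ _) (ltC n) hst hbC hU
        (lC_k n) (stdPar_k s t) (stdPar_ok (ltC n)) (stdPar_ok hst)
    have e1 : (v1 : Germ (lk k) ℤ) = (v0 : Germ (lk k) ℤ) := by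
      rw [← v_lk D 1 h1 k, ← v_lk D 0 h0 k, hbox 1, hbox 0]
      exact htw k s t hst hU hy
    exact Germ.coe_eq.1 e1
  have e2 : ∀ᶠ a in lc, v1 a = v0 a := lc_le_lf (eventually_lf_iff.2 key)
  obtain ⟨a, ha1, ha2, ha3⟩ := (e2.and ((v_zero D h0).and (v_one D h1))).exists
  rw [ha2, ha3] at ha1
  have : (0 : ℤ) < 2 ^ n * 4 := by positivity
  omega

end Crest.Agent.R217.TopC559
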