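import Mathlib
import Crest.Agent.R217.TopC_559
import Crest.Agent.R217.Col_555

/-!
Row 217 (S0336), part C: the end.
-/

set_option autoImplicit false

open Filter Topology Metric Set

namespace Crest.Agent.R217.TopC559

open Crest.Agent.R217.CruxN559 Crest.Agent.R217.Coarse889
open Crest.Agent.R217.Glob559 Crest.Agent.R217.Ctl559
open Crest.Agent.R217.Box970 Crest.Agent.R217.FineX970

universe u

/-- there is no sequence of local data -/
theorem false_of_kdat {n : ℕ} (D : ∀ k, KDat.{u} n (cs k)) : False :=
  false_of_twist D fun k s t hst hU _ =>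
    Col555.col_one_zero D k hst hU (stdPar_k s t) (stdPar_ok hst)

theorem cruxN_all {n : ℕ} (hn : 0 < n) : CruxN.{u} n :=
  KDatEx373.cruxN_of_no_kdat hn false_of_kdat

/-- **Crux.** -/
theorem crux_all {n : ℕ} (hn : 1 ≤ n) : SpecC478.Crux.{u} n :=
  crux_of_cruxN n (cruxN_all hn)

end Crest.Agent.R217.TopC559
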