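import Mathlib
import Crest.Agent.R217.B2c_478
import Crest.Agent.R217.PartA_531

/-!
Row 217 (S0336): the statement S0336 follows from the crux.
-/

set_option autoImplicit false

open scoped Manifold ContDiff

namespace Crest.Agent.R217.Top478

open Crest.Agent.R217.SpecC478

universe u v

/-- S0336 from the crux in all dimensions `n ≥ 1` (in the universe of the group). -/
theorem s0336_of_crux (hC : ∀ n : ℕ, 1 ≤ n → Crux.{u} n)
    (n : ℕ) (hn : 1 ≤ n)
    (M : Type v) [TopologicalSpace M] [T2Space M] [SecondCountableTopology M] [ConnectedSpace M]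
    [ChartedSpace (EuclideanSpace ℝ (Fin n)) M]
    (G : Type u) [Group G] [TopologicalSpace G] [IsTopologicalGroup G] [T2Space G]
    [SecondCountableTopology G] [LocallyCompactSpace G]
    [MulAction G M] [ContinuousSMul G M] [FaithfulSMul G M] :
    ∃ (d : ℕ) (c : ChartedSpace (EuclideanSpace ℝ (Fin d)) G),
      @LieGroup ℝ _ (EuclideanSpace ℝ (Fin d)) _ (EuclideanSpace ℝ (Fin d)) _ _
        𝓘(ℝ, EuclideanSpace ℝ (Fin d)) ∞ G _ _ c :=
  PartA531.exists_lieGroup_of_nscs G (B2478.nscs_of_crux (n := n) (hC n hn) M G)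

end Crest.Agent.R217.Top478
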