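import Crest.Agent.R217.LocF_555
import Crest.Agent.R217.Frame_52
import Crest.Agent.R217.Obj_52

/-!
Row 217 (S0336), part C1, helper555: the gauge algebra.

`twAlg 𝒢 hg q` is the star subalgebra of `ℤ → R` of `q`-periodic families `a` such that over each
chart `g ∈ 𝒢` one has `a (i+1) = u a(i) u*`.  Evaluation `ev i` is a star homomorphism; a family of
objects over `R` is one object over `twAlg`, hence all words in it are again in `twAlg`.
`twAlg_const`: twist locality in this language.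
-/

set_option autoImplicit false
set_option linter.unusedSectionVars false
set_option linter.unusedVariables false

namespace Crest.Agent.R217.LocF555

open Matrix Frame52

section twalg

variable {R : Type*} [Ring R] [StarRing R] [Algebra ℂ R] [StarModule ℂ R]

theorem HomF.star {g : Gauge R} (hg : IsGauge g) {a : ℤ → R} (ha : HomF g a) :
    HomF g (fun i => star (a i)) := by
  intro i k
  have := congrArg Star.star (HomF.right hg ha i k)
  rw [star_mul, star_mul, star_mul, star_mul, star_star, hg.sP] at this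
  rw [this]
  simp only [mul_assoc]

theorem homF_congr {g : Gauge R} {a b : ℤ → R} (h : ∀ i, a i = b i) (ha : HomF g a) :
    HomF g b := by
  have : a = b := funext h
  rwa [← this]

/-- the gauge algebra -/
def twAlg (𝒢 : Set (Gauge R)) (hg : ∀ g ∈ 𝒢, IsGauge g) (q : ℕ) : StarSubalgebra ℂ (ℤ → R) where
  carrier := {a | (∀ g ∈ 𝒢, HomF g a) ∧ ∀ i, a (i + q) = a i}
  mul_mem' := by
    rintro a b ⟨ha, ha'⟩ ⟨hb, hb'⟩
    refine ⟨fun g h => HomF.mul (hg g h) (ha g h) (hb g h), fun i => ?_⟩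
    simp only [Pi.mul_apply, ha', hb']
  add_mem' := by
    rintro a b ⟨ha, ha'⟩ ⟨hb, hb'⟩
    refine ⟨fun g h => (ha g h).add (hb g h), fun i => ?_⟩
    simp only [Pi.add_apply, ha', hb']
  algebraMap_mem' := by
    intro r
    refine ⟨fun g h => HomF.const (hg g h) ?_, fun i => rfl⟩
    exact (Algebra.commutes r g.u).symm
  star_mem' := by
    rintro a ⟨ha, ha'⟩
    refine ⟨fun g h => HomF.star (hg g h) (ha g h), fun i => ?_⟩
    simp only [Pi.star_apply, ha']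

variable {𝒢 : Set (Gauge R)} {hg : ∀ g ∈ 𝒢, IsGauge g} {q : ℕ}

/-- evaluation -/
def ev (i : ℤ) (a : twAlg 𝒢 hg q) : R := (a : ℤ → R) i

theorem ev_shom (i : ℤ) : SHom (ev (𝒢 := 𝒢) (hg := hg) (q := q) i) where
  add _ _ := rfl
  mul _ _ := rfl
  smul _ _ := rfl
  star _ := rfl

theorem ev_one (i : ℤ) : ev i (1 : twAlg 𝒢 hg q) = 1 := rfl

theorem ev_zero (i : ℤ) : ev i (0 : twAlg 𝒢 hg q) = 0 := rfl

theorem tw_ext {a b : twAlg 𝒢 hg q} (h : ∀ i, ev i a = ev i b) : a = b :=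
  Subtype.ext (funext h)

/-- constant families -/
def kst (c : R) (hc : ∀ g ∈ 𝒢, g.u * c = c * g.u) : twAlg 𝒢 hg q :=
  ⟨fun _ => c, fun g h => HomF.const (hg g h) (hc g h), fun _ => rfl⟩

theorem ev_kst (i : ℤ) (c : R) (hc : ∀ g ∈ 𝒢, g.u * c = c * g.u) :
    ev i (kst (hg := hg) (q := q) c hc) = c := rfl

theorem ev_per (i : ℤ) (a : twAlg 𝒢 hg q) : ev (i + q) a = ev i a := a.2.2 i

theorem ev_homF (a : twAlg 𝒢 hg q) {g : Gauge R} (h : g ∈ 𝒢) : HomF g (fun i => ev i a) :=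
  a.2.1 g h

/-- family to element -/
def mkTw (a : ℤ → R) (h1 : ∀ g ∈ 𝒢, HomF g a) (h2 : ∀ i, a (i + q) = a i) : twAlg 𝒢 hg q :=
  ⟨a, h1, h2⟩

theorem ev_mkTw (a : ℤ → R) (h1 : ∀ g ∈ 𝒢, HomF g a) (h2 : ∀ i, a (i + q) = a i) (i : ℤ) :
    ev i (mkTw (hg := hg) a h1 h2) = a i := rfl

/-- the frame of the gauge algebra -/
def twFrame {κ : Type*} (F : Frame κ R) (𝒢 : Set (Gauge R)) (hg : ∀ g ∈ 𝒢, IsGauge g) (q : ℕ)
    (hu : ∀ g ∈ 𝒢, g.u ∈ F.dg) : Frame κ (twAlg 𝒢 hg q) where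
  dg :=
    { carrier := {a | ∀ i, ev i a ∈ F.dg}
      mul_mem' := fun {a b} ha hb i => F.dg.mul_mem (ha i) (hb i)
      add_mem' := fun {a b} ha hb i => F.dg.add_mem (ha i) (hb i)
      algebraMap_mem' := fun r i => F.dg.algebraMap_mem r
      star_mem' := fun {a} ha i => F.dg.star_mem' (ha i) }
  dg_comm := fun a ha b hb => tw_ext (fun i => F.dg_comm _ (ha i) _ (hb i))
  pu := fun k c => kst (F.pu k c) (fun g h => F.dg_comm _ (hu g h) _ (F.pu_dg k c))
  pu_dg := fun k c i => F.pu_dg k c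
  pu_star := fun k c => tw_ext (fun i => F.pu_star k c)
  pu_mul := fun k s t h => tw_ext (fun i => F.pu_mul k s t h)
  loc := fun k s t h a => tw_ext (fun i => F.loc k s t h (ev i a))
  lo := F.lo
  hi := F.hi
  lt := F.lt

/-- the frame of the gauge algebra, in the sense of `Obj52` -/
def twF {κ : Type*} (F : Obj52.Frame κ R) (𝒢 : Set (Gauge R)) (hg : ∀ g ∈ 𝒢, IsGauge g) (q : ℕ)
    (hu : ∀ g ∈ 𝒢, ∀ k c, g.u * F.pu k c = F.pu k c * g.u) : Obj52.Frame κ (twAlg 𝒢 hg q) where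
  pu := fun k c => kst (F.pu k c) (fun g h => hu g h k c)
  pu_star := fun k c => tw_ext (fun i => F.pu_star k c)
  pu_mul := fun k s t h => tw_ext (fun i => F.pu_mul k s t h)
  pu_comm := fun k l s t => tw_ext (fun i => F.pu_comm k l s t)
  loc := fun k s t h a => tw_ext (fun i => F.loc k s t h (ev i a))
  lo := F.lo
  hi := F.hi
  lt := F.lt

theorem ev_twF {κ : Type*} (F : Obj52.Frame κ R) (𝒢 : Set (Gauge R)) (hg : ∀ g ∈ 𝒢, IsGauge g)
    (q : ℕ) (hu : ∀ g ∈ 𝒢, ∀ k c, g.u * F.pu k c = F.pu k c * g.u) (k : κ) (c : ℝ) (i : ℤ) :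
    ev i ((twF F 𝒢 hg q hu).pu k c) = F.pu k c := rfl

theorem ev_pu {κ : Type*} (F : Frame κ R) (𝒢 : Set (Gauge R)) (hg : ∀ g ∈ 𝒢, IsGauge g) (q : ℕ)
    (hu : ∀ g ∈ 𝒢, g.u ∈ F.dg) (k : κ) (c : ℝ) (i : ℤ) :
    ev i ((twFrame F 𝒢 hg q hu).pu k c) = F.pu k c := rfl

end twalg

section twconst

variable {R : Type*} [Ring R] [StarRing R] [Algebra ℂ R] [StarModule ℂ R]
  {G : Type*} [AddCommGroup G] {𝒢 : Set (Gauge R)}
  {ι : Type} [Fintype ι] [DecidableEq ι]

/-- **Twist locality** in terms of the gauge algebra. -/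
theorem twAlg_const (L : SgLaws R G) (hA : Amb 𝒢) (gs : List (Gauge R)) (hgs : ∀ g ∈ gs, g ∈ 𝒢)
    {q : ℕ} (hq : q ≠ 0) (e0 : Matrix ι ι R) {e Q S : Matrix ι ι (twAlg 𝒢 hA.gg q)}
    (he : ∀ i, e.map (ev i) = e0) (ok : L.ok e0)
    (eu : ∀ g ∈ 𝒢, ∀ a b, g.u * e0 a b = e0 a b * g.u)
    (eP : ∀ g ∈ 𝒢, ∀ a b, g.P 0 * e0 a b = e0 a b * g.P 0)
    (ee : e * e = e) (es : star e = e) (eQ : e * Q = Q) (Qe : Q * e = Q) (eS : e * S = S)
    (Se : S * e = S) (QS : Q * S = e) (SQ : S * Q = e) (Qs : star Q = Q) (Ss : star S = S)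
    (hc : ∀ a b, e0 a b * (gs.map (fun g => 1 - g.P 0)).prod = 0) (i : ℤ) :
    L.sg (Q.map (ev (i + 1))) = L.sg (Q.map (ev i)) := by
  have hm : ∀ (i : ℤ) (A B : Matrix ι ι (twAlg 𝒢 hA.gg q)),
      (A * B).map (ev i) = A.map (ev i) * B.map (ev i) :=
    fun i => (ev_shom i).mapM.mul
  have hs : ∀ (i : ℤ) (A : Matrix ι ι (twAlg 𝒢 hA.gg q)),
      (star A).map (ev i) = star (A.map (ev i)) :=
    fun i => (ev_shom i).mapM.star
  have hG : Good L 𝒢 e0 (fun i => Q.map (ev i)) (fun i => S.map (ev i)) :=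
    { ok := ok
      ee := by rw [← he 0, ← hm, ee]
      es := by rw [← Matrix.star_eq_conjTranspose, ← he 0, ← hs, es]
      eu := eu
      eP := eP
      eQ := fun i => by rw [← he i, ← hm, eQ]
      Qe := fun i => by rw [← he i, ← hm, Qe]
      eS := fun i => by rw [← he i, ← hm, eS]
      Se := fun i => by rw [← he i, ← hm, Se]
      QS := fun i => by rw [← he i, ← hm, QS]
      SQ := fun i => by rw [← he i, ← hm, SQ]
      Qs := fun i => by rw [← Matrix.star_eq_conjTranspose, ← hs, Qs]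
      Ss := fun i => by rw [← Matrix.star_eq_conjTranspose, ← hs, Ss]
      homQ := fun g hg a b => ev_homF (Q a b) hg
      homS := fun g hg a b => ev_homF (S a b) hg }
  refine twist_const hA gs hgs hG hc q hq ?_ i
  intro i
  ext a b
  exact ev_per i (Q a b)

end twconst

end Crest.Agent.R217.LocF555
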